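import Crest.Agent.R201.An7_293
import Crest.Agent.R201.Tw2_807
import Crest.Agent.R201.An9_293
import Crest.Agent.R201.Tw4_807

-- ▼ part R201/An8_293
section

/-!
# R201 AN-8: assembly of `KD` and `Base` (helper293)
-/

set_option autoImplicit false
open MeasureTheory Matrix Filter Topology
open scoped ContDiff RealInnerProductSpace NNReal ENNReal

namespace Crest.Agent.R201.An

open Crest.Agent.R201 Crest.Agent.R144.Fi865

variable {n : ℕ} {w ρ F G : E n → ℝ} {s s₀ c R : ℝ}

/-- variance, energy, `|T₁|²` of a scalar function -/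
noncomputable def vr (μ : Measure (E n)) (f : E n → ℝ) : ℝ := (∫ x, f x ^ 2 ∂μ) - (∫ x, f x ∂μ) ^ 2
noncomputable def dr (μ : Measure (E n)) (f : E n → ℝ) : ℝ := ∑ k, ∫ x, pd k f x ^ 2 ∂μ
noncomputable def tr (μ : Measure (E n)) (τ : Fin n → E n → ℝ) (f : E n → ℝ) : ℝ :=
  ∑ k, (∫ x, τ k x * f x ∂μ) ^ 2






/-- the hypotheses on `Y = X + √h G` -/
structure Hyp (c R σ s : ℝ) (w : E n → ℝ) : Prop where
  wt : Wt c R w
  c_pos : 0 < c
  s_pos : 0 < s
  s_le : 3 * s ≤ 1
  σ_pos : 0 < σ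
  cov : ∀ u, vX w u ≤ σ * (u ⬝ᵥ u)
  small : σ + 2 * (2 * s + s) ≤ 1 / 200
  poinc : ∀ f : E n → ℝ, CB f →
    vr (nm (Lp w (2 * s + s) fun _ => 1)) f ≤ dr (nm (Lp w (2 * s + s) fun _ => 1)) f
  sharp : ∀ δ : ℝ, 0 < δ → ∃ f : E n → ℝ, CB f ∧ 0 < vr (nm (Lp w (2 * s + s) fun _ => 1)) f ∧
    dr (nm (Lp w (2 * s + s) fun _ => 1)) f ≤
      (1 + δ) * vr (nm (Lp w (2 * s + s) fun _ => 1)) f

section

variable {σ : ℝ}

/-- law of `Y` -/
noncomputable abbrev muY (w : E n → ℝ) (s : ℝ) : Measure (E n) := nm (Lp w (2 * s + s) fun _ => 1)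

/-- normalised energies -/
def SS (w : E n → ℝ) (s : ℝ) : Set ℝ := {t | ∃ g : E n → ℝ, CB g ∧ ∫ x, g x ^ 2 ∂(muY w s) = 1 ∧
  ∫ x, g x ∂(muY w s) = 0 ∧ t = dr (muY w s) g + 2 * tr (muY w s) (om w) g}














end

end Crest.Agent.R201.An
end

-- ▼ part R201/An10_293
section

/-!
# R201 AN-10: essential self-adjointness, part 2: the Caccioppoli inequality (helper293)
-/

set_option autoImplicit false
open MeasureTheory Filter Topology Metric
open scoped ContDiff Convolution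

namespace Crest.Agent.R201.An

open Crest.Agent.R201 Crest.Agent.R201.Tw807

variable {n : ℕ} {η θ ρ W χ : E n → ℝ} {ε L : ℝ} {g : Fin n → E n → ℝ}

/-- a smooth positive density with Lipschitz logarithmic gradient -/
structure Pot (ρ : E n → ℝ) (g : Fin n → E n → ℝ) (L : ℝ) : Prop where
  smooth : ContDiff ℝ ∞ ρ
  pos : ∀ x, 0 < ρ x
  gsmooth : ∀ k, ContDiff ℝ ∞ (g k)
  pd_eq : ∀ k x, pd k ρ x = -(g k x * ρ x)
  lip : ∀ k x y, |g k x - g k y| ≤ L * ‖x - y‖
  L_nonneg : 0 ≤ L

/-- `W` is a (very weak) solution -/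
structure Sol (ρ : E n → ℝ) (g : Fin n → E n → ℝ) (W : E n → ℝ) : Prop where
  int : Integrable W
  intg : ∀ k, Integrable fun x => g k x * W x
  inth : Integrable fun x => W x ^ 2 / ρ x
  eq : ∀ φ : E n → ℝ, ContDiff ℝ ∞ φ → HasCompactSupport φ →
    ∫ x, W x * (φ x + ∑ k, (g k x * pd k φ x - pd k (pd k φ) x)) = 0

lemma cc_int {f : E n → ℝ} (hf : Continuous f) (hs : HasCompactSupport f) : Integrable f :=
  hf.integrable_of_hasCompactSupport hs

lemma mul_int (hW : Integrable W) {f : E n → ℝ} (hf : Continuous f) (hs : HasCompactSupport f) :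
    Integrable fun x => W x * f x := by
  obtain ⟨B, hB⟩ := bdd_of_cc hf hs
  exact hW.mul_bdd hf.aestronglyMeasurable (ae_of_all _ fun x => by
    rw [Real.norm_eq_abs]; exact hB x)

/-- (I) the mollified equation -/
theorem moll_eq (M : Mol η ε) (S : Sol ρ g W) {ψ : E n → ℝ} (hψ : ContDiff ℝ ∞ ψ)
    (hs : HasCompactSupport ψ) :
    (∫ x, ψ x * cv η W x) + ∑ k, ((∫ x, pd k ψ x * cv η (fun x => g k x * W x) x) +
      ∫ x, pd k ψ x * pd k (cv η W) x) = 0 := by
  have hφ := M.cv_smooth' hψ.continuous hs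
  have hφs := M.cv_cs hs
  have h0 := S.eq (cv η ψ) hφ hφs
  have p1 : ∀ k, pd k (cv η ψ) = cv η (pd k ψ) := fun k =>
    M.pd_cv (hψ.of_le (by norm_cast)) hs k
  have p2 : ∀ k, pd k (pd k (cv η ψ)) = cv η (pd k (pd k ψ)) := fun k => by
    rw [p1 k]
    exact M.pd_cv ((pd_smooth hψ k).of_le (by norm_cast)) (pd_cs hs k) k
  have i1 : Integrable fun x => W x * cv η ψ x := mul_int S.int hφ.continuous hφs
  have i2 : ∀ k, Integrable fun x => (g k x * W x) * pd k (cv η ψ) x := fun k =>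
    mul_int (S.intg k) (pd_smooth hφ k).continuous (pd_cs hφs k)
  have i3 : ∀ k, Integrable fun x => W x * pd k (pd k (cv η ψ)) x := fun k =>
    mul_int S.int (pd_smooth (pd_smooth hφ k) k).continuous (pd_cs (pd_cs hφs k) k)
  have i4 : ∀ k, Integrable fun x => (g k x * W x) * pd k (cv η ψ) x -
      W x * pd k (pd k (cv η ψ)) x := fun k => (i2 k).sub (i3 k)
  have e1 : (fun x => W x * (cv η ψ x + ∑ k, (g k x * pd k (cv η ψ) x -
      pd k (pd k (cv η ψ)) x))) = fun x => W x * cv η ψ x +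
      ∑ k, ((g k x * W x) * pd k (cv η ψ) x - W x * pd k (pd k (cv η ψ)) x) := by
    funext x
    rw [mul_add, Finset.mul_sum]
    congr 1
    exact Finset.sum_congr rfl fun k _ => by ring
  rw [e1, integral_add i1 (integrable_finsetSum _ fun k _ => i4 k),
    integral_finsetSum _ fun k _ => i4 k] at h0
  have c0 : ∫ x, W x * cv η ψ x = ∫ x, ψ x * cv η W x :=
    M.fub S.int (cc_int hψ.continuous hs)
  rw [c0] at h0
  rw [← h0]
  congr 1
  refine Finset.sum_congr rfl fun k _ => ?_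
  rw [integral_sub (i2 k) (i3 k), p2 k, p1 k,
    M.fub (S.intg k) (cc_int (pd_smooth hψ k).continuous (pd_cs hs k)),
    M.fub S.int (cc_int (pd_smooth (pd_smooth hψ k) k).continuous (pd_cs (pd_cs hs k) k)),
    sub_eq_add_neg]
  congr 1
  have hW1 : ContDiff ℝ 1 (cv η W) := (M.cv_smooth S.int).of_le (by norm_cast)
  have h5 := ibp_cs hW1 ((pd_smooth hψ k).of_le (by norm_cast)) (pd_cs hs k) k
  have e5 : ∫ x, pd k (pd k ψ) x * cv η W x = ∫ x, cv η W x * pd k (pd k ψ) x := by
    simp_rw [mul_comm]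
  rw [e5, h5, neg_neg]
  simp_rw [mul_comm]

/-- local bounds for the mollification at `x` -/
theorem loc_bound (M : Mol η ε) (P : Pot ρ g L) (S : Sol ρ g W) (x : E n)
    (hx : ∀ y, ‖x - y‖ < ε → ρ y ≤ 2 * ρ x) :
    cv η W x ^ 2 ≤ 2 * ρ x * cv η (fun y => W y ^ 2 / ρ y) x ∧
    ∀ k, (cv η (fun y => g k y * W y) x - g k x * cv η W x) ^ 2 ≤
      (L * ε) ^ 2 * (2 * ρ x * cv η (fun y => W y ^ 2 / ρ y) x) := by
  set h : E n → ℝ := fun y => W y ^ 2 / ρ y with hh
  have hρx := P.pos x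
  have ih : Integrable fun y => η (x - y) * h y := M.int_at S.inth x
  -- pointwise
  have pw : ∀ y, η (x - y) * W y ^ 2 ≤ 2 * ρ x * (η (x - y) * h y) := by
    intro y
    by_cases hy : ‖x - y‖ < ε
    · have h1 := hx y hy
      have h2 : W y ^ 2 = h y * ρ y := by
        simp only [hh]
        rw [div_mul_cancel₀ _ (P.pos y).ne']
      have h3 : 0 ≤ h y := div_nonneg (sq_nonneg _) (P.pos y).le
      rw [h2]
      calc η (x - y) * (h y * ρ y) ≤ η (x - y) * (h y * (2 * ρ x)) :=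
            mul_le_mul_of_nonneg_left (mul_le_mul_of_nonneg_left h1 h3) (M.nonneg _)
        _ = _ := by ring
    · rw [M.supp _ (not_lt.1 hy)]
      simp
  have mW : AEStronglyMeasurable W volume := S.int.aestronglyMeasurable
  have mη : AEStronglyMeasurable (fun y => η (x - y)) volume :=
    (M.cont.comp (continuous_const.sub continuous_id)).aestronglyMeasurable
  have iW2 : Integrable fun y => η (x - y) * W y ^ 2 := by
    refine (ih.const_mul (2 * ρ x)).mono' (mη.mul (mW.pow 2)) (ae_of_all _ fun y => ?_)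
    rw [Real.norm_of_nonneg (mul_nonneg (M.nonneg _) (sq_nonneg _))]
    exact pw y
  have b1 : ∫ y, η (x - y) * W y ^ 2 ≤ 2 * ρ x * cv η h x := by
    unfold cv
    rw [← integral_const_mul]
    exact integral_mono iW2 (ih.const_mul _) pw
  refine ⟨(M.jensen x (M.int_at S.int x) iW2).trans b1, fun k => ?_⟩
  -- the commutator
  have e1 : cv η (fun y => g k y * W y) x - g k x * cv η W x =
      ∫ y, η (x - y) * ((g k y - g k x) * W y) := by
    unfold cv
    rw [← integral_const_mul, ← integral_sub (M.int_at (S.intg k) x)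
      ((M.int_at S.int x).const_mul _)]
    exact integral_congr_ae (ae_of_all _ fun y => by simp only; ring)
  have i5 : Integrable fun y => η (x - y) * ((g k y - g k x) * W y) := by
    have := (M.int_at (S.intg k) x).sub ((M.int_at S.int x).const_mul (g k x))
    refine this.congr (ae_of_all _ fun y => ?_)
    simp only [Pi.sub_apply]
    ring
  have pw2 : ∀ y, η (x - y) * ((g k y - g k x) * W y) ^ 2 ≤
      (L * ε) ^ 2 * (η (x - y) * W y ^ 2) := by
    intro y
    by_cases hy : ‖x - y‖ < ε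
    · have h1 := P.lip k y x
      rw [norm_sub_rev] at h1
      have h2 : |g k y - g k x| ≤ L * ε := h1.trans (mul_le_mul_of_nonneg_left hy.le P.L_nonneg)
      have h3 : (g k y - g k x) ^ 2 ≤ (L * ε) ^ 2 := by
        rw [← sq_abs]; exact pow_le_pow_left₀ (abs_nonneg _) h2 2
      calc η (x - y) * ((g k y - g k x) * W y) ^ 2
          = (g k y - g k x) ^ 2 * (η (x - y) * W y ^ 2) := by ring
        _ ≤ _ := mul_le_mul_of_nonneg_right h3 (mul_nonneg (M.nonneg _) (sq_nonneg _))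
    · rw [M.supp _ (not_lt.1 hy)]
      simp
  have i6 : Integrable fun y => η (x - y) * ((g k y - g k x) * W y) ^ 2 := by
    refine (iW2.const_mul ((L * ε) ^ 2)).mono' ?_ (ae_of_all _ fun y => ?_)
    · exact mη.mul ((((P.gsmooth k).continuous.sub continuous_const).aestronglyMeasurable.mul
        mW).pow 2)
    · rw [Real.norm_of_nonneg (mul_nonneg (M.nonneg _) (sq_nonneg _))]
      exact pw2 y
  rw [e1]
  refine (M.jensen x i5 i6).trans ?_
  calc ∫ y, η (x - y) * ((g k y - g k x) * W y) ^ 2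
      ≤ ∫ y, (L * ε) ^ 2 * (η (x - y) * W y ^ 2) := integral_mono i6 (iW2.const_mul _) pw2
    _ = (L * ε) ^ 2 * ∫ y, η (x - y) * W y ^ 2 := integral_const_mul _ _
    _ ≤ _ := mul_le_mul_of_nonneg_left b1 (sq_nonneg _)

/-- the algebraic inequality -/
lemma alg_ineq {ρ U χ a b r : ℝ} (hρ : 0 < ρ) :
    -(3 * b ^ 2 * ((ρ * U) ^ 2 / ρ) + 3 / 2 * χ ^ 2 * (r ^ 2 / ρ)) ≤
      (χ ^ 2 * a + 2 * χ * b * U) * (r + ρ * a) := by
  have e1 : (ρ * U) ^ 2 / ρ = ρ * U ^ 2 := by field_simp
  set t := r / ρ with ht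
  have e2 : r = ρ * t := by rw [ht]; field_simp
  have e3 : r ^ 2 / ρ = ρ * t ^ 2 := by rw [e2]; field_simp
  rw [e1, e3, e2]
  have h : 0 ≤ ρ * ((χ * a + χ * t) ^ 2 / 2 + (χ * a + 2 * (b * U)) ^ 2 / 2 +
      (χ * t + b * U) ^ 2) := by positivity
  nlinarith [h]

/-- (III) Caccioppoli -/
theorem cacc (M : Mol η ε) (P : Pot ρ g L) (S : Sol ρ g W) (hχ : ContDiff ℝ ∞ χ)
    (hχs : HasCompactSupport χ) (hχ1 : ∀ x, χ x ^ 2 ≤ 1) {C : ℝ} (hC : ∀ k x, pd k χ x ^ 2 ≤ C)
    (hx : ∀ x ∈ tsupport χ, ∀ y, ‖x - y‖ < ε → ρ y ≤ 2 * ρ x) :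
    ∫ x, χ x ^ 2 * (cv η W x ^ 2 / ρ x) ≤
      (n * (6 * C + 3 * (L * ε) ^ 2)) * ∫ x, W x ^ 2 / ρ x := by
  set h : E n → ℝ := fun y => W y ^ 2 / ρ y with hh
  set V : E n → ℝ := cv η W with hV
  have hVs : ContDiff ℝ ∞ V := M.cv_smooth S.int
  set U : E n → ℝ := fun x => V x / ρ x with hU
  have hUs : ContDiff ℝ ∞ U := hVs.div P.smooth fun x => (P.pos x).ne'
  set ψ : E n → ℝ := fun x => χ x ^ 2 * U x with hψ
  have hψs : ContDiff ℝ ∞ ψ := (hχ.pow 2).mul hUs
  have hχ2 : HasCompactSupport fun x => χ x ^ 2 := by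
    have := hχs.mul_left (f := χ)
    have e : (fun x => χ x ^ 2) = χ * χ := by funext x; simp [sq]
    rw [e]; exact this
  have hψc : HasCompactSupport ψ := hχ2.mul_right (f' := U)
  have key := moll_eq M S hψs hψc
  have dU : Differentiable ℝ U := hUs.differentiable (by simp)
  have dχ : Differentiable ℝ χ := hχ.differentiable (by simp)
  have dρ : Differentiable ℝ ρ := P.smooth.differentiable (by simp)
  -- derivatives
  have p1 : ∀ k x, pd k ψ x = χ x ^ 2 * pd k U x + 2 * χ x * pd k χ x * U x := by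
    intro k x
    have e : ψ = fun x => χ x * (χ x * U x) := by funext x; simp only [hψ]; ring
    have d2 : DifferentiableAt ℝ (fun x => χ x * U x) x := (dχ x).mul (dU x)
    rw [e, pd_mul k (dχ x) d2, pd_mul k (dχ x) (dU x)]
    ring
  have p2 : ∀ k x, pd k V x = ρ x * pd k U x - g k x * V x := by
    intro k x
    have e : V = fun x => ρ x * U x := by
      funext x; simp only [hU]; rw [mul_div_cancel₀ _ (P.pos x).ne']
    have e' : V x = ρ x * U x := congrFun e x
    have h5 : pd k V x = pd k (fun x => ρ x * U x) x := by rw [← e]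
    rw [h5, pd_mul k (dρ x) (dU x), P.pd_eq, e']
    ring
  have hF : ∀ k, Continuous (cv η fun x => g k x * W x) := fun k =>
    (M.cv_smooth (S.intg k)).continuous
  -- one integral
  have j1 : Integrable fun x => ψ x * V x :=
    cc_int (hψs.continuous.mul hVs.continuous) (hψc.mul_right (f' := V))
  have j2 : ∀ k, Integrable fun x => pd k ψ x * cv η (fun x => g k x * W x) x := fun k =>
    cc_int ((pd_smooth hψs k).continuous.mul (hF k))
      ((pd_cs hψc k).mul_right (f' := cv η fun x => g k x * W x))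
  have j3 : ∀ k, Integrable fun x => pd k ψ x * pd k V x := fun k =>
    cc_int ((pd_smooth hψs k).continuous.mul (pd_smooth hVs k).continuous)
      ((pd_cs hψc k).mul_right (f' := pd k V))
  set I : E n → ℝ := fun x => ψ x * V x + ∑ k, (pd k ψ x * cv η (fun x => g k x * W x) x +
    pd k ψ x * pd k V x) with hI
  have j23 : ∀ k, Integrable fun x => (pd k ψ x * cv η (fun x => g k x * W x) x +
    pd k ψ x * pd k V x) := fun k => (j2 k).add (j3 k)
  have j4 : Integrable I := j1.add (integrable_finsetSum _ fun k _ => j23 k)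
  have hI0 : ∫ x, I x = 0 := by
    rw [← key, hI, integral_add j1 (integrable_finsetSum _ fun k _ => j23 k),
      integral_finsetSum _ fun k _ => j23 k]
    congr 1
    exact Finset.sum_congr rfl fun k _ => integral_add (j2 k) (j3 k)
  set c1 : ℝ := n * (6 * C + 3 * (L * ε) ^ 2) with hc1
  have hcvh : Integrable (cv η h) := M.cv_integrable S.inth
  have hcv0 : ∀ x, 0 ≤ cv η h x := fun x => integral_nonneg fun y =>
    mul_nonneg (M.nonneg _) (div_nonneg (sq_nonneg _) (P.pos y).le)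
  -- the pointwise inequality
  have pw : ∀ x, χ x ^ 2 * (V x ^ 2 / ρ x) ≤ I x + c1 * cv η h x := by
    intro x
    have hρx := P.pos x
    have hV' : V x = ρ x * U x := by
      simp only [hU]; rw [mul_div_cancel₀ _ (P.pos x).ne']
    have e0 : ψ x * V x = χ x ^ 2 * (V x ^ 2 / ρ x) := by
      simp only [hψ, hU]; ring
    have e1 : I x = χ x ^ 2 * (V x ^ 2 / ρ x) + ∑ k, (χ x ^ 2 * pd k U x +
        2 * χ x * pd k χ x * U x) * ((cv η (fun x => g k x * W x) x - g k x * V x) +
          ρ x * pd k U x) := by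
      simp only [hI]
      rw [e0]
      congr 1
      refine Finset.sum_congr rfl fun k _ => ?_
      rw [p1, p2]
      ring
    by_cases hxs : x ∈ tsupport χ
    · obtain ⟨l1, l2⟩ := loc_bound M P S x (hx x hxs)
      have hk : ∀ k, -((6 * C + 3 * (L * ε) ^ 2) * cv η h x) ≤
          (χ x ^ 2 * pd k U x + 2 * χ x * pd k χ x * U x) *
          ((cv η (fun x => g k x * W x) x - g k x * V x) + ρ x * pd k U x) := by
        intro k
        have a1 := alg_ineq (U := U x) (χ := χ x) (a := pd k U x) (b := pd k χ x)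
          (r := cv η (fun x => g k x * W x) x - g k x * V x) hρx
        refine le_trans (neg_le_neg ?_) a1
        have b1 : (ρ x * U x) ^ 2 / ρ x ≤ 2 * cv η h x := by
          rw [← hV', div_le_iff₀ hρx]
          linarith
        have b2 : (cv η (fun x => g k x * W x) x - g k x * V x) ^ 2 / ρ x ≤
            (L * ε) ^ 2 * (2 * cv η h x) := by
          rw [div_le_iff₀ hρx]
          have := l2 k
          linarith
        have b3 : 3 * pd k χ x ^ 2 * ((ρ x * U x) ^ 2 / ρ x) ≤ 3 * C * (2 * cv η h x) := by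
          have h3 : 3 * pd k χ x ^ 2 ≤ 3 * C := by linarith [hC k x]
          have h4 : 0 ≤ (ρ x * U x) ^ 2 / ρ x := div_nonneg (sq_nonneg _) hρx.le
          have h5 : 0 ≤ 3 * C := le_trans (by positivity) h3
          exact mul_le_mul h3 b1 h4 h5
        have b4 : 3 / 2 * χ x ^ 2 * ((cv η (fun x => g k x * W x) x - g k x * V x) ^ 2 / ρ x) ≤
            3 / 2 * 1 * ((L * ε) ^ 2 * (2 * cv η h x)) := by
          have h3 : 3 / 2 * χ x ^ 2 ≤ 3 / 2 * 1 := by linarith [hχ1 x]
          exact mul_le_mul h3 b2 (div_nonneg (sq_nonneg _) hρx.le) (by norm_num)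
        linarith
      have hsum : -(∑ _k : Fin n, (6 * C + 3 * (L * ε) ^ 2) * cv η h x) ≤
          ∑ k, (χ x ^ 2 * pd k U x + 2 * χ x * pd k χ x * U x) *
          ((cv η (fun x => g k x * W x) x - g k x * V x) + ρ x * pd k U x) := by
        rw [← Finset.sum_neg_distrib]
        exact Finset.sum_le_sum fun k _ => hk k
      have e2 : ∑ _k : Fin n, (6 * C + 3 * (L * ε) ^ 2) * cv η h x = c1 * cv η h x := by
        rw [Finset.sum_const, Finset.card_univ, Fintype.card_fin, nsmul_eq_mul, hc1]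
        ring
      rw [e2] at hsum
      rw [e1]
      linarith
    · have z1 : χ x = 0 := image_eq_zero_of_notMem_tsupport hxs
      have hc10 : 0 ≤ c1 := by
        have hn : (0 : ℝ) ≤ n := Nat.cast_nonneg n
        rcases Nat.eq_zero_or_pos n with h0 | h0
        · simp [hc1, h0]
        · have : 0 ≤ C := le_trans (sq_nonneg _) (hC ⟨0, h0⟩ x)
          positivity
      have z3 : I x = 0 := by
        rw [e1, z1]
        simp
      rw [z3, z1]
      have := mul_nonneg hc10 (hcv0 x)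
      simpa using this
  have j5 : Integrable fun x => χ x ^ 2 * (V x ^ 2 / ρ x) :=
    cc_int ((hχ.continuous.pow 2).mul ((hVs.continuous.pow 2).div P.smooth.continuous
      fun x => (P.pos x).ne')) (hχ2.mul_right (f' := fun x => V x ^ 2 / ρ x))
  calc ∫ x, χ x ^ 2 * (V x ^ 2 / ρ x) ≤ ∫ x, (I x + c1 * cv η h x) :=
        integral_mono j5 (j4.add (hcvh.const_mul _)) pw
    _ = (∫ x, I x) + c1 * ∫ x, cv η h x := by
        rw [integral_add j4 (hcvh.const_mul _), integral_const_mul]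
    _ = c1 * ∫ x, h x := by rw [hI0, zero_add, M.int_cv S.inth]

end Crest.Agent.R201.An
end

-- ▼ part R201/An11_293
section

/-!
# R201 AN-11: essential self-adjointness, part 3: very weak solutions vanish (helper293)
-/

set_option autoImplicit false
open MeasureTheory Filter Topology Metric
open scoped ContDiff Convolution ENNReal

namespace Crest.Agent.R201.An

open Crest.Agent.R201 Crest.Agent.R201.Tw807

variable {n : ℕ} {η θ ρ W χ : E n → ℝ} {ε L : ℝ} {g : Fin n → E n → ℝ}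

lemma compare (hρ : Continuous ρ) (hpos : ∀ x, 0 < ρ x) (R : ℝ) :
    ∃ ε : ℝ, 0 < ε ∧ ∀ x : E n, ‖x‖ ≤ R → ∀ y, ‖x - y‖ < ε → ρ y ≤ 2 * ρ x := by
  have hK : IsCompact (closedBall (0 : E n) (R + 1)) := isCompact_closedBall _ _
  rcases (closedBall (0 : E n) (R + 1)).eq_empty_or_nonempty with h0 | hne
  · refine ⟨1, one_pos, fun x hx => ?_⟩
    have : x ∈ closedBall (0 : E n) (R + 1) := by
      rw [mem_closedBall_zero_iff]; linarith
    rw [h0] at this
    exact absurd this (Set.notMem_empty _)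
  · obtain ⟨z, hz, hmin⟩ := hK.exists_isMinOn hne hρ.continuousOn
    have huc := hK.uniformContinuousOn_of_continuous hρ.continuousOn
    rw [Metric.uniformContinuousOn_iff] at huc
    obtain ⟨ε, hε, h⟩ := huc (ρ z) (hpos z)
    refine ⟨min ε 1, lt_min hε one_pos, fun x hx y hxy => ?_⟩
    have hx' : x ∈ closedBall (0 : E n) (R + 1) := by
      rw [mem_closedBall_zero_iff]; linarith
    have hy' : y ∈ closedBall (0 : E n) (R + 1) := by
      rw [mem_closedBall_zero_iff]
      have h1 : ‖y‖ ≤ ‖x‖ + ‖x - y‖ := by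
        have : y = x - (x - y) := by abel
        calc ‖y‖ = ‖x - (x - y)‖ := by rw [← this]
          _ ≤ _ := norm_sub_le _ _
      have h2 := hxy.trans_le (min_le_right _ _)
      linarith
    have h1 := h x hx' y hy' (by rw [dist_eq_norm]; exact hxy.trans_le (min_le_left _ _))
    rw [Real.dist_eq] at h1
    have h2 : ρ z ≤ ρ x := hmin hx'
    have h3 := neg_abs_le (ρ x - ρ y)
    linarith

/-- the basic cutoff -/
noncomputable def b0 (n : ℕ) : ContDiffBump (0 : E n) := ⟨1, 2, one_pos, one_lt_two⟩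

/-- cutoff at scale `m + 1` -/
noncomputable def ch (n : ℕ) (m : ℕ) (x : E n) : ℝ := b0 n ((1 / (m + 1 : ℝ)) • x)

lemma ch_smooth (m : ℕ) : ContDiff ℝ ∞ (ch n m) :=
  ((b0 n).contDiff (n := ⊤)).comp (contDiff_id.const_smul _)

lemma ch_nonneg (m : ℕ) (x : E n) : 0 ≤ ch n m x := (b0 n).nonneg

lemma ch_le_one (m : ℕ) (x : E n) : ch n m x ≤ 1 := (b0 n).le_one

lemma ch_zero (m : ℕ) {x : E n} (hx : 2 * (m + 1 : ℝ) ≤ ‖x‖) : ch n m x = 0 := by
  have h0 : (0 : ℝ) < m + 1 := by positivity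
  apply (b0 n).zero_of_le_dist
  rw [dist_zero_right, norm_smul, Real.norm_of_nonneg (by positivity)]
  change (2 : ℝ) ≤ _
  rw [one_div, inv_mul_eq_div, le_div_iff₀ h0]
  exact hx

lemma ch_one (m : ℕ) {x : E n} (hx : ‖x‖ ≤ (m + 1 : ℝ)) : ch n m x = 1 := by
  have h0 : (0 : ℝ) < m + 1 := by positivity
  apply (b0 n).one_of_mem_closedBall
  rw [mem_closedBall_zero_iff, norm_smul, Real.norm_of_nonneg (by positivity)]
  change _ ≤ (1 : ℝ)
  rw [one_div, inv_mul_eq_div, div_le_one h0]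
  exact hx

lemma ch_tsupport (m : ℕ) : tsupport (ch n m) ⊆ closedBall 0 (2 * (m + 1 : ℝ)) := by
  refine closure_minimal (fun x hx => ?_) isClosed_closedBall
  rw [mem_closedBall_zero_iff]
  by_contra h
  exact hx (ch_zero m (not_le.1 h).le)

lemma ch_cs (m : ℕ) : HasCompactSupport (ch n m) :=
  (isCompact_closedBall _ _).of_isClosed_subset (isClosed_tsupport _) (ch_tsupport m)

lemma ch_grad (n : ℕ) : ∃ B : ℝ, ∀ (m : ℕ) (k : Fin n) (x : E n),
    pd k (ch n m) x ^ 2 ≤ B / (m + 1 : ℝ) ^ 2 := by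
  have h1 : ∀ k : Fin n, ∃ B : ℝ, ∀ x, |pd k (fun x => b0 n x) x| ≤ B := fun k =>
    bdd_of_cc (pd_smooth ((b0 n).contDiff (n := ⊤)) k).continuous
      (pd_cs (b0 n).hasCompactSupport k)
  choose B hB using h1
  refine ⟨∑ k, B k ^ 2, fun m k x => ?_⟩
  have h0 : (0 : ℝ) < m + 1 := by positivity
  have e : pd k (ch n m) x = (1 / (m + 1 : ℝ)) * pd k (fun x => b0 n x) ((1 / (m + 1 : ℝ)) • x) := by
    unfold pd
    have hd : HasFDerivAt (fun x : E n => (1 / (m + 1 : ℝ)) • x)
        ((1 / (m + 1 : ℝ)) • ContinuousLinearMap.id ℝ (E n)) x :=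
      ((1 / (m + 1 : ℝ)) • ContinuousLinearMap.id ℝ (E n)).hasFDerivAt
    have hb : DifferentiableAt ℝ (fun x => b0 n x) ((1 / (m + 1 : ℝ)) • x) :=
      ((b0 n).contDiff (n := ⊤)).differentiable (by simp) _
    have h2 := hb.hasFDerivAt.comp x hd
    have e2 : ch n m = (fun x => b0 n x) ∘ fun x : E n => (1 / (m + 1 : ℝ)) • x := rfl
    rw [e2, h2.fderiv]
    simp
  rw [e, mul_pow, div_pow, one_pow, div_mul_eq_mul_div, one_mul]
  refine div_le_div_of_nonneg_right ?_ (by positivity)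
  have h3 : pd k (fun x => b0 n x) ((1 / (m + 1 : ℝ)) • x) ^ 2 ≤ B k ^ 2 := by
    rw [← sq_abs]; exact pow_le_pow_left₀ (abs_nonneg _) (hB k _) 2
  exact h3.trans (Finset.single_le_sum (f := fun k => B k ^ 2) (fun _ _ => sq_nonneg _)
    (Finset.mem_univ k))

theorem sol_zero (P : Pot ρ g L) (S : Sol ρ g W) : W =ᵐ[volume] 0 := by
  obtain ⟨B, hB⟩ := ch_grad n
  have hcomp : ∀ m : ℕ, ∃ ε : ℝ, 0 < ε ∧ ε ≤ 1 / (m + 1 : ℝ) ∧ ∀ x : E n,
      ‖x‖ ≤ 2 * (m + 1 : ℝ) → ∀ y, ‖x - y‖ < ε → ρ y ≤ 2 * ρ x := fun m => by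
    obtain ⟨ε, hε, h⟩ := compare P.smooth.continuous P.pos (2 * (m + 1 : ℝ))
    have h0 : (0 : ℝ) < 1 / (m + 1 : ℝ) := by positivity
    exact ⟨min ε (1 / (m + 1 : ℝ)), lt_min hε h0, min_le_right _ _,
      fun x hx y hy => h x hx y (hy.trans_le (min_le_left _ _))⟩
  choose ε hε0 hε1 hε using hcomp
  let φ : ℕ → ContDiffBump (0 : E n) := fun m =>
    ⟨ε m / 2, ε m, half_pos (hε0 m), half_lt_self (hε0 m)⟩
  have hM : ∀ m, Mol ((φ m).normed volume) (ε m) := fun m => mol_of_bump (φ m)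
  have hεt : Tendsto ε atTop (𝓝 0) :=
    squeeze_zero (fun m => (hε0 m).le) hε1 tendsto_one_div_add_atTop_nhds_zero_nat
  set H := ∫ x, W x ^ 2 / ρ x with hH
  set f : ℕ → E n → ℝ := fun m x => ch n m x ^ 2 * (cv ((φ m).normed volume) W x ^ 2 / ρ x) with hf
  have hfc : ∀ m, Continuous (f m) := fun m =>
    ((ch_smooth m).continuous.pow 2).mul ((((hM m).cv_smooth S.int).continuous.pow 2).div
      P.smooth.continuous fun x => (P.pos x).ne')
  have hf0 : ∀ m x, 0 ≤ f m x := fun m x => mul_nonneg (sq_nonneg _)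
    (div_nonneg (sq_nonneg _) (P.pos x).le)
  have hfs : ∀ m, HasCompactSupport (f m) := fun m => by
    have hc2 : HasCompactSupport fun x => ch n m x ^ 2 := by
      have := (ch_cs (n := n) m).mul_left (f := ch n m)
      have e : (fun x => ch n m x ^ 2) = ch n m * ch n m := by funext x; simp [sq]
      rw [e]; exact this
    exact hc2.mul_right (f' := fun x => cv ((φ m).normed volume) W x ^ 2 / ρ x)
  have key : ∀ m, ∫ x, f m x ≤
      (n * (6 * (B / (m + 1 : ℝ) ^ 2) + 3 * (L * ε m) ^ 2)) * H := fun m =>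
    cacc (hM m) P S (ch_smooth m) (ch_cs m)
      (fun x => pow_le_one₀ (ch_nonneg m x) (ch_le_one m x)) (fun k x => hB m k x)
      (fun x hx y hy => hε m x (by
        have := ch_tsupport m hx
        rwa [mem_closedBall_zero_iff] at this) y hy)
  -- a.e. convergence
  have hae : ∀ᵐ x, Tendsto (fun m => f m x) atTop (𝓝 (W x ^ 2 / ρ x)) := by
    have h1 := ContDiffBump.ae_convolution_tendsto_right_of_locallyIntegrable (μ := volume)
      (φ := φ) (l := atTop) (K := 2) hεt (Eventually.of_forall fun m => by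
        change ε m ≤ 2 * (ε m / 2)
        linarith) S.int.locallyIntegrable
    filter_upwards [h1] with x hx
    have h2 : Tendsto (fun m => cv ((φ m).normed volume) W x) atTop (𝓝 (W x)) := by
      refine hx.congr fun m => ?_
      rw [cv_eq]
    have h3 : Tendsto (fun m => ch n m x) atTop (𝓝 1) := by
      refine tendsto_const_nhds.congr' ?_
      obtain ⟨N, hN⟩ := exists_nat_ge ‖x‖
      filter_upwards [eventually_ge_atTop N] with m hm
      have : (N : ℝ) ≤ m := by exact_mod_cast hm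
      exact (ch_one m (by linarith)).symm
    have h4 := (h3.pow 2).mul ((h2.pow 2).div_const (ρ x))
    simpa using h4
  -- Fatou
  have h1 : ∫⁻ x, ENNReal.ofReal (W x ^ 2 / ρ x) ≤ 0 := by
    calc ∫⁻ x, ENNReal.ofReal (W x ^ 2 / ρ x)
        = ∫⁻ x, liminf (fun m => ENNReal.ofReal (f m x)) atTop := by
          refine lintegral_congr_ae ?_
          filter_upwards [hae] with x hx
          exact ((ENNReal.continuous_ofReal.tendsto _).comp hx).liminf_eq.symm
      _ ≤ liminf (fun m => ∫⁻ x, ENNReal.ofReal (f m x)) atTop :=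
          lintegral_liminf_le fun m => (hfc m).measurable.ennreal_ofReal
      _ ≤ liminf (fun m : ℕ => ENNReal.ofReal
            ((n * (6 * (B / (m + 1 : ℝ) ^ 2) + 3 * (L * ε m) ^ 2)) * H)) atTop := by
          refine liminf_le_liminf (Eventually.of_forall fun m => ?_)
          rw [← ofReal_integral_eq_lintegral_ofReal (cc_int (hfc m) (hfs m))
            (ae_of_all _ (hf0 m))]
          exact ENNReal.ofReal_le_ofReal (key m)
      _ = 0 := by
          have t1 : Tendsto (fun m : ℕ => B / (m + 1 : ℝ) ^ 2) atTop (𝓝 0) := by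
            have h2 : Tendsto (fun m : ℕ => (1 / ((m : ℝ) + 1)) ^ 2) atTop (𝓝 (0 ^ 2)) :=
              tendsto_one_div_add_atTop_nhds_zero_nat.pow 2
            have h3 := h2.const_mul B
            simp only [ne_eq, OfNat.ofNat_ne_zero, not_false_eq_true, zero_pow, mul_zero] at h3
            refine h3.congr fun m => ?_
            rw [div_pow, one_pow, mul_one_div]
          have t2 : Tendsto (fun m : ℕ => (L * ε m) ^ 2) atTop (𝓝 0) := by
            have := (hεt.const_mul L).pow 2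
            simpa using this
          have t3 : Tendsto (fun m : ℕ => (n * (6 * (B / (m + 1 : ℝ) ^ 2) + 3 * (L * ε m) ^ 2)) * H)
              atTop (𝓝 0) := by
            have := (((t1.const_mul 6).add (t2.const_mul 3)).const_mul (n : ℝ)).mul_const H
            simpa using this
          have t4 := (ENNReal.continuous_ofReal.tendsto _).comp t3
          rw [ENNReal.ofReal_zero] at t4
          exact t4.liminf_eq
  have h2 : ∫⁻ x, ENNReal.ofReal (W x ^ 2 / ρ x) = 0 := le_antisymm h1 bot_le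
  rw [lintegral_eq_zero_iff' S.inth.aestronglyMeasurable.aemeasurable.ennreal_ofReal] at h2
  filter_upwards [h2] with x hx
  have h3 : W x ^ 2 / ρ x ≤ 0 := ENNReal.ofReal_eq_zero.1 hx
  have h4 := P.pos x
  have h5 : W x ^ 2 ≤ 0 := by
    rw [div_le_iff₀ h4, zero_mul] at h3
    exact h3
  have h6 : W x = 0 := by nlinarith [sq_nonneg (W x)]
  exact h6

end Crest.Agent.R201.An
end

-- ▼ part R201/Tw5_807
section

/-!
# R201, KLS half (helper807): existence of the tower
-/

set_option autoImplicit false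
open MeasureTheory Matrix
open scoped ContDiff

namespace Crest.Agent.R201.Tw807

open Crest.Agent.R201

variable {n : ℕ} {K : KD n}



/-- a level of the tower -/
structure Lv (n j : ℕ) where
  Ψ : (Fin j → Fin n) → E n → ℝ
  cb : ∀ w, CB (Ψ w)

/-- the scale of the error of one function -/
noncomputable def dl (n j : ℕ) (δ : ℝ) : ℝ := δ / (Fintype.card (Fin j → Fin n) + 1)











/-! ### family versions of the step -/

section Level

variable (B : Base K) {δ : ℝ} (hδ : 0 < δ) {j : ℕ} (L : Lv n j)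














end Level


end Crest.Agent.R201.Tw807
end

-- ▼ part R201/An12_293

/-!
# R201 AN-12: density of `(1 + A) C_c^∞` in `L²(μ)` and the field `dens` of `Base` (helper293)
-/

set_option autoImplicit false
open MeasureTheory Filter Topology Metric
open scoped ContDiff ENNReal RealInnerProductSpace NNReal

namespace Crest.Agent.R201.An

open Crest.Agent.R201 Crest.Agent.R201.Tw807

variable {n : ℕ} {ρ w : E n → ℝ} {L c R s : ℝ} {g : Fin n → E n → ℝ}

/-- `φ + A φ` -/
noncomputable def TT (g : Fin n → E n → ℝ) (φ : E n → ℝ) (x : E n) : ℝ :=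
  φ x + ∑ k, (g k x * pd k φ x - pd k (pd k φ) x)

lemma TT_cont (P : Pot ρ g L) {φ : E n → ℝ} (hφ : ContDiff ℝ ∞ φ) : Continuous (TT g φ) := by
  unfold TT
  exact hφ.continuous.add (continuous_finsetSum _ fun k _ =>
    ((P.gsmooth k).continuous.mul (pd_smooth hφ k).continuous).sub
      (pd_smooth (pd_smooth hφ k) k).continuous)

lemma TT_zero (g : Fin n → E n → ℝ) {φ : E n → ℝ} {x : E n} (hx : x ∉ tsupport φ) :
    TT g φ x = 0 := by
  have h1 : ∀ k, pd k φ x = 0 := fun k => by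
    have : x ∉ tsupport (pd k φ) := fun h => hx (tsupport_fderiv_apply_subset ℝ (ev k) h)
    exact image_eq_zero_of_notMem_tsupport this
  have h2 : ∀ k, pd k (pd k φ) x = 0 := fun k => by
    have : x ∉ tsupport (pd k (pd k φ)) := fun h =>
      hx (tsupport_fderiv_apply_subset ℝ (ev k) (tsupport_fderiv_apply_subset ℝ (ev k) h))
    exact image_eq_zero_of_notMem_tsupport this
  unfold TT
  rw [image_eq_zero_of_notMem_tsupport hx]
  simp [h1, h2]

lemma TT_cs (g : Fin n → E n → ℝ) {φ : E n → ℝ} (hs : HasCompactSupport φ) :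
    HasCompactSupport (TT g φ) :=
  HasCompactSupport.intro hs fun _ hx => TT_zero g hx

lemma TT_add (g : Fin n → E n → ℝ) {φ ψ : E n → ℝ} (hφ : ContDiff ℝ ∞ φ) (hψ : ContDiff ℝ ∞ ψ)
    (x : E n) : TT g (fun x => φ x + ψ x) x = TT g φ x + TT g ψ x := by
  have d1 := hφ.differentiable (by simp)
  have d2 := hψ.differentiable (by simp)
  have e1 : ∀ k, pd k (fun x => φ x + ψ x) = fun x => pd k φ x + pd k ψ x := fun k =>
    funext fun x => pd_add k (d1 x) (d2 x)
  have e2 : ∀ k, pd k (pd k (fun x => φ x + ψ x)) x = pd k (pd k φ) x + pd k (pd k ψ) x :=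
    fun k => by
      rw [e1]
      exact pd_add k ((pd_smooth hφ k).differentiable (by simp) x)
        ((pd_smooth hψ k).differentiable (by simp) x)
  unfold TT
  rw [add_add_add_comm, ← Finset.sum_add_distrib]
  congr 1
  exact Finset.sum_congr rfl fun k _ => by
    rw [e2 k, congrFun (e1 k) x]
    ring

lemma TT_smul (g : Fin n → E n → ℝ) {φ : E n → ℝ} (a : ℝ) (hφ : ContDiff ℝ ∞ φ)
    (x : E n) : TT g (fun x => a * φ x) x = a * TT g φ x := by
  have d1 := hφ.differentiable (by simp)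
  have e1 : ∀ k, pd k (fun x => a * φ x) = fun x => a * pd k φ x := fun k =>
    funext fun x => pd_const_mul a k (d1 x)
  have e2 : ∀ k, pd k (pd k (fun x => a * φ x)) x = a * pd k (pd k φ) x :=
    fun k => by
      rw [e1]
      exact pd_const_mul a k ((pd_smooth hφ k).differentiable (by simp) x)
  unfold TT
  rw [mul_add, Finset.mul_sum]
  congr 1
  exact Finset.sum_congr rfl fun k _ => by
    rw [e2 k, congrFun (e1 k) x]
    ring

lemma TT_memLp (hρ : Ex ρ) (P : Pot ρ g L) {φ : E n → ℝ} (hφ : ContDiff ℝ ∞ φ)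
    (hs : HasCompactSupport φ) : MemLp (TT g φ) 2 (nm ρ) := by
  obtain ⟨B, hB⟩ := bdd_of_cc (TT_cont P hφ) (TT_cs g hs)
  exact memLp_nm hρ (EG.of_bdd (TT_cont P hφ).measurable hB)

/-- the range of `1 + A` -/
noncomputable def RS (_hρ : Ex ρ) (g : Fin n → E n → ℝ) : Submodule ℝ (MeasureTheory.Lp ℝ 2 (nm ρ)) where
  carrier := {f | ∃ φ : E n → ℝ, ContDiff ℝ ∞ φ ∧ HasCompactSupport φ ∧ f =ᵐ[nm ρ] TT g φ}
  add_mem' := by
    rintro f₁ f₂ ⟨φ, h1, h2, h3⟩ ⟨ψ, k1, k2, k3⟩
    refine ⟨fun x => φ x + ψ x, h1.add k1, h2.add k2, ?_⟩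
    filter_upwards [h3, k3, MeasureTheory.Lp.coeFn_add f₁ f₂] with x a b c
    rw [c, Pi.add_apply, a, b, TT_add g h1 k1]
  zero_mem' := by
    refine ⟨fun _ => 0, contDiff_const, HasCompactSupport.zero, ?_⟩
    filter_upwards [MeasureTheory.Lp.coeFn_zero ℝ 2 (nm ρ)] with x hx
    rw [hx]
    have e1 : ∀ k, pd k (fun _ : E n => (0 : ℝ)) = fun _ => 0 := fun k => funext fun x =>
      pd_const 0 k x
    unfold TT
    simp [e1]
  smul_mem' := by
    rintro a f ⟨φ, h1, h2, h3⟩
    refine ⟨fun x => a * φ x, contDiff_const.mul h1, h2.mul_left (f := fun _ => a), ?_⟩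
    filter_upwards [h3, MeasureTheory.Lp.coeFn_smul a f] with x b c
    rw [c, Pi.smul_apply, b, TT_smul g a h1, smul_eq_mul]

theorem RS_orth (hρ : Ex ρ) (P : Pot ρ g L) (hg : ∀ k, EG (g k)) : (RS hρ g)ᗮ = ⊥ := by
  have hpr : IsProbabilityMeasure (nm ρ) := nm_prob hρ
  rw [Submodule.eq_bot_iff]
  intro v hv
  rw [Submodule.mem_orthogonal] at hv
  have hv2 : MemLp v 2 (nm ρ) := MeasureTheory.Lp.memLp v
  have hZ := hρ.pos
  have S : Sol ρ g (fun x => v x * ρ x) := by
    refine ⟨?_, fun k => ?_, ?_, fun φ hφ hs => ?_⟩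
    · exact (integrable_nm_iff hρ).1 (hv2.integrable (by norm_num))
    · have i1 : Integrable (fun x => g k x * v x) (nm ρ) := (memLp_nm hρ (hg k)).integrable_mul hv2
      have := (integrable_nm_iff hρ).1 i1
      refine this.congr (ae_of_all _ fun x => ?_)
      simp only
      ring
    · have i1 : Integrable (fun x => v x ^ 2) (nm ρ) := hv2.integrable_sq
      have := (integrable_nm_iff hρ).1 i1
      refine this.congr (ae_of_all _ fun x => ?_)
      have := (P.pos x).ne'
      simp only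
      field_simp
    · have hT := TT_memLp hρ P hφ hs
      have h1 := hv (hT.toLp _) ⟨φ, hφ, hs, hT.coeFn_toLp⟩
      rw [MeasureTheory.L2.inner_def] at h1
      have h2 : ∫ x, v x * TT g φ x ∂(nm ρ) = 0 := by
        rw [← h1]
        refine integral_congr_ae ?_
        filter_upwards [hT.coeFn_toLp] with x hx
        rw [hx]
        simp
      rw [int_nm hρ] at h2
      unfold Em at h2
      rw [div_eq_zero_iff] at h2
      rcases h2 with h2 | h2
      · rw [← h2]
        refine integral_congr_ae (ae_of_all _ fun x => ?_)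
        simp only [TT]
        ring
      · exact absurd h2 hZ.ne'
  have h0 := sol_zero P S
  have h1 : ∀ᵐ x ∂(nm ρ), v x * ρ x = 0 := by
    have : nm ρ ≪ volume := withDensity_absolutelyContinuous _ _
    exact this.ae_le h0
  rw [MeasureTheory.Lp.eq_zero_iff_ae_eq_zero]
  filter_upwards [h1] with x hx
  rcases mul_eq_zero.1 hx with h | h
  · exact h
  · exact absurd h (P.pos x).ne'

theorem dens_gen (hρ : Ex ρ) (P : Pot ρ g L) (hg : ∀ k, EG (g k)) {F : E n → ℝ}
    (hF : MemLp F 2 (nm ρ)) {δ : ℝ} (hδ : 0 < δ) : ∃ φ : E n → ℝ,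
    ContDiff ℝ ∞ φ ∧ HasCompactSupport φ ∧ ∫ x, (TT g φ x - F x) ^ 2 ∂(nm ρ) ≤ δ := by
  have h1 : (RS hρ g).topologicalClosure = ⊤ :=
    (Submodule.topologicalClosure_eq_top_iff).2 (RS_orth hρ P hg)
  have h2 : hF.toLp F ∈ (RS hρ g).topologicalClosure := by rw [h1]; trivial
  have h3 : hF.toLp F ∈ closure ((RS hρ g : Set (MeasureTheory.Lp ℝ 2 (nm ρ)))) := h2
  rw [Metric.mem_closure_iff] at h3
  obtain ⟨v, ⟨φ, hφ, hs, hv⟩, hd⟩ := h3 (√δ) (Real.sqrt_pos.2 hδ)
  refine ⟨φ, hφ, hs, ?_⟩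
  rw [dist_comm, dist_eq_norm] at hd
  have h4 : ‖v - hF.toLp F‖ ^ 2 ≤ δ := by
    calc ‖v - hF.toLp F‖ ^ 2 ≤ (√δ) ^ 2 := pow_le_pow_left₀ (norm_nonneg _) hd.le 2
      _ = δ := Real.sq_sqrt hδ.le
  refine le_trans (le_of_eq ?_) h4
  rw [← real_inner_self_eq_norm_sq, MeasureTheory.L2.inner_def]
  refine integral_congr_ae ?_
  filter_upwards [hv, hF.coeFn_toLp, MeasureTheory.Lp.coeFn_sub v (hF.toLp F)] with x a b c
  rw [c, Pi.sub_apply, a, b]
  simp [sq]

/-! ### the instance -/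

lemma Vg_lip (hw : Wt c R w) (hs : 0 < s) : ∃ L : ℝ, 0 ≤ L ∧ ∀ k x y,
    |Vg w s k x - Vg w s k y| ≤ L * ‖x - y‖ := by
  have h1 : ∀ k l : Fin n, ∃ B : ℝ, ∀ x, |Vh w s x l k| ≤ B := fun k l => Vh_bdd hw hs l k
  choose B hB using h1
  set Lk : Fin n → ℝ := fun k => √(∑ l, B k l ^ 2) with hLk
  have hL0 : ∀ k, 0 ≤ Lk k := fun k => Real.sqrt_nonneg _
  refine ⟨∑ k, Lk k, Finset.sum_nonneg fun k _ => hL0 k, fun k x y => ?_⟩
  have hd : Differentiable ℝ (Vg w s k) := (Vg_contDiff hw.ex hs k).differentiable (by simp)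
  have h2 : ∀ x, ‖fderiv ℝ (Vg w s k) x‖ ≤ Lk k := by
    intro x
    apply Real.le_sqrt_of_sq_le
    rw [norm_fderiv_sq]
    refine Finset.sum_le_sum fun l _ => ?_
    rw [pd_Vg hw.ex hs, ← sq_abs]
    exact pow_le_pow_left₀ (abs_nonneg _) (hB k l x) 2
  have h3 : ‖Vg w s k x - Vg w s k y‖ ≤ Lk k * ‖x - y‖ :=
    Convex.norm_image_sub_le_of_norm_fderiv_le (𝕜 := ℝ) (fun x _ => hd x) (fun x _ => h2 x)
      convex_univ (Set.mem_univ y) (Set.mem_univ x)
  rw [Real.norm_eq_abs] at h3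
  refine h3.trans (mul_le_mul_of_nonneg_right ?_ (norm_nonneg _))
  exact Finset.single_le_sum (f := Lk) (fun k _ => hL0 k) (Finset.mem_univ k)

theorem pot_noisy (hw : Wt c R w) (hs : 0 < s) :
    ∃ L : ℝ, Pot (An.Lp w s fun _ => 1) (Vg w s) L := by
  obtain ⟨L, hL, h⟩ := Vg_lip hw hs
  exact ⟨L, contDiff_Lp_infty hw.ex hs (EG.const 1), fun x => Lp_one_pos hw.ex hs x,
    fun k => Vg_contDiff hw.ex hs k, fun k x => pd_noisy hw.ex hs k x, h, hL⟩

variable {σ : ℝ}


end Crest.Agent.R201.An
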