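import Crest.Agent.R201.Defs2_74
import Crest.Agent.R201.Tw4_807

/-!
# R201, KLS half (helper807): FD1 (positivity and Cauchy–Schwarz of `q`), FD2 (calculus of `CB`)
-/

set_option autoImplicit false
open MeasureTheory Matrix
open scoped ContDiff

namespace Crest.Agent.R201

variable {n : ℕ}

/-- FD2 calculus of `CB` -/
theorem CB.add {f g : E n → ℝ} (hf : CB f) (hg : CB g) : CB (fun x => f x + g x) :=
  Tw807.cb_add hf hg
theorem CB.mul {f g : E n → ℝ} (hf : CB f) (hg : CB g) : CB (fun x => f x * g x) :=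
  Tw807.cb_mul hf hg
theorem CB.sub {f g : E n → ℝ} (hf : CB f) (hg : CB g) : CB (fun x => f x - g x) :=
  Tw807.cb_sub hf hg
theorem CB.neg {f : E n → ℝ} (hf : CB f) : CB (fun x => - f x) := Tw807.cb_neg hf
theorem CB.const (c : ℝ) : CB (fun _ : E n => c) := Tw807.cb_const c
theorem CB.const_mul {f : E n → ℝ} (c : ℝ) (hf : CB f) : CB (fun x => c * f x) :=
  Tw807.cb_const_mul c hf
theorem CB.sum {ι : Type*} (s : Finset ι) {f : ι → E n → ℝ} (hf : ∀ i ∈ s, CB (f i)) :
    CB (fun x => ∑ i ∈ s, f i x) := Tw807.cb_sum s hf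

section

variable (K : KD n)









end

end Crest.Agent.R201
namespace Crest.Agent.R201.KD
end Crest.Agent.R201.KD
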