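import Crest.Agent.R201.An12_293
import Crest.Agent.R201.FD1_807

-- ▼ part R201/An14_293

/-!
# R201 AN-14: Poincaré constants: comparison with the noisy law, scaling (helper293)
-/

set_option autoImplicit false
open MeasureTheory Matrix Filter Topology Metric
open scoped ContDiff ENNReal NNReal

namespace Crest.Agent.R201.An

open Crest.Agent.R201 Crest.Agent.R144.Fi865

variable {n : ℕ} {w ρ F G : E n → ℝ} {c R s σ t K : ℝ}







/-! ### Gaussian averages -/

/-- Gaussian average -/
noncomputable def NN (t : ℝ) (F : E n → ℝ) (x : E n) : ℝ :=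
  (∫ y, F y * gk t (y - x)) / ∫ z : E n, gk t z

lemma int_NN (ht : 0 < t) (hF : EG F) (x : E n) : Integrable fun y => F y * gk t (y - x) := by
  obtain ⟨C, a, hC, ha, hB⟩ := hF.2
  have h1 := ((int_exp_gk (n := n) ht a).comp_sub_right x).const_mul (C * Real.exp (a * ‖x‖))
  refine h1.mono' ?_ (ae_of_all _ fun y => ?_)
  · exact hF.1.aestronglyMeasurable.mul
      ((gk_cont (n := n) t).comp (continuous_id.sub continuous_const)).aestronglyMeasurable
  · rw [Real.norm_eq_abs, abs_mul, abs_of_pos (gk_pos t _)]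
    have h2 : Real.exp (a * ‖y‖) ≤ Real.exp (a * ‖x‖) * Real.exp (a * ‖y - x‖) := by
      rw [← Real.exp_add, ← mul_add]
      refine Real.exp_le_exp.2 (mul_le_mul_of_nonneg_left ?_ ha)
      calc ‖y‖ = ‖x + (y - x)‖ := by rw [add_sub_cancel]
        _ ≤ _ := norm_add_le _ _
    calc |F y| * gk t (y - x) ≤ (C * (Real.exp (a * ‖x‖) * Real.exp (a * ‖y - x‖))) *
          gk t (y - x) := mul_le_mul_of_nonneg_right
            ((hB y).trans (mul_le_mul_of_nonneg_left h2 hC)) (gk_pos _ _).le
      _ = _ := by ring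

lemma NN_const (ht : 0 < t) (a : ℝ) (x : E n) : NN t (fun _ => a) x = a := by
  unfold NN
  rw [integral_const_mul, integral_sub_right_eq_self (fun v => gk t v) x]
  exact mul_div_cancel_right₀ _ (gk_int_pos ht).ne'

lemma NN_sub (ht : 0 < t) (hF : EG F) (hG : EG G) (x : E n) :
    NN t (fun y => F y - G y) x = NN t F x - NN t G x := by
  unfold NN
  rw [← sub_div, ← integral_sub (int_NN ht hF x) (int_NN ht hG x)]
  congr 1
  exact integral_congr_ae (ae_of_all _ fun y => by simp only; ring)

lemma NN_add (ht : 0 < t) (hF : EG F) (hG : EG G) (x : E n) :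
    NN t (fun y => F y + G y) x = NN t F x + NN t G x := by
  unfold NN
  rw [← add_div, ← integral_add (int_NN ht hF x) (int_NN ht hG x)]
  congr 1
  exact integral_congr_ae (ae_of_all _ fun y => by simp only; ring)

lemma NN_smul (a : ℝ) (F : E n → ℝ) (x : E n) : NN t (fun y => a * F y) x = a * NN t F x := by
  unfold NN
  rw [← mul_div_assoc, ← integral_const_mul]
  congr 1
  exact integral_congr_ae (ae_of_all _ fun y => by simp only; ring)

lemma NN_sum {ι : Type*} (S : Finset ι) {F : ι → E n → ℝ} (ht : 0 < t)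
    (h : ∀ i ∈ S, EG (F i)) (x : E n) :
    NN t (fun y => ∑ i ∈ S, F i y) x = ∑ i ∈ S, NN t (F i) x := by
  unfold NN
  rw [← Finset.sum_div, ← integral_finsetSum S fun i hi => int_NN ht (h i hi) x]
  congr 1
  exact integral_congr_ae (ae_of_all _ fun y => by simp only [Finset.sum_mul])

lemma NN_nonneg (ht : 0 < t) (h : ∀ y, 0 ≤ F y) (x : E n) : 0 ≤ NN t F x :=
  div_nonneg (integral_nonneg fun y => mul_nonneg (h y) (gk_pos _ _).le) (gk_int_pos ht).le

lemma NN_mono (ht : 0 < t) (hF : EG F) (hG : EG G) (h : ∀ x, F x ≤ G x) (x : E n) :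
    NN t F x ≤ NN t G x :=
  div_le_div_of_nonneg_right (integral_mono (int_NN ht hF x) (int_NN ht hG x)
    fun y => mul_le_mul_of_nonneg_right (h y) (gk_pos _ _).le) (gk_int_pos ht).le


/-- `E_ρ F = E_w (N F)` -/
lemma Em_NN (hw : Ex w) (ht : 0 < t) (hF : EG F) :
    Em (Lp w t fun _ => 1) F = Em w (NN t F) := by
  have h1 := hw.fubini ht hF (EG.const 1)
  have h2 := int_noisy hw ht
  have hg := gk_int_pos (n := n) ht
  have h3 := hw.pos
  unfold Em
  rw [h1, h2]
  have e : ∫ x, (fun _ : E n => (1 : ℝ)) x * w x * ∫ y, F y * gk t (y - x) =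
      (∫ z : E n, gk t z) * ∫ x, NN t F x * w x := by
    rw [← integral_const_mul]
    refine integral_congr_ae (ae_of_all _ fun x => ?_)
    simp only [NN]
    field_simp
  rw [e]
  exact mul_div_mul_left _ _ hg.ne'

lemma gk_even (t : ℝ) (z : E n) : gk t (-z) = gk t z := by unfold gk; rw [norm_neg]


lemma NN_shift (t : ℝ) (F : E n → ℝ) (x : E n) :
    NN t F x = (∫ z, gk t z * F (x + z)) / ∫ z : E n, gk t z := by
  unfold NN
  congr 1
  rw [← integral_add_left_eq_self (fun y => F y * gk t (y - x)) x]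
  refine integral_congr_ae (ae_of_all _ fun z => ?_)
  simp only [add_sub_cancel_left]
  ring

/-- the Gaussian average of a `CB` function is `CB`, and `pd` commutes -/
theorem NN_CB (ht : 0 < t) {f : E n → ℝ} (hf : CB f) :
    CB (NN t f) ∧ ∀ k, pd k (NN t f) = NN t (pd k f) := by
  obtain ⟨h1, ⟨B, hB⟩⟩ := hf
  have hfE := (CB.eg ⟨h1, ⟨B, hB⟩⟩)
  have hg := gk_int_pos (n := n) ht
  have hd := h1.differentiable (by simp)
  have hcd := h1.continuous_fderiv (by simp)
  obtain ⟨M, hM⟩ : ∃ M : ℝ, ∀ x, ‖fderiv ℝ f x‖ ≤ M := by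
    refine ⟨√(∑ _k : Fin n, B ^ 2), fun x => ?_⟩
    apply Real.le_sqrt_of_sq_le
    rw [norm_fderiv_sq]
    refine Finset.sum_le_sum fun k _ => ?_
    rw [← sq_abs]
    exact pow_le_pow_left₀ (abs_nonneg _) ((hB x).2 k) 2
  have ig := int_gk (n := n) ht
  set J : E n → E n →L[ℝ] ℝ := fun x => ∫ z, gk t z • fderiv ℝ f (x + z) with hJ
  have d1 : ∀ x, HasFDerivAt (fun x => ∫ z, gk t z * f (x + z)) (J x) x := by
    intro x
    refine hasFDerivAt_integral_of_dominated_of_fderiv_le (F := fun x z => gk t z * f (x + z))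
      (F' := fun x z => gk t z • fderiv ℝ f (x + z)) (bound := fun z => gk t z * M)
      (s := Set.univ) Filter.univ_mem ?_ ?_ ?_ ?_ ?_ ?_
    · exact Eventually.of_forall fun x => ((gk_cont t).mul
        (h1.continuous.comp (continuous_const.add continuous_id))).aestronglyMeasurable
    · refine ig.mul_bdd (c := B) (h1.continuous.comp
        (continuous_const.add continuous_id)).aestronglyMeasurable (ae_of_all _ fun z => ?_)
      rw [Real.norm_eq_abs]
      exact (hB _).1
    · exact ((gk_cont t).smul (hcd.comp (continuous_const.add continuous_id))).aestronglyMeasurable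
    · refine ae_of_all _ fun z x _ => ?_
      rw [norm_smul, Real.norm_of_nonneg (gk_pos t z).le]
      exact mul_le_mul_of_nonneg_left (hM _) (gk_pos t z).le
    · exact ig.mul_const M
    · refine ae_of_all _ fun z x _ => ?_
      have h2 : HasFDerivAt (fun x => f (x + z)) (fderiv ℝ f (x + z)) x := by
        have h3 : HasFDerivAt (fun x : E n => x + z) (ContinuousLinearMap.id ℝ (E n)) x :=
          (hasFDerivAt_id x).add_const z
        have h4 := (hd (x + z)).hasFDerivAt.comp x h3
        rw [ContinuousLinearMap.comp_id] at h4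
        exact h4
      exact h2.const_smul (gk t z)
  have e0 : NN t f = fun x => (∫ z, gk t z * f (x + z)) / ∫ z : E n, gk t z :=
    funext fun x => NN_shift t f x
  have d2 : ∀ x, HasFDerivAt (NN t f) ((∫ z : E n, gk t z)⁻¹ • J x) x := by
    intro x
    rw [e0]
    have := (d1 x).const_smul ((∫ z : E n, gk t z)⁻¹)
    refine this.congr_of_eventuallyEq (Eventually.of_forall fun y => ?_)
    simp only [Pi.smul_apply, smul_eq_mul]
    rw [div_eq_inv_mul]
  have cJ : Continuous J := by
    refine continuous_of_dominated (bound := fun z => gk t z * M) ?_ ?_ (ig.mul_const M) ?_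
    · exact fun x => ((gk_cont t).smul
        (hcd.comp (continuous_const.add continuous_id))).aestronglyMeasurable
    · intro x
      refine ae_of_all _ fun z => ?_
      rw [norm_smul, Real.norm_of_nonneg (gk_pos t z).le]
      exact mul_le_mul_of_nonneg_left (hM _) (gk_pos t z).le
    · refine ae_of_all _ fun z => ?_
      have h3 : Continuous fun x : E n => fderiv ℝ f (x + z) :=
        hcd.comp (continuous_id.add continuous_const)
      exact h3.fun_const_smul (gk t z)
  have epd : ∀ k, pd k (NN t f) = NN t (pd k f) := by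
    intro k
    funext x
    rw [NN_shift]
    unfold pd
    rw [(d2 x).fderiv]
    simp only [_root_.smul_apply, smul_eq_mul]
    rw [div_eq_inv_mul]
    congr 1
    have hint : Integrable fun z => gk t z • fderiv ℝ f (x + z) := by
      refine (ig.mul_const M).mono' ((gk_cont t).smul
        (hcd.comp (continuous_const.add continuous_id))).aestronglyMeasurable
        (ae_of_all _ fun z => ?_)
      rw [norm_smul, Real.norm_of_nonneg (gk_pos t z).le]
      exact mul_le_mul_of_nonneg_left (hM _) (gk_pos t z).le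
    simp only [hJ]
    rw [ContinuousLinearMap.integral_apply hint]
    rfl
  refine ⟨⟨?_, B, fun x => ⟨?_, fun k => ?_⟩⟩, epd⟩
  · rw [contDiff_one_iff_fderiv]
    refine ⟨fun x => (d2 x).differentiableAt, ?_⟩
    have : fderiv ℝ (NN t f) = fun x => (∫ z : E n, gk t z)⁻¹ • J x :=
      funext fun x => (d2 x).fderiv
    rw [this]
    exact cJ.fun_const_smul _
  · rw [abs_le]
    constructor
    · have := NN_mono ht (EG.const (-B)) hfE.1 (fun x => (abs_le.1 (hB x).1).1) x
      rwa [NN_const ht] at this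
    · have := NN_mono ht hfE.1 (EG.const B) (fun x => (abs_le.1 (hB x).1).2) x
      rwa [NN_const ht] at this
  · rw [epd k, abs_le]
    constructor
    · have := NN_mono ht (EG.const (-B)) (hfE.2 k) (fun x => (abs_le.1 ((hB x).2 k)).1) x
      rwa [NN_const ht] at this
    · have := NN_mono ht (hfE.2 k) (EG.const B) (fun x => (abs_le.1 ((hB x).2 k)).2) x
      rwa [NN_const ht] at this

lemma EG.NN (ht : 0 < t) (hm : Measurable (NN t F)) {B : ℝ} (hF : EG F) (hB : ∀ x, |F x| ≤ B) :
    EG (NN t F) := by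
  refine EG.of_bdd hm (C := B) fun x => ?_
  rw [abs_le]
  constructor
  · have := NN_mono ht (EG.const (-B)) hF (fun x => (abs_le.1 (hB x)).1) x
    rwa [NN_const ht] at this
  · have := NN_mono ht hF (EG.const B) (fun x => (abs_le.1 (hB x)).2) x
    rwa [NN_const ht] at this

lemma cb_lip {f : E n → ℝ} (hf : CB f) : ∃ L : ℝ≥0, LipschitzWith L f := by
  obtain ⟨h1, ⟨B, hB⟩⟩ := hf
  refine ⟨Real.toNNReal √(∑ _k : Fin n, B ^ 2), ?_⟩
  refine lipschitzWith_of_nnnorm_fderiv_le (h1.differentiable (by simp)) fun x => ?_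
  rw [← NNReal.coe_le_coe, Real.coe_toNNReal _ (Real.sqrt_nonneg _), coe_nnnorm]
  apply Real.le_sqrt_of_sq_le
  rw [norm_fderiv_sq]
  refine Finset.sum_le_sum fun k _ => ?_
  rw [← sq_abs]
  exact pow_le_pow_left₀ (abs_nonneg _) ((hB x).2 k) 2






end Crest.Agent.R201.An
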