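import Crest.Agent.R201.Defs_74
import Crest.Agent.R144.Fi2_865

-- ▼ part R201/An0_293
section

/-!
# R201 analytic side: definitions (helper293)

`w` is the (unnormalised) weight of `X`, `gk s` the unnormalised Gaussian kernel,
`Lp w s F y = ∫ F x w x gk s (y - x) dx`, `pE w s F y` the posterior mean of `F(X)` given
`X + √s G = y`.
-/

set_option autoImplicit false
open MeasureTheory Matrix

namespace Crest.Agent.R201.An

open Crest.Agent.R201 Crest.Agent.R144.Fi865

variable {n : ℕ}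

/-- unnormalised Gaussian kernel of variance `s` -/
noncomputable def gk (s : ℝ) (z : E n) : ℝ := Real.exp (-(‖z‖ ^ 2 / (2 * s)))

/-- all exponential moments -/
structure Ex (w : E n → ℝ) : Prop where
  nonneg : ∀ x, 0 ≤ w x
  meas : Measurable w
  int : ∀ a : ℝ, Integrable fun x => Real.exp (a * ‖x‖) * w x
  pos : 0 < ∫ x, w x

/-- weight of `X`: bounded support, `c`-strongly log-concave -/
structure Wt (c R : ℝ) (w : E n → ℝ) : Prop where
  nonneg : ∀ x, 0 ≤ w x
  meas : Measurable w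
  int : Integrable w
  supp : ∀ x, w x ≠ 0 → ‖x‖ ≤ R
  slc : SLC c w
  pos : 0 < ∫ x, w x

/-- unnormalised posterior integral -/
noncomputable def Lp (w : E n → ℝ) (s : ℝ) (F : E n → ℝ) (y : E n) : ℝ :=
  ∫ x, F x * (w x * gk s (y - x))

/-- posterior mean of `F(X)` given `X + √s G = y` -/
noncomputable def pE (w : E n → ℝ) (s : ℝ) (F : E n → ℝ) (y : E n) : ℝ :=
  Lp w s F y / Lp w s (fun _ => 1) y

/-- posterior covariance -/
noncomputable def pC (w : E n → ℝ) (s : ℝ) (y : E n) : Mt n :=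
  Matrix.of fun i j => pE w s (fun x => x i * x j) y - pE w s (fun x => x i) y * pE w s (fun x => x j) y

/-- at most exponential growth -/
def EG (F : E n → ℝ) : Prop := Measurable F ∧ ∃ C a : ℝ, 0 ≤ C ∧ 0 ≤ a ∧ ∀ x, |F x| ≤ C * Real.exp (a * ‖x‖)

end Crest.Agent.R201.An
end

-- ▼ part R201/An1_293
section

/-!
# R201 AN-1: differentiation of posterior means (helper293)
-/

set_option autoImplicit false
open MeasureTheory Matrix Filter Topology
open scoped ContDiff RealInnerProductSpace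

namespace Crest.Agent.R201.An

open Crest.Agent.R201

variable {n : ℕ} {w F G : E n → ℝ} {s : ℝ}

/-! ### kernels -/

lemma gk_pos (s : ℝ) (z : E n) : 0 < gk s z := Real.exp_pos _

lemma gk_le_one (hs : 0 < s) (z : E n) : gk s z ≤ 1 := by
  unfold gk
  rw [Real.exp_le_one_iff]
  have : 0 ≤ ‖z‖ ^ 2 / (2 * s) := by positivity
  linarith

lemma gk_cont (s : ℝ) : Continuous (gk s : E n → ℝ) := by
  unfold gk
  fun_prop

lemma prj_apply (k : Fin n) (v : E n) : (EuclideanSpace.proj k : E n →L[ℝ] ℝ) v = v k := rfl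

lemma gk_hasFDerivAt (s : ℝ) (x y : E n) :
    HasFDerivAt (fun y => gk s (y - x))
      ((gk s (y - x) * (-(1 / (2 * s)))) • ((2 : ℝ) • innerSL ℝ (y - x))) y := by
  have h1 : HasFDerivAt (fun z : E n => ‖z‖ ^ 2) ((2 : ℝ) • innerSL ℝ (y - x)) (y - x) := by
    have := (hasStrictFDerivAt_norm_sq (y - x)).hasFDerivAt
    convert! this using 1
    ext v
    simp [two_smul]
  have h2 : HasFDerivAt (fun y : E n => y - x) (ContinuousLinearMap.id ℝ (E n)) y :=
    (hasFDerivAt_id y).sub_const x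
  have h3 : HasFDerivAt (fun y : E n => ‖y - x‖ ^ 2) ((2 : ℝ) • innerSL ℝ (y - x)) y := by
    have := h1.comp y h2
    simpa [Function.comp_def] using this
  have h4 : HasFDerivAt (fun y : E n => -(‖y - x‖ ^ 2 / (2 * s)))
      ((-(1 / (2 * s))) • ((2 : ℝ) • innerSL ℝ (y - x))) y := by
    have := h3.const_mul (-(1 / (2 * s)))
    refine this.congr_of_eventuallyEq (Eventually.of_forall fun z => ?_)
    show -(‖z - x‖ ^ 2 / (2 * s)) = -(1 / (2 * s)) * ‖z - x‖ ^ 2
    ring
  have h5 := h4.exp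
  unfold gk
  rw [mul_smul]
  exact h5

/-! ### growth class -/

lemma EG.const (c : ℝ) : EG (fun _ : E n => c) :=
  ⟨measurable_const, |c|, 0, abs_nonneg _, le_rfl, fun x => by simp⟩

lemma le_exp_norm (x : E n) : ‖x‖ ≤ Real.exp (1 * ‖x‖) := by
  rw [one_mul]
  linarith [Real.add_one_le_exp ‖x‖]

lemma EG.coord (k : Fin n) : EG (fun x : E n => x k) := by
  refine ⟨by fun_prop, 1, 1, zero_le_one, zero_le_one, fun x => ?_⟩
  rw [one_mul]
  have := PiLp.norm_apply_le x k
  rw [Real.norm_eq_abs] at this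
  exact this.trans (le_exp_norm x)

lemma EG.add (hF : EG F) (hG : EG G) : EG (fun x => F x + G x) := by
  obtain ⟨mF, C, a, hC, ha, h⟩ := hF
  obtain ⟨mG, C', a', hC', ha', h'⟩ := hG
  refine ⟨mF.add mG, C + C', a + a', by positivity, by positivity, fun x => ?_⟩
  have e1 : Real.exp (a * ‖x‖) ≤ Real.exp ((a + a') * ‖x‖) :=
    Real.exp_le_exp.2 (by nlinarith [norm_nonneg x])
  have e2 : Real.exp (a' * ‖x‖) ≤ Real.exp ((a + a') * ‖x‖) :=
    Real.exp_le_exp.2 (by nlinarith [norm_nonneg x])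
  calc |F x + G x| ≤ |F x| + |G x| := abs_add_le _ _
    _ ≤ C * Real.exp (a * ‖x‖) + C' * Real.exp (a' * ‖x‖) := add_le_add (h x) (h' x)
    _ ≤ C * Real.exp ((a + a') * ‖x‖) + C' * Real.exp ((a + a') * ‖x‖) := by gcongr
    _ = _ := by ring

lemma EG.mul (hF : EG F) (hG : EG G) : EG (fun x => F x * G x) := by
  obtain ⟨mF, C, a, hC, ha, h⟩ := hF
  obtain ⟨mG, C', a', hC', ha', h'⟩ := hG
  refine ⟨mF.mul mG, C * C', a + a', by positivity, by positivity, fun x => ?_⟩
  rw [abs_mul]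
  calc |F x| * |G x| ≤ (C * Real.exp (a * ‖x‖)) * (C' * Real.exp (a' * ‖x‖)) :=
        mul_le_mul (h x) (h' x) (abs_nonneg _) (by positivity)
    _ = C * C' * (Real.exp (a * ‖x‖) * Real.exp (a' * ‖x‖)) := by ring
    _ = _ := by rw [← Real.exp_add, add_mul]

lemma EG.smul (c : ℝ) (hF : EG F) : EG (fun x => c * F x) := (EG.const c).mul hF

lemma EG.neg (hF : EG F) : EG (fun x => -F x) := by simpa using hF.smul (-1)

lemma EG.sub (hF : EG F) (hG : EG G) : EG (fun x => F x - G x) := by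
  simpa [sub_eq_add_neg] using hF.add hG.neg

lemma EG.sum {ι : Type*} (S : Finset ι) {F : ι → E n → ℝ} (h : ∀ i ∈ S, EG (F i)) :
    EG (fun x => ∑ i ∈ S, F i x) := by
  classical
  induction S using Finset.induction_on with
  | empty => simpa using EG.const 0
  | insert a S ha ih =>
    have h1 := (h a (Finset.mem_insert_self _ _)).add (ih fun i hi => h i (Finset.mem_insert_of_mem hi))
    simpa [Finset.sum_insert ha] using h1

lemma EG.norm : EG (fun x : E n => ‖x‖) :=
  ⟨measurable_norm, 1, 1, zero_le_one, zero_le_one, fun x => by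
    rw [one_mul, abs_of_nonneg (norm_nonneg _)]; exact le_exp_norm x⟩

lemma EG.of_bdd (mF : Measurable F) {C : ℝ} (h : ∀ x, |F x| ≤ C) : EG F :=
  ⟨mF, |C|, 0, abs_nonneg _, le_rfl, fun x => by simpa using (h x).trans (le_abs_self C)⟩

/-! ### integrability -/

lemma Wt.ex {c R : ℝ} (hw : Wt c R w) : Ex w := by
  refine ⟨hw.nonneg, hw.meas, fun a => ?_, hw.pos⟩
  refine (hw.int.const_mul (Real.exp (|a| * |R|))).mono'
    (by have := hw.meas; fun_prop) (ae_of_all _ fun x => ?_)
  rw [Real.norm_eq_abs, abs_mul, abs_of_pos (Real.exp_pos _), abs_of_nonneg (hw.nonneg x)]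
  by_cases hx : w x = 0
  · simp [hx]
  · have h1 := hw.supp x hx
    refine mul_le_mul_of_nonneg_right (Real.exp_le_exp.2 ?_) (hw.nonneg x)
    calc a * ‖x‖ ≤ |a| * ‖x‖ := mul_le_mul_of_nonneg_right (le_abs_self a) (norm_nonneg _)
      _ ≤ |a| * |R| := mul_le_mul_of_nonneg_left (h1.trans (le_abs_self R)) (abs_nonneg _)

lemma Ex.int_mul (hw : Ex w) (hF : EG F) : Integrable fun x => F x * w x := by
  obtain ⟨mF, C, a, hC, ha, h⟩ := hF
  refine ((hw.int a).const_mul C).mono' (mF.mul hw.meas).aestronglyMeasurable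
    (ae_of_all _ fun x => ?_)
  rw [Real.norm_eq_abs, abs_mul, abs_of_nonneg (hw.nonneg x), ← mul_assoc]
  exact mul_le_mul_of_nonneg_right (h x) (hw.nonneg x)

lemma Ex.int_Lp (hw : Ex w) (hs : 0 < s) (hF : EG F) (y : E n) :
    Integrable fun x => F x * (w x * gk s (y - x)) := by
  have mg : Measurable fun x : E n => gk s (y - x) := by
    have := (gk_cont (n := n) s).measurable
    exact this.comp (measurable_const.sub measurable_id)
  refine (hw.int_mul hF).norm.mono' (hF.1.mul (hw.meas.mul mg)).aestronglyMeasurable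
    (ae_of_all _ fun x => ?_)
  rw [norm_mul, norm_mul, norm_mul, Real.norm_of_nonneg (gk_pos s _).le]
  calc ‖F x‖ * (‖w x‖ * gk s (y - x)) ≤ ‖F x‖ * (‖w x‖ * 1) := by
        gcongr; exact gk_le_one hs _
    _ = _ := by ring

lemma Lp_add (hw : Ex w) (hs : 0 < s) (hF : EG F) (hG : EG G) (y : E n) :
    Lp w s (fun x => F x + G x) y = Lp w s F y + Lp w s G y := by
  unfold Lp
  rw [← integral_add (hw.int_Lp hs hF y) (hw.int_Lp hs hG y)]
  exact integral_congr_ae (ae_of_all _ fun x => by ring)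

lemma Lp_smul (c : ℝ) (F : E n → ℝ) (y : E n) :
    Lp w s (fun x => c * F x) y = c * Lp w s F y := by
  unfold Lp
  rw [← integral_const_mul]
  exact integral_congr_ae (ae_of_all _ fun x => by ring)

lemma Lp_sub (hw : Ex w) (hs : 0 < s) (hF : EG F) (hG : EG G) (y : E n) :
    Lp w s (fun x => F x - G x) y = Lp w s F y - Lp w s G y := by
  unfold Lp
  rw [← integral_sub (hw.int_Lp hs hF y) (hw.int_Lp hs hG y)]
  exact integral_congr_ae (ae_of_all _ fun x => by ring)

lemma Lp_sum {ι : Type*} (S : Finset ι) {F : ι → E n → ℝ} (hw : Ex w) (hs : 0 < s)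
    (h : ∀ i ∈ S, EG (F i)) (y : E n) :
    Lp w s (fun x => ∑ i ∈ S, F i x) y = ∑ i ∈ S, Lp w s (F i) y := by
  unfold Lp
  rw [← integral_finsetSum S fun i hi => hw.int_Lp hs (h i hi) y]
  exact integral_congr_ae (ae_of_all _ fun x => by simp [Finset.sum_mul])

lemma Lp_nonneg (hw : Ex w) (hF : ∀ x, 0 ≤ F x) (y : E n) : 0 ≤ Lp w s F y :=
  integral_nonneg fun x => mul_nonneg (hF x) (mul_nonneg (hw.nonneg x) (gk_pos s _).le)

lemma Lp_mono (hw : Ex w) (hs : 0 < s) (hF : EG F) (hG : EG G) (h : ∀ x, F x ≤ G x) (y : E n) :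
    Lp w s F y ≤ Lp w s G y :=
  integral_mono (hw.int_Lp hs hF y) (hw.int_Lp hs hG y) fun x =>
    mul_le_mul_of_nonneg_right (h x) (mul_nonneg (hw.nonneg x) (gk_pos s _).le)

lemma Lp_one_pos (hw : Ex w) (hs : 0 < s) (y : E n) : 0 < Lp w s (fun _ => 1) y := by
  have hi := hw.int_Lp hs (EG.const 1) y
  unfold Lp
  rw [integral_pos_iff_support_of_nonneg
    (fun x => by have := hw.nonneg x; have := (gk_pos s (y - x)).le; positivity) hi]
  have h0 := hw.pos
  have hi0 : Integrable w := by simpa using hw.int 0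
  rw [integral_pos_iff_support_of_nonneg hw.nonneg hi0] at h0
  refine lt_of_lt_of_le h0 (measure_mono fun x hx => ?_)
  simp only [Function.mem_support] at hx ⊢
  exact mul_ne_zero one_ne_zero (mul_ne_zero hx (gk_pos s _).ne')

/-! ### differentiation -/

set_option maxHeartbeats 1000000 in
theorem hasFDerivAt_Lp (hw : Ex w) (hs : 0 < s) (hF : EG F) (y₀ : E n) :
    HasFDerivAt (Lp w s F)
      (∑ k, ((Lp w s (fun x => F x * x k) y₀ - y₀ k * Lp w s F y₀) / s) •
        (EuclideanSpace.proj k : E n →L[ℝ] ℝ)) y₀ := by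
  set F' : E n → E n → (E n →L[ℝ] ℝ) := fun y x =>
    (F x * w x) • ((gk s (y - x) * (-(1 / (2 * s)))) • ((2 : ℝ) • innerSL ℝ (y - x))) with hF'
  obtain ⟨mF, C, a, hC, ha, h⟩ := id hF
  have mw := hw.meas
  have mg : ∀ y : E n, Measurable fun x : E n => gk s (y - x) := fun y =>
    (gk_cont (n := n) s).measurable.comp (measurable_const.sub measurable_id)
  have mg2 : Measurable fun x : E n =>
      (gk s (y₀ - x) * (-(1 / (2 * s)))) • ((2 : ℝ) • innerSL ℝ (y₀ - x)) := by
    refine Continuous.measurable ?_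
    refine Continuous.smul (((gk_cont s).comp (continuous_const.sub continuous_id)).mul
      continuous_const) ?_
    exact ((innerSL ℝ (E := E n)).continuous.comp
      (continuous_const.sub continuous_id)).const_smul (2 : ℝ)
  have key : HasFDerivAt (fun y => ∫ x, F x * (w x * gk s (y - x))) (∫ x, F' y₀ x) y₀ := by
    refine hasFDerivAt_integral_of_dominated_of_fderiv_le (s := Metric.ball y₀ 1)
      (bound := fun x => (1 / s) * (C * (Real.exp (‖y₀‖ + 1) * (Real.exp ((a + 1) * ‖x‖) * w x))))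
      (Metric.ball_mem_nhds _ one_pos)
      (Eventually.of_forall fun y => (mF.mul (mw.mul (mg y))).aestronglyMeasurable)
      (hw.int_Lp hs hF y₀) ?_ ?_ ?_ ?_
    · apply Measurable.aestronglyMeasurable
      exact (mF.mul mw).smul mg2
    · refine ae_of_all _ fun x y hy => ?_
      have h1 : ‖y - x‖ ≤ ‖y₀‖ + 1 + ‖x‖ := by
        have := mem_ball_iff_norm.1 hy
        calc ‖y - x‖ = ‖(y - y₀) + y₀ - x‖ := by congr 1; abel
          _ ≤ ‖(y - y₀) + y₀‖ + ‖x‖ := norm_sub_le _ _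
          _ ≤ ‖y - y₀‖ + ‖y₀‖ + ‖x‖ := by gcongr; exact norm_add_le _ _
          _ ≤ _ := by linarith
      have h2 : ‖y - x‖ ≤ Real.exp (‖y₀‖ + 1 + ‖x‖) := by
        linarith [Real.add_one_le_exp (‖y₀‖ + 1 + ‖x‖)]
      rw [hF']
      simp only [norm_smul, norm_mul, Real.norm_eq_abs]
      rw [abs_of_pos (gk_pos s _), innerSL_apply_norm, abs_neg, abs_of_pos (by positivity : (0:ℝ) < 1 / (2 * s)),
        abs_of_pos (by norm_num : (0:ℝ) < 2), abs_of_nonneg (hw.nonneg x)]
      have h3 := gk_le_one hs (y - x)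
      have h4 := (gk_pos s (y - x)).le
      have h5 := h x
      have h6 := hw.nonneg x
      calc |F x| * w x * (gk s (y - x) * (1 / (2 * s)) * (2 * ‖y - x‖))
          = (1 / s) * (|F x| * (w x * (gk s (y - x) * ‖y - x‖))) := by
            field_simp
        _ ≤ (1 / s) * ((C * Real.exp (a * ‖x‖)) * (w x * (1 * Real.exp (‖y₀‖ + 1 + ‖x‖)))) := by
            gcongr
        _ = _ := by
            rw [show (a + 1) * ‖x‖ = a * ‖x‖ + ‖x‖ by ring, Real.exp_add (a * ‖x‖),
              Real.exp_add (‖y₀‖ + 1)]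
            ring
    · exact (((hw.int (a + 1)).const_mul _).const_mul _).const_mul _
    · refine ae_of_all _ fun x y _ => ?_
      have := (gk_hasFDerivAt s x y).const_mul (F x * w x)
      refine this.congr_of_eventuallyEq (Eventually.of_forall fun z => ?_)
      show F x * (w x * gk s (z - x)) = F x * w x * gk s (z - x)
      ring
  have e : (∫ x, F' y₀ x) = ∑ k, ((Lp w s (fun x => F x * x k) y₀ - y₀ k * Lp w s F y₀) / s) •
        (EuclideanSpace.proj k : E n →L[ℝ] ℝ) := by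
    have hint : Integrable (F' y₀) := by
      refine Integrable.mono' (g := fun x => (1 / s) * (C * (Real.exp (‖y₀‖ + 1) *
        (Real.exp ((a + 1) * ‖x‖) * w x))))
        ((((hw.int (a + 1)).const_mul _).const_mul _).const_mul _) ?_ ?_
      · apply Measurable.aestronglyMeasurable
        exact (mF.mul mw).smul mg2
      · refine ae_of_all _ fun x => ?_
        have h1 : ‖y₀ - x‖ ≤ ‖y₀‖ + 1 + ‖x‖ := (norm_sub_le _ _).trans (by linarith)
        have h2 : ‖y₀ - x‖ ≤ Real.exp (‖y₀‖ + 1 + ‖x‖) := by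
          linarith [Real.add_one_le_exp (‖y₀‖ + 1 + ‖x‖)]
        rw [hF']
        simp only [norm_smul, norm_mul, Real.norm_eq_abs]
        rw [abs_of_pos (gk_pos s _), innerSL_apply_norm, abs_neg,
          abs_of_pos (by positivity : (0:ℝ) < 1 / (2 * s)),
          abs_of_pos (by norm_num : (0:ℝ) < 2), abs_of_nonneg (hw.nonneg x)]
        have h3 := gk_le_one hs (y₀ - x)
        have h4 := (gk_pos s (y₀ - x)).le
        have h5 := h x
        have h6 := hw.nonneg x
        calc |F x| * w x * (gk s (y₀ - x) * (1 / (2 * s)) * (2 * ‖y₀ - x‖))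
            = (1 / s) * (|F x| * (w x * (gk s (y₀ - x) * ‖y₀ - x‖))) := by
              field_simp
          _ ≤ (1 / s) * ((C * Real.exp (a * ‖x‖)) * (w x * (1 * Real.exp (‖y₀‖ + 1 + ‖x‖)))) := by
              gcongr
          _ = _ := by
              rw [show (a + 1) * ‖x‖ = a * ‖x‖ + ‖x‖ by ring, Real.exp_add (a * ‖x‖),
              Real.exp_add (‖y₀‖ + 1)]
              ring
    ext v
    rw [ContinuousLinearMap.integral_apply hint]
    simp only [_root_.sum_apply, _root_.smul_apply, smul_eq_mul,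
      prj_apply]
    have e1 : ∀ x, F' y₀ x v = ∑ k, (v k / s) * (F x * x k * (w x * gk s (y₀ - x)) -
        y₀ k * (F x * (w x * gk s (y₀ - x)))) := by
      intro x
      rw [hF']
      simp only [_root_.smul_apply, smul_eq_mul, innerSL_apply_apply]
      have e2 : (inner ℝ (y₀ - x) v : ℝ) = ∑ k, v k * (y₀ k - x k) := by
        rw [PiLp.inner_apply]
        exact Finset.sum_congr rfl fun k _ => by simp
      rw [e2, Finset.mul_sum, Finset.mul_sum, Finset.mul_sum]
      refine Finset.sum_congr rfl fun k _ => ?_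
      field_simp
      ring
    rw [integral_congr_ae (ae_of_all _ e1)]
    have i1 : ∀ k, Integrable fun x => F x * x k * (w x * gk s (y₀ - x)) := fun k =>
      hw.int_Lp hs (hF.mul (EG.coord k)) y₀
    have i2 := hw.int_Lp hs hF y₀
    have i3 : ∀ k, Integrable fun x => (v k / s) * (F x * x k * (w x * gk s (y₀ - x)) -
        y₀ k * (F x * (w x * gk s (y₀ - x)))) := fun k =>
      ((i1 k).sub (i2.const_mul (y₀ k))).const_mul (v k / s)
    rw [integral_finsetSum _ fun k _ => i3 k]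
    refine Finset.sum_congr rfl fun k _ => ?_
    rw [integral_const_mul, integral_sub (i1 k) (i2.const_mul _), integral_const_mul]
    unfold Lp
    ring
  rw [← e]
  exact key

theorem pd_Lp (hw : Ex w) (hs : 0 < s) (hF : EG F) (k : Fin n) (y : E n) :
    pd k (Lp w s F) y = (Lp w s (fun x => F x * x k) y - y k * Lp w s F y) / s := by
  unfold pd
  rw [(hasFDerivAt_Lp hw hs hF y).fderiv]
  simp only [_root_.sum_apply, _root_.smul_apply, smul_eq_mul,
    prj_apply]
  rw [Finset.sum_eq_single k]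
  · simp
  · intro b _ hb
    simp [hb]
  · intro h; exact absurd (Finset.mem_univ _) h

theorem contDiff_Lp (hw : Ex w) (hs : 0 < s) : ∀ (m : ℕ) {F : E n → ℝ}, EG F →
    ContDiff ℝ m (Lp w s F) := by
  intro m
  induction m with
  | zero =>
    intro F hF
    exact contDiff_zero.2 (continuous_iff_continuousAt.2 fun y =>
      (hasFDerivAt_Lp hw hs hF y).continuousAt)
  | succ m ih =>
    intro F hF
    rw [show ((m + 1 : ℕ) : WithTop ℕ∞) = (m : WithTop ℕ∞) + 1 by push_cast; rfl,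
      contDiff_succ_iff_hasFDerivAt]
    refine ⟨_, ?_, fun y => hasFDerivAt_Lp hw hs hF y⟩
    refine ContDiff.sum fun k _ => ContDiff.smul_const ?_ _
    refine ContDiff.div_const (ContDiff.sub (ih (hF.mul (EG.coord k))) (ContDiff.mul ?_ (ih hF))) _
    exact (EuclideanSpace.proj k : E n →L[ℝ] ℝ).contDiff

theorem contDiff_Lp_infty (hw : Ex w) (hs : 0 < s) (hF : EG F) : ContDiff ℝ ∞ (Lp w s F) :=
  contDiff_infty.2 fun m => contDiff_Lp hw hs m hF

theorem contDiff_pE (hw : Ex w) (hs : 0 < s) (hF : EG F) : ContDiff ℝ ∞ (pE w s F) :=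
  (contDiff_Lp_infty hw hs hF).div (contDiff_Lp_infty hw hs (EG.const 1))
    fun y => (Lp_one_pos hw hs y).ne'

/-- derivative of a posterior mean = posterior covariance with `x_k`, divided by `s` -/
theorem pd_pE (hw : Ex w) (hs : 0 < s) (hF : EG F) (k : Fin n) (y : E n) :
    pd k (pE w s F) y =
      (pE w s (fun x => F x * x k) y - pE w s F y * pE w s (fun x => x k) y) / s := by
  have h0 := Lp_one_pos hw hs y
  have d1 := hasFDerivAt_Lp hw hs hF y
  have d2 := hasFDerivAt_Lp hw hs (EG.const 1) y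
  have e1 := pd_Lp hw hs hF k y
  have e2 := pd_Lp hw hs (EG.const 1) k y
  unfold pd at e1 e2 ⊢
  have d3 := d1.mul ((hasDerivAt_inv h0.ne').comp_hasFDerivAt y d2)
  have d4 : pE w s F = Lp w s F * (fun y => y⁻¹) ∘ Lp w s fun x => 1 := by
    funext z
    simp only [pE, div_eq_mul_inv, Function.comp_apply, Pi.mul_apply]
  have d5 : fderiv ℝ (pE w s F) y = fderiv ℝ (Lp w s F * (fun y => y⁻¹) ∘ Lp w s fun x => 1) y := by
    rw [d4]
  rw [d5, d3.fderiv]
  rw [d1.fderiv] at e1
  rw [d2.fderiv] at e2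
  simp only [_root_.smul_apply, _root_.add_apply, smul_eq_mul, Function.comp_apply]
  rw [e1, e2]
  unfold pE
  simp only [one_mul]
  field_simp
  ring

/-! ### algebra of posterior means -/

lemma pE_add (hw : Ex w) (hs : 0 < s) (hF : EG F) (hG : EG G) (y : E n) :
    pE w s (fun x => F x + G x) y = pE w s F y + pE w s G y := by
  unfold pE; rw [Lp_add hw hs hF hG, add_div]

lemma pE_sub (hw : Ex w) (hs : 0 < s) (hF : EG F) (hG : EG G) (y : E n) :
    pE w s (fun x => F x - G x) y = pE w s F y - pE w s G y := by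
  unfold pE; rw [Lp_sub hw hs hF hG, sub_div]

lemma pE_smul (c : ℝ) (F : E n → ℝ) (y : E n) :
    pE w s (fun x => c * F x) y = c * pE w s F y := by
  unfold pE; rw [Lp_smul, mul_div_assoc]

lemma pE_const (hw : Ex w) (hs : 0 < s) (c : ℝ) (y : E n) : pE w s (fun _ => c) y = c := by
  have := Lp_one_pos hw hs y
  have e := Lp_smul (w := w) (s := s) c (fun _ => (1 : ℝ)) y
  unfold pE
  simp only [mul_one] at e
  rw [e]
  field_simp

lemma pE_sum {ι : Type*} (S : Finset ι) {F : ι → E n → ℝ} (hw : Ex w) (hs : 0 < s)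
    (h : ∀ i ∈ S, EG (F i)) (y : E n) :
    pE w s (fun x => ∑ i ∈ S, F i x) y = ∑ i ∈ S, pE w s (F i) y := by
  unfold pE; rw [Lp_sum S hw hs h, Finset.sum_div]

lemma pE_nonneg (hw : Ex w) (hs : 0 < s) (hF : ∀ x, 0 ≤ F x) (y : E n) : 0 ≤ pE w s F y :=
  div_nonneg (Lp_nonneg hw hF y) (Lp_one_pos hw hs y).le

lemma pE_mono (hw : Ex w) (hs : 0 < s) (hF : EG F) (hG : EG G) (h : ∀ x, F x ≤ G x) (y : E n) :
    pE w s F y ≤ pE w s G y :=
  div_le_div_of_nonneg_right (Lp_mono hw hs hF hG h y) (Lp_one_pos hw hs y).le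

end Crest.Agent.R201.An
end

-- ▼ part R201/An2_293
section

/-!
# R201 AN-2: posterior Poincaré, potential and Hessian (helper293)
-/

set_option autoImplicit false
open MeasureTheory Matrix Filter Topology
open scoped ContDiff RealInnerProductSpace NNReal

namespace Crest.Agent.R201.An

open Crest.Agent.R201 Crest.Agent.R144.Fi865

variable {n : ℕ} {w F G : E n → ℝ} {s c : ℝ}

/-- the posterior weight is strongly log-concave -/
theorem slc_post (hs : 0 < s) (hw0 : ∀ x, 0 ≤ w x) (h : SLC c w) (y₀ : E n) :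
    SLC (c + 1 / s) fun x => w x * gk s (y₀ - x) := by
  intro x y
  have h1 := h x y
  set m := (1 / 2 : ℝ) • (x + y) with hm
  have e1 : ‖y₀ - x‖ ^ 2 + ‖y₀ - y‖ ^ 2 = 2 * ‖y₀ - m‖ ^ 2 + ‖x - y‖ ^ 2 / 2 := by
    have h2 := parallelogram_law_with_norm ℝ (y₀ - x) (y₀ - y)
    have h3 : y₀ - x + (y₀ - y) = (2 : ℝ) • (y₀ - m) := by rw [hm]; module
    have h4 : y₀ - x - (y₀ - y) = y - x := by abel
    rw [h3, h4, norm_smul, Real.norm_of_nonneg (by norm_num), norm_sub_rev y x] at h2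
    nlinarith
  beta_reduce
  unfold gk
  rw [Real.sqrt_mul (hw0 x), Real.sqrt_mul (hw0 y), ← Real.exp_half, ← Real.exp_half]
  calc √(w x) * Real.exp (-(‖y₀ - x‖ ^ 2 / (2 * s)) / 2) *
        (√(w y) * Real.exp (-(‖y₀ - y‖ ^ 2 / (2 * s)) / 2))
      = (√(w x) * √(w y)) * (Real.exp (-(‖y₀ - x‖ ^ 2 / (2 * s)) / 2) *
        Real.exp (-(‖y₀ - y‖ ^ 2 / (2 * s)) / 2)) := by ring
    _ ≤ (Real.exp (-(c / 8 * ‖x - y‖ ^ 2)) * w m) *
        (Real.exp (-(‖y₀ - x‖ ^ 2 / (2 * s)) / 2) *
        Real.exp (-(‖y₀ - y‖ ^ 2 / (2 * s)) / 2)) :=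
      mul_le_mul_of_nonneg_right h1 (by positivity)
    _ = w m * (Real.exp (-(c / 8 * ‖x - y‖ ^ 2)) *
        (Real.exp (-(‖y₀ - x‖ ^ 2 / (2 * s)) / 2) *
        Real.exp (-(‖y₀ - y‖ ^ 2 / (2 * s)) / 2))) := by ring
    _ = w m * (Real.exp (-((c + 1 / s) / 8 * ‖x - y‖ ^ 2)) *
        Real.exp (-(‖y₀ - m‖ ^ 2 / (2 * s)))) := by
      rw [← Real.exp_add, ← Real.exp_add, ← Real.exp_add]
      congr 2
      have hs0 : s ≠ 0 := hs.ne'
      have e5 : -(c / 8 * ‖x - y‖ ^ 2) + (-(‖y₀ - x‖ ^ 2 / (2 * s)) / 2 + -(‖y₀ - y‖ ^ 2 / (2 * s)) / 2)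
          = -(c / 8 * ‖x - y‖ ^ 2) - (‖y₀ - x‖ ^ 2 + ‖y₀ - y‖ ^ 2) / (4 * s) := by
        field_simp
        ring
      rw [e5, e1]
      field_simp
      ring
    _ = _ := by ring

/-- **posterior Poincaré inequality** -/
theorem post_poincare (hw : Ex w) (hc : 0 ≤ c) (h : SLC c w) (hs : 0 < s) {f : E n → ℝ} {L : ℝ≥0}
    (hf : LipschitzWith L f) (y : E n) :
    pE w s (fun x => f x ^ 2) y - (pE w s f y) ^ 2 ≤
      (s / (1 + c * s)) * pE w s (fun x => ‖fderiv ℝ f x‖ ^ 2) y := by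
  have hl : 0 < c + 1 / s := by positivity
  have egf : EG f := by
    refine ⟨hf.continuous.measurable, |f 0| + L, 1, by positivity, zero_le_one, fun x => ?_⟩
    have h1 : |f x - f 0| ≤ L * ‖x‖ := by
      have := hf.dist_le_mul x 0
      rwa [Real.dist_eq, dist_zero_right] at this
    have h2 := le_exp_norm x
    have h3 : (1 : ℝ) ≤ Real.exp (1 * ‖x‖) := Real.one_le_exp (by positivity)
    calc |f x| = |f 0 + (f x - f 0)| := by ring_nf
      _ ≤ |f 0| + |f x - f 0| := abs_add_le _ _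
      _ ≤ |f 0| * 1 + L * ‖x‖ := by linarith
      _ ≤ |f 0| * Real.exp (1 * ‖x‖) + L * Real.exp (1 * ‖x‖) := by gcongr
      _ = _ := by ring
  have egf2 : EG fun x => f x ^ 2 := by
    have := egf.mul egf
    simpa [sq] using this
  have h0 := Lp_one_pos hw hs y
  have key := poincare_lip (W := fun x => w x * gk s (y - x)) hl
    (fun x => mul_nonneg (hw.nonneg x) (gk_pos s _).le)
    (hw.meas.mul ((gk_cont (n := n) s).measurable.comp (measurable_const.sub measurable_id)))
    (by simpa using hw.int_Lp hs (EG.const 1) y) (slc_post hs hw.nonneg h y) hf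
    (hw.int_Lp hs egf2 y)
  have e1 : (∫ x, w x * gk s (y - x)) = Lp w s (fun _ => 1) y := by
    unfold Lp; simp
  rw [e1] at key
  have e2 : (c + 1 / s)⁻¹ = s / (1 + c * s) := by
    field_simp
    ring
  rw [e2] at key
  change Lp w s (fun _ => 1) y * Lp w s (fun x => f x ^ 2) y - (Lp w s f y) ^ 2 ≤
    s / (1 + c * s) * Lp w s (fun _ => 1) y * Lp w s (fun x => ‖fderiv ℝ f x‖ ^ 2) y at key
  unfold pE
  have h5 : 0 < Lp w s (fun _ => 1) y ^ 2 := by positivity
  have e3 : Lp w s (fun x => f x ^ 2) y / Lp w s (fun _ => 1) y -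
      (Lp w s f y / Lp w s (fun _ => 1) y) ^ 2 =
      (Lp w s (fun _ => 1) y * Lp w s (fun x => f x ^ 2) y - (Lp w s f y) ^ 2) /
        Lp w s (fun _ => 1) y ^ 2 := by
    field_simp
  have e4 : s / (1 + c * s) * (Lp w s (fun x => ‖fderiv ℝ f x‖ ^ 2) y / Lp w s (fun _ => 1) y) =
      (s / (1 + c * s) * Lp w s (fun _ => 1) y * Lp w s (fun x => ‖fderiv ℝ f x‖ ^ 2) y) /
        Lp w s (fun _ => 1) y ^ 2 := by
    field_simp
  rw [e3, e4]
  exact div_le_div_of_nonneg_right key h5.le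

/-! ### the posterior covariance matrix -/

lemma pC_symm (w : E n → ℝ) (s : ℝ) (y : E n) : (pC w s y)ᵀ = pC w s y := by
  ext i j
  simp only [pC, Matrix.transpose_apply, Matrix.of_apply]
  rw [mul_comm (pE w s (fun x => x j) y)]
  congr 2
  ext x
  ring

lemma EG.lin (u : Fin n → ℝ) : EG (fun x : E n => ∑ i, u i * x i) :=
  EG.sum _ fun i _ => (EG.coord i).smul (u i)

lemma pE_lin (hw : Ex w) (hs : 0 < s) (u : Fin n → ℝ) (y : E n) :
    pE w s (fun x => ∑ i, u i * x i) y = ∑ i, u i * pE w s (fun x => x i) y := by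
  rw [pE_sum _ hw hs fun i _ => (EG.coord i).smul (u i)]
  exact Finset.sum_congr rfl fun i _ => pE_smul _ _ _

/-- quadratic form of the posterior covariance = posterior variance of `⟨u, x⟩` -/
lemma pC_quad (hw : Ex w) (hs : 0 < s) (u : Fin n → ℝ) (y : E n) :
    u ⬝ᵥ (pC w s y *ᵥ u) = pE w s (fun x => (∑ i, u i * x i) ^ 2) y -
      (pE w s (fun x => ∑ i, u i * x i) y) ^ 2 := by
  have e1 : (fun x : E n => (∑ i, u i * x i) ^ 2) =
      fun x => ∑ i, ∑ j, (u i * u j) * (x i * x j) := by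
    funext x
    rw [sq, Finset.sum_mul_sum]
    exact Finset.sum_congr rfl fun i _ => Finset.sum_congr rfl fun j _ => by ring
  have e2 : pE w s (fun x => (∑ i, u i * x i) ^ 2) y =
      ∑ i, ∑ j, (u i * u j) * pE w s (fun x => x i * x j) y := by
    rw [e1, pE_sum _ hw hs fun i _ => EG.sum _ fun j _ => ((EG.coord i).mul (EG.coord j)).smul _]
    refine Finset.sum_congr rfl fun i _ => ?_
    rw [pE_sum _ hw hs fun j _ => ((EG.coord i).mul (EG.coord j)).smul _]
    exact Finset.sum_congr rfl fun j _ => pE_smul _ _ _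
  rw [e2, pE_lin hw hs, sq, Finset.sum_mul_sum, ← Finset.sum_sub_distrib]
  simp only [dotProduct, Matrix.mulVec, pC, Matrix.of_apply, Finset.mul_sum]
  refine Finset.sum_congr rfl fun i _ => ?_
  rw [← Finset.sum_sub_distrib]
  exact Finset.sum_congr rfl fun j _ => by ring

lemma lin_lip (u : Fin n → ℝ) :
    ∃ L : ℝ≥0, LipschitzWith L (fun x : E n => ∑ i, u i * x i) ∧
      ∀ x, ‖fderiv ℝ (fun x : E n => ∑ i, u i * x i) x‖ ^ 2 = ∑ i, u i ^ 2 := by
  set v : E n := (WithLp.equiv 2 _).symm u with hv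
  have e : (fun x : E n => ∑ i, u i * x i) = fun x => innerSL ℝ v x := by
    funext x
    rw [innerSL_apply_apply, PiLp.inner_apply]
    exact Finset.sum_congr rfl fun i _ => by simp [hv, mul_comm]
  refine ⟨‖innerSL ℝ v‖₊, ?_, fun x => ?_⟩
  · rw [e]; exact (innerSL ℝ v).lipschitz
  · rw [e, ContinuousLinearMap.fderiv, innerSL_apply_norm, EuclideanSpace.norm_sq_eq]
    exact Finset.sum_congr rfl fun i _ => by simp [hv]

theorem pC_le (hw : Ex w) (hc : 0 ≤ c) (h : SLC c w) (hs : 0 < s) (y : E n) :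
    LeQ (pC w s y) ((s / (1 + c * s)) • (1 : Mt n)) := by
  intro u
  obtain ⟨L, hL, hD⟩ := lin_lip u
  have key := post_poincare hw hc h hs hL y
  rw [pC_quad hw hs]
  refine key.trans (le_of_eq ?_)
  have : (fun x : E n => ‖fderiv ℝ (fun x : E n => ∑ i, u i * x i) x‖ ^ 2) =
      fun _ => ∑ i, u i ^ 2 := funext hD
  rw [this, pE_const hw hs]
  simp only [Matrix.smul_mulVec, Matrix.one_mulVec, dotProduct_smul, smul_eq_mul]
  congr 1
  exact Finset.sum_congr rfl fun i _ => by ring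

/-- Jensen: `(E F)² ≤ E F²` for the posterior -/
lemma pE_sq_le (hw : Ex w) (hs : 0 < s) (hF : EG F) (y : E n) :
    (pE w s F y) ^ 2 ≤ pE w s (fun x => F x ^ 2) y := by
  set m := pE w s F y with hm
  have hF2 : EG fun x => F x ^ 2 := by simpa [sq] using hF.mul hF
  have h1 : 0 ≤ pE w s (fun x => (F x - m) ^ 2) y := pE_nonneg hw hs (fun x => sq_nonneg _) y
  have e : (fun x => (F x - m) ^ 2) = fun x => (F x ^ 2 - 2 * m * F x) + m ^ 2 := by
    funext x; ring
  rw [e, pE_add hw hs (hF2.sub (hF.smul _)) (EG.const _), pE_sub hw hs hF2 (hF.smul _), pE_smul,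
    pE_const hw hs, ← hm] at h1
  nlinarith

theorem pC_nonneg (hw : Ex w) (hs : 0 < s) (y : E n) : LeQ 0 (pC w s y) := by
  intro u
  rw [pC_quad hw hs]
  have := pE_sq_le hw hs (EG.lin u) y
  simp only [Matrix.zero_mulVec, dotProduct_zero]
  linarith

/-! ### the potential of the noisy vector -/

/-- potential of `Y = X + √s G` up to a constant -/
noncomputable def Vp (w : E n → ℝ) (s : ℝ) (y : E n) : ℝ := -Real.log (Lp w s (fun _ => 1) y)

/-- its gradient -/
noncomputable def Vg (w : E n → ℝ) (s : ℝ) (k : Fin n) (y : E n) : ℝ :=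
  (y k - pE w s (fun x => x k) y) / s

/-- its Hessian -/
noncomputable def Vh (w : E n → ℝ) (s : ℝ) (y : E n) : Mt n :=
  (1 / s) • ((1 : Mt n) - (1 / s) • pC w s y)

theorem Vp_contDiff (hw : Ex w) (hs : 0 < s) : ContDiff ℝ ∞ (Vp w s) :=
  ((contDiff_Lp_infty hw hs (EG.const 1)).log fun y => (Lp_one_pos hw hs y).ne').neg

theorem pd_Vp (hw : Ex w) (hs : 0 < s) (k : Fin n) (y : E n) : pd k (Vp w s) y = Vg w s k y := by
  have h0 := Lp_one_pos hw hs y
  have d1 := hasFDerivAt_Lp hw hs (EG.const 1) y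
  have e1 := pd_Lp hw hs (EG.const 1) k y
  unfold pd at e1 ⊢
  rw [d1.fderiv] at e1
  have d2 := (d1.log h0.ne').neg
  have e2 : Vp w s = -fun y => Real.log (Lp w s (fun _ => 1) y) := rfl
  rw [e2, d2.fderiv]
  simp only [_root_.neg_apply, _root_.smul_apply, smul_eq_mul]
  rw [e1]
  unfold Vg pE
  simp only [one_mul]
  field_simp
  ring

theorem Vg_contDiff (hw : Ex w) (hs : 0 < s) (k : Fin n) : ContDiff ℝ ∞ (Vg w s k) :=
  ContDiff.div_const (ContDiff.sub (EuclideanSpace.proj k : E n →L[ℝ] ℝ).contDiff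
    (contDiff_pE hw hs (EG.coord k))) _

lemma pd_coord (l k : Fin n) (y : E n) : pd l (fun y : E n => y k) y = if l = k then 1 else 0 := by
  unfold pd
  have : (fun y : E n => y k) = fun y => (EuclideanSpace.proj k : E n →L[ℝ] ℝ) y := rfl
  rw [this, ContinuousLinearMap.fderiv, prj_apply]
  by_cases h : l = k
  · subst h; simp
  · rw [if_neg h, PiLp.single_apply, if_neg (Ne.symm h)]

theorem pd_Vg (hw : Ex w) (hs : 0 < s) (l k : Fin n) (y : E n) :
    pd l (Vg w s k) y = Vh w s y l k := by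
  have e0 : Vg w s k = fun y => (1 / s) * (y k - pE w s (fun x => x k) y) := by
    funext y; unfold Vg; ring
  have d1 : DifferentiableAt ℝ (fun y : E n => y k) y :=
    (EuclideanSpace.proj k : E n →L[ℝ] ℝ).differentiableAt
  have d2 : DifferentiableAt ℝ (pE w s fun x => x k) y :=
    ((contDiff_pE hw hs (EG.coord k)).differentiable (by simp)).differentiableAt
  have e1 := pd_coord l k y
  have e2 := pd_pE hw hs (EG.coord k) l y
  rw [e0]
  unfold pd at e1 e2 ⊢
  have e4 : HasFDerivAt (fun y => (1 / s) * (y k - pE w s (fun x => x k) y))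
      ((1 / s) • (fderiv ℝ (fun y : E n => y k) y - fderiv ℝ (pE w s fun x => x k) y)) y :=
    (d1.hasFDerivAt.sub d2.hasFDerivAt).const_mul (1 / s)
  rw [e4.fderiv]
  simp only [_root_.smul_apply, _root_.sub_apply, smul_eq_mul]
  rw [e1, e2]
  simp only [Vh, pC, Matrix.smul_apply, Matrix.sub_apply, Matrix.one_apply, Matrix.of_apply,
    smul_eq_mul]
  have e3 : (fun x : E n => x k * x l) = fun x => x l * x k := by funext x; ring
  rw [e3]
  split_ifs <;> ring

lemma Vh_symm (w : E n → ℝ) (s : ℝ) (y : E n) : (Vh w s y)ᵀ = Vh w s y := by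
  unfold Vh
  rw [Matrix.transpose_smul, Matrix.transpose_sub, Matrix.transpose_smul, pC_symm,
    Matrix.transpose_one]

lemma Vh_quad (w : E n → ℝ) (s : ℝ) (y : E n) (u : Fin n → ℝ) :
    u ⬝ᵥ (Vh w s y *ᵥ u) = (1 / s) * (u ⬝ᵥ u - (1 / s) * (u ⬝ᵥ (pC w s y *ᵥ u))) := by
  unfold Vh
  simp only [Matrix.smul_mulVec, Matrix.sub_mulVec, Matrix.one_mulVec, dotProduct_smul,
    dotProduct_sub, smul_eq_mul]

/-- `V'' ≤ 1/s` -/
theorem Vh_le (hw : Ex w) (hs : 0 < s) (y : E n) : LeQ (Vh w s y) ((1 / s) • (1 : Mt n)) := by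
  intro u
  rw [Vh_quad]
  have h := pC_nonneg hw hs y u
  simp only [Matrix.zero_mulVec, dotProduct_zero] at h
  simp only [Matrix.smul_mulVec, Matrix.one_mulVec, dotProduct_smul, smul_eq_mul]
  have h1 : 0 < 1 / s := by positivity
  have h2 : 0 ≤ (1 / s) * (u ⬝ᵥ (pC w s y *ᵥ u)) := mul_nonneg h1.le h
  exact mul_le_mul_of_nonneg_left (by linarith) h1.le

/-- `V'' ≥ c/(1+cs)` -/
theorem Vh_ge (hw : Ex w) (hc : 0 ≤ c) (h : SLC c w) (hs : 0 < s) (y : E n) :
    LeQ ((c / (1 + c * s)) • (1 : Mt n)) (Vh w s y) := by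
  intro u
  rw [Vh_quad]
  have h1 := pC_le hw hc h hs y u
  simp only [Matrix.smul_mulVec, Matrix.one_mulVec, dotProduct_smul, smul_eq_mul] at h1 ⊢
  have h2 : 0 < 1 / s := by positivity
  have h3 : (1 / s) * (u ⬝ᵥ u - (1 / s) * (s / (1 + c * s) * (u ⬝ᵥ u))) =
      c / (1 + c * s) * (u ⬝ᵥ u) := by
    have : 0 < 1 + c * s := by positivity
    field_simp
    ring
  rw [← h3]
  refine mul_le_mul_of_nonneg_left ?_ h2.le
  have := mul_le_mul_of_nonneg_left h1 h2.le
  linarith

end Crest.Agent.R201.An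
end

-- ▼ part R201/An3_293
section

/-!
# R201 AN-3: Gaussian integrals, Fubini, the semigroup (tower) property (helper293)
-/

set_option autoImplicit false
open MeasureTheory Matrix Filter Topology
open scoped ContDiff RealInnerProductSpace NNReal

namespace Crest.Agent.R201.An

open Crest.Agent.R201 Crest.Agent.R144.Fi865

variable {n : ℕ} {w F G : E n → ℝ} {s s₀ c : ℝ}

lemma int_gk (hs : 0 < s) : Integrable (gk s : E n → ℝ) := by
  have h := (GaussianFourier.integrable_cexp_neg_mul_sq_norm_add (V := E n)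
    (b := ((1 / (2 * s) : ℝ) : ℂ)) (by simpa using hs) 0 0).norm
  refine h.congr (ae_of_all _ fun z => ?_)
  simp only [Complex.norm_exp, gk]
  congr 1
  rw [zero_mul, add_zero, ← Complex.ofReal_pow, ← Complex.ofReal_neg, ← Complex.ofReal_mul,
    Complex.ofReal_re]
  ring

lemma exp_gk_le (hs : 0 < s) (a : ℝ) (z : E n) :
    Real.exp (a * ‖z‖) * gk s z ≤ Real.exp (a ^ 2 * s) * gk (2 * s) z := by
  unfold gk
  rw [← Real.exp_add, ← Real.exp_add]
  apply Real.exp_le_exp.2
  have h : 0 ≤ (‖z‖ - 2 * s * a) ^ 2 / (4 * s) := by positivity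
  have e : (‖z‖ - 2 * s * a) ^ 2 / (4 * s) = ‖z‖ ^ 2 / (4 * s) - a * ‖z‖ + a ^ 2 * s := by
    field_simp
    ring
  have e2 : ‖z‖ ^ 2 / (2 * s) = 2 * (‖z‖ ^ 2 / (4 * s)) := by
    field_simp
    ring
  have e3 : ‖z‖ ^ 2 / (2 * (2 * s)) = ‖z‖ ^ 2 / (4 * s) := by ring
  rw [e2, e3]
  linarith

lemma int_exp_gk (hs : 0 < s) (a : ℝ) : Integrable fun z : E n => Real.exp (a * ‖z‖) * gk s z := by
  refine ((int_gk (n := n) (s := 2 * s) (by positivity)).const_mul (Real.exp (a ^ 2 * s))).mono'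
    ?_ (ae_of_all _ fun z => ?_)
  · exact ((by fun_prop : Continuous fun z : E n => Real.exp (a * ‖z‖)).mul
      (gk_cont s)).aestronglyMeasurable
  · rw [Real.norm_of_nonneg (mul_nonneg (Real.exp_pos _).le (gk_pos _ _).le)]
    exact exp_gk_le hs a z

lemma gk_int_pos (hs : 0 < s) : 0 < ∫ z : E n, gk s z := by
  rw [integral_pos_iff_support_of_nonneg (fun z => (gk_pos s z).le) (int_gk hs)]
  have : Function.support (gk s : E n → ℝ) = Set.univ := by
    ext z; simp [(gk_pos s z).ne']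
  rw [this]
  exact isOpen_univ.measure_pos volume Set.univ_nonempty

lemma EG.bound (hF : EG F) : ∃ C a : ℝ, 0 ≤ C ∧ 0 ≤ a ∧ ∀ x, |F x| ≤ C * Real.exp (a * ‖x‖) := hF.2

/-- joint integrability -/
theorem Ex.int_prod (hw : Ex w) (hs : 0 < s) {H : E n → ℝ} (hH : EG H) (hF : EG F) :
    Integrable (fun p : E n × E n => H p.1 * (F p.2 * (w p.2 * gk s (p.1 - p.2))))
      (volume.prod volume) := by
  obtain ⟨C, a, hC, ha, hB⟩ := hH.2
  obtain ⟨C', a', hC', ha', hB'⟩ := hF.2
  have h1 : Integrable fun x : E n => Real.exp ((a + a') * ‖x‖) * w x := hw.int _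
  have h2 := (h1.convolution_integrand (ContinuousLinearMap.mul ℝ ℝ)
    (int_exp_gk (n := n) hs a)).const_mul (C * C')
  refine h2.mono' ?_ (ae_of_all _ fun p => ?_)
  · have m1 : Measurable fun p : E n × E n => H p.1 := hH.1.comp measurable_fst
    have m2 : Measurable fun p : E n × E n => F p.2 := hF.1.comp measurable_snd
    have m3 : Measurable fun p : E n × E n => w p.2 := hw.meas.comp measurable_snd
    have m4 : Measurable fun p : E n × E n => gk s (p.1 - p.2) :=
      (gk_cont (n := n) s).measurable.comp (measurable_fst.sub measurable_snd)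
    exact (m1.mul (m2.mul (m3.mul m4))).aestronglyMeasurable
  · simp only [ContinuousLinearMap.mul_apply']
    rw [Real.norm_eq_abs, abs_mul, abs_mul, abs_mul, abs_of_nonneg (hw.nonneg p.2),
      abs_of_pos (gk_pos _ _)]
    have h5 : |H p.1| ≤ C * (Real.exp (a * ‖p.1 - p.2‖) * Real.exp (a * ‖p.2‖)) := by
      refine (hB p.1).trans ?_
      rw [← Real.exp_add, ← mul_add]
      refine mul_le_mul_of_nonneg_left (Real.exp_le_exp.2 (mul_le_mul_of_nonneg_left ?_ ha)) hC
      calc ‖p.1‖ = ‖p.1 - p.2 + p.2‖ := by rw [sub_add_cancel]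
        _ ≤ _ := norm_add_le _ _
    have h6 := hB' p.2
    have h7 := hw.nonneg p.2
    have h8 := (gk_pos s (p.1 - p.2)).le
    calc |H p.1| * (|F p.2| * (w p.2 * gk s (p.1 - p.2)))
        ≤ (C * (Real.exp (a * ‖p.1 - p.2‖) * Real.exp (a * ‖p.2‖))) *
          ((C' * Real.exp (a' * ‖p.2‖)) * (w p.2 * gk s (p.1 - p.2))) := by gcongr
      _ = _ := by
        rw [add_mul, Real.exp_add]
        ring

/-- Fubini -/
theorem Ex.fubini (hw : Ex w) (hs : 0 < s) {H : E n → ℝ} (hH : EG H) (hF : EG F) :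
    ∫ y, H y * Lp w s F y = ∫ x, F x * w x * ∫ y, H y * gk s (y - x) := by
  have h := hw.int_prod hs hH hF
  have e := integral_integral_swap (f := fun (y x : E n) => H y * (F x * (w x * gk s (y - x)))) h
  unfold Lp
  calc ∫ y, H y * ∫ x, F x * (w x * gk s (y - x))
      = ∫ y, ∫ x, H y * (F x * (w x * gk s (y - x))) := by
        simp_rw [integral_const_mul]
    _ = ∫ x, ∫ y, H y * (F x * (w x * gk s (y - x))) := e
    _ = _ := by
        refine integral_congr_ae (ae_of_all _ fun x => ?_)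
        simp only
        rw [← integral_const_mul]
        refine integral_congr_ae (ae_of_all _ fun y => ?_)
        simp only
        ring

/-- integrability of `H · Lp w s F` -/
theorem Ex.int_H_Lp (hw : Ex w) (hs : 0 < s) {H : E n → ℝ} (hH : EG H) (hF : EG F) :
    Integrable fun y => H y * Lp w s F y := by
  have h := (hw.int_prod hs hH hF).integral_prod_left
  refine h.congr (ae_of_all _ fun y => ?_)
  simp only [Lp]
  rw [integral_const_mul]

lemma Lp_meas (hw : Ex w) (hs : 0 < s) (hF : EG F) : Measurable (Lp w s F) :=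
  (contDiff_Lp_infty hw hs hF).continuous.measurable

lemma EG.exp (a : ℝ) : EG fun x : E n => Real.exp (a * ‖x‖) := by
  refine ⟨by fun_prop, 1, |a|, zero_le_one, abs_nonneg _, fun x => ?_⟩
  rw [abs_of_pos (Real.exp_pos _), one_mul]
  exact Real.exp_le_exp.2 (mul_le_mul_of_nonneg_right (le_abs_self _) (norm_nonneg _))

/-- the noisy weight has all exponential moments -/
theorem Ex.noisy (hw : Ex w) (hs : 0 < s) : Ex (Lp w s fun _ => 1) where
  nonneg y := (Lp_one_pos hw hs y).le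
  meas := Lp_meas hw hs (EG.const 1)
  int a := hw.int_H_Lp hs (EG.exp a) (EG.const 1)
  pos := by
    have h1 : Integrable (Lp w s fun _ => 1) := by
      simpa using hw.int_H_Lp hs (EG.const 1) (EG.const 1)
    rw [integral_pos_iff_support_of_nonneg (fun z => (Lp_one_pos hw hs z).le) h1]
    have : Function.support (Lp w s fun _ => 1) = Set.univ := by
      ext z; simp [(Lp_one_pos hw hs z).ne']
    rw [this]
    exact isOpen_univ.measure_pos volume Set.univ_nonempty

/-! ### Gaussian semigroup -/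

lemma gk_sq (hs : 0 < s) (hs₀ : 0 < s₀) (z v : E n) :
    gk s (z - v) * gk s₀ v =
      gk (s₀ + s) z * gk (s₀ * s / (s₀ + s)) (v - (s₀ / (s₀ + s)) • z) := by
  unfold gk
  rw [← Real.exp_add, ← Real.exp_add]
  congr 1
  rw [norm_sub_sq_real, norm_sub_sq_real, norm_smul, inner_smul_right, real_inner_comm v z,
    Real.norm_eq_abs, mul_pow, sq_abs]
  have h1 : s₀ + s ≠ 0 := by positivity
  field_simp
  ring

/-- the Gaussian constant -/
noncomputable def gC (n : ℕ) (s₀ s : ℝ) : ℝ := ∫ z : E n, gk (s₀ * s / (s₀ + s)) z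

lemma gC_pos (hs : 0 < s) (hs₀ : 0 < s₀) : 0 < gC n s₀ s := gk_int_pos (by positivity)

lemma gk_conv (hs : 0 < s) (hs₀ : 0 < s₀) (z x : E n) :
    ∫ u : E n, gk s (z - u) * gk s₀ (u - x) = gC n s₀ s * gk (s₀ + s) (z - x) := by
  have e1 : ∫ u : E n, gk s (z - u) * gk s₀ (u - x) = ∫ v : E n, gk s (z - x - v) * gk s₀ v := by
    rw [← integral_add_right_eq_self (μ := volume) (fun u => gk s (z - u) * gk s₀ (u - x)) x]
    refine integral_congr_ae (ae_of_all _ fun v => ?_)
    simp only [add_sub_cancel_right]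
    congr 2
    abel
  rw [e1]
  simp_rw [gk_sq hs hs₀]
  rw [integral_const_mul]
  rw [integral_sub_right_eq_self (fun v => gk (s₀ * s / (s₀ + s)) v)]
  unfold gC
  ring

/-- semigroup at the level of `Lp` -/
theorem Lp_tower (hw : Ex w) (hs : 0 < s) (hs₀ : 0 < s₀) (hF : EG F) (z : E n) :
    ∫ u, Lp w s₀ F u * gk s (z - u) = gC n s₀ s * Lp w (s₀ + s) F z := by
  have hH : EG fun u : E n => gk s (z - u) :=
    EG.of_bdd ((gk_cont (n := n) s).measurable.comp (measurable_const.sub measurable_id))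
      (C := 1) fun u => by
        rw [abs_of_pos (gk_pos _ _)]
        exact gk_le_one hs _
  have h := hw.fubini hs₀ hH hF
  calc ∫ u, Lp w s₀ F u * gk s (z - u) = ∫ u, gk s (z - u) * Lp w s₀ F u := by
        simp_rw [mul_comm]
    _ = ∫ x, F x * w x * ∫ y, gk s (z - y) * gk s₀ (y - x) := h
    _ = ∫ x, gC n s₀ s * (F x * (w x * gk (s₀ + s) (z - x))) := by
        refine integral_congr_ae (ae_of_all _ fun x => ?_)
        simp only
        rw [gk_conv hs hs₀]
        ring
    _ = _ := by rw [integral_const_mul]; rfl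

lemma pE_mul_one (hw : Ex w) (hs : 0 < s) (F : E n → ℝ) (y : E n) :
    pE w s F y * Lp w s (fun _ => 1) y = Lp w s F y :=
  div_mul_cancel₀ _ (Lp_one_pos hw hs y).ne'

theorem Lp_noisy (hw : Ex w) (hs : 0 < s) (hs₀ : 0 < s₀) (hF : EG F) (z : E n) :
    Lp (Lp w s₀ fun _ => 1) s (pE w s₀ F) z = gC n s₀ s * Lp w (s₀ + s) F z := by
  rw [← Lp_tower hw hs hs₀ hF]
  refine integral_congr_ae (ae_of_all _ fun u => ?_)
  simp only
  rw [← mul_assoc, pE_mul_one hw hs₀]

theorem Lp_noisy_one (hw : Ex w) (hs : 0 < s) (hs₀ : 0 < s₀) (z : E n) :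
    Lp (Lp w s₀ fun _ => 1) s (fun _ => 1) z = gC n s₀ s * Lp w (s₀ + s) (fun _ => 1) z := by
  have h := Lp_noisy hw hs hs₀ (EG.const 1) z
  have e : pE w s₀ (fun _ => 1) = fun _ => 1 := by
    funext u; exact pE_const hw hs₀ 1 u
  rwa [e] at h


/-- expectation under the law of `Y` -/
theorem int_pE (hw : Ex w) (hs : 0 < s) (hF : EG F) :
    ∫ y, pE w s F y * Lp w s (fun _ => 1) y = (∫ z : E n, gk s z) * ∫ x, F x * w x := by
  have e : ∫ y, pE w s F y * Lp w s (fun _ => 1) y = ∫ y, (1 : ℝ) * Lp w s F y := by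
    refine integral_congr_ae (ae_of_all _ fun y => ?_)
    simp only [pE]
    have := (Lp_one_pos hw hs y).ne'
    field_simp
  rw [e, hw.fubini hs (EG.const 1) hF]
  have e2 : ∀ x : E n, ∫ y : E n, (1 : ℝ) * gk s (y - x) = ∫ z : E n, gk s z := by
    intro x
    simp only [one_mul]
    exact integral_sub_right_eq_self (fun v => gk s v) x
  simp_rw [e2]
  rw [integral_mul_const]
  ring

end Crest.Agent.R201.An
end

-- ▼ part R201/An4_293
section

/-!
# R201 AN-4: strong log-concavity from a Hessian bound; the noisy weight is SLC (helper293)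
-/

set_option autoImplicit false
open MeasureTheory Matrix Filter Topology
open scoped ContDiff RealInnerProductSpace NNReal

namespace Crest.Agent.R201.An

open Crest.Agent.R201 Crest.Agent.R144.Fi865

variable {n : ℕ} {w F G : E n → ℝ} {s s₀ c : ℝ}

lemma vec_eq_sum (v : E n) : v = ∑ k, v k • (EuclideanSpace.single k (1 : ℝ) : E n) := by
  ext i
  simp [Finset.sum_apply, Pi.single_apply]

lemma fderiv_eq_sum (f : E n → ℝ) (z v : E n) : fderiv ℝ f z v = ∑ k, v k * pd k f z := by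
  conv_lhs => rw [vec_eq_sum v]
  rw [map_sum]
  exact Finset.sum_congr rfl fun k _ => by rw [map_smul]; rfl

lemma line_deriv {f : E n → ℝ} (hf : Differentiable ℝ f) (x v : E n) (t : ℝ) :
    HasDerivAt (fun t : ℝ => f (x + t • v)) (∑ k, v k * pd k f (x + t • v)) t := by
  have h1 : HasDerivAt (fun t : ℝ => x + t • v) v t := by
    simpa using ((hasDerivAt_id t).smul_const v).const_add x
  have h2 := (hf (x + t • v)).hasFDerivAt.comp_hasDerivAt t h1
  rw [fderiv_eq_sum] at h2
  exact h2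


lemma exp_neg_Vp (hw : Ex w) (hs : 0 < s) (y : E n) :
    Real.exp (-(Vp w s y)) = Lp w s (fun _ => 1) y := by
  unfold Vp
  rw [neg_neg, Real.exp_log (Lp_one_pos hw hs y)]


end Crest.Agent.R201.An
end

-- ▼ part R201/An5_293
section

/-!
# R201 AN-5: bounded posteriors, Bessel, total covariance, the field `P` (helper293)
-/

set_option autoImplicit false
open MeasureTheory Matrix Filter Topology
open scoped ContDiff RealInnerProductSpace NNReal

namespace Crest.Agent.R201.An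

open Crest.Agent.R201 Crest.Agent.R144.Fi865

variable {n : ℕ} {w F G : E n → ℝ} {s s₀ c R : ℝ}

lemma pE_bdd (hw : Wt c R w) (hs : 0 < s) (hF : EG F) {B : ℝ} (hB : ∀ x, ‖x‖ ≤ R → |F x| ≤ B)
    (y : E n) : |pE w s F y| ≤ B := by
  have h0 := Lp_one_pos hw.ex hs y
  unfold pE
  rw [abs_div, abs_of_pos h0, div_le_iff₀ h0]
  unfold Lp
  refine (abs_integral_le_integral_abs).trans ?_
  rw [← integral_const_mul]
  refine integral_mono (hw.ex.int_Lp hs hF y).abs ((hw.ex.int_Lp hs (EG.const 1) y).const_mul B)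
    fun x => ?_
  simp only [one_mul]
  rw [abs_mul, abs_of_nonneg (mul_nonneg (hw.nonneg x) (gk_pos _ _).le)]
  by_cases h : w x = 0
  · simp [h]
  · exact mul_le_mul_of_nonneg_right (hB x (hw.supp x h))
      (mul_nonneg (hw.nonneg x) (gk_pos _ _).le)

lemma pE_bdd' (hw : Wt c R w) (hs : 0 < s) (hF : EG F) : ∃ B : ℝ, ∀ y, |pE w s F y| ≤ B := by
  obtain ⟨C, a, hC, ha, hB⟩ := hF.2
  refine ⟨C * Real.exp (a * R), fun y => pE_bdd hw hs hF (fun x hx => (hB x).trans ?_) y⟩
  exact mul_le_mul_of_nonneg_left (Real.exp_le_exp.2 (mul_le_mul_of_nonneg_left hx ha)) hC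

lemma EG.pE (hw : Wt c R w) (hs : 0 < s) (hF : EG F) : EG (pE w s F) := by
  obtain ⟨B, hB⟩ := pE_bdd' hw hs hF
  exact EG.of_bdd (contDiff_pE hw.ex hs hF).continuous.measurable hB

lemma EG.pC (hw : Wt c R w) (hs : 0 < s) (i j : Fin n) : EG fun u => pC w s u i j :=
  (EG.pE hw hs ((EG.coord i).mul (EG.coord j))).sub
    ((EG.pE hw hs (EG.coord i)).mul (EG.pE hw hs (EG.coord j)))

lemma EG.quad (hw : Wt c R w) (hs : 0 < s) (u : Fin n → ℝ) :
    EG fun x => u ⬝ᵥ (An.pC w s x *ᵥ u) := by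
  simp only [dotProduct, Matrix.mulVec]
  exact EG.sum _ fun i _ => by
    have := (EG.sum (Finset.univ : Finset (Fin n)) fun j _ =>
      (EG.pC hw hs i j).mul (EG.const (u j))).smul (u i)
    exact this

lemma EG.Vg (hw : Wt c R w) (hs : 0 < s) (k : Fin n) : EG (Vg w s k) := by
  have := ((EG.coord k).sub (EG.pE hw hs (EG.coord k))).smul (1 / s)
  have e : An.Vg w s k = fun x => 1 / s * (x k - An.pE w s (fun x => x k) x) := by
    funext x; unfold An.Vg; ring
  rw [e]
  exact this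

/-! ### Bessel -/

theorem bessel (hw : Ex w) (hc : 0 ≤ c) (h : SLC c w) (hs : 0 < s) (hF : EG F) (y : E n) :
    ∑ k, (pE w s (fun x => F x * x k) y - pE w s F y * pE w s (fun x => x k) y) ^ 2 ≤
      s * (pE w s (fun x => F x ^ 2) y - pE w s F y ^ 2) := by
  set b : Fin n → ℝ := fun k => pE w s (fun x => F x * x k) y - pE w s F y * pE w s (fun x => x k) y
    with hb
  set L : E n → ℝ := fun x => ∑ k, b k * x k with hL
  have hLE : EG L := EG.lin b
  have hF2 : EG fun x => F x ^ 2 := by simpa [sq] using hF.mul hF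
  have hL2 : EG fun x => L x ^ 2 := by simpa [sq] using hLE.mul hLE
  have hFL : EG fun x => F x * L x := hF.mul hLE
  have e1 : pE w s (fun x => F x * L x) y = ∑ k, b k * pE w s (fun x => F x * x k) y := by
    have : (fun x => F x * L x) = fun x => ∑ k, b k * (F x * x k) := by
      funext x
      simp only [hL, Finset.mul_sum]
      exact Finset.sum_congr rfl fun k _ => by ring
    rw [this, pE_sum _ hw hs fun k _ => (hF.mul (EG.coord k)).smul _]
    exact Finset.sum_congr rfl fun k _ => pE_smul _ _ _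
  have e2 : pE w s L y = ∑ k, b k * pE w s (fun x => x k) y := pE_lin hw hs b y
  have e3 : pE w s (fun x => F x * L x) y - pE w s F y * pE w s L y = ∑ k, b k ^ 2 := by
    rw [e1, e2, Finset.mul_sum, ← Finset.sum_sub_distrib]
    exact Finset.sum_congr rfl fun k _ => by simp only [hb]; ring
  have e4 : pE w s (fun x => L x ^ 2) y - pE w s L y ^ 2 ≤ s * ∑ k, b k ^ 2 := by
    have h1 := pC_le hw hc h hs y b
    rw [pC_quad hw hs] at h1
    refine h1.trans ?_
    simp only [Matrix.smul_mulVec, Matrix.one_mulVec, dotProduct_smul, smul_eq_mul]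
    have h2 : b ⬝ᵥ b = ∑ k, b k ^ 2 := Finset.sum_congr rfl fun k _ => by ring
    rw [h2]
    refine mul_le_mul_of_nonneg_right ?_ (Finset.sum_nonneg fun k _ => sq_nonneg _)
    exact div_le_self hs.le (by nlinarith [mul_nonneg hc hs.le])
  have h5 := pE_sq_le hw hs (hF.sub (hLE.smul (1 / s))) y
  have e6 : pE w s (fun x => F x - 1 / s * L x) y = pE w s F y - 1 / s * pE w s L y := by
    rw [pE_sub hw hs hF (hLE.smul _), pE_smul]
  have e7 : pE w s (fun x => (F x - 1 / s * L x) ^ 2) y =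
      pE w s (fun x => F x ^ 2) y - 2 / s * pE w s (fun x => F x * L x) y +
        1 / s ^ 2 * pE w s (fun x => L x ^ 2) y := by
    have : (fun x => (F x - 1 / s * L x) ^ 2) = fun x =>
        (F x ^ 2 - 2 / s * (F x * L x)) + 1 / s ^ 2 * L x ^ 2 := by
      funext x
      field_simp
      ring
    rw [this, pE_add hw hs (hF2.sub (hFL.smul _)) (hL2.smul _), pE_sub hw hs hF2 (hFL.smul _),
      pE_smul, pE_smul]
  rw [e6, e7] at h5
  set A := pE w s (fun x => F x ^ 2) y
  set B := pE w s (fun x => F x * L x) y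
  set D := pE w s (fun x => L x ^ 2) y
  set f := pE w s F y
  set l := pE w s L y
  set S := ∑ k, b k ^ 2
  have h6 : 0 ≤ s ^ 2 * (A - f ^ 2) - 2 * s * S + (D - l ^ 2) := by
    have h7 : 0 ≤ s ^ 2 * (A - 2 / s * B + 1 / s ^ 2 * D - (f - 1 / s * l) ^ 2) :=
      mul_nonneg (sq_nonneg _) (by linarith)
    have h8 : s ^ 2 * (A - 2 / s * B + 1 / s ^ 2 * D - (f - 1 / s * l) ^ 2) =
        s ^ 2 * (A - f ^ 2) - 2 * s * (B - f * l) + (D - l ^ 2) := by
      field_simp
      ring
    rw [h8, e3] at h7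
    exact h7
  have h9 : s * S ≤ s * (s * (A - f ^ 2)) := by nlinarith
  exact le_of_mul_le_mul_left h9 hs

/-- `A² ≤ A` for symmetric `0 ≤ A ≤ 1` -/
lemma sq_le_self {A : Mt n} (hA : Aᵀ = A) (h0 : LeQ 0 A) (h1 : LeQ A 1) (u : Fin n → ℝ) :
    (A *ᵥ u) ⬝ᵥ (A *ᵥ u) ≤ u ⬝ᵥ (A *ᵥ u) := by
  set v := A *ᵥ u with hv
  have k0 := h0 (u - v)
  have k1 := h1 v
  simp only [Matrix.zero_mulVec, dotProduct_zero, Matrix.one_mulVec] at k0 k1
  rw [Matrix.mulVec_sub, ← hv] at k0
  simp only [sub_dotProduct, dotProduct_sub] at k0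
  have e1 : u ⬝ᵥ (A *ᵥ v) = v ⬝ᵥ v := by
    rw [Matrix.dotProduct_mulVec, ← Matrix.mulVec_transpose, hA]
  rw [e1] at k0
  linarith

/-! ### composition of the two noises -/








end Crest.Agent.R201.An
end

-- ▼ part R201/An6_293
section

/-!
# R201 AN-6: the field `P` (helper293)
-/

set_option autoImplicit false
open MeasureTheory Matrix Filter Topology
open scoped ContDiff RealInnerProductSpace NNReal

namespace Crest.Agent.R201.An

open Crest.Agent.R201 Crest.Agent.R144.Fi865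

variable {n : ℕ} {w F G : E n → ℝ} {s s₀ c R : ℝ}

/-- entries of `A = Cov(X | U)/s₀` -/
noncomputable def Af (w : E n → ℝ) (s₀ : ℝ) (i j : Fin n) (x : E n) : ℝ := 1 / s₀ * pC w s₀ x i j


/-- the field `P` -/
noncomputable def PP (w : E n → ℝ) (s₀ s : ℝ) (y : E n) : Mt n :=
  Matrix.of fun i j => pE (Lp w s₀ fun _ => 1) s (Af w s₀ i j) y






lemma pC_bdd (hw : Wt c R w) (hs : 0 < s) (i j : Fin n) : ∃ B : ℝ, ∀ y, |pC w s y i j| ≤ B := by
  obtain ⟨B1, h1⟩ := pE_bdd' hw hs ((EG.coord i).mul (EG.coord j))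
  obtain ⟨B2, h2⟩ := pE_bdd' hw hs (EG.coord i)
  obtain ⟨B3, h3⟩ := pE_bdd' hw hs (EG.coord j)
  refine ⟨B1 + B2 * B3, fun y => ?_⟩
  simp only [pC, Matrix.of_apply]
  refine (abs_sub _ _).trans (add_le_add (h1 y) ?_)
  rw [abs_mul]
  exact mul_le_mul (h2 y) (h3 y) (abs_nonneg _) ((abs_nonneg _).trans (h2 y))


/-- posterior mean of a bounded function is `CB` -/
lemma CB_pE (hw : Ex w) (hc : 0 ≤ c) (h : SLC c w) (hs : 0 < s) (hF : Measurable F) {B : ℝ}
    (hB : ∀ x, |F x| ≤ B) : CB (pE w s F) := by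
  have hE : EG F := EG.of_bdd hF hB
  have hB0 : 0 ≤ B := (abs_nonneg _).trans (hB 0)
  refine ⟨(contDiff_pE hw hs hE).of_le (by norm_cast), B + (1 + 1 / s * B ^ 2), fun y => ⟨?_, fun k => ?_⟩⟩
  · have h1 : pE w s F y ≤ B := by
      have := pE_mono hw hs hE (EG.const B) (fun x => (abs_le.1 (hB x)).2) y
      rwa [pE_const hw hs] at this
    have h2 : -B ≤ pE w s F y := by
      have := pE_mono hw hs (EG.const (-B)) hE (fun x => (abs_le.1 (hB x)).1) y
      rwa [pE_const hw hs] at this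
    have h3 : 0 ≤ 1 / s * B ^ 2 := by positivity
    rw [abs_le]
    constructor <;> linarith
  · have hb := bessel hw hc h hs hE y
    have h1 : (pE w s (fun x => F x * x k) y - pE w s F y * pE w s (fun x => x k) y) ^ 2 ≤
        s * (pE w s (fun x => F x ^ 2) y - pE w s F y ^ 2) :=
      (Finset.single_le_sum (f := fun k => (pE w s (fun x => F x * x k) y -
        pE w s F y * pE w s (fun x => x k) y) ^ 2) (fun _ _ => sq_nonneg _)
        (Finset.mem_univ k)).trans hb
    have h2 : pE w s (fun x => F x ^ 2) y ≤ B ^ 2 := by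
      have h4 : EG fun x => F x ^ 2 := by simpa [sq] using hE.mul hE
      have := pE_mono hw hs h4 (EG.const (B ^ 2)) (fun x => by
        rw [← sq_abs]; exact pow_le_pow_left₀ (abs_nonneg _) (hB x) 2) y
      rwa [pE_const hw hs] at this
    have h3 : (pd k (pE w s F) y) ^ 2 ≤ 1 / s * B ^ 2 := by
      rw [pd_pE hw hs hE k y, div_pow, div_le_iff₀ (by positivity)]
      have h5 : s * (pE w s (fun x => F x ^ 2) y - pE w s F y ^ 2) ≤ s * B ^ 2 :=
        mul_le_mul_of_nonneg_left (by nlinarith [sq_nonneg (pE w s F y)]) hs.le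
      have h6 : 1 / s * B ^ 2 * s ^ 2 = s * B ^ 2 := by field_simp
      rw [h6]
      exact h1.trans h5
    have h4 : |pd k (pE w s F) y| ≤ 1 + 1 / s * B ^ 2 := by
      have h5 : |pd k (pE w s F) y| ^ 2 ≤ 1 / s * B ^ 2 := by rwa [sq_abs]
      nlinarith [sq_nonneg (|pd k (pE w s F) y| - 1), abs_nonneg (pd k (pE w s F) y)]
    linarith

/-! ### the fields of `KD` about `P` -/












/-! ### `1 - P ≤ 2 h V''` -/

lemma norm_fderiv_sq (f : E n → ℝ) (x : E n) : ‖fderiv ℝ f x‖ ^ 2 = ∑ k, pd k f x ^ 2 := by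
  set v : E n := (WithLp.equiv 2 _).symm fun k => pd k f x with hv
  have e : fderiv ℝ f x = innerSL ℝ v := by
    ext z
    rw [fderiv_eq_sum, innerSL_apply_apply, PiLp.inner_apply]
    exact Finset.sum_congr rfl fun i _ => by simp [hv]
  rw [e, innerSL_apply_norm, EuclideanSpace.norm_sq_eq]
  exact Finset.sum_congr rfl fun i _ => by simp [hv]



end Crest.Agent.R201.An
end

-- ▼ part R201/An7_293

/-!
# R201 AN-7: the measures, integration by parts, mean bounds (helper293)
-/

set_option autoImplicit false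
open MeasureTheory Matrix Filter Topology
open scoped ContDiff RealInnerProductSpace NNReal ENNReal

namespace Crest.Agent.R201.An

open Crest.Agent.R201 Crest.Agent.R144.Fi865

variable {n : ℕ} {w ρ F G : E n → ℝ} {s s₀ c R : ℝ}

/-- normalised measure of a weight -/
noncomputable def nm (ρ : E n → ℝ) : Measure (E n) :=
  volume.withDensity fun y => ENNReal.ofReal (ρ y / ∫ z, ρ z)

/-- expectation -/
noncomputable def Em (ρ F : E n → ℝ) : ℝ := (∫ y, F y * ρ y) / ∫ z, ρ z

lemma Ex.integrable (hρ : Ex ρ) : Integrable ρ := by simpa using hρ.int 0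

lemma nm_dens_meas (hρ : Ex ρ) : Measurable fun y => ENNReal.ofReal (ρ y / ∫ z, ρ z) :=
  (hρ.meas.div_const _).ennreal_ofReal

lemma int_nm (hρ : Ex ρ) (F : E n → ℝ) : ∫ y, F y ∂(nm ρ) = Em ρ F := by
  unfold nm Em
  rw [integral_withDensity_eq_integral_toReal_smul (nm_dens_meas hρ)
    (ae_of_all _ fun x => ENNReal.ofReal_lt_top), ← integral_div]
  refine integral_congr_ae (ae_of_all _ fun y => ?_)
  simp only [smul_eq_mul]
  rw [ENNReal.toReal_ofReal (div_nonneg (hρ.nonneg y) hρ.pos.le)]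
  ring

lemma integrable_nm_iff (hρ : Ex ρ) {F : E n → ℝ} :
    Integrable F (nm ρ) ↔ Integrable fun y => F y * ρ y := by
  unfold nm
  rw [integrable_withDensity_iff_integrable_smul' (nm_dens_meas hρ)
    (ae_of_all _ fun x => ENNReal.ofReal_lt_top)]
  have e : (fun y => (ENNReal.ofReal (ρ y / ∫ z, ρ z)).toReal • F y) =
      fun y => (∫ z, ρ z)⁻¹ * (F y * ρ y) := by
    funext y
    rw [ENNReal.toReal_ofReal (div_nonneg (hρ.nonneg y) hρ.pos.le), smul_eq_mul]
    ring
  rw [e]
  constructor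
  · intro h
    have := h.const_mul (∫ z, ρ z)
    refine this.congr (ae_of_all _ fun y => ?_)
    have h0 := hρ.pos.ne'
    simp only
    field_simp
  · intro h; exact h.const_mul _

lemma integrable_nm (hρ : Ex ρ) (hF : EG F) : Integrable F (nm ρ) :=
  (integrable_nm_iff hρ).2 (hρ.int_mul hF)

lemma nm_prob (hρ : Ex ρ) : IsProbabilityMeasure (nm ρ) := by
  constructor
  unfold nm
  rw [withDensity_apply _ MeasurableSet.univ, Measure.restrict_univ,
    ← ofReal_integral_eq_lintegral_ofReal (hρ.integrable.div_const _)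
      (ae_of_all _ fun y => div_nonneg (hρ.nonneg y) hρ.pos.le), integral_div,
    div_self hρ.pos.ne', ENNReal.ofReal_one]

lemma memLp_nm (hρ : Ex ρ) (hF : EG F) : MemLp F 2 (nm ρ) := by
  rw [memLp_two_iff_integrable_sq hF.1.aestronglyMeasurable]
  have : EG fun x => F x ^ 2 := by simpa [sq] using hF.mul hF
  exact integrable_nm hρ this

lemma Em_add (hρ : Ex ρ) (hF : EG F) (hG : EG G) :
    Em ρ (fun x => F x + G x) = Em ρ F + Em ρ G := by
  unfold Em
  rw [← add_div, ← integral_add (hρ.int_mul hF) (hρ.int_mul hG)]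
  congr 1
  exact integral_congr_ae (ae_of_all _ fun y => by simp only; ring)

lemma Em_sub (hρ : Ex ρ) (hF : EG F) (hG : EG G) :
    Em ρ (fun x => F x - G x) = Em ρ F - Em ρ G := by
  unfold Em
  rw [← sub_div, ← integral_sub (hρ.int_mul hF) (hρ.int_mul hG)]
  congr 1
  exact integral_congr_ae (ae_of_all _ fun y => by simp only; ring)

lemma Em_smul (ρ : E n → ℝ) (a : ℝ) (F : E n → ℝ) : Em ρ (fun x => a * F x) = a * Em ρ F := by
  unfold Em
  rw [← mul_div_assoc, ← integral_const_mul]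
  congr 1
  exact integral_congr_ae (ae_of_all _ fun y => by simp only; ring)

lemma Em_const (hρ : Ex ρ) (a : ℝ) : Em ρ (fun _ => a) = a := by
  unfold Em
  rw [integral_const_mul]
  exact mul_div_cancel_right₀ _ hρ.pos.ne'

lemma Em_sum {ι : Type*} (S : Finset ι) {F : ι → E n → ℝ} (hρ : Ex ρ) (h : ∀ i ∈ S, EG (F i)) :
    Em ρ (fun x => ∑ i ∈ S, F i x) = ∑ i ∈ S, Em ρ (F i) := by
  unfold Em
  rw [← Finset.sum_div, ← integral_finsetSum S fun i hi => hρ.int_mul (h i hi)]
  congr 1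
  exact integral_congr_ae (ae_of_all _ fun y => by simp only [Finset.sum_mul])

lemma Em_nonneg (hρ : Ex ρ) (h : ∀ x, 0 ≤ F x) : 0 ≤ Em ρ F :=
  div_nonneg (integral_nonneg fun x => mul_nonneg (h x) (hρ.nonneg x)) hρ.pos.le

lemma Em_mono (hρ : Ex ρ) (hF : EG F) (hG : EG G) (h : ∀ x, F x ≤ G x) : Em ρ F ≤ Em ρ G :=
  div_le_div_of_nonneg_right (integral_mono (hρ.int_mul hF) (hρ.int_mul hG)
    fun x => mul_le_mul_of_nonneg_right (h x) (hρ.nonneg x)) hρ.pos.le


lemma int_noisy (hw : Ex w) (hs : 0 < s) :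
    ∫ y, Lp w s (fun _ => 1) y = (∫ z : E n, gk s z) * ∫ x, w x := by
  have h := int_pE hw hs (EG.const 1)
  have e : pE w s (fun _ => 1) = fun _ => 1 := funext fun y => pE_const hw hs 1 y
  rw [e] at h
  simpa using h

/-- `E[E[F(X)|Y]] = E F(X)` -/
lemma Em_pE (hw : Ex w) (hs : 0 < s) (hF : EG F) :
    Em (Lp w s fun _ => 1) (pE w s F) = Em w F := by
  unfold Em
  rw [int_pE hw hs hF, int_noisy hw hs]
  exact mul_div_mul_left _ _ (gk_int_pos hs).ne'

lemma Em_noisy (hw : Ex w) (hs : 0 < s) (hs₀ : 0 < s₀) (F : E n → ℝ) :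
    Em (Lp w (s₀ + s) fun _ => 1) F = Em (Lp (Lp w s₀ fun _ => 1) s fun _ => 1) F := by
  unfold Em
  have h1 := gC_pos (n := n) hs hs₀
  simp_rw [Lp_noisy_one hw hs hs₀]
  rw [integral_const_mul]
  have e : ∫ y, F y * (gC n s₀ s * Lp w (s₀ + s) (fun _ => 1) y) =
      gC n s₀ s * ∫ y, F y * Lp w (s₀ + s) (fun _ => 1) y := by
    rw [← integral_const_mul]
    exact integral_congr_ae (ae_of_all _ fun y => by simp only; ring)
  rw [e, mul_div_mul_left _ _ h1.ne']

/-! ### integration by parts -/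

lemma pd_noisy (hw : Ex w) (hs : 0 < s) (k : Fin n) (y : E n) :
    pd k (Lp w s fun _ => 1) y = -(Vg w s k y * Lp w s (fun _ => 1) y) := by
  rw [pd_Lp hw hs (EG.const 1)]
  have h0 := (Lp_one_pos hw hs y).ne'
  unfold Vg pE
  simp only [one_mul]
  field_simp
  ring

theorem ibp_EG (hw : Wt c R w) (hs : 0 < s) (k : Fin n) (hF : Differentiable ℝ F) (h0 : EG F)
    (h1 : EG (pd k F)) :
    Em (Lp w s fun _ => 1) (fun x => Vg w s k x * F x) = Em (Lp w s fun _ => 1) (pd k F) := by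
  have hρ := hw.ex.noisy hs
  have key := integral_mul_fderiv_eq_neg_fderiv_mul_of_integrable (μ := (volume : Measure (E n)))
    (f := F) (g := Lp w s fun _ => 1) (v := EuclideanSpace.single k (1 : ℝ))
    (hρ.int_mul h1) ?_ (hρ.int_mul h0) (fun x _ => hF x)
    (fun x _ => ((contDiff_Lp_infty hw.ex hs (EG.const 1)).differentiable (by simp)) x)
  · unfold Em
    congr 1
    change ∫ x, F x * pd k (Lp w s fun _ => 1) x = -∫ x, pd k F x * Lp w s (fun _ => 1) x at key
    rw [← neg_eq_iff_eq_neg] at key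
    rw [← key, ← integral_neg]
    refine integral_congr_ae (ae_of_all _ fun x => ?_)
    simp only
    rw [pd_noisy hw.ex hs]
    ring
  · change Integrable fun x => F x * pd k (Lp w s fun _ => 1) x
    have e : (fun x => F x * pd k (Lp w s fun _ => 1) x) =
        fun x => (-(Vg w s k x * F x)) * Lp w s (fun _ => 1) x := by
      funext x
      rw [pd_noisy hw.ex hs]
      ring
    rw [e]
    exact hρ.int_mul ((EG.Vg hw hs k).mul h0).neg

lemma CB.eg {f : E n → ℝ} (hf : CB f) : EG f ∧ ∀ k, EG (pd k f) := by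
  obtain ⟨h1, B, hB⟩ := hf
  refine ⟨EG.of_bdd h1.continuous.measurable fun x => (hB x).1, fun k => ?_⟩
  refine EG.of_bdd ?_ fun x => (hB x).2 k
  unfold pd
  exact ((h1.continuous_fderiv (by simp)).clm_apply continuous_const).measurable

/-! ### variances -/

/-- variance of `⟨u, X⟩` -/
noncomputable def vX (w : E n → ℝ) (u : Fin n → ℝ) : ℝ :=
  Em w (fun x => (∑ i, u i * x i) ^ 2) - (Em w fun x => ∑ i, u i * x i) ^ 2





/-! ### the fields `r`, `ω` -/

/-- `r = E[X|Y] - E X` -/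
noncomputable def rr (w : E n → ℝ) (h : ℝ) (k : Fin n) (y : E n) : ℝ :=
  pE w h (fun x => x k) y - Em w fun x => x k

/-- `ω = Y - E X` -/
noncomputable def om (w : E n → ℝ) (k : Fin n) (y : E n) : ℝ := y k - Em w fun x => x k



lemma Vh_bdd (hw : Wt c R w) (hs : 0 < s) (i j : Fin n) :
    ∃ B : ℝ, ∀ x, |Vh w s x i j| ≤ B := by
  obtain ⟨B, hB⟩ := pC_bdd hw hs i j
  refine ⟨1 / s * (1 + 1 / s * B), fun x => ?_⟩
  simp only [Vh, Matrix.smul_apply, Matrix.sub_apply, Matrix.one_apply, smul_eq_mul]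
  rw [abs_mul, abs_of_pos (by positivity : (0 : ℝ) < 1 / s)]
  refine mul_le_mul_of_nonneg_left ((abs_sub _ _).trans (add_le_add ?_ ?_)) (by positivity)
  · split_ifs <;> simp
  · rw [abs_mul, abs_of_pos (by positivity : (0 : ℝ) < 1 / s)]
    exact mul_le_mul_of_nonneg_left (hB x) (by positivity)








end Crest.Agent.R201.An
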