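import Crest.Agent.R201.Defs_74

/-!
# R201: more definitions (owner: helper74): 2-slot tensors, pointwise data, context of sections 5–9
-/

set_option autoImplicit false
open MeasureTheory Matrix

namespace Crest.Agent.R201

variable {n : ℕ}

/-- tensors with two distinguished slots `a` (on which `B_k` acts) and `p` (on which `P` acts) -/
abbrev T2 (n : ℕ) (ι : Type*) := Fin n → Fin n → ι → ℝ

section T2

variable {ι : Type*}


variable [Fintype ι]



end T2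



/-- Pointwise data of a pack: `N k = D_k M`, `Y k = D_k Z`. -/
structure PtD (n : ℕ) (R : Type) [Fintype R] where
  M : T3 n R
  N : Fin n → T3 n R
  Z : Mt n
  Y : Fin n → Mt n
  Err : Mt n
  symM : Sym3 M
  symN : ∀ k, Sym3 (N k)
  Zpos : Z.PosDef
  Zsq : Z * Z = gram M M
  Ysymm : ∀ k, (Y k)ᵀ = Y k
  Ysq : ∀ k, Y k * Z + Z * Y k = gram (N k) M + gram M (N k)
  Errpos : LeQ 0 Err
  growth : LeQ (∑ k, gram (N k) (N k)) ((200 : ℝ) • (Z * Z) + Err)


/-- `B` is a bounded connection for the point data, all errors `≤ e`. -/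
structure Conn {R : Type} [Fintype R] (p : PtD n R) (C' e : ℝ) (B : Fin n → Mt n) : Prop where
  symm : ∀ k, (B k)ᵀ = B k
  bdd : LeQ (∑ k, B k * B k) (C' • (1 : Mt n))
  e1 : ∑ k, ip (p.N k - 2 • act1 (B k) p.M) (p.N k - 2 • act1 (B k) p.M) ≤ e
  e2 : ∑ k, ip (p.N k - 2 • act2 (B k) p.M) (p.N k - 2 • act2 (B k) p.M) ≤ e
  e3 : ∑ k, ip (p.N k - 2 • act3 (B k) p.M) (p.N k - 2 • act3 (B k) p.M) ≤ e
  comm : ∑ k, hs (p.Z * B k - B k * p.Z) ≤ e
  eZ : ∑ k, hs (p.Y k - 2 • (B k * p.Z)) ≤ e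
  eZ' : ∑ k, hs (p.Y k - 2 • (p.Z * B k)) ≤ e

/-- root of a positive semidefinite matrix (junk value `0` otherwise) -/
noncomputable def rt {m : Type*} [Fintype m] [DecidableEq m] (S : Matrix m m ℝ) : Matrix m m ℝ :=
  open scoped Classical in
  if h : ∃ T : Matrix m m ℝ, T.PosSemidef ∧ T * T = S then h.choose else 0


/-- the enlarged tensor `M' = (M/4) ⊕ M⁺` -/
noncomputable def bigM {R : Type} (M : T3 n R) (Mp : Fin n → T3 n R) : T3 n (R ⊕ (R × Fin n)) :=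
  fun a b c s => Sum.elim (fun r => M a b c r / 4) (fun rk => Mp rk.2 a b c rk.1) s

/-- `Mp k` approximates `D_k M`; growth `100 Z²`, swap of `k` with the first slot. -/
structure Ext (K : KD n) (R : Type) [Fintype R] (a : ℝ)
    (M : E n → T3 n R) (Mp : Fin n → E n → T3 n R) (Z : E n → Mt n) : Prop where
  cb : ∀ k i, CB (fam3 (Mp k) i)
  sym : ∀ k x, Sym3 (Mp k x)
  near : ∑ k, ∫ x, ip (pdT k M x - Mp k x) (pdT k M x - Mp k x) ∂K.μ ≤ a
  gramle : ∀ x, LeQ (∑ k, gram (Mp k x) (Mp k x)) ((100 : ℝ) • (Z x * Z x))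
  swap : ∫ x, ∑ k, ∑ a, ∑ b, ∑ c, ∑ r, (Mp k x a b c r - Mp a x k b c r) ^ 2 ∂K.μ ≤ a

/-- The context of sections 5–9: the two packs, `M⁺`, and all global defects `≤ D`. -/
structure Ctx (K : KD n) (R : Type) [Fintype R] (a D : ℝ)
    (M : E n → T3 n R) (Mp : Fin n → E n → T3 n R) (Z Z' : E n → Mt n) : Prop where
  pk : Pack K R a M Z
  pk' : Pack K (R ⊕ (R × Fin n)) a (fun x => bigM (M x) (fun k => Mp k x)) Z'
  ex : Ext K R a M Mp Z
  ex' : ∃ Mp' : Fin n → E n → T3 n (R ⊕ (R × Fin n)),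
    Ext K (R ⊕ (R × Fin n)) a (fun x => bigM (M x) (fun k => Mp k x)) Mp' Z'
  a_nonneg : 0 ≤ a
  D_pos : 0 < D
  a_le : a ≤ D
  mZ : msq K.μ (famM Z) ≤ D
  tZ : tsq K.μ K.ω (famM Z) ≤ D
  tZ' : tsq K.μ K.ω (famM Z') ≤ D

/-! ### Objects built from the tower -/

/-- permute the first three letters of a word -/
def perm3 {j : ℕ} (σ : Equiv.Perm (Fin 3)) (v : Fin (j + 3) → Fin n) : Fin (j + 3) → Fin n :=
  fun i => if h : (i : ℕ) < 3 then v ⟨(σ ⟨i, h⟩ : ℕ), by have := (σ ⟨i, h⟩).2; omega⟩ else v i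










end Crest.Agent.R201
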