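import Crest.Agent.R201.MX1_354
import Crest.Agent.R201.Tw1_807

/-!
# R201, leaves FD3 (`root_field`) and FD3' (`ppd_field`), helper354

The root of a `CB` field which is bounded below is `CB`, with the Lyapunov derivative.
-/

set_option autoImplicit false
open MeasureTheory Matrix
open scoped Matrix.Norms.Operator

namespace Crest.Agent.R201.MX354

open Crest.Agent.R201

variable {n : ℕ}

/-! ### estimates for the Lyapunov equation -/

lemma hs_nonneg {m m' : Type*} [Fintype m] [Fintype m'] (A : Matrix m m' ℝ) : 0 ≤ hs A :=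
  Finset.sum_nonneg fun _ _ => Finset.sum_nonneg fun _ _ => sq_nonneg _

lemma sq_le_hs {m m' : Type*} [Fintype m] [Fintype m'] (A : Matrix m m' ℝ) (i : m) (j : m') :
    A i j ^ 2 ≤ hs A := by
  refine le_trans ?_ (Finset.single_le_sum (f := fun i => ∑ j, A i j ^ 2)
    (fun _ _ => Finset.sum_nonneg fun _ _ => sq_nonneg _) (Finset.mem_univ i))
  exact Finset.single_le_sum (f := fun j => A i j ^ 2) (fun _ _ => sq_nonneg _) (Finset.mem_univ j)

lemma hs_transpose {m m' : Type*} [Fintype m] [Fintype m'] (A : Matrix m m' ℝ) :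
    hs Aᵀ = hs A := by
  simp only [hs, transpose_apply]
  exact Finset.sum_comm

lemma trace_mul_sq_le {m m' : Type*} [Fintype m] [Fintype m'] (A B : Matrix m m' ℝ) :
    (A * Bᵀ).trace ^ 2 ≤ hs A * hs B := by
  have h := Finset.sum_mul_sq_le_sq_mul_sq (Finset.univ : Finset (m × m'))
    (fun i => A i.1 i.2) (fun i => B i.1 i.2)
  simp only [Fintype.sum_prod_type] at h
  have e : (A * Bᵀ).trace = ∑ i, ∑ j, A i j * B i j := by
    simp [trace, Matrix.mul_apply]
  rw [e]
  exact h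

lemma hs_mul_le {m m' m'' : Type*} [Fintype m] [Fintype m'] [Fintype m''] (A : Matrix m m' ℝ)
    (B : Matrix m' m'' ℝ) : hs (A * B) ≤ hs A * hs B := by
  rw [← hs_transpose B]
  simp only [hs, Finset.sum_mul_sum]
  refine Finset.sum_le_sum fun i _ => Finset.sum_le_sum fun j _ => ?_
  rw [Matrix.mul_apply]
  refine (Finset.sum_mul_sq_le_sq_mul_sq Finset.univ _ _).trans (le_of_eq ?_)
  rw [Finset.sum_mul_sum]
  simp only [transpose_apply]

/-- if `Z D + D Z₀ = K`, `D` symmetric, `Z ≥ 0`, `Z₀ > 0` then `|D| ≤ C(Z₀) |K|` -/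
lemma lyap_bound {Z₀ : Mt n} (hZ₀ : Z₀.PosDef) : ∃ C : ℝ, 0 ≤ C ∧ ∀ Z D K : Mt n, Z.PosSemidef →
    Dᵀ = D → Z * D + D * Z₀ = K → hs D ≤ C * hs K := by
  obtain ⟨T, hT, hTT⟩ := root_exists hZ₀.posSemidef
  have hTt := posSemidef_transpose hT
  have hdet : IsUnit T.det := by
    have h1 : Z₀.det ≠ 0 := hZ₀.det_pos.ne'
    rw [← hTT, det_mul] at h1
    exact isUnit_iff_ne_zero.mpr (left_ne_zero_of_mul h1)
  refine ⟨hs T⁻¹ ^ 2, sq_nonneg _, fun Z D K hZ hD hK => ?_⟩
  have h1 : hs D ≤ hs T⁻¹ * hs (T * D) := by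
    have : D = T⁻¹ * (T * D) := by
      rw [← Matrix.mul_assoc, nonsing_inv_mul _ hdet, Matrix.one_mul]
    calc hs D = hs (T⁻¹ * (T * D)) := by rw [← this]
      _ ≤ _ := hs_mul_le _ _
  have h2 : hs (T * D) = (D * D * Z₀).trace := by
    rw [hs_eq_trace, transpose_mul, hD, hTt, ← hTT, Matrix.mul_assoc T D, trace_mul_comm]
    simp only [Matrix.mul_assoc]
  have h3 : 0 ≤ (D * Z * D).trace := by
    have := hZ.conjTranspose_mul_mul_same D
    rw [conjTranspose_eq_transpose_of_trivial, hD] at this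
    exact this.trace_nonneg
  have h4 : (D * Z * D).trace + (D * D * Z₀).trace = (D * Kᵀᵀ).trace := by
    rw [transpose_transpose, ← hK, Matrix.mul_add, trace_add]
    simp only [Matrix.mul_assoc]
  have h5 : (D * Kᵀᵀ).trace ^ 2 ≤ hs D * hs Kᵀ := trace_mul_sq_le D Kᵀ
  rw [hs_transpose] at h5
  have h6 : hs D ≤ hs T⁻¹ * (D * Kᵀᵀ).trace := by
    refine h1.trans (mul_le_mul_of_nonneg_left ?_ (hs_nonneg _))
    rw [h2]; linarith
  have h7 : hs D ^ 2 ≤ hs T⁻¹ ^ 2 * (hs D * hs K) := by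
    calc hs D ^ 2 ≤ (hs T⁻¹ * (D * Kᵀᵀ).trace) ^ 2 :=
          pow_le_pow_left₀ (hs_nonneg _) h6 2
      _ = hs T⁻¹ ^ 2 * (D * Kᵀᵀ).trace ^ 2 := by ring
      _ ≤ _ := mul_le_mul_of_nonneg_left h5 (sq_nonneg _)
  rcases (hs_nonneg D).lt_or_eq with hp | h0
  · refine le_of_mul_le_mul_right ?_ hp
    calc hs D * hs D = hs D ^ 2 := by ring
      _ ≤ _ := h7
      _ = _ := by ring
  · rw [← h0]; exact mul_nonneg (sq_nonneg _) (hs_nonneg _)


/-! ### the root of a `C¹` field -/

lemma mt_eq_sum (A : Mt n) : A = ∑ i, ∑ j, A i j • Matrix.single i j (1 : ℝ) := by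
  conv_lhs => rw [Matrix.matrix_eq_sum_single A]
  simp [Matrix.smul_single]

lemma contDiffAt_of_entries {X : Type*} [NormedAddCommGroup X] [NormedSpace ℝ X] {F : X → Mt n}
    {x : X} (h : ∀ i j, ContDiffAt ℝ 1 (fun y => F y i j) x) : ContDiffAt ℝ 1 F x := by
  have e : F = fun y => ∑ i, ∑ j, F y i j • Matrix.single i j (1 : ℝ) := by
    funext y; exact mt_eq_sum (F y)
  rw [e]
  exact ContDiffAt.sum fun i _ => ContDiffAt.sum fun j _ => (h i j).smul contDiffAt_const

lemma continuousAt_of_entries {X : Type*} [TopologicalSpace X] {F : X → Mt n}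
    {x : X} (h : ∀ i j, ContinuousAt (fun y => F y i j) x) : ContinuousAt F x := by
  have e : F = fun y => ∑ i, ∑ j, F y i j • Matrix.single i j (1 : ℝ) := by
    funext y; exact mt_eq_sum (F y)
  rw [e]
  exact tendsto_finsetSum _ fun i _ => tendsto_finsetSum _ fun j _ =>
    (h i j).smul continuousAt_const

/-- the entry as a continuous linear map -/
noncomputable def entryL (i j : Fin n) : Mt n →L[ℝ] ℝ :=
  LinearMap.toContinuousLinearMap
    { toFun := fun A => A i j, map_add' := fun _ _ => rfl, map_smul' := fun _ _ => rfl }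


/-- the Lyapunov map -/
def lyapL (Z : Mt n) : Mt n →ₗ[ℝ] Mt n where
  toFun := fun A => A * Z + Z * A
  map_add' := fun A B => by simp only [Matrix.add_mul, Matrix.mul_add]; abel
  map_smul' := fun c A => by simp [smul_add]

lemma lyapL_inj {Z : Mt n} (hZ : Z.PosDef) : Function.Injective (lyapL Z) := by
  rw [← LinearMap.ker_eq_bot, LinearMap.ker_eq_bot']
  intro A hA
  exact lyap_inj hZ hA

/-- the Lyapunov map as a continuous linear equivalence -/
noncomputable def lyapE {Z : Mt n} (hZ : Z.PosDef) : Mt n ≃L[ℝ] Mt n :=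
  (LinearEquiv.ofInjectiveEndo (lyapL Z) (lyapL_inj hZ)).toContinuousLinearEquiv


lemma hasFDerivAt_sq {Z : Mt n} (hZ : Z.PosDef) :
    HasFDerivAt (fun A : Mt n => A * A) (lyapE hZ : Mt n →L[ℝ] Mt n) Z := by
  have h := (hasFDerivAt_id (𝕜 := ℝ) Z).mul' (hasFDerivAt_id (𝕜 := ℝ) Z)
  have e : (fun A : Mt n => A * A) = (id * id : Mt n → Mt n) := by
    funext A; rfl
  rw [e]
  refine h.congr_fderiv ?_
  ext1 A
  show Z * A + A * Z = A * Z + Z * A
  exact add_comm _ _

lemma root_continuousAt {X : Type*} [TopologicalSpace X] {G Z : X → Mt n} {x : X}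
    (hG : ∀ i j, ContinuousAt (fun y => G y i j) x) (hZ : ∀ y, (Z y).PosDef)
    (hZG : ∀ y, Z y * Z y = G y) (i j : Fin n) : ContinuousAt (fun y => Z y i j) x := by
  obtain ⟨C, hC, h⟩ := lyap_bound (hZ x)
  have h1 : ∀ y, (Z y i j - Z x i j) ^ 2 ≤ C * hs (G y - G x) := by
    intro y
    have h2 := h (Z y) (Z y - Z x) (G y - G x) (hZ y).posSemidef
      (by rw [transpose_sub, posSemidef_transpose (hZ y).posSemidef,
        posSemidef_transpose (hZ x).posSemidef])
      (by rw [Matrix.mul_sub, Matrix.sub_mul, hZG, hZG]; abel)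
    exact (sq_le_hs (Z y - Z x) i j).trans h2
  have h3 : Filter.Tendsto (fun y => C * hs (G y - G x)) (nhds x) (nhds 0) := by
    have h4 : Filter.Tendsto (fun y => C * hs (G y - G x)) (nhds x) (nhds (C * hs (G x - G x))) := by
      unfold hs
      refine Filter.Tendsto.const_mul _ (tendsto_finsetSum _ fun a _ =>
        tendsto_finsetSum _ fun b _ => Filter.Tendsto.pow ?_ 2)
      simp only [Matrix.sub_apply]
      exact (hG a b).sub_const _
    have h5 : C * hs (G x - G x) = 0 := by rw [sub_self]; simp [hs]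
    rwa [h5] at h4
  have h6 : Filter.Tendsto (fun y => (Z y i j - Z x i j) ^ 2) (nhds x) (nhds 0) :=
    squeeze_zero (fun y => sq_nonneg _) h1 h3
  have h7 : Filter.Tendsto (fun y => |Z y i j - Z x i j|) (nhds x) (nhds 0) := by
    have h8 := (Real.continuous_sqrt.tendsto 0).comp h6
    simp only [Real.sqrt_zero] at h8
    refine h8.congr fun y => ?_
    simp [Real.sqrt_sq_eq_abs]
  have h9 : Filter.Tendsto (fun y => Z y i j - Z x i j) (nhds x) (nhds 0) :=
    (tendsto_zero_iff_abs_tendsto_zero _).mpr h7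
  have h10 := h9.add_const (Z x i j)
  simpa [ContinuousAt] using h10



/-- `c² ≤ Z²`, `Z ≥ 0` gives `c ≤ Z` -/
lemma leQ_of_sq {c : ℝ} {Z : Mt n} (hZ : Z.PosSemidef)
    (h : LeQ (c ^ 2 • (1 : Mt n)) (Z * Z)) : LeQ (c • (1 : Mt n)) Z := by
  refine PosSemidef.leQ (sub_posSemidef hZ (by simp) ?_)
  have : (c • (1 : Mt n)) * (c • (1 : Mt n)) = c ^ 2 • (1 : Mt n) := by
    rw [smul_mul_smul_comm, Matrix.one_mul, sq]
  rw [this]
  exact h

lemma posDef_of_leQ {c : ℝ} (hc : 0 < c) {Z : Mt n} (hZ : Zᵀ = Z)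
    (h : LeQ (c • (1 : Mt n)) Z) : Z.PosDef := by
  refine PosDef.of_dotProduct_mulVec_pos ?_ ?_
  · rw [IsHermitian, conjTranspose_eq_transpose_of_trivial, hZ]
  · intro x hx
    have h1 := h x
    rw [smul_mulVec, one_mulVec, dotProduct_smul, smul_eq_mul] at h1
    have h2 : 0 < x ⬝ᵥ x := by
      rcases (Finset.sum_nonneg fun i _ => mul_self_nonneg (x i) :
        (0 : ℝ) ≤ x ⬝ᵥ x).lt_or_eq with hp | h0
      · exact hp
      · exfalso
        exact hx (dotProduct_self_eq_zero.mp h0.symm)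
    rw [star_trivial]
    exact lt_of_lt_of_le (mul_pos hc h2) h1



section

variable (K : KD n)


end


end Crest.Agent.R201.MX354
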