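import Crest.Agent.R201.Defs2_74

/-!
# R201, leaves MX1 (`rt_spec`, `rt_unique`), MX3 (`rt_mono`), MX4 (`lyap`), MX2 (`rt_lip`)
(helper354).  Elementary proofs: eigenvectors of one symmetric matrix and the `2 x 2` dilation.
-/

set_option autoImplicit false
open MeasureTheory Matrix

namespace Crest.Agent.R201.MX354

open Crest.Agent.R201

/-- quadratic form of a symmetric product -/
lemma dot_mulVec_self {m : Type*} [Fintype m] {T : Matrix m m ℝ} (hT : Tᵀ = T) (u : m → ℝ) :
    u ⬝ᵥ ((T * T) *ᵥ u) = (T *ᵥ u) ⬝ᵥ (T *ᵥ u) := by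
  rw [← mulVec_mulVec, dotProduct_mulVec, ← mulVec_transpose, hT]

/-- the basic comparison: `s² ≤ t²` with `t ≥ 0` gives `s ≤ t` (no sign condition on `s`) -/
lemma sub_posSemidef {m : Type*} [Fintype m] [DecidableEq m] {s t : Matrix m m ℝ}
    (ht : t.PosSemidef) (hs : sᵀ = s) (h : LeQ (s * s) (t * t)) : (t - s).PosSemidef := by
  have htt : tᵀ = t := by
    have := ht.isHermitian
    rwa [IsHermitian, conjTranspose_eq_transpose_of_trivial] at this
  have hH : (t - s).IsHermitian := by
    rw [IsHermitian, conjTranspose_eq_transpose_of_trivial, transpose_sub, htt, hs]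
  rw [hH.posSemidef_iff_eigenvalues_nonneg]
  intro i
  by_contra hlt
  simp only [Pi.zero_apply, not_le] at hlt
  set lam := hH.eigenvalues i with hlam
  set v : m → ℝ := ⇑(hH.eigenvectorBasis i) with hv
  have hev : (t - s) *ᵥ v = lam • v := hH.mulVec_eigenvectorBasis i
  have hvv : v ⬝ᵥ v = 1 := by
    have h1 := hH.eigenvectorBasis.orthonormal.1 i
    have h2 : ‖hH.eigenvectorBasis i‖ ^ 2 = 1 := by rw [h1]; norm_num
    rw [EuclideanSpace.real_norm_sq_eq] at h2
    rw [← h2]
    simp [dotProduct, sq, hv]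
  have hsv : s *ᵥ v = t *ᵥ v - lam • v := by
    rw [← hev, sub_mulVec]; abel
  have h1 := h v
  rw [dot_mulVec_self hs, dot_mulVec_self htt, hsv] at h1
  have h2 : 0 ≤ v ⬝ᵥ (t *ᵥ v) := by
    have := ht.dotProduct_mulVec_nonneg v
    simpa using this
  have h3 : (t *ᵥ v - lam • v) ⬝ᵥ (t *ᵥ v - lam • v)
      = (t *ᵥ v) ⬝ᵥ (t *ᵥ v) - 2 * lam * (v ⬝ᵥ (t *ᵥ v)) + lam ^ 2 * (v ⬝ᵥ v) := by
    simp only [sub_dotProduct, dotProduct_sub, smul_dotProduct, dotProduct_smul, smul_eq_mul]
    rw [dotProduct_comm (t *ᵥ v) v]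
    ring
  rw [h3, hvv] at h1
  nlinarith [mul_nonneg (neg_nonneg.mpr hlt.le) h2, mul_pos_of_neg_of_neg hlt hlt]

lemma posSemidef_transpose {m : Type*} [Fintype m] {t : Matrix m m ℝ}
    (ht : t.PosSemidef) : tᵀ = t := by
  have := ht.isHermitian
  rwa [IsHermitian, conjTranspose_eq_transpose_of_trivial] at this

/-- uniqueness of the psd root -/
lemma root_unique {m : Type*} [Fintype m] [DecidableEq m] {s t : Matrix m m ℝ}
    (hs : s.PosSemidef) (ht : t.PosSemidef) (h : s * s = t * t) : s = t := by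
  have h1 := sub_posSemidef ht (posSemidef_transpose hs) (fun u => by rw [h])
  have h2 := sub_posSemidef hs (posSemidef_transpose ht) (fun u => by rw [h])
  have h3 : (t - s).trace = 0 := by
    have a1 := h1.trace_nonneg
    have a2 := h2.trace_nonneg
    have : (s - t).trace = - (t - s).trace := by rw [trace_sub, trace_sub]; ring
    linarith
  have h4 := h1.trace_eq_zero_iff.mp h3
  exact (sub_eq_zero.mp h4).symm

/-- existence of the psd root -/
lemma root_exists {m : Type*} [Fintype m] [DecidableEq m] {S : Matrix m m ℝ}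
    (hS : S.PosSemidef) : ∃ T : Matrix m m ℝ, T.PosSemidef ∧ T * T = S := by
  open scoped MatrixOrder in
  exact ⟨CFC.sqrt S, (CFC.sqrt_nonneg S).posSemidef, CFC.sqrt_mul_sqrt_self S hS.nonneg⟩

/-- MX1 root: existence -/
theorem rt_spec {m : Type} [Fintype m] [DecidableEq m] {S : Matrix m m ℝ} (hS : S.PosSemidef) :
    (rt S).PosSemidef ∧ rt S * rt S = S := by
  classical
  have h := root_exists hS
  have h2 : rt S = h.choose := by
    unfold rt
    rw [dif_pos h]
  rw [h2]
  exact h.choose_spec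

/-- MX1 root: uniqueness -/
theorem rt_unique {m : Type} [Fintype m] [DecidableEq m] {S T : Matrix m m ℝ}
    (hT : T.PosSemidef) (h : T * T = S) : rt S = T := by
  classical
  have hex : ∃ T : Matrix m m ℝ, T.PosSemidef ∧ T * T = S := ⟨T, hT, h⟩
  have h2 : rt S = hex.choose := by
    unfold rt
    rw [dif_pos hex]
  rw [h2]
  exact root_unique hex.choose_spec.1 hT (hex.choose_spec.2.trans h.symm)

lemma PosSemidef.leQ {m : Type*} [Fintype m] {A B : Matrix m m ℝ} (h : (B - A).PosSemidef) :
    LeQ A B := by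
  intro u
  have := h.dotProduct_mulVec_nonneg u
  rw [sub_mulVec, dotProduct_sub] at this
  simpa using this


/-! ### Lyapunov equation -/

variable {n : ℕ}

lemma lyap_inj {Z A : Mt n} (hZ : Z.PosDef) (h : A * Z + Z * A = 0) : A = 0 := by
  have h1 : (A * Z * Aᵀ).trace + (Aᵀ * Z * A).trace = 0 := by
    have : (Aᵀ * (A * Z + Z * A)).trace = 0 := by rw [h]; simp
    rw [Matrix.mul_add, trace_add] at this
    rw [← this]
    congr 1
    · rw [trace_mul_comm]
    · rw [Matrix.mul_assoc]
  have h2 : (A * Z * Aᵀ).PosSemidef := by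
    have := hZ.posSemidef.mul_mul_conjTranspose_same A
    rwa [conjTranspose_eq_transpose_of_trivial] at this
  have h3 : (Aᵀ * Z * A).PosSemidef := by
    have := hZ.posSemidef.conjTranspose_mul_mul_same A
    rwa [conjTranspose_eq_transpose_of_trivial] at this
  have h4 : (Aᵀ * Z * A).trace = 0 := by
    have a1 := h2.trace_nonneg
    have a2 := h3.trace_nonneg
    linarith
  have h5 := h3.trace_eq_zero_iff.mp h4
  ext i j
  by_contra hne
  have hcol : (fun i => A i j) ≠ 0 := fun hz => hne (congrFun hz i)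
  have h6 := hZ.dotProduct_mulVec_pos hcol
  have h7 : (Aᵀ * Z * A) j j = 0 := by rw [h5]; rfl
  have h8 : (Aᵀ * Z * A) j j = (fun i => A i j) ⬝ᵥ (Z *ᵥ (fun i => A i j)) := by
    rw [Matrix.mul_assoc, Matrix.mul_apply]
    simp only [dotProduct, transpose_apply]
    refine Finset.sum_congr rfl fun a _ => ?_
    rw [Matrix.mul_apply]
    rfl
  rw [h8] at h7
  simp only [star_trivial] at h6
  linarith



/-! ### `|·|` is `1`-Lipschitz on symmetric matrices, and `√2`-Lipschitz in general -/

lemma hs_eq_trace {m m' : Type*} [Fintype m] [Fintype m'] (A : Matrix m m' ℝ) :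
    hs A = (A * Aᵀ).trace := by
  simp [hs, trace, Matrix.mul_apply, sq]



lemma posSemidef_mul_transpose {m m' : Type*} [Fintype m] [Fintype m'] (A : Matrix m m' ℝ) :
    (A * Aᵀ).PosSemidef := by
  have := posSemidef_self_mul_conjTranspose A
  rwa [conjTranspose_eq_transpose_of_trivial] at this



end Crest.Agent.R201.MX354
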