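import Mathlib

/-!
R201 LA2 (helper446): the middle bracket of the no-broadcasting identity is nonnegative.

`∑ r, Tr (A M_r A M_r) ≤ Tr (A Z A Z)` for symmetric real matrices `M_r`, `A`, and positive
semidefinite `Z` with `Z * Z = ∑ r, M_r * M_r`.
-/

set_option autoImplicit false
set_option linter.unusedSectionVars false

open Matrix
open scoped MatrixOrder ComplexOrder

namespace Crest.Agent.R201.LA2446

variable {n ι : Type*} [Fintype n] [DecidableEq n] [Fintype ι]

/-- Every real positive semidefinite matrix is `Rᵀ R`. -/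
lemma exists_factor {Z : Matrix n n ℝ} (hZ : Z.PosSemidef) :
    ∃ R : Matrix n n ℝ, Z = Rᵀ * R := by
  obtain ⟨R, hR⟩ := CStarAlgebra.nonneg_iff_eq_star_mul_self.mp hZ.nonneg
  refine ⟨R, ?_⟩
  rw [hR, star_eq_conjTranspose, conjTranspose_eq_transpose_of_trivial]

/-- Trace of a product of two psd matrices is nonnegative. -/
lemma trace_mul_nonneg {P Q : Matrix n n ℝ} (hP : P.PosSemidef) (hQ : Q.PosSemidef) :
    0 ≤ trace (P * Q) := by
  obtain ⟨R, rfl⟩ := exists_factor hP
  have h1 : trace (Rᵀ * R * Q) = trace (R * Q * Rᵀ) := by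
    rw [Matrix.mul_assoc, trace_mul_comm]
  rw [h1]
  have h2 : (R * Q * Rᵀ).PosSemidef := by
    have := hQ.mul_mul_conjTranspose_same R
    rwa [conjTranspose_eq_transpose_of_trivial] at this
  exact h2.trace_nonneg






/-- `S(A) = ∑ r, M_r A M_r` -/
noncomputable def S (M : ι → Matrix n n ℝ) (A : Matrix n n ℝ) : Matrix n n ℝ :=
  ∑ r, M r * A * M r




variable {M : ι → Matrix n n ℝ} {Z : Matrix n n ℝ}



























end Crest.Agent.R201.LA2446
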