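import Crest.Agent.R201.Defs2_74
import Crest.Agent.R201.LA2_446

-- ▼ part R201/NB_152
section

/-!
# R201: algebra of three-slot tensors, leaf MX6 (`nb_point`, `hs_Y_le`), Lyapunov equation (helper152)
-/

set_option autoImplicit false
set_option linter.unusedSectionVars false
open Matrix

namespace Crest.Agent.R201.NB152

open Crest.Agent.R201

variable {n : ℕ}

/-! ## quadratic forms and traces -/

section Forms

variable {m m' : Type*} [Fintype m] [Fintype m']

theorem hs_eq_trace (A : Matrix m m' ℝ) : hs A = (A * Aᵀ).trace := by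
  simp only [hs, Matrix.trace, Matrix.diag_apply, Matrix.mul_apply, Matrix.transpose_apply, pow_two]

theorem hs_eq_trace' (A : Matrix m m' ℝ) : hs A = (Aᵀ * A).trace := by
  rw [hs_eq_trace, Matrix.trace_mul_comm]

theorem hs_nonneg (A : Matrix m m' ℝ) : 0 ≤ hs A :=
  Finset.sum_nonneg fun _ _ => Finset.sum_nonneg fun _ _ => sq_nonneg _

theorem hs_transpose (A : Matrix m m' ℝ) : hs Aᵀ = hs A := by
  rw [hs_eq_trace, hs_eq_trace', Matrix.transpose_transpose]


theorem hs_smul (t : ℝ) (A : Matrix m m' ℝ) : hs (t • A) = t ^ 2 * hs A := by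
  simp only [hs, Matrix.smul_apply, smul_eq_mul, mul_pow, Finset.mul_sum]

theorem hs_add_le (A B : Matrix m m' ℝ) : hs (A + B) ≤ 2 * hs A + 2 * hs B := by
  simp only [hs, Finset.mul_sum]
  rw [← Finset.sum_add_distrib]
  refine Finset.sum_le_sum fun i _ => ?_
  rw [← Finset.sum_add_distrib]
  refine Finset.sum_le_sum fun j _ => ?_
  rw [Matrix.add_apply]
  nlinarith [sq_nonneg (A i j - B i j)]


/-- trace of `V Vᵀ X` for a form-nonnegative `X` -/
theorem trace_sq_nonneg {X : Matrix m m ℝ} (hX : LeQ 0 X) (V : Matrix m m' ℝ) :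
    0 ≤ (Vᵀ * X * V).trace := by
  refine Finset.sum_nonneg fun j _ => ?_
  have h := hX (fun i => V i j)
  simp only [Matrix.zero_mulVec, dotProduct_zero] at h
  have e : (Vᵀ * X * V).diag j = (fun i => V i j) ⬝ᵥ (X *ᵥ fun i => V i j) := by
    rw [Matrix.diag_apply, Matrix.mul_assoc, Matrix.mul_apply]
    simp only [dotProduct, Matrix.transpose_apply, Matrix.mulVec, Matrix.mul_apply]
  rw [e]
  exact h

theorem leq_sub {X Y : Matrix m m ℝ} : LeQ X Y ↔ LeQ 0 (Y - X) := by
  unfold LeQ
  refine forall_congr' fun u => ?_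
  simp only [Matrix.zero_mulVec, dotProduct_zero, Matrix.sub_mulVec, dotProduct_sub]
  constructor <;> intro h <;> linarith


end Forms

/-! ## the bilinear form `ip` -/

section Ip

variable {R : Type*} [Fintype R]







































end Ip

/-! ## the Lyapunov equation -/



/-! ## MX6 -/



end Crest.Agent.R201.NB152
end

-- ▼ part R201/Spec_152

/-!
# R201: real spectral calculus in explicit form, spectral projections (helper152)
-/

set_option autoImplicit false
set_option linter.unusedSectionVars false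
open Matrix

namespace Crest.Agent.R201.NB152

open Crest.Agent.R201

variable {m : Type*} [Fintype m] [DecidableEq m]

/-- real symmetric matrices are orthogonally diagonalisable -/
theorem diagonalize {N : Matrix m m ℝ} (hN : Nᵀ = N) :
    ∃ (U : Matrix m m ℝ) (lam : m → ℝ), Uᵀ * U = 1 ∧ U * Uᵀ = 1 ∧
      N = U * diagonal lam * Uᵀ := by
  have hH : N.IsHermitian := by
    rw [Matrix.IsHermitian, Matrix.conjTranspose_eq_transpose_of_trivial, hN]
  refine ⟨(hH.eigenvectorUnitary : Matrix m m ℝ), hH.eigenvalues, ?_, ?_, ?_⟩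
  · have := Unitary.coe_star_mul_self hH.eigenvectorUnitary
    rwa [Matrix.star_eq_conjTranspose, Matrix.conjTranspose_eq_transpose_of_trivial] at this
  · have := Unitary.coe_mul_star_self hH.eigenvectorUnitary
    rwa [Unitary.coe_star, Matrix.star_eq_conjTranspose,
      Matrix.conjTranspose_eq_transpose_of_trivial] at this
  · conv_lhs => rw [hH.spectral_theorem]
    rw [Unitary.conjStarAlgAut_apply, Matrix.star_eq_conjTranspose,
      Matrix.conjTranspose_eq_transpose_of_trivial]
    rfl

/-- the matrix with eigenvalues `f` in the basis `U` -/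
def spec (U : Matrix m m ℝ) (f : m → ℝ) : Matrix m m ℝ := U * diagonal f * Uᵀ

theorem spec_transpose (U : Matrix m m ℝ) (f : m → ℝ) : (spec U f)ᵀ = spec U f := by
  simp only [spec, Matrix.transpose_mul, Matrix.transpose_transpose, Matrix.diagonal_transpose,
    Matrix.mul_assoc]

theorem spec_mul {U : Matrix m m ℝ} (hU : Uᵀ * U = 1) (f g : m → ℝ) :
    spec U f * spec U g = spec U (fun i => f i * g i) := by
  unfold spec
  rw [Matrix.mul_assoc, Matrix.mul_assoc, Matrix.mul_assoc, ← Matrix.mul_assoc Uᵀ U, hU,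
    Matrix.one_mul, ← Matrix.mul_assoc (diagonal f), Matrix.diagonal_mul_diagonal,
    Matrix.mul_assoc]

theorem spec_one {U : Matrix m m ℝ} (hU : U * Uᵀ = 1) : spec U (fun _ => 1) = 1 := by
  have : (diagonal fun _ : m => (1 : ℝ)) = 1 := Matrix.diagonal_one
  rw [spec, this, Matrix.mul_one, hU]

theorem spec_sub (U : Matrix m m ℝ) (f g : m → ℝ) :
    spec U f - spec U g = spec U (fun i => f i - g i) := by
  unfold spec
  rw [← Matrix.sub_mul, ← Matrix.mul_sub, Matrix.diagonal_sub]

theorem spec_add (U : Matrix m m ℝ) (f g : m → ℝ) :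
    spec U f + spec U g = spec U (fun i => f i + g i) := by
  unfold spec
  rw [← Matrix.add_mul, ← Matrix.mul_add, Matrix.diagonal_add]

theorem spec_smul (U : Matrix m m ℝ) (t : ℝ) (f : m → ℝ) :
    t • spec U f = spec U (fun i => t * f i) := by
  unfold spec
  rw [← Matrix.smul_mul, ← Matrix.mul_smul, ← Matrix.diagonal_smul]
  rfl

theorem spec_form (U : Matrix m m ℝ) (f : m → ℝ) (u : m → ℝ) :
    u ⬝ᵥ (spec U f *ᵥ u) = ∑ i, f i * (Uᵀ *ᵥ u) i ^ 2 := by
  unfold spec
  rw [Matrix.mul_assoc, ← Matrix.mulVec_mulVec, ← Matrix.mulVec_mulVec, Matrix.dotProduct_mulVec,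
    ← Matrix.mulVec_transpose, dotProduct]
  refine Finset.sum_congr rfl fun i _ => ?_
  rw [Matrix.mulVec_diagonal]
  ring

theorem spec_mono (U : Matrix m m ℝ) {f g : m → ℝ} (h : ∀ i, f i ≤ g i) :
    LeQ (spec U f) (spec U g) := by
  intro u
  rw [spec_form, spec_form]
  exact Finset.sum_le_sum fun i _ => mul_le_mul_of_nonneg_right (h i) (sq_nonneg _)


end Crest.Agent.R201.NB152
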