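import Mathlib
import Crest.Agent.R201.Defs2_74
import Crest.Agent.R201.Spec_152
import Crest.Agent.R201.FD3_354
import Crest.Agent.R201.FD1_807
import Crest.Agent.R201.MX1_354

-- ▼ part R201/Ch1_150
section

/-!
# R201, LSI half (helper150): the channel, one-variable calculus.
`q l s = a l s² / (1 + l s²)`, weight `dl / l²`.
-/

set_option autoImplicit false
open MeasureTheory Set

namespace Crest.Agent.R201.Ch150

/-- cost of a pair of eigenvalues, `|s'| ≤ |s|` -/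
theorem pair_aux {s s' l0 l1 : ℝ} (h0 : 0 ≤ l0) (h1 : l0 ≤ l1) (hs : s' ^ 2 ≤ s ^ 2) :
    ∫ l in l0..l1, (s + s') ^ 2 / ((1 + l * s ^ 2) ^ 2 * (1 + l * s' ^ 2) ^ 2) ≤ 3 / 2 := by
  rcases eq_or_ne s 0 with rfl | hs0
  · have : s' = 0 := by nlinarith [sq_nonneg s']
    subst this
    simp
    norm_num
  have hs2 : 0 < s ^ 2 := by positivity
  set c : ℝ := s' ^ 2 / s ^ 2 with hc
  have hc0 : 0 ≤ c := by positivity
  have hc1 : c ≤ 1 := by rw [hc, div_le_one hs2]; exact hs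
  have hcs : c * s ^ 2 = s' ^ 2 := by rw [hc]; field_simp
  set G : ℝ → ℝ := fun l => -((1 + l * s ^ 2) ^ (-(1 + 2 * c)) / ((1 + 2 * c) * s ^ 2)) with hG
  have hpos : ∀ l ∈ uIcc l0 l1, 0 < 1 + l * s ^ 2 := by
    intro l hl
    rw [uIcc_of_le h1] at hl
    have : 0 ≤ l := h0.trans hl.1
    positivity
  have hder : ∀ l ∈ uIcc l0 l1, HasDerivAt G ((1 + l * s ^ 2) ^ (-(2 + 2 * c))) l := by
    intro l hl
    have hp := hpos l hl
    have d1 : HasDerivAt (fun l : ℝ => 1 + l * s ^ 2) (s ^ 2) l := by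
      simpa using ((hasDerivAt_id l).mul_const (s ^ 2)).const_add 1
    have d2 := d1.rpow_const (p := -(1 + 2 * c)) (Or.inl hp.ne')
    have d3 := (d2.div_const ((1 + 2 * c) * s ^ 2)).neg
    refine d3.congr_deriv ?_
    have e : -(1 + 2 * c) - 1 = -(2 + 2 * c) := by ring
    rw [e]
    have h12 : (1 + 2 * c) ≠ 0 := by positivity
    field_simp
  have hcont : ContinuousOn (fun l : ℝ => (1 + l * s ^ 2) ^ (-(2 + 2 * c))) (uIcc l0 l1) := by
    intro l hl
    have hp := hpos l hl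
    exact ContinuousAt.continuousWithinAt
      ((by fun_prop : ContinuousAt (fun l : ℝ => 1 + l * s ^ 2) l).rpow_const (Or.inl hp.ne'))
  have hint := hcont.intervalIntegrable (μ := volume)
  have hFTC := intervalIntegral.integral_eq_sub_of_hasDerivAt hder hint
  have hle : ∫ l in l0..l1, (s + s') ^ 2 / ((1 + l * s ^ 2) ^ 2 * (1 + l * s' ^ 2) ^ 2) ≤
      ∫ l in l0..l1, (s + s') ^ 2 * (1 + l * s ^ 2) ^ (-(2 + 2 * c)) := by
    refine intervalIntegral.integral_mono_on h1 ?_ (hint.const_mul _) fun l hl => ?_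
    · refine ContinuousOn.intervalIntegrable fun l hl => ?_
      have hp := hpos l hl
      rw [uIcc_of_le h1] at hl
      have hl0 : 0 ≤ l := h0.trans hl.1
      have hp' : 0 < 1 + l * s' ^ 2 := by positivity
      refine ContinuousAt.continuousWithinAt (ContinuousAt.div (by fun_prop) (by fun_prop) ?_)
      positivity
    · have hl0 : 0 ≤ l := h0.trans hl.1
      have hp : 0 < 1 + l * s ^ 2 := by positivity
      have hB : (1 + l * s ^ 2) ^ c ≤ 1 + l * s' ^ 2 := by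
        have := rpow_one_add_le_one_add_mul_self (s := l * s ^ 2) (p := c) (by nlinarith)
          hc0 hc1
        refine this.trans (le_of_eq ?_)
        rw [← hcs]
        ring
      have hB2 : (1 + l * s ^ 2) ^ (2 + 2 * c) ≤ (1 + l * s ^ 2) ^ 2 * (1 + l * s' ^ 2) ^ 2 := by
        have e : (1 + l * s ^ 2) ^ (2 + 2 * c) = (1 + l * s ^ 2) ^ 2 * ((1 + l * s ^ 2) ^ c) ^ 2 := by
          rw [← Real.rpow_natCast (((1 + l * s ^ 2)) ^ c) 2, ← Real.rpow_mul hp.le,
            ← Real.rpow_natCast (1 + l * s ^ 2) 2, ← Real.rpow_add hp]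
          congr 1
          push_cast
          ring
        rw [e]
        exact mul_le_mul_of_nonneg_left (pow_le_pow_left₀ (Real.rpow_nonneg hp.le _) hB 2)
          (by positivity)
      rw [Real.rpow_neg hp.le, div_eq_mul_inv]
      refine mul_le_mul_of_nonneg_left ?_ (sq_nonneg _)
      exact inv_anti₀ (Real.rpow_pos_of_pos hp _) hB2
  refine hle.trans ?_
  rw [intervalIntegral.integral_const_mul, hFTC]
  have hG1 : G l1 ≤ 0 := by
    have : 0 < 1 + l1 * s ^ 2 := hpos l1 right_mem_uIcc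
    simp only [hG]
    have h2 : 0 ≤ (1 + l1 * s ^ 2) ^ (-(1 + 2 * c)) / ((1 + 2 * c) * s ^ 2) := by positivity
    linarith
  have hG0 : -(1 / ((1 + 2 * c) * s ^ 2)) ≤ G l0 := by
    simp only [hG]
    refine neg_le_neg (div_le_div_of_nonneg_right ?_ (by positivity))
    refine Real.rpow_le_one_of_one_le_of_nonpos ?_ (by linarith)
    nlinarith
  have h3 : (s + s') ^ 2 * (G l1 - G l0) ≤ (s + s') ^ 2 * (1 / ((1 + 2 * c) * s ^ 2)) :=
    mul_le_mul_of_nonneg_left (by linarith) (sq_nonneg _)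
  refine h3.trans ?_
  have h4 : (1 + 2 * c) * s ^ 2 = s ^ 2 + 2 * s' ^ 2 := by rw [← hcs]; ring
  rw [h4, mul_one_div, div_le_iff₀ (by positivity)]
  nlinarith [sq_nonneg (s - 2 * s')]

/-- cost of a pair of eigenvalues -/
theorem pair (s s' : ℝ) {l0 l1 : ℝ} (h0 : 0 ≤ l0) (h1 : l0 ≤ l1) :
    ∫ l in l0..l1, (s + s') ^ 2 / ((1 + l * s ^ 2) ^ 2 * (1 + l * s' ^ 2) ^ 2) ≤ 3 / 2 := by
  rcases le_total (s' ^ 2) (s ^ 2) with h | h
  · exact pair_aux h0 h1 h
  · have := pair_aux h0 h1 h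
    refine le_trans (le_of_eq ?_) this
    refine intervalIntegral.integral_congr fun l _ => ?_
    change (s + s') ^ 2 / ((1 + l * s ^ 2) ^ 2 * (1 + l * s' ^ 2) ^ 2) =
      (s' + s) ^ 2 / ((1 + l * s' ^ 2) ^ 2 * (1 + l * s ^ 2) ^ 2)
    rw [add_comm s s', mul_comm ((1 + l * s ^ 2) ^ 2)]

/-- `q = a l s² / (1 + l s²)` -/
noncomputable def q (a l s : ℝ) : ℝ := a * l * s ^ 2 / (1 + l * s ^ 2)

theorem q_sq_integral {a s l0 l1 : ℝ} (h0 : 0 < l0) (h1 : l0 ≤ l1) :
    ∫ l in l0..l1, (l ^ 2)⁻¹ * q a l s ^ 2 =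
      a ^ 2 * s ^ 2 * (l1 * s ^ 2 / (1 + l1 * s ^ 2) - l0 * s ^ 2 / (1 + l0 * s ^ 2)) := by
  have hpos : ∀ l ∈ uIcc l0 l1, 0 < l := by
    intro l hl
    rw [uIcc_of_le h1] at hl
    exact h0.trans_le hl.1
  have e : ∫ l in l0..l1, (l ^ 2)⁻¹ * q a l s ^ 2 =
      ∫ l in l0..l1, a ^ 2 * s ^ 2 * (s ^ 2 / (1 + l * s ^ 2) ^ 2) := by
    refine intervalIntegral.integral_congr fun l hl => ?_
    have hl := hpos l hl
    have : 0 < 1 + l * s ^ 2 := by positivity
    simp only [q]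
    field_simp
  rw [e, intervalIntegral.integral_const_mul]
  congr 1
  refine intervalIntegral.integral_eq_sub_of_hasDerivAt
    (f := fun l => l * s ^ 2 / (1 + l * s ^ 2)) (fun l hl => ?_) ?_
  · have hl := hpos l hl
    have hp : 0 < 1 + l * s ^ 2 := by positivity
    have d0 : HasDerivAt (fun l : ℝ => l * s ^ 2) (s ^ 2) l := by
      simpa using (hasDerivAt_id l).mul_const (s ^ 2)
    have d1 : HasDerivAt (fun l : ℝ => 1 + l * s ^ 2) (s ^ 2) l := d0.const_add 1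
    refine (d0.div d1 hp.ne').congr_deriv ?_
    field_simp
    ring
  · refine ContinuousOn.intervalIntegrable fun l hl => ?_
    have hl := hpos l hl
    have hp : 0 < 1 + l * s ^ 2 := by positivity
    exact ContinuousAt.continuousWithinAt (ContinuousAt.div (by fun_prop) (by fun_prop)
      (by positivity))

theorem q_sq_le {a s l0 l1 : ℝ} (h0 : 0 < l0) (h1 : l0 ≤ l1) :
    ∫ l in l0..l1, (l ^ 2)⁻¹ * q a l s ^ 2 ≤ a ^ 2 * s ^ 2 := by
  rw [q_sq_integral h0 h1]
  have h2 : l1 * s ^ 2 / (1 + l1 * s ^ 2) ≤ 1 := by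
    have : 0 < l1 := h0.trans_le h1
    rw [div_le_one (by positivity)]
    linarith
  have h3 : 0 ≤ l0 * s ^ 2 / (1 + l0 * s ^ 2) := by positivity
  have h4 : a ^ 2 * s ^ 2 * (l1 * s ^ 2 / (1 + l1 * s ^ 2) - l0 * s ^ 2 / (1 + l0 * s ^ 2)) ≤
      a ^ 2 * s ^ 2 * 1 := mul_le_mul_of_nonneg_left (by linarith) (by positivity)
  linarith

theorem q_sq_ge {a s l0 l1 : ℝ} (h0 : 0 < l0) (h1 : l0 ≤ l1) :
    a ^ 2 * s ^ 2 - a ^ 2 * l0 * s ^ 4 - a ^ 2 / l1 ≤
      ∫ l in l0..l1, (l ^ 2)⁻¹ * q a l s ^ 2 := by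
  rw [q_sq_integral h0 h1]
  have hl1 : 0 < l1 := h0.trans_le h1
  have h2 : s ^ 2 - 1 / l1 ≤ s ^ 2 * (l1 * s ^ 2 / (1 + l1 * s ^ 2)) := by
    have hp : 0 < 1 + l1 * s ^ 2 := by positivity
    rw [mul_div_assoc', le_div_iff₀ hp]
    have e : (s ^ 2 - 1 / l1) * (1 + l1 * s ^ 2) = s ^ 2 * (l1 * s ^ 2) - 1 / l1 := by
      field_simp
      ring
    rw [e]
    have : 0 < 1 / l1 := by positivity
    linarith
  have h3 : s ^ 2 * (l0 * s ^ 2 / (1 + l0 * s ^ 2)) ≤ l0 * s ^ 4 := by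
    have hp : 0 < 1 + l0 * s ^ 2 := by positivity
    have : l0 * s ^ 2 / (1 + l0 * s ^ 2) ≤ l0 * s ^ 2 := div_le_self (by positivity) (by nlinarith [sq_nonneg s])
    calc s ^ 2 * (l0 * s ^ 2 / (1 + l0 * s ^ 2)) ≤ s ^ 2 * (l0 * s ^ 2) :=
          mul_le_mul_of_nonneg_left this (sq_nonneg _)
      _ = _ := by ring
  have h4 := mul_le_mul_of_nonneg_left h2 (sq_nonneg a)
  have h5 := mul_le_mul_of_nonneg_left h3 (sq_nonneg a)
  have e : a ^ 2 * s ^ 2 * (l1 * s ^ 2 / (1 + l1 * s ^ 2) - l0 * s ^ 2 / (1 + l0 * s ^ 2)) =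
      a ^ 2 * (s ^ 2 * (l1 * s ^ 2 / (1 + l1 * s ^ 2))) -
        a ^ 2 * (s ^ 2 * (l0 * s ^ 2 / (1 + l0 * s ^ 2))) := by ring
  rw [e]
  have e2 : a ^ 2 * (s ^ 2 - 1 / l1) = a ^ 2 * s ^ 2 - a ^ 2 / l1 := by ring
  rw [e2] at h4
  linarith

/-- `log (1 + x²) ≤ 2 x arctan x` -/
theorem log_le_arctan {x : ℝ} (hx : 0 ≤ x) : Real.log (1 + x ^ 2) ≤ 2 * x * Real.arctan x := by
  have key : MonotoneOn (fun x : ℝ => 2 * x * Real.arctan x - Real.log (1 + x ^ 2)) (Ici 0) := by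
    have hd : ∀ x : ℝ, HasDerivAt (fun x : ℝ => 2 * x * Real.arctan x - Real.log (1 + x ^ 2))
        (2 * Real.arctan x) x := by
      intro x
      have hp : 0 < 1 + x ^ 2 := by positivity
      have d1 : HasDerivAt (fun x : ℝ => 2 * x) 2 x := by
        simpa using (hasDerivAt_id x).const_mul 2
      have d2 : HasDerivAt (fun x : ℝ => 1 + x ^ 2) (2 * x) x := by
        simpa using (hasDerivAt_pow 2 x).const_add 1
      refine ((d1.mul (Real.hasDerivAt_arctan x)).sub (d2.log hp.ne')).congr_deriv ?_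
      field_simp
      ring
    refine monotoneOn_of_deriv_nonneg (convex_Ici 0)
      (fun x _ => (hd x).continuousAt.continuousWithinAt)
      (fun x _ => (hd x).differentiableAt.differentiableWithinAt) fun x hx => ?_
    rw [(hd x).deriv]
    rw [interior_Ici] at hx
    have := Real.arctan_pos.mpr hx
    positivity
  have h := key (mem_Ici.mpr le_rfl) (mem_Ici.mpr hx) hx
  simp only [mul_zero, zero_mul, ne_eq, OfNat.ofNat_ne_zero, not_false_eq_true, zero_pow, add_zero,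
    Real.log_one, sub_zero] at h
  linarith

theorem log_integral_le {b l0 l1 : ℝ} (hb : 0 ≤ b) (h0 : 0 < l0) (h1 : l0 ≤ l1) :
    ∫ l in l0..l1, (l ^ 2)⁻¹ * Real.log (1 + (b * l) ^ 2) ≤ Real.pi * b := by
  have hpos : ∀ l ∈ uIcc l0 l1, 0 < l := by
    intro l hl
    rw [uIcc_of_le h1] at hl
    exact h0.trans_le hl.1
  have hFTC : ∫ l in l0..l1, (l ^ 2)⁻¹ * Real.log (1 + (b * l) ^ 2) =
      (2 * b * Real.arctan (b * l1) - Real.log (1 + (b * l1) ^ 2) / l1) -
      (2 * b * Real.arctan (b * l0) - Real.log (1 + (b * l0) ^ 2) / l0) := by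
    refine intervalIntegral.integral_eq_sub_of_hasDerivAt
      (f := fun l => 2 * b * Real.arctan (b * l) - Real.log (1 + (b * l) ^ 2) / l)
      (fun l hl => ?_) ?_
    · have hl := hpos l hl
      have hp : 0 < 1 + (b * l) ^ 2 := by positivity
      have d1 : HasDerivAt (fun l : ℝ => b * l) b l := by
        simpa using (hasDerivAt_id l).const_mul b
      have d2 : HasDerivAt (fun l : ℝ => 1 + (b * l) ^ 2) (2 * (b * l) * b) l := by
        simpa using (d1.pow 2).const_add 1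
      refine (((d1.arctan).const_mul (2 * b)).sub ((d2.log hp.ne').div (hasDerivAt_id l)
        hl.ne')).congr_deriv ?_
      simp only [id]
      field_simp
      ring
    · refine ContinuousOn.intervalIntegrable fun l hl => ?_
      have hl := hpos l hl
      have hp : 0 < 1 + (b * l) ^ 2 := by positivity
      exact ContinuousAt.continuousWithinAt (ContinuousAt.mul (ContinuousAt.inv₀ (by fun_prop)
        (by positivity)) (ContinuousAt.log (by fun_prop) hp.ne'))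
  rw [hFTC]
  have h2 : Real.log (1 + (b * l0) ^ 2) / l0 ≤ 2 * b * Real.arctan (b * l0) := by
    rw [div_le_iff₀ h0]
    refine (log_le_arctan (by positivity : 0 ≤ b * l0)).trans (le_of_eq ?_)
    ring
  have h3 : 0 ≤ Real.log (1 + (b * l1) ^ 2) / l1 := by
    have : 0 < l1 := h0.trans_le h1
    exact div_nonneg (Real.log_nonneg (by nlinarith [sq_nonneg (b * l1)])) this.le
  have h4 : 2 * b * Real.arctan (b * l1) ≤ Real.pi * b := by
    have := (Real.arctan_lt_pi_div_two (b * l1)).le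
    nlinarith
  linarith

/-- benefit of one eigenvalue -/
theorem benefit {a s l0 l1 : ℝ} (ha : 0 ≤ a) (h0 : 0 < l0) (h1 : l0 ≤ l1) :
    (a ^ 2 - Real.pi * a) * s ^ 2 - a ^ 2 * l0 * s ^ 4 - a ^ 2 / l1 ≤
      ∫ l in l0..l1, (l ^ 2)⁻¹ * (q a l s ^ 2 - Real.log (1 + q a l s ^ 2)) := by
  have hpos : ∀ l ∈ uIcc l0 l1, 0 < l := by
    intro l hl
    rw [uIcc_of_le h1] at hl
    exact h0.trans_le hl.1
  have hqc : ∀ l ∈ uIcc l0 l1, ContinuousAt (fun l => q a l s) l := by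
    intro l hl
    have hl := hpos l hl
    have hp : 0 < 1 + l * s ^ 2 := by positivity
    exact ContinuousAt.div (by fun_prop) (by fun_prop) hp.ne'
  have i1 : IntervalIntegrable (fun l => (l ^ 2)⁻¹ * q a l s ^ 2) volume l0 l1 := by
    refine ContinuousOn.intervalIntegrable fun l hl => ?_
    have hl' := hpos l hl
    exact ContinuousAt.continuousWithinAt (ContinuousAt.mul (ContinuousAt.inv₀ (by fun_prop)
      (by positivity)) ((hqc l hl).pow 2))
  have i2 : IntervalIntegrable (fun l => (l ^ 2)⁻¹ * Real.log (1 + q a l s ^ 2)) volume l0 l1 := by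
    refine ContinuousOn.intervalIntegrable fun l hl => ?_
    have hl' := hpos l hl
    have hp : 0 < 1 + q a l s ^ 2 := by positivity
    exact ContinuousAt.continuousWithinAt (ContinuousAt.mul (ContinuousAt.inv₀ (by fun_prop)
      (by positivity)) (ContinuousAt.log (((hqc l hl).pow 2).const_add 1) hp.ne'))
  have i3 : IntervalIntegrable (fun l => (l ^ 2)⁻¹ * Real.log (1 + (a * s ^ 2 * l) ^ 2))
      volume l0 l1 := by
    refine ContinuousOn.intervalIntegrable fun l hl => ?_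
    have hl' := hpos l hl
    have hp : 0 < 1 + (a * s ^ 2 * l) ^ 2 := by positivity
    exact ContinuousAt.continuousWithinAt (ContinuousAt.mul (ContinuousAt.inv₀ (by fun_prop)
      (by positivity)) (ContinuousAt.log (by fun_prop) hp.ne'))
  have e : ∫ l in l0..l1, (l ^ 2)⁻¹ * (q a l s ^ 2 - Real.log (1 + q a l s ^ 2)) =
      (∫ l in l0..l1, (l ^ 2)⁻¹ * q a l s ^ 2) -
        ∫ l in l0..l1, (l ^ 2)⁻¹ * Real.log (1 + q a l s ^ 2) := by
    rw [← intervalIntegral.integral_sub i1 i2]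
    refine intervalIntegral.integral_congr fun l _ => ?_
    exact mul_sub _ _ _
  have h2 : ∫ l in l0..l1, (l ^ 2)⁻¹ * Real.log (1 + q a l s ^ 2) ≤
      ∫ l in l0..l1, (l ^ 2)⁻¹ * Real.log (1 + (a * s ^ 2 * l) ^ 2) := by
    refine intervalIntegral.integral_mono_on h1 i2 i3 fun l hl => ?_
    have hl0 : 0 < l := h0.trans_le hl.1
    refine mul_le_mul_of_nonneg_left ?_ (by positivity)
    refine Real.log_le_log (by positivity) ?_
    have hq0 : 0 ≤ q a l s := by unfold q; positivity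
    have hq1 : q a l s ≤ a * s ^ 2 * l := by
      unfold q
      refine (div_le_self (by positivity) (by nlinarith [sq_nonneg s])).trans (le_of_eq ?_)
      ring
    have := pow_le_pow_left₀ hq0 hq1 2
    linarith
  have h3 := log_integral_le (b := a * s ^ 2) (by positivity) h0 h1
  have h4 := q_sq_ge (a := a) (s := s) h0 h1
  rw [e]
  linarith

end Crest.Agent.R201.Ch150
end

-- ▼ part R201/Mask_764
section

/-!
# R201 (helper764): entrywise spectral masks (replacement of the dyadic blocks of section 5).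

`Z = U diag z Uᵀ`, `β = V diag b Vᵀ`; `lo B` keeps the entries `⟨β_j, B ζ_i⟩` with `z_i < t b_j`.
-/

set_option autoImplicit false
open Matrix

namespace Crest.Agent.R201.Mask764

section general

variable {m m' m'' : Type*} [Fintype m] [Fintype m'] [Fintype m'']

lemma hs_nonneg (A : Matrix m m' ℝ) : 0 ≤ hs A :=
  Finset.sum_nonneg fun _ _ => Finset.sum_nonneg fun _ _ => sq_nonneg _

lemma hs_eq_trace (A : Matrix m m' ℝ) : hs A = (A * Aᵀ).trace := by
  simp [hs, trace, Matrix.mul_apply, sq]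

lemma hs_transpose (A : Matrix m m' ℝ) : hs Aᵀ = hs A := by
  unfold hs
  rw [Finset.sum_comm]
  rfl

lemma hs_eq_trace' (A : Matrix m m' ℝ) : hs A = (Aᵀ * A).trace := by
  rw [← hs_transpose, hs_eq_trace, transpose_transpose]


lemma hs_mul_left [DecidableEq m] {U : Matrix m'' m ℝ} (h : Uᵀ * U = 1) (A : Matrix m m' ℝ) :
    hs (U * A) = hs A := by
  rw [hs_eq_trace', hs_eq_trace', transpose_mul]
  have : Aᵀ * Uᵀ * (U * A) = Aᵀ * (Uᵀ * U) * A := by simp only [Matrix.mul_assoc]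
  rw [this, h, Matrix.mul_one]

lemma hs_mul_right [DecidableEq m'] {V : Matrix m' m'' ℝ} (h : V * Vᵀ = 1) (A : Matrix m m' ℝ) :
    hs (A * V) = hs A := by
  rw [hs_eq_trace, hs_eq_trace, transpose_mul]
  have : A * V * (Vᵀ * Aᵀ) = A * (V * Vᵀ) * Aᵀ := by simp only [Matrix.mul_assoc]
  rw [this, h, Matrix.mul_one]

variable [DecidableEq m]


end general

variable {n : ℕ}


end Crest.Agent.R201.Mask764
end

-- ▼ part R201/Ch2_150
section

/-!
# R201, LSI half (helper150): the channel, pointwise matrix part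
-/

set_option autoImplicit false
open MeasureTheory Matrix Set

namespace Crest.Agent.R201.Ch150

open Crest.Agent.R201 Crest.Agent.R201.NB152

variable {n : ℕ}

/-- resolvent `(1 + l S²)⁻¹` -/
noncomputable def Rl (l : ℝ) (S : Mt n) : Mt n := (1 + l • (S * S))⁻¹

/-- the channel matrix `Q = a (1 - (1 + l S²)⁻¹) = a l S² (1 + l S²)⁻¹` -/
noncomputable def Ql (a l : ℝ) (S : Mt n) : Mt n := a • (1 - Rl l S)

/-- derivative of `Ql` in direction `T` -/
noncomputable def dQ (a l : ℝ) (S T : Mt n) : Mt n :=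
  (a * l) • (Rl l S * (S * T + T * S) * Rl l S)

/-- `ρ = 1 / (1 + l s²)` -/
noncomputable def rho (l s : ℝ) : ℝ := (1 + l * s ^ 2)⁻¹

theorem one_add_eq_spec {U : Mt n} (hU : Uᵀ * U = 1) (hU' : U * Uᵀ = 1) (s : Fin n → ℝ) (l : ℝ) :
    1 + l • (spec U s * spec U s) = spec U (fun i => 1 + l * s i ^ 2) := by
  rw [spec_mul hU, spec_smul, ← spec_one hU', spec_add]
  congr 1
  funext i
  ring

theorem inv_spec {U : Mt n} (hU : Uᵀ * U = 1) (hU' : U * Uᵀ = 1) {f : Fin n → ℝ}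
    (hf : ∀ i, f i ≠ 0) : (spec U f)⁻¹ = spec U (fun i => (f i)⁻¹) := by
  refine Matrix.inv_eq_right_inv ?_
  rw [spec_mul hU, ← spec_one hU']
  congr 1
  funext i
  exact mul_inv_cancel₀ (hf i)

theorem Rl_spec {U : Mt n} (hU : Uᵀ * U = 1) (hU' : U * Uᵀ = 1) (s : Fin n → ℝ) {l : ℝ}
    (hl : 0 ≤ l) : Rl l (spec U s) = spec U (fun i => rho l (s i)) := by
  unfold Rl
  rw [one_add_eq_spec hU hU', inv_spec hU hU' fun i => ?_]
  · rfl
  · positivity

theorem Ql_spec {U : Mt n} (hU : Uᵀ * U = 1) (hU' : U * Uᵀ = 1) (s : Fin n → ℝ) {a l : ℝ}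
    (hl : 0 ≤ l) : Ql a l (spec U s) = spec U (fun i => q a l (s i)) := by
  unfold Ql
  rw [Rl_spec hU hU' s hl, ← spec_one hU', spec_sub, spec_smul]
  congr 1
  funext i
  unfold rho q
  have : 0 < 1 + l * s i ^ 2 := by positivity
  field_simp
  ring

theorem hs_conj {U : Mt n} (hU : Uᵀ * U = 1) (X : Mt n) : hs (U * X * Uᵀ) = hs X := by
  have h := Mask764.hs_mul_right (V := Uᵀ) (by rw [transpose_transpose]; exact hU) (U * X)
  rw [h, Mask764.hs_mul_left hU]

/-- a symmetric matrix is `spec` -/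
theorem exists_spec {S : Mt n} (hS : Sᵀ = S) :
    ∃ (U : Mt n) (s : Fin n → ℝ), Uᵀ * U = 1 ∧ U * Uᵀ = 1 ∧ S = spec U s := by
  obtain ⟨U, s, h1, h2, h3⟩ := diagonalize hS
  exact ⟨U, s, h1, h2, h3⟩

theorem trace_spec {U : Mt n} (hU : Uᵀ * U = 1) (f : Fin n → ℝ) :
    (spec U f).trace = ∑ i, f i := by
  unfold spec
  rw [Matrix.mul_assoc, trace_mul_comm, Matrix.mul_assoc, hU, Matrix.mul_one, trace_diagonal]

theorem det_spec {U : Mt n} (hU : Uᵀ * U = 1) (f : Fin n → ℝ) :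
    (spec U f).det = ∏ i, f i := by
  unfold spec
  rw [det_mul, det_mul, det_diagonal, mul_comm U.det, mul_assoc, mul_comm U.det,
    ← det_mul, hU, det_one, mul_one]

theorem Ql_symm {S : Mt n} (hS : Sᵀ = S) {a l : ℝ} (hl : 0 ≤ l) : (Ql a l S)ᵀ = Ql a l S := by
  obtain ⟨U, s, h1, h2, rfl⟩ := exists_spec hS
  rw [Ql_spec h1 h2 s hl, spec_transpose]



/-- the hs norm of `dQ` in the eigenbasis -/
theorem hs_dQ {U : Mt n} (hU : Uᵀ * U = 1) (hU' : U * Uᵀ = 1) (s : Fin n → ℝ) (T : Mt n)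
    {a l : ℝ} (hl : 0 ≤ l) :
    hs (dQ a l (spec U s) T) = ∑ i, ∑ j, a ^ 2 * (Uᵀ * T * U) i j ^ 2 *
      (l ^ 2 * ((s i + s j) ^ 2 / ((1 + l * s i ^ 2) ^ 2 * (1 + l * s j ^ 2) ^ 2))) := by
  have e : dQ a l (spec U s) T = U * (Matrix.of fun i j =>
      a * l * (rho l (s i) * ((s i + s j) * (Uᵀ * T * U) i j) * rho l (s j))) * Uᵀ := by
    have e1 : (Matrix.of fun i j =>
        a * l * (rho l (s i) * ((s i + s j) * (Uᵀ * T * U) i j) * rho l (s j))) =
        (a * l) • (diagonal (fun i => rho l (s i)) *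
          (diagonal s * (Uᵀ * T * U) + (Uᵀ * T * U) * diagonal s) *
          diagonal (fun i => rho l (s i))) := by
      ext i j
      rw [Matrix.smul_apply, Matrix.mul_diagonal, Matrix.diagonal_mul, Matrix.add_apply,
        Matrix.mul_diagonal, Matrix.diagonal_mul, Matrix.of_apply, smul_eq_mul]
      ring
    rw [e1]
    unfold dQ
    rw [Rl_spec hU hU' s hl, Matrix.mul_smul, Matrix.smul_mul]
    congr 1
    have hT : T = U * (Uᵀ * T * U) * Uᵀ := by
      rw [Matrix.mul_assoc Uᵀ, ← Matrix.mul_assoc U, hU', Matrix.one_mul,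
        Matrix.mul_assoc, hU', Matrix.mul_one]
    set X := Uᵀ * T * U with hX
    rw [hT]
    unfold spec
    have r : ∀ A B : Mt n, U * A * Uᵀ * (U * B * Uᵀ) = U * (A * B) * Uᵀ := by
      intro A B
      rw [Matrix.mul_assoc, Matrix.mul_assoc, ← Matrix.mul_assoc Uᵀ, ← Matrix.mul_assoc Uᵀ, hU,
        Matrix.one_mul, ← Matrix.mul_assoc, ← Matrix.mul_assoc, ← Matrix.mul_assoc]
    rw [r, r, ← Matrix.add_mul, ← Matrix.mul_add, r, r]
  rw [e, hs_conj hU]
  unfold hs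
  refine Finset.sum_congr rfl fun i _ => Finset.sum_congr rfl fun j _ => ?_
  rw [Matrix.of_apply]
  unfold rho
  have h1 : 0 < 1 + l * s i ^ 2 := by positivity
  have h2 : 0 < 1 + l * s j ^ 2 := by positivity
  field_simp

theorem hs_conj' {U : Mt n} (hU' : U * Uᵀ = 1) (T : Mt n) :
    ∑ i, ∑ j, (Uᵀ * T * U) i j ^ 2 = hs T := by
  have h : hs (Uᵀ * T * U) = hs T := by
    rw [Mask764.hs_mul_right hU', Mask764.hs_mul_left (by rw [transpose_transpose]; exact hU')]
  exact h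

/-- (2) the cost, integrated over the levels -/
theorem cost {S : Mt n} (hS : Sᵀ = S) (T : Mt n) {a l0 l1 : ℝ} (h0 : 0 < l0) (h1 : l0 ≤ l1) :
    ∫ l in l0..l1, (l ^ 2)⁻¹ * hs (dQ a l S T) ≤ 3 / 2 * a ^ 2 * hs T := by
  obtain ⟨U, s, hU, hU', rfl⟩ := exists_spec hS
  have hpos : ∀ l ∈ uIcc l0 l1, 0 < l := by
    intro l hl
    rw [uIcc_of_le h1] at hl
    exact h0.trans_le hl.1
  have e : ∫ l in l0..l1, (l ^ 2)⁻¹ * hs (dQ a l (spec U s) T) =
      ∫ l in l0..l1, ∑ i, ∑ j, a ^ 2 * (Uᵀ * T * U) i j ^ 2 *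
        ((s i + s j) ^ 2 / ((1 + l * s i ^ 2) ^ 2 * (1 + l * s j ^ 2) ^ 2)) := by
    refine intervalIntegral.integral_congr fun l hl => ?_
    have hl := hpos l hl
    change (l ^ 2)⁻¹ * hs (dQ a l (spec U s) T) = ∑ i, ∑ j, a ^ 2 * (Uᵀ * T * U) i j ^ 2 *
        ((s i + s j) ^ 2 / ((1 + l * s i ^ 2) ^ 2 * (1 + l * s j ^ 2) ^ 2))
    rw [hs_dQ hU hU' s T hl.le, Finset.mul_sum]
    refine Finset.sum_congr rfl fun i _ => ?_
    rw [Finset.mul_sum]
    refine Finset.sum_congr rfl fun j _ => ?_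
    field_simp
  have cc : ∀ i j, ContinuousOn (fun l => a ^ 2 * (Uᵀ * T * U) i j ^ 2 *
        ((s i + s j) ^ 2 / ((1 + l * s i ^ 2) ^ 2 * (1 + l * s j ^ 2) ^ 2))) (uIcc l0 l1) := by
    intro i j l hl
    have hl := hpos l hl
    exact ContinuousAt.continuousWithinAt (ContinuousAt.mul continuousAt_const
      (ContinuousAt.div (by fun_prop) (by fun_prop) (by positivity)))
  rw [e, intervalIntegral.integral_finsetSum fun i _ =>
    (continuousOn_finsetSum _ fun j _ => cc i j).intervalIntegrable]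
  rw [← hs_conj' hU' T, Finset.mul_sum]
  refine Finset.sum_le_sum fun i _ => ?_
  rw [intervalIntegral.integral_finsetSum fun j _ => (cc i j).intervalIntegrable, Finset.mul_sum]
  refine Finset.sum_le_sum fun j _ => ?_
  rw [intervalIntegral.integral_const_mul]
  have := mul_le_mul_of_nonneg_left (pair (s i) (s j) h0.le h1)
    (by positivity : 0 ≤ a ^ 2 * (Uᵀ * T * U) i j ^ 2)
  refine this.trans (le_of_eq ?_)
  ring

theorem conj_mul {U : Mt n} (hU : Uᵀ * U = 1) (A B : Mt n) :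
    U * A * Uᵀ * (U * B * Uᵀ) = U * (A * B) * Uᵀ := by
  rw [Matrix.mul_assoc, Matrix.mul_assoc, ← Matrix.mul_assoc Uᵀ, ← Matrix.mul_assoc Uᵀ, hU,
    Matrix.one_mul, ← Matrix.mul_assoc, ← Matrix.mul_assoc, ← Matrix.mul_assoc]

theorem conj_inv {U : Mt n} (hU' : U * Uᵀ = 1) (T : Mt n) : T = U * (Uᵀ * T * U) * Uᵀ := by
  rw [Matrix.mul_assoc Uᵀ, ← Matrix.mul_assoc U, hU', Matrix.one_mul,
    Matrix.mul_assoc, hU', Matrix.mul_one]

theorem trace_conj {U : Mt n} (hU : Uᵀ * U = 1) (A : Mt n) : (U * A * Uᵀ).trace = A.trace := by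
  rw [trace_mul_comm, ← Matrix.mul_assoc, hU, Matrix.one_mul]

/-- (1) the Fisher information of the channel `N(0, 1 + Q²)` -/
theorem chan_cost {Q Y : Mt n} (hQ : Qᵀ = Q) (hY : Yᵀ = Y) :
    ((1 + Q * Q)⁻¹ * (Q * Y + Y * Q) * (1 + Q * Q)⁻¹ * (Q * Y + Y * Q)).trace ≤ hs Y := by
  obtain ⟨U, q, hU, hU', rfl⟩ := exists_spec hQ
  have hM : (1 + spec U q * spec U q)⁻¹ = spec U (fun i => (1 + q i ^ 2)⁻¹) := by
    have := one_add_eq_spec hU hU' q 1
    rw [one_smul] at this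
    rw [this, inv_spec hU hU' fun i => by positivity]
    simp only [one_mul]
  set X := Uᵀ * Y * U with hX
  have hXs : Xᵀ = X := by
    rw [hX, transpose_mul, transpose_mul, transpose_transpose, hY, Matrix.mul_assoc]
  have hYX : Y = U * X * Uᵀ := conj_inv hU' Y
  have hN : spec U q * Y + Y * spec U q = U * (diagonal q * X + X * diagonal q) * Uᵀ := by
    rw [hYX]
    unfold spec
    rw [conj_mul hU, conj_mul hU, ← Matrix.add_mul, ← Matrix.mul_add]
  rw [hM, hN]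
  unfold spec
  rw [conj_mul hU, conj_mul hU, conj_mul hU, trace_conj hU, ← hs_conj' hU' Y, ← hX]
  unfold trace
  refine Finset.sum_le_sum fun i _ => ?_
  rw [diag_apply, Matrix.mul_apply]
  refine Finset.sum_le_sum fun j _ => ?_
  rw [Matrix.mul_diagonal, Matrix.diagonal_mul, Matrix.add_apply, Matrix.add_apply,
    Matrix.mul_diagonal, Matrix.diagonal_mul, Matrix.mul_diagonal, Matrix.diagonal_mul]
  have e : X j i = X i j := by
    conv_lhs => rw [← hXs]
    rfl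
  rw [e]
  have h1 : 0 < 1 + q i ^ 2 := by positivity
  have h2 : 0 < 1 + q j ^ 2 := by positivity
  have e2 : (1 + q i ^ 2)⁻¹ * (q i * X i j + X i j * q j) * (1 + q j ^ 2)⁻¹ *
      (q j * X i j + X i j * q i) =
      X i j ^ 2 * ((q i + q j) ^ 2 / ((1 + q i ^ 2) * (1 + q j ^ 2))) := by
    field_simp
    ring
  rw [e2]
  have h3 : (q i + q j) ^ 2 / ((1 + q i ^ 2) * (1 + q j ^ 2)) ≤ 1 := by
    rw [div_le_one (by positivity)]
    nlinarith [sq_nonneg (q i * q j - 1)]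
  calc X i j ^ 2 * ((q i + q j) ^ 2 / ((1 + q i ^ 2) * (1 + q j ^ 2))) ≤ X i j ^ 2 * 1 :=
        mul_le_mul_of_nonneg_left h3 (sq_nonneg _)
    _ = _ := mul_one _

theorem q_cont {a l0 l1 : ℝ} (h0 : 0 < l0) (h1 : l0 ≤ l1) (s : ℝ) :
    ContinuousOn (fun l => q a l s) (uIcc l0 l1) := by
  intro l hl
  rw [uIcc_of_le h1] at hl
  have hl : 0 < l := h0.trans_le hl.1
  have hp : 0 < 1 + l * s ^ 2 := by positivity
  exact ContinuousAt.continuousWithinAt (ContinuousAt.div (by fun_prop) (by fun_prop) hp.ne')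

theorem inv_sq_cont {l0 l1 : ℝ} (h0 : 0 < l0) (h1 : l0 ≤ l1) :
    ContinuousOn (fun l : ℝ => (l ^ 2)⁻¹) (uIcc l0 l1) := by
  intro l hl
  rw [uIcc_of_le h1] at hl
  have hl : 0 < l := h0.trans_le hl.1
  exact ContinuousAt.continuousWithinAt (ContinuousAt.inv₀ (by fun_prop) (by positivity))

/-- `tr Q² - log det (1 + Q²)` -/
noncomputable def ben (Q : Mt n) : ℝ := (Q * Q).trace - Real.log (1 + Q * Q).det

theorem ben_spec {U : Mt n} (hU : Uᵀ * U = 1) (hU' : U * Uᵀ = 1) (q : Fin n → ℝ) :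
    ben (spec U q) = ∑ i, (q i ^ 2 - Real.log (1 + q i ^ 2)) := by
  unfold ben
  have := one_add_eq_spec hU hU' q 1
  rw [one_smul] at this
  rw [this, spec_mul hU, trace_spec hU, det_spec hU, Real.log_prod fun i _ => by positivity,
    Finset.sum_sub_distrib]
  simp only [one_mul, sq]

theorem ben_nonneg {Q : Mt n} (hQ : Qᵀ = Q) : 0 ≤ ben Q := by
  obtain ⟨U, q, hU, hU', rfl⟩ := exists_spec hQ
  rw [ben_spec hU hU']
  refine Finset.sum_nonneg fun i _ => ?_
  have := Real.log_le_sub_one_of_pos (by positivity : 0 < 1 + q i ^ 2)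
  linarith

/-- (3) the benefit, integrated over the levels -/
theorem benefit_mt {S : Mt n} (hS : Sᵀ = S) {a l0 l1 : ℝ} (ha : 0 ≤ a) (h0 : 0 < l0)
    (h1 : l0 ≤ l1) :
    (a ^ 2 - Real.pi * a) * (S * S).trace - a ^ 2 * l0 * (S * S * (S * S)).trace - n * a ^ 2 / l1 ≤
      ∫ l in l0..l1, (l ^ 2)⁻¹ * ben (Ql a l S) := by
  obtain ⟨U, s, hU, hU', rfl⟩ := exists_spec hS
  have hpos : ∀ l ∈ uIcc l0 l1, 0 < l := by
    intro l hl
    rw [uIcc_of_le h1] at hl
    exact h0.trans_le hl.1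
  have e : ∫ l in l0..l1, (l ^ 2)⁻¹ * ben (Ql a l (spec U s)) =
      ∫ l in l0..l1, ∑ i, (l ^ 2)⁻¹ * (q a l (s i) ^ 2 - Real.log (1 + q a l (s i) ^ 2)) := by
    refine intervalIntegral.integral_congr fun l hl => ?_
    have hl := hpos l hl
    change (l ^ 2)⁻¹ * ben (Ql a l (spec U s)) = _
    rw [Ql_spec hU hU' s hl.le, ben_spec hU hU', Finset.mul_sum]
  have cc : ∀ i, ContinuousOn (fun l => (l ^ 2)⁻¹ * (q a l (s i) ^ 2 -
      Real.log (1 + q a l (s i) ^ 2))) (uIcc l0 l1) := by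
    intro i
    have hq := (q_cont (a := a) h0 h1 (s i)).pow 2
    exact (inv_sq_cont h0 h1).mul (hq.sub (ContinuousOn.log (f := fun l => 1 + q a l (s i) ^ 2)
      (continuousOn_const.add hq) fun l _ => ne_of_gt (by positivity)))
  rw [e, intervalIntegral.integral_finsetSum fun i _ => (cc i).intervalIntegrable, spec_mul hU,
    spec_mul hU, trace_spec hU, trace_spec hU]
  have h2 := Finset.sum_le_sum fun (i : Fin n) (_ : i ∈ Finset.univ) =>
    benefit (s := s i) ha h0 h1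
  refine le_trans (le_of_eq ?_) h2
  rw [Finset.sum_sub_distrib, Finset.sum_sub_distrib, Finset.mul_sum, Finset.mul_sum]
  congr 1
  · congr 1
    · exact Finset.sum_congr rfl fun i _ => by ring
    · exact Finset.sum_congr rfl fun i _ => by ring
  · simp only [Finset.sum_const, Finset.card_univ, Fintype.card_fin, nsmul_eq_mul]
    ring

/-- (4) the weight: `∫ l⁻² tr (W Q²) ≤ a² tr (W S²)` -/
theorem weight_mt {S W : Mt n} (hS : Sᵀ = S) (hW : LeQ 0 W) {a l0 l1 : ℝ} (h0 : 0 < l0)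
    (h1 : l0 ≤ l1) :
    ∫ l in l0..l1, (l ^ 2)⁻¹ * (W * (Ql a l S * Ql a l S)).trace ≤
      a ^ 2 * (W * (S * S)).trace := by
  obtain ⟨U, s, hU, hU', rfl⟩ := exists_spec hS
  have hpos : ∀ l ∈ uIcc l0 l1, 0 < l := by
    intro l hl
    rw [uIcc_of_le h1] at hl
    exact h0.trans_le hl.1
  have tr : ∀ f : Fin n → ℝ, (W * spec U f).trace = ∑ i, f i * (Uᵀ * W * U) i i := by
    intro f
    unfold spec
    rw [← Matrix.mul_assoc, trace_mul_comm, ← Matrix.mul_assoc, ← Matrix.mul_assoc]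
    unfold trace
    refine Finset.sum_congr rfl fun i _ => ?_
    rw [diag_apply, Matrix.mul_diagonal, mul_comm]
  have hw : ∀ i, 0 ≤ (Uᵀ * W * U) i i := by
    intro i
    have h := hW (fun k => U k i)
    rw [zero_mulVec, dotProduct_zero] at h
    refine h.trans (le_of_eq ?_)
    rw [Matrix.mul_assoc, Matrix.mul_apply]
    unfold dotProduct mulVec dotProduct
    refine Finset.sum_congr rfl fun k _ => ?_
    rw [Matrix.mul_apply, transpose_apply]
  have e : ∫ l in l0..l1, (l ^ 2)⁻¹ * (W * (Ql a l (spec U s) * Ql a l (spec U s))).trace =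
      ∫ l in l0..l1, ∑ i, (Uᵀ * W * U) i i * ((l ^ 2)⁻¹ * q a l (s i) ^ 2) := by
    refine intervalIntegral.integral_congr fun l hl => ?_
    have hl := hpos l hl
    change (l ^ 2)⁻¹ * (W * (Ql a l (spec U s) * Ql a l (spec U s))).trace = _
    rw [Ql_spec hU hU' s hl.le, spec_mul hU, tr, Finset.mul_sum]
    exact Finset.sum_congr rfl fun i _ => by ring
  have cc : ∀ i, ContinuousOn (fun l => (Uᵀ * W * U) i i * ((l ^ 2)⁻¹ * q a l (s i) ^ 2))
      (uIcc l0 l1) := fun i =>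
    continuousOn_const.mul ((inv_sq_cont h0 h1).mul ((q_cont (a := a) h0 h1 (s i)).pow 2))
  rw [e, intervalIntegral.integral_finsetSum fun i _ => (cc i).intervalIntegrable, spec_mul hU,
    tr, Finset.mul_sum]
  refine Finset.sum_le_sum fun i _ => ?_
  rw [intervalIntegral.integral_const_mul]
  have := mul_le_mul_of_nonneg_left (q_sq_le (a := a) (s := s i) h0 h1) (hw i)
  refine this.trans (le_of_eq ?_)
  ring

end Crest.Agent.R201.Ch150
end

-- ▼ part R201/Ch3_150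
section

/-!
# R201, LSI half (helper150): the channel matrix field `x ↦ Ql a l (S x)` is `CB`
-/

set_option autoImplicit false
open MeasureTheory Matrix Set
open scoped Matrix.Norms.Operator

namespace Crest.Agent.R201.Ch150

open Crest.Agent.R201 Crest.Agent.R201.NB152

variable {n : ℕ}

/-! ### pointwise bounds -/


theorem q_mem {a l s : ℝ} (ha : 0 ≤ a) (hl : 0 ≤ l) :
    0 ≤ q a l s ∧ q a l s ≤ a ∧ q a l s ≤ a * l * s ^ 2 ∧ q a l s ^ 2 ≤ a ^ 2 * l * s ^ 2 := by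
  have hp : 0 < 1 + l * s ^ 2 := by positivity
  have h1 : 0 ≤ q a l s := by unfold q; positivity
  have h2 : q a l s ≤ a := by
    unfold q
    rw [div_le_iff₀ hp]
    nlinarith
  have h3 : q a l s ≤ a * l * s ^ 2 := by
    unfold q
    exact div_le_self (by positivity) (by nlinarith [mul_nonneg hl (sq_nonneg s)])
  refine ⟨h1, h2, h3, ?_⟩
  calc q a l s ^ 2 = q a l s * q a l s := sq _
    _ ≤ a * (a * l * s ^ 2) := mul_le_mul h2 h3 h1 ha
    _ = _ := by ring

theorem Ql_bounds {S : Mt n} (hS : Sᵀ = S) {a l : ℝ} (ha : 0 ≤ a) (hl : 0 ≤ l) :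
    LeQ 0 (Ql a l S) ∧ LeQ (Ql a l S) (a • (1 : Mt n)) ∧
    LeQ (Ql a l S * Ql a l S) (a ^ 2 • (1 : Mt n)) ∧
    LeQ (Ql a l S * Ql a l S) ((a ^ 2 * l) • (S * S)) := by
  obtain ⟨U, s, h1, h2, rfl⟩ := exists_spec hS
  have hz : (0 : Mt n) = spec U (fun _ => 0) := by
    unfold spec
    simp
  rw [Ql_spec h1 h2 s hl, spec_mul h1, spec_mul h1, ← spec_one h2, spec_smul, spec_smul, spec_smul,
    hz]
  refine ⟨spec_mono U fun i => (q_mem ha hl).1, spec_mono U fun i => ?_, spec_mono U fun i => ?_,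
    spec_mono U fun i => ?_⟩
  · rw [mul_one]
    exact (q_mem ha hl).2.1
  · have := q_mem (s := s i) ha hl
    nlinarith
  · have := (q_mem (s := s i) ha hl).2.2.2
    rw [← sq, ← sq]
    exact this

theorem hs_spec {U : Mt n} (hU : Uᵀ * U = 1) (f : Fin n → ℝ) : hs (spec U f) = ∑ i, f i ^ 2 := by
  rw [hs_eq_trace, spec_transpose, spec_mul hU, trace_spec hU]
  exact Finset.sum_congr rfl fun i _ => (sq _).symm


theorem hs_Ql_le {S : Mt n} (hS : Sᵀ = S) {a l : ℝ} (ha : 0 ≤ a) (hl : 0 ≤ l) :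
    hs (Ql a l S) ≤ a ^ 2 * n ∧ hs (Ql a l S) ≤ a ^ 2 * l * hs S := by
  obtain ⟨U, s, h1, h2, rfl⟩ := exists_spec hS
  rw [Ql_spec h1 h2 s hl, hs_spec h1, hs_spec h1]
  constructor
  · calc ∑ i, q a l (s i) ^ 2 ≤ ∑ _i : Fin n, a ^ 2 := Finset.sum_le_sum fun i _ => by
          have := q_mem (s := s i) ha hl
          nlinarith
      _ = a ^ 2 * n := by simp [mul_comm]
  · rw [Finset.mul_sum]
    exact Finset.sum_le_sum fun i _ => (q_mem ha hl).2.2.2

/-- a bound of `dQ` at each level -/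
theorem hs_dQ_le {S : Mt n} (hS : Sᵀ = S) (T : Mt n) {a l : ℝ} (hl : 0 ≤ l) :
    hs (dQ a l S T) ≤ a ^ 2 * l * hs T := by
  obtain ⟨U, s, h1, h2, rfl⟩ := exists_spec hS
  rw [hs_dQ h1 h2 s T hl, ← hs_conj' h2 T, Finset.mul_sum]
  refine Finset.sum_le_sum fun i _ => ?_
  rw [Finset.mul_sum]
  refine Finset.sum_le_sum fun j _ => ?_
  have e1 : 1 ≤ 1 + l * s i ^ 2 := by nlinarith [mul_nonneg hl (sq_nonneg (s i))]
  have e2 : 1 ≤ 1 + l * s j ^ 2 := by nlinarith [mul_nonneg hl (sq_nonneg (s j))]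
  have key : l ^ 2 * ((s i + s j) ^ 2 / ((1 + l * s i ^ 2) ^ 2 * (1 + l * s j ^ 2) ^ 2)) ≤ l := by
    rw [mul_div_assoc', div_le_iff₀ (by positivity)]
    have h3 : l * (s i + s j) ^ 2 ≤ (1 + l * s i ^ 2) * (1 + l * s j ^ 2) * 1 := by
      nlinarith [sq_nonneg (l * (s i * s j) - 1), mul_nonneg hl (sq_nonneg (s i - s j)),
        mul_nonneg hl (sq_nonneg (s i * s j)), mul_nonneg hl hl]
    have h4 : 1 ≤ (1 + l * s i ^ 2) * (1 + l * s j ^ 2) := by nlinarith
    have h5 : l ^ 2 * (s i + s j) ^ 2 ≤ l * ((1 + l * s i ^ 2) * (1 + l * s j ^ 2)) := by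
      have := mul_le_mul_of_nonneg_left h3 hl
      nlinarith
    refine h5.trans (mul_le_mul_of_nonneg_left ?_ hl)
    have : (1 + l * s i ^ 2) ^ 2 * (1 + l * s j ^ 2) ^ 2 =
        ((1 + l * s i ^ 2) * (1 + l * s j ^ 2)) * ((1 + l * s i ^ 2) * (1 + l * s j ^ 2)) := by ring
    rw [this]
    nlinarith
  have := mul_le_mul_of_nonneg_left key (by positivity : 0 ≤ a ^ 2 * (Uᵀ * T * U) i j ^ 2)
  refine this.trans (le_of_eq ?_)
  ring

/-! ### calculus of matrix fields -/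

theorem pdM_mul {F G : E n → Mt n} {x : E n} (hF : ∀ i j, DifferentiableAt ℝ (fun y => F y i j) x)
    (hG : ∀ i j, DifferentiableAt ℝ (fun y => G y i j) x) (k : Fin n) :
    pdM k (fun y => F y * G y) x = pdM k F x * G x + F x * pdM k G x := by
  ext i j
  have e : (fun y => (F y * G y) i j) = fun y => ∑ l, F y i l * G y l j := by
    funext y
    exact Matrix.mul_apply
  rw [Matrix.add_apply, Matrix.mul_apply, Matrix.mul_apply]
  simp only [pdM, Matrix.of_apply]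
  rw [e]
  refine (Tw807.pd_sum (f := fun l y => F y i l * G y l j) Finset.univ k
    fun l _ => (hF i l).mul (hG l j)).trans ?_
  rw [← Finset.sum_add_distrib]
  refine Finset.sum_congr rfl fun l _ => ?_
  refine (Tw807.pd_mul k (hF i l) (hG l j)).trans ?_
  exact add_comm _ _

theorem inv_contDiffAt {G : E n → Mt n} {x : E n} (hG : ∀ i j, ContDiffAt ℝ 1 (fun y => G y i j) x)
    (hu : IsUnit (G x)) (i j : Fin n) : ContDiffAt ℝ 1 (fun y => (G y)⁻¹ i j) x := by
  have h1 : ContDiffAt ℝ 1 G x := MX354.contDiffAt_of_entries hG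
  obtain ⟨u, hu⟩ := hu
  have h2 : ContDiffAt ℝ 1 (fun y => Ring.inverse (G y)) x := by
    have h5 : ContDiffAt ℝ 1 (Ring.inverse : Mt n → Mt n) (G x) := by
      rw [← hu]
      exact contDiffAt_ringInverse ℝ u
    exact h5.comp x h1
  have h3 : (fun y => (G y)⁻¹) = fun y => Ring.inverse (G y) := by
    funext y
    exact Matrix.nonsing_inv_eq_ringInverse _
  have h4 : ContDiffAt ℝ 1 (fun y => (G y)⁻¹) x := by rw [h3]; exact h2
  exact (MX354.entryL i j).contDiff.contDiffAt.comp x h4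

/-- derivative of the inverse -/
theorem pdM_inv {G : E n → Mt n} (hG : ∀ i j, ContDiff ℝ 1 (fun y => G y i j))
    (hu : ∀ x, IsUnit (G x)) (k : Fin n) (x : E n) :
    pdM k (fun y => (G y)⁻¹) x = -((G x)⁻¹ * pdM k G x * (G x)⁻¹) := by
  have hI : ∀ i j, DifferentiableAt ℝ (fun y => (G y)⁻¹ i j) x := fun i j =>
    (inv_contDiffAt (fun i j => (hG i j).contDiffAt) (hu x) i j).differentiableAt (by simp)
  have hG' : ∀ i j, DifferentiableAt ℝ (fun y => G y i j) x := fun i j =>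
    (hG i j).contDiffAt.differentiableAt (by simp)
  have h1 := pdM_mul hG' hI k
  have h2 : pdM k (fun y => G y * (G y)⁻¹) x = 0 := by
    have e : (fun y => G y * (G y)⁻¹) = fun _ => (1 : Mt n) := by
      funext y
      exact mul_nonsing_inv _ ((isUnit_iff_isUnit_det _).mp (hu y))
    rw [e]
    ext i j
    exact Tw807.pd_const _ k x
  rw [h2] at h1
  have h3 : G x * pdM k (fun y => (G y)⁻¹) x = -(pdM k G x * (G x)⁻¹) := by
    rw [eq_neg_iff_add_eq_zero, add_comm]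
    exact h1.symm
  have h4 : (G x)⁻¹ * (G x * pdM k (fun y => (G y)⁻¹) x) =
      (G x)⁻¹ * -(pdM k G x * (G x)⁻¹) := by rw [h3]
  rw [← Matrix.mul_assoc, nonsing_inv_mul _ ((isUnit_iff_isUnit_det _).mp (hu x)),
    Matrix.one_mul] at h4
  rw [h4, Matrix.mul_neg, Matrix.mul_assoc]

theorem isUnit_one_add {S : Mt n} (hS : Sᵀ = S) {l : ℝ} (hl : 0 ≤ l) :
    IsUnit (1 + l • (S * S)) := by
  obtain ⟨U, s, h1, h2, rfl⟩ := exists_spec hS
  rw [one_add_eq_spec h1 h2, isUnit_iff_isUnit_det, det_spec h1, isUnit_iff_ne_zero]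
  exact Finset.prod_ne_zero_iff.mpr fun i _ => by positivity

theorem cb_one_add {S : E n → Mt n} (hS : ∀ i, CB (famM S i)) (l : ℝ) :
    ∀ i, CB (famM (fun x => 1 + l • (S x * S x)) i) := by
  rintro ⟨i, j⟩
  have e : famM (fun x => 1 + l • (S x * S x)) (i, j) =
      fun x => (1 : Mt n) i j + l * ∑ k, S x i k * S x k j := by
    funext x
    change (1 + l • (S x * S x)) i j = _
    rw [Matrix.add_apply, Matrix.smul_apply, Matrix.mul_apply, smul_eq_mul]
  rw [e]
  exact Tw807.cb_add (Tw807.cb_const _) (Tw807.cb_const_mul l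
    (Tw807.cb_sum _ fun k _ => Tw807.cb_mul (hS (i, k)) (hS (k, j))))

theorem pdM_one_add {S : E n → Mt n} (hS : ∀ i, CB (famM S i)) (l : ℝ) (k : Fin n) (x : E n) :
    pdM k (fun x => 1 + l • (S x * S x)) x = l • (S x * pdM k S x + pdM k S x * S x) := by
  have hd : ∀ i j, DifferentiableAt ℝ (fun y => S y i j) x := fun i j =>
    (Tw807.cb_diff (hS (i, j))) x
  have h1 := pdM_mul hd hd k
  ext i j
  have h2 := congrFun (congrFun h1 i) j
  have hdd : DifferentiableAt ℝ (fun y => (S y * S y) i j) x := by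
    have e : (fun y => (S y * S y) i j) = fun y => ∑ l, S y i l * S y l j := by
      funext y
      exact Matrix.mul_apply
    rw [e]
    exact DifferentiableAt.fun_sum fun l _ => (hd i l).mul (hd l j)
  have h3 : pd k (fun y => (1 + l • (S y * S y)) i j) x = l * pd k (fun y => (S y * S y) i j) x := by
    have e : (fun y => (1 + l • (S y * S y)) i j) =
        fun y => (1 : Mt n) i j + l * (S y * S y) i j := rfl
    rw [e, Tw807.pd_add k (differentiableAt_const _) (hdd.const_mul l), Tw807.pd_const, zero_add,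
      Tw807.pd_const_mul l k hdd]
  change pd k (fun y => (1 + l • (S y * S y)) i j) x = _
  rw [h3]
  have h4 : pd k (fun y => (S y * S y) i j) x = (pdM k S x * S x + S x * pdM k S x) i j := h2
  rw [h4, Matrix.smul_apply, smul_eq_mul, add_comm (S x * pdM k S x)]

/-- (5) derivative of the channel field -/
theorem pdM_Ql {S : E n → Mt n} (hS : ∀ i, CB (famM S i)) (hSs : ∀ x, (S x)ᵀ = S x) {a l : ℝ}
    (hl : 0 ≤ l) (k : Fin n) (x : E n) :
    pdM k (fun y => Ql a l (S y)) x = dQ a l (S x) (pdM k S x) := by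
  have hc := cb_one_add hS l
  have hu : ∀ x, IsUnit (1 + l • (S x * S x)) := fun x => isUnit_one_add (hSs x) hl
  have h1 := pdM_inv (G := fun x => 1 + l • (S x * S x)) (fun i j => (hc (i, j)).1) hu k x
  rw [pdM_one_add hS l k x] at h1
  have hd : ∀ i j, DifferentiableAt ℝ (fun y => Rl l (S y) i j) x := fun i j =>
    (inv_contDiffAt (fun i j => ((hc (i, j)).1).contDiffAt) (hu x) i j).differentiableAt (by simp)
  have h2 : pdM k (fun y => Ql a l (S y)) x = -(a • pdM k (fun y => Rl l (S y)) x) := by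
    ext i j
    change pd k (fun y => a * ((1 : Mt n) i j - Rl l (S y) i j)) x =
      -(a * pd k (fun y => Rl l (S y) i j) x)
    have e : (fun y => a * ((1 : Mt n) i j - Rl l (S y) i j)) =
        fun y => a * (1 : Mt n) i j - a * Rl l (S y) i j := by
      funext y
      ring
    rw [e, Tw807.pd_sub k (differentiableAt_const _) ((hd i j).const_mul a), Tw807.pd_const,
      Tw807.pd_const_mul a k (hd i j)]
    ring
  have h3 : pdM k (fun y => Rl l (S y)) x =
      -((Rl l (S x)) * (l • (S x * pdM k S x + pdM k S x * S x)) * Rl l (S x)) := h1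
  rw [h2, h3]
  unfold dQ
  rw [Matrix.mul_smul, Matrix.smul_mul, smul_neg, neg_neg, smul_smul]

theorem abs_le_of_hs {A : Mt n} {c : ℝ} (h : hs A ≤ c) (i j : Fin n) : |A i j| ≤ 1 + c := by
  have h1 := (MX354.sq_le_hs A i j).trans h
  have h2 : |A i j| ^ 2 = A i j ^ 2 := sq_abs _
  nlinarith [abs_nonneg (A i j), sq_nonneg (|A i j| - 1)]

theorem hs_bdd {T : E n → Mt n} {B : ℝ} (h : ∀ x i j, |T x i j| ≤ B) (x : E n) :
    hs (T x) ≤ n * (n * B ^ 2) := by
  unfold hs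
  calc ∑ i, ∑ j, T x i j ^ 2 ≤ ∑ _i : Fin n, ∑ _j : Fin n, B ^ 2 := by
        refine Finset.sum_le_sum fun i _ => Finset.sum_le_sum fun j _ => ?_
        rw [← sq_abs]
        exact pow_le_pow_left₀ (abs_nonneg _) (h x i j) 2
    _ = n * (n * B ^ 2) := by simp

/-- (5) the channel field is `CB` -/
theorem cb_Ql {S : E n → Mt n} (hS : ∀ i, CB (famM S i)) (hSs : ∀ x, (S x)ᵀ = S x) {a l : ℝ}
    (ha : 0 ≤ a) (hl : 0 ≤ l) : ∀ i, CB (famM (fun x => Ql a l (S x)) i) := by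
  have hc := cb_one_add hS l
  have hu : ∀ x, IsUnit (1 + l • (S x * S x)) := fun x => isUnit_one_add (hSs x) hl
  choose B hB using fun i => (hS i).2
  set B0 : ℝ := ∑ i, |B i| with hB0
  have hle : ∀ i, B i ≤ B0 := fun i =>
    (le_abs_self _).trans (Finset.single_le_sum (f := fun i => |B i|)
      (fun _ _ => abs_nonneg _) (Finset.mem_univ i))
  have hT : ∀ (k : Fin n) (x : E n) (i j : Fin n), |pdM k S x i j| ≤ B0 := fun k x i j =>
    ((hB (i, j) x).2 k).trans (hle _)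
  rintro ⟨i, j⟩
  refine ⟨?_, (1 + a ^ 2 * n) + (1 + a ^ 2 * l * (n * (n * B0 ^ 2))), fun x => ⟨?_, fun k => ?_⟩⟩
  · have h1 : ContDiff ℝ 1 (fun y => Rl l (S y) i j) := by
      rw [contDiff_iff_contDiffAt]
      intro x
      exact inv_contDiffAt (fun i j => ((hc (i, j)).1).contDiffAt) (hu x) i j
    have e : famM (fun x => Ql a l (S x)) (i, j) =
        fun y => a * ((1 : Mt n) i j - Rl l (S y) i j) := rfl
    rw [e]
    exact contDiff_const.mul (contDiff_const.sub h1)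
  · have h1 := abs_le_of_hs (hs_Ql_le (hSs x) ha hl).1 i j
    have h2 : 0 ≤ a ^ 2 * l * (n * (n * B0 ^ 2)) := by positivity
    change |Ql a l (S x) i j| ≤ _
    linarith
  · have h1 : hs (dQ a l (S x) (pdM k S x)) ≤ a ^ 2 * l * (n * (n * B0 ^ 2)) :=
      (hs_dQ_le (hSs x) _ hl).trans (mul_le_mul_of_nonneg_left
        (hs_bdd (T := fun x => pdM k S x) (fun x i j => hT k x i j) x) (by positivity))
    have h2 := abs_le_of_hs h1 i j
    rw [← pdM_Ql hS hSs hl k x] at h2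
    change |pd k (fun y => Ql a l (S y) i j) x| ≤ _
    have h3 : 0 ≤ a ^ 2 * (n : ℝ) := by positivity
    have h4 : |pd k (fun y => Ql a l (S y) i j) x| ≤ 1 + a ^ 2 * l * (n * (n * B0 ^ 2)) := h2
    linarith

end Crest.Agent.R201.Ch150
end

-- ▼ part R201/Ch4_150
section

/-!
# R201, LSI half (helper150): the channel inequality integrated over the levels
-/

set_option autoImplicit false
open MeasureTheory Matrix Set
open scoped Matrix.Norms.Operator

namespace Crest.Agent.R201.Ch150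

open Crest.Agent.R201 Crest.Agent.R201.NB152

variable {n : ℕ}

/-! ### joint continuity in the level and the point -/

theorem cont_mul {X : Type*} [TopologicalSpace X] {F G : X → Mt n} {s : Set X}
    (hF : ∀ i j, ContinuousOn (fun y => F y i j) s) (hG : ∀ i j, ContinuousOn (fun y => G y i j) s)
    (i j : Fin n) : ContinuousOn (fun y => (F y * G y) i j) s := by
  have e : (fun y => (F y * G y) i j) = fun y => ∑ l, F y i l * G y l j := by
    funext y
    exact Matrix.mul_apply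
  rw [e]
  exact continuousOn_finsetSum _ fun l _ => (hF i l).mul (hG l j)

theorem cont_hs {X : Type*} [TopologicalSpace X] {F : X → Mt n} {s : Set X}
    (hF : ∀ i j, ContinuousOn (fun y => F y i j) s) : ContinuousOn (fun y => hs (F y)) s :=
  continuousOn_finsetSum _ fun i _ => continuousOn_finsetSum _ fun j _ => (hF i j).pow 2

theorem cont_trace {X : Type*} [TopologicalSpace X] {F : X → Mt n} {s : Set X}
    (hF : ∀ i j, ContinuousOn (fun y => F y i j) s) : ContinuousOn (fun y => (F y).trace) s :=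
  continuousOn_finsetSum _ fun i _ => hF i i

theorem cont_det {X : Type*} [TopologicalSpace X] {F : X → Mt n} {s : Set X}
    (hF : ∀ i j, ContinuousOn (fun y => F y i j) s) : ContinuousOn (fun y => (F y).det) s := by
  simp only [Matrix.det_apply]
  exact continuousOn_finsetSum _ fun σ _ => ContinuousOn.const_smul
    (continuousOn_finsetProd _ fun i _ => hF (σ i) i) _

theorem cont_inv {X : Type*} [TopologicalSpace X] {F : X → Mt n} {s : Set X}
    (hF : ∀ i j, ContinuousOn (fun y => F y i j) s) (hu : ∀ y ∈ s, IsUnit (F y)) (i j : Fin n) :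
    ContinuousOn (fun y => (F y)⁻¹ i j) s := by
  intro y hy
  have h1 : ContinuousWithinAt F s y := by
    have e : F = fun y => ∑ i, ∑ j, F y i j • Matrix.single i j (1 : ℝ) := by
      funext y; exact MX354.mt_eq_sum (F y)
    rw [e]
    exact tendsto_finsetSum _ fun i _ => tendsto_finsetSum _ fun j _ =>
      Filter.Tendsto.smul (hF i j y hy) tendsto_const_nhds
  obtain ⟨u, hu'⟩ := hu y hy
  have h2 : ContinuousAt (Ring.inverse : Mt n → Mt n) (F y) := by
    rw [← hu']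
    exact NormedRing.inverse_continuousAt u
  have h3 : ContinuousWithinAt (fun y => Ring.inverse (F y)) s y := h2.comp_continuousWithinAt h1
  have h4 : (fun y => (F y)⁻¹) = fun y => Ring.inverse (F y) := by
    funext y
    exact Matrix.nonsing_inv_eq_ringInverse _
  rw [← h4] at h3
  exact (MX354.entryL i j).continuous.continuousAt.comp_continuousWithinAt h3

section

variable {S : E n → Mt n}

theorem cont_S (hS : ∀ i, CB (famM S i)) (s : Set (ℝ × E n)) (i j : Fin n) :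
    ContinuousOn (fun p : ℝ × E n => S p.2 i j) s :=
  ((hS (i, j)).1.continuous.comp continuous_snd).continuousOn

theorem cont_pdM (hS : ∀ i, CB (famM S i)) (s : Set (ℝ × E n)) (k i j : Fin n) :
    ContinuousOn (fun p : ℝ × E n => pdM k S p.2 i j) s :=
  ((Tw807.pd_cont (hS (i, j)).1 k).comp continuous_snd).continuousOn

/-- the set of levels -/
def lev (l0 l1 : ℝ) : Set (ℝ × E n) := Ioc l0 l1 ×ˢ univ

theorem lev_pos {l0 l1 : ℝ} (h0 : 0 < l0) {p : ℝ × E n} (hp : p ∈ lev (n := n) l0 l1) :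
    0 < p.1 ∧ l0 ≤ p.1 ∧ p.1 ≤ l1 := ⟨h0.trans hp.1.1, hp.1.1.le, hp.1.2⟩

theorem cont_Rl (hS : ∀ i, CB (famM S i)) (hSs : ∀ x, (S x)ᵀ = S x) {l0 l1 : ℝ} (h0 : 0 < l0)
    (i j : Fin n) : ContinuousOn (fun p : ℝ × E n => Rl p.1 (S p.2) i j) (lev l0 l1) := by
  refine cont_inv (F := fun p : ℝ × E n => 1 + p.1 • (S p.2 * S p.2)) (fun i j => ?_)
    (fun p hp => isUnit_one_add (hSs _) (lev_pos h0 hp).1.le) i j
  change ContinuousOn (fun p : ℝ × E n => (1 : Mt n) i j + p.1 * (S p.2 * S p.2) i j) _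
  exact continuousOn_const.add (continuous_fst.continuousOn.mul
    (cont_mul (fun i j => cont_S hS _ i j) (fun i j => cont_S hS _ i j) i j))

theorem cont_Ql (hS : ∀ i, CB (famM S i)) (hSs : ∀ x, (S x)ᵀ = S x) {a l0 l1 : ℝ} (h0 : 0 < l0)
    (i j : Fin n) : ContinuousOn (fun p : ℝ × E n => Ql a p.1 (S p.2) i j) (lev l0 l1) := by
  change ContinuousOn (fun p : ℝ × E n => a * ((1 : Mt n) i j - Rl p.1 (S p.2) i j)) _
  exact continuousOn_const.mul (continuousOn_const.sub (cont_Rl hS hSs h0 i j))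

theorem cont_ben (hS : ∀ i, CB (famM S i)) (hSs : ∀ x, (S x)ᵀ = S x) {a l0 l1 : ℝ} (h0 : 0 < l0) :
    ContinuousOn (fun p : ℝ × E n => ben (Ql a p.1 (S p.2))) (lev l0 l1) := by
  have hQ := fun i j => cont_Ql (a := a) (l1 := l1) hS hSs h0 i j
  have hQQ := cont_mul hQ hQ
  refine (cont_trace hQQ).sub (ContinuousOn.log
    (f := fun p : ℝ × E n => (1 + Ql a p.1 (S p.2) * Ql a p.1 (S p.2)).det) (cont_det fun i j => ?_)
    fun p hp => ?_)
  · change ContinuousOn (fun p : ℝ × E n =>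
      (1 : Mt n) i j + (Ql a p.1 (S p.2) * Ql a p.1 (S p.2)) i j) _
    exact continuousOn_const.add (hQQ i j)
  · have h := isUnit_one_add (Ql_symm (a := a) (hSs p.2) (lev_pos h0 hp).1.le) zero_le_one
    rw [one_smul, isUnit_iff_isUnit_det, isUnit_iff_ne_zero] at h
    exact h

theorem cont_dQ (hS : ∀ i, CB (famM S i)) (hSs : ∀ x, (S x)ᵀ = S x) {a l0 l1 : ℝ} (h0 : 0 < l0)
    (k i j : Fin n) :
    ContinuousOn (fun p : ℝ × E n => dQ a p.1 (S p.2) (pdM k S p.2) i j) (lev l0 l1) := by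
  have hR := fun i j => cont_Rl (l1 := l1) hS hSs h0 i j
  have hs := fun i j => cont_S hS (lev l0 l1) i j
  have hT := fun i j => cont_pdM hS (lev l0 l1) k i j
  have h1 := cont_mul hs hT
  have h2 := cont_mul hT hs
  have h3 : ∀ i j, ContinuousOn (fun p : ℝ × E n =>
      (S p.2 * pdM k S p.2 + pdM k S p.2 * S p.2) i j) (lev l0 l1) := fun i j =>
    (h1 i j).add (h2 i j)
  have h4 := cont_mul (cont_mul hR h3) hR
  change ContinuousOn (fun p : ℝ × E n => a * p.1 *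
    (Rl p.1 (S p.2) * (S p.2 * pdM k S p.2 + pdM k S p.2 * S p.2) * Rl p.1 (S p.2)) i j) _
  exact (continuousOn_const.mul continuous_fst.continuousOn).mul (h4 i j)

end

/-! ### Fubini -/

theorem prod_integrable (μ : Measure (E n)) [IsProbabilityMeasure μ] {f : ℝ × E n → ℝ}
    {l0 l1 C : ℝ} (hc : ContinuousOn f (lev l0 l1)) (hb : ∀ p ∈ lev (n := n) l0 l1, |f p| ≤ C) :
    Integrable f ((volume.restrict (Ioc l0 l1)).prod μ) := by
  have e : (volume.restrict (Ioc l0 l1)).prod μ = (volume.prod μ).restrict (lev l0 l1) := by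
    unfold lev
    rw [← Measure.prod_restrict, Measure.restrict_univ]
  have hm : MeasurableSet (lev (n := n) l0 l1) := measurableSet_Ioc.prod MeasurableSet.univ
  refine Integrable.of_bound (C := C) ?_ ?_
  · rw [e]
    exact hc.aestronglyMeasurable hm
  · rw [e]
    exact ae_restrict_of_forall_mem hm hb

theorem swap (μ : Measure (E n)) [IsProbabilityMeasure μ] {f : ℝ × E n → ℝ}
    {l0 l1 C : ℝ} (h1 : l0 ≤ l1) (hc : ContinuousOn f (lev l0 l1))
    (hb : ∀ p ∈ lev (n := n) l0 l1, |f p| ≤ C) :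
    IntervalIntegrable (fun l => ∫ x, f (l, x) ∂μ) volume l0 l1 ∧
    Integrable (fun x => ∫ l in l0..l1, f (l, x)) μ ∧
    ∫ l in l0..l1, (∫ x, f (l, x) ∂μ) = ∫ x, (∫ l in l0..l1, f (l, x)) ∂μ := by
  have hi := prod_integrable μ hc hb
  simp only [intervalIntegral.integral_of_le h1]
  refine ⟨?_, hi.integral_prod_right, ?_⟩
  · rw [intervalIntegrable_iff_integrableOn_Ioc_of_le h1]
    exact hi.integral_prod_left
  · exact integral_integral_swap (f := fun l x => f (l, x)) hi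

theorem hs_eq_tr_sq {S : Mt n} (hS : Sᵀ = S) : (S * S).trace = hs S := by
  rw [hs_eq_trace, hS]


end Crest.Agent.R201.Ch150
end

-- ▼ part R201/Ch5_150
section

/-!
# R201, LSI half (helper150): the end game over the levels with explicit error terms
-/

set_option autoImplicit false
open MeasureTheory Matrix Set
open scoped Matrix.Norms.Operator

namespace Crest.Agent.R201.Ch150

open Crest.Agent.R201 Crest.Agent.R201.NB152

variable {n : ℕ}

theorem inv_sq_integral_le {l0 l1 : ℝ} (h0 : 0 < l0) (h1 : l0 ≤ l1) :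
    ∫ l in l0..l1, (l ^ 2)⁻¹ ≤ 1 / l0 := by
  have hl1 : 0 < l1 := h0.trans_le h1
  have hpos : ∀ l ∈ uIcc l0 l1, 0 < l := by
    intro l hl
    rw [uIcc_of_le h1] at hl
    exact h0.trans_le hl.1
  have e : ∫ l in l0..l1, (l ^ 2)⁻¹ = -(l1)⁻¹ - -(l0)⁻¹ := by
    refine intervalIntegral.integral_eq_sub_of_hasDerivAt (f := fun l => -(l)⁻¹) (fun l hl => ?_)
      (inv_sq_cont h0 h1).intervalIntegrable
    have hl := hpos l hl
    refine ((hasDerivAt_inv hl.ne').neg).congr_deriv ?_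
    simp
  rw [e]
  have : 0 < (l1)⁻¹ := by positivity
  rw [one_div]
  linarith

theorem trace_le_hs_bdd {W X : Mt n} {B C : ℝ} (hW : ∀ i j, |W i j| ≤ B) (hX : ∀ i j, |X i j| ≤ C) :
    |(W * X).trace| ≤ n * (n * (B * C)) := by
  unfold trace
  calc |∑ i, (W * X).diag i| ≤ ∑ i, |(W * X).diag i| := Finset.abs_sum_le_sum_abs _ _
    _ ≤ ∑ _i : Fin n, ∑ _j : Fin n, B * C := by
        refine Finset.sum_le_sum fun i _ => ?_
        rw [diag_apply, Matrix.mul_apply]
        refine (Finset.abs_sum_le_sum_abs _ _).trans (Finset.sum_le_sum fun j _ => ?_)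
        rw [abs_mul]
        exact mul_le_mul (hW i j) (hX j i) (abs_nonneg _) ((abs_nonneg _).trans (hW i j))
    _ = _ := by simp

/-- the weight term integrated over the levels -/
theorem weight_int (μ : Measure (E n)) [IsProbabilityMeasure μ] {S W : E n → Mt n}
    (hS : ∀ i, CB (famM S i)) (hSs : ∀ x, (S x)ᵀ = S x) (hW : ∀ i j, Continuous fun x => W x i j)
    {BW : ℝ} (hWb : ∀ x i j, |W x i j| ≤ BW) (hW0 : ∀ x, LeQ 0 (W x)) {a l0 l1 : ℝ} (ha : 0 ≤ a)
    (h0 : 0 < l0) (h1 : l0 ≤ l1) :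
    IntervalIntegrable (fun l => (l ^ 2)⁻¹ *
      ∫ x, (W x * (Ql a l (S x) * Ql a l (S x))).trace ∂μ) volume l0 l1 ∧
    ∫ l in l0..l1, (l ^ 2)⁻¹ * (∫ x, (W x * (Ql a l (S x) * Ql a l (S x))).trace ∂μ) ≤
      a ^ 2 * ∫ x, (W x * (S x * S x)).trace ∂μ := by
  have hBW : ∀ x i j, |W x i j| ≤ |BW| := fun x i j => (hWb x i j).trans (le_abs_self _)
  have cW : ∀ i j, ContinuousOn (fun p : ℝ × E n => W p.2 i j) (lev l0 l1) := fun i j =>
    ((hW i j).comp continuous_snd).continuousOn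
  have hQ := fun i j => cont_Ql (a := a) (l1 := l1) hS hSs h0 i j
  have hc : ContinuousOn (fun p : ℝ × E n => (W p.2 * (Ql a p.1 (S p.2) * Ql a p.1 (S p.2))).trace)
      (lev l0 l1) := cont_trace (cont_mul cW (cont_mul hQ hQ))
  have cw : ContinuousOn (fun p : ℝ × E n => (p.1 ^ 2)⁻¹) (lev l0 l1) := by
    intro p hp
    obtain ⟨a1, a2, a3⟩ := lev_pos h0 hp
    exact ContinuousAt.continuousWithinAt (ContinuousAt.inv₀ (by fun_prop) (by positivity))
  have hQb : ∀ l, 0 ≤ l → ∀ x i j, |Ql a l (S x) i j| ≤ 1 + a ^ 2 * n := fun l hl x i j =>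
    abs_le_of_hs (hs_Ql_le (hSs x) ha hl).1 i j
  have hQQb : ∀ l, 0 ≤ l → ∀ x i j,
      |(Ql a l (S x) * Ql a l (S x)) i j| ≤ n * ((1 + a ^ 2 * n) * (1 + a ^ 2 * n)) := by
    intro l hl x i j
    rw [Matrix.mul_apply]
    calc |∑ k, Ql a l (S x) i k * Ql a l (S x) k j| ≤ ∑ k, |Ql a l (S x) i k * Ql a l (S x) k j| :=
          Finset.abs_sum_le_sum_abs _ _
      _ ≤ ∑ _k : Fin n, (1 + a ^ 2 * n) * (1 + a ^ 2 * n) := Finset.sum_le_sum fun k _ => by
          rw [abs_mul]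
          exact mul_le_mul (hQb l hl x i k) (hQb l hl x k j) (abs_nonneg _) (by positivity)
      _ = _ := by simp
  obtain ⟨j1, j2, j3⟩ := swap μ (C := (l0 ^ 2)⁻¹ *
      (n * (n * (|BW| * (n * ((1 + a ^ 2 * n) * (1 + a ^ 2 * n))))))) h1 (cw.mul hc) fun p hp => by
      obtain ⟨a1, a2, a3⟩ := lev_pos h0 hp
      change |(p.1 ^ 2)⁻¹ * (W p.2 * (Ql a p.1 (S p.2) * Ql a p.1 (S p.2))).trace| ≤ _
      rw [abs_mul, abs_of_nonneg (by positivity : 0 ≤ (p.1 ^ 2)⁻¹)]
      exact mul_le_mul (inv_anti₀ (by positivity) (pow_le_pow_left₀ h0.le a2 2))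
        (trace_le_hs_bdd (hBW p.2) (hQQb p.1 a1.le p.2)) (abs_nonneg _) (by positivity)
  have e : ∀ l, ∫ x, (l ^ 2)⁻¹ * (W x * (Ql a l (S x) * Ql a l (S x))).trace ∂μ =
      (l ^ 2)⁻¹ * ∫ x, (W x * (Ql a l (S x) * Ql a l (S x))).trace ∂μ := fun l =>
    integral_const_mul _ _
  have j1' : IntervalIntegrable (fun l =>
      ∫ x, (l ^ 2)⁻¹ * (W x * (Ql a l (S x) * Ql a l (S x))).trace ∂μ) volume l0 l1 := j1
  have j2' : Integrable (fun x =>
      ∫ l in l0..l1, (l ^ 2)⁻¹ * (W x * (Ql a l (S x) * Ql a l (S x))).trace) μ := j2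
  have j3' : ∫ l in l0..l1, ∫ x, (l ^ 2)⁻¹ * (W x * (Ql a l (S x) * Ql a l (S x))).trace ∂μ =
      ∫ x, (∫ l in l0..l1, (l ^ 2)⁻¹ * (W x * (Ql a l (S x) * Ql a l (S x))).trace) ∂μ := j3
  simp only [e] at j1' j3'
  refine ⟨j1', ?_⟩
  rw [j3', ← integral_const_mul]
  have iW : Integrable (fun x => (W x * (S x * S x)).trace) μ := by
    choose B hB using fun i => (hS i).2
    have hB0 : ∀ i, 0 ≤ B i := fun i => (abs_nonneg _).trans (hB i 0).1
    have hSb : ∀ x i j, |(S x * S x) i j| ≤ n * ((∑ i, B i) * (∑ i, B i)) := by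
      intro x i j
      have hle : ∀ i, B i ≤ ∑ i, B i := fun i =>
        Finset.single_le_sum (f := B) (fun i _ => hB0 i) (Finset.mem_univ i)
      rw [Matrix.mul_apply]
      calc |∑ k, S x i k * S x k j| ≤ ∑ k, |S x i k * S x k j| := Finset.abs_sum_le_sum_abs _ _
        _ ≤ ∑ _k : Fin n, (∑ i, B i) * (∑ i, B i) := Finset.sum_le_sum fun k _ => by
            rw [abs_mul]
            exact mul_le_mul (((hB (i, k) x).1).trans (hle _)) (((hB (k, j) x).1).trans (hle _))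
              (abs_nonneg _) (Finset.sum_nonneg fun i _ => hB0 i)
        _ = _ := by simp
    refine Integrable.of_bound (C := n * (n * (|BW| * (n * ((∑ i, B i) * (∑ i, B i)))))) ?_
      (Filter.Eventually.of_forall fun x => trace_le_hs_bdd (hBW x) (hSb x))
    have cS : ∀ i j, Continuous fun x => S x i j := fun i j => (hS (i, j)).1.continuous
    have cSS : ∀ i j, Continuous fun x => (S x * S x) i j := by
      intro i j
      simp only [Matrix.mul_apply]
      exact continuous_finsetSum _ fun k _ => (cS i k).mul (cS k j)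
    have : Continuous fun x => (W x * (S x * S x)).trace := by
      simp only [trace, diag_apply, Matrix.mul_apply (M := W _)]
      exact continuous_finsetSum _ fun i _ => continuous_finsetSum _ fun j _ =>
        (hW i j).mul (cSS j i)
    exact this.aestronglyMeasurable
  exact integral_mono j2' (iW.const_mul _) fun x => weight_mt (hSs x) (hW0 x) h0 h1

/-- the benefit integrated over the levels -/
theorem ben_int (μ : Measure (E n)) [IsProbabilityMeasure μ] {S : E n → Mt n}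
    (hS : ∀ i, CB (famM S i)) (hSs : ∀ x, (S x)ᵀ = S x) {a l0 l1 A : ℝ} (ha : 0 ≤ a)
    (h0 : 0 < l0) (h1 : l0 ≤ l1)
    (hA : ∀ x, (S x * S x * (S x * S x)).trace ≤ A ^ 2 * (S x * S x).trace) :
    IntervalIntegrable (fun l => (l ^ 2)⁻¹ * ∫ x, ben (Ql a l (S x)) ∂μ) volume l0 l1 ∧
    (a ^ 2 - Real.pi * a - a ^ 2 * l0 * A ^ 2) * (∫ x, hs (S x) ∂μ) - n * a ^ 2 / l1 ≤
      ∫ l in l0..l1, (l ^ 2)⁻¹ * ∫ x, ben (Ql a l (S x)) ∂μ := by
  have hl1 : 0 < l1 := h0.trans_le h1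
  -- a common bound for `S` and its derivatives
  choose B hB using fun i => (hS i).2
  set B0 : ℝ := ∑ i, |B i| with hB0
  have hle : ∀ i, B i ≤ B0 := fun i =>
    (le_abs_self _).trans (Finset.single_le_sum (f := fun i => |B i|)
      (fun _ _ => abs_nonneg _) (Finset.mem_univ i))
  have hT : ∀ (k : Fin n) (x : E n) (i j : Fin n), |pdM k S x i j| ≤ B0 := fun k x i j =>
    ((hB (i, j) x).2 k).trans (hle _)
  have hTS : ∀ (x : E n) (i j : Fin n), |S x i j| ≤ B0 := fun x i j =>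
    ((hB (i, j) x).1).trans (hle _)
  have hhT : ∀ (k : Fin n) (x : E n), hs (pdM k S x) ≤ n * (n * B0 ^ 2) := fun k x =>
    hs_bdd (T := fun x => pdM k S x) (fun x i j => hT k x i j) x
  have hhS : ∀ x, hs (S x) ≤ n * (n * B0 ^ 2) := fun x => hs_bdd hTS x
  -- integrability in `x`
  have intc : ∀ {f : E n → ℝ} {C : ℝ}, Continuous f → (∀ x, |f x| ≤ C) → Integrable f μ :=
    fun hf hC => Integrable.of_bound hf.aestronglyMeasurable _
      (Filter.Eventually.of_forall fun x => hC x)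
  have cS : Continuous fun x => hs (S x) := by
    unfold hs
    exact continuous_finsetSum _ fun i _ => continuous_finsetSum _ fun j _ =>
      ((hS (i, j)).1.continuous).pow 2
  have iS : Integrable (fun x => hs (S x)) μ := intc cS fun x => by
    rw [abs_of_nonneg (NB152.hs_nonneg _)]
    exact hhS x
  have iT : ∀ k, Integrable (fun x => hs (pdM k S x)) μ := fun k => by
    refine intc (C := n * (n * B0 ^ 2)) ?_ fun x => ?_
    · unfold hs
      exact continuous_finsetSum _ fun i _ => continuous_finsetSum _ fun j _ =>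
        (Tw807.pd_cont (hS (i, j)).1 k).pow 2
    · rw [abs_of_nonneg (NB152.hs_nonneg _)]
      exact hhT k x
  -- the weight
  have hw : ∀ p ∈ lev (n := n) l0 l1, (p.1 ^ 2)⁻¹ ≤ (l0 ^ 2)⁻¹ ∧ 0 ≤ (p.1 ^ 2)⁻¹ := by
    intro p hp
    obtain ⟨a1, a2, a3⟩ := lev_pos h0 hp
    exact ⟨inv_anti₀ (by positivity) (pow_le_pow_left₀ h0.le a2 2), by positivity⟩
  have cw : ContinuousOn (fun p : ℝ × E n => (p.1 ^ 2)⁻¹) (lev l0 l1) := by
    intro p hp
    obtain ⟨a1, a2, a3⟩ := lev_pos h0 hp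
    exact ContinuousAt.continuousWithinAt (ContinuousAt.inv₀ (by fun_prop) (by positivity))
  -- the two fields
  obtain ⟨j1, j2, j3⟩ := swap μ (C := (l0 ^ 2)⁻¹ * (a ^ 2 * n)) h1 (cw.mul (cont_ben (a := a) hS hSs h0))
    fun p hp => by
      obtain ⟨a1, a2, a3⟩ := lev_pos h0 hp
      have hQs := Ql_symm (a := a) (hSs p.2) a1.le
      have b1 : 0 ≤ ben (Ql a p.1 (S p.2)) := ben_nonneg hQs
      have b2 : ben (Ql a p.1 (S p.2)) ≤ a ^ 2 * n := by
        have c1 : ben (Ql a p.1 (S p.2)) ≤ (Ql a p.1 (S p.2) * Ql a p.1 (S p.2)).trace := by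
          unfold ben
          obtain ⟨U, q, hU, hU', hq⟩ := exists_spec hQs
          have : 0 ≤ Real.log (1 + Ql a p.1 (S p.2) * Ql a p.1 (S p.2)).det := by
            have e2 := one_add_eq_spec hU hU' q 1
            rw [one_smul] at e2
            rw [hq, e2, det_spec hU, Real.log_prod fun i _ => by positivity]
            exact Finset.sum_nonneg fun i _ => Real.log_nonneg (by nlinarith [sq_nonneg (q i)])
          linarith
        rw [hs_eq_tr_sq hQs] at c1
        exact c1.trans (hs_Ql_le (hSs _) ha a1.le).1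
      change |(p.1 ^ 2)⁻¹ * ben (Ql a p.1 (S p.2))| ≤ _
      rw [abs_of_nonneg (mul_nonneg (hw p hp).2 b1)]
      exact mul_le_mul (hw p hp).1 b2 b1 (by positivity)
  have e : ∀ l, ∫ x, (l ^ 2)⁻¹ * ben (Ql a l (S x)) ∂μ =
      (l ^ 2)⁻¹ * ∫ x, ben (Ql a l (S x)) ∂μ := fun l => integral_const_mul _ _
  have j1' : IntervalIntegrable (fun l => ∫ x, (l ^ 2)⁻¹ * ben (Ql a l (S x)) ∂μ)
    volume l0 l1 := j1
  have j3' : ∫ l in l0..l1, ∫ x, (l ^ 2)⁻¹ * ben (Ql a l (S x)) ∂μ =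
      ∫ x, (∫ l in l0..l1, (l ^ 2)⁻¹ * ben (Ql a l (S x))) ∂μ := j3
  have j2' : Integrable (fun x => ∫ l in l0..l1, (l ^ 2)⁻¹ * ben (Ql a l (S x))) μ := j2
  simp only [e] at j1' j3'
  refine ⟨j1', ?_⟩
  rw [j3']
  -- the benefit
  have hben : (a ^ 2 - Real.pi * a - a ^ 2 * l0 * A ^ 2) * (∫ x, hs (S x) ∂μ) - n * a ^ 2 / l1 ≤
      ∫ x, (∫ l in l0..l1, (l ^ 2)⁻¹ * ben (Ql a l (S x))) ∂μ := by
    have e : (a ^ 2 - Real.pi * a - a ^ 2 * l0 * A ^ 2) * (∫ x, hs (S x) ∂μ) - n * a ^ 2 / l1 =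
        ∫ x, ((a ^ 2 - Real.pi * a - a ^ 2 * l0 * A ^ 2) * hs (S x) - n * a ^ 2 / l1) ∂μ := by
      rw [integral_sub (iS.const_mul _) (integrable_const _), integral_const_mul, integral_const]
      simp
    rw [e]
    refine integral_mono ((iS.const_mul _).sub (integrable_const _)) j2' fun x => ?_
    have h2 := benefit_mt (hSs x) ha h0 h1
    refine le_trans ?_ h2
    have h3 := mul_le_mul_of_nonneg_left (hA x) (by positivity : 0 ≤ a ^ 2 * l0)
    rw [hs_eq_tr_sq (hSs x)] at h3 ⊢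
    change (a ^ 2 - Real.pi * a - a ^ 2 * l0 * A ^ 2) * hs (S x) - n * a ^ 2 / l1 ≤ _
    linarith
  exact hben

/-- the cost integrated over the levels -/
theorem cost_int (μ : Measure (E n)) [IsProbabilityMeasure μ] {S : E n → Mt n}
    (hS : ∀ i, CB (famM S i)) (hSs : ∀ x, (S x)ᵀ = S x) {a l0 l1 : ℝ}
    (h0 : 0 < l0) (h1 : l0 ≤ l1) :
    IntervalIntegrable (fun l => (l ^ 2)⁻¹ * ∫ x, ∑ k, hs (dQ a l (S x) (pdM k S x)) ∂μ)
      volume l0 l1 ∧
    ∫ l in l0..l1, (l ^ 2)⁻¹ * (∫ x, ∑ k, hs (dQ a l (S x) (pdM k S x)) ∂μ) ≤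
      3 / 2 * a ^ 2 * ∫ x, ∑ k, hs (pdM k S x) ∂μ := by
  have hl1 : 0 < l1 := h0.trans_le h1
  -- a common bound for `S` and its derivatives
  choose B hB using fun i => (hS i).2
  set B0 : ℝ := ∑ i, |B i| with hB0
  have hle : ∀ i, B i ≤ B0 := fun i =>
    (le_abs_self _).trans (Finset.single_le_sum (f := fun i => |B i|)
      (fun _ _ => abs_nonneg _) (Finset.mem_univ i))
  have hT : ∀ (k : Fin n) (x : E n) (i j : Fin n), |pdM k S x i j| ≤ B0 := fun k x i j =>
    ((hB (i, j) x).2 k).trans (hle _)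
  have hTS : ∀ (x : E n) (i j : Fin n), |S x i j| ≤ B0 := fun x i j =>
    ((hB (i, j) x).1).trans (hle _)
  have hhT : ∀ (k : Fin n) (x : E n), hs (pdM k S x) ≤ n * (n * B0 ^ 2) := fun k x =>
    hs_bdd (T := fun x => pdM k S x) (fun x i j => hT k x i j) x
  have hhS : ∀ x, hs (S x) ≤ n * (n * B0 ^ 2) := fun x => hs_bdd hTS x
  -- integrability in `x`
  have intc : ∀ {f : E n → ℝ} {C : ℝ}, Continuous f → (∀ x, |f x| ≤ C) → Integrable f μ :=
    fun hf hC => Integrable.of_bound hf.aestronglyMeasurable _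
      (Filter.Eventually.of_forall fun x => hC x)
  have cS : Continuous fun x => hs (S x) := by
    unfold hs
    exact continuous_finsetSum _ fun i _ => continuous_finsetSum _ fun j _ =>
      ((hS (i, j)).1.continuous).pow 2
  have iS : Integrable (fun x => hs (S x)) μ := intc cS fun x => by
    rw [abs_of_nonneg (NB152.hs_nonneg _)]
    exact hhS x
  have iT : ∀ k, Integrable (fun x => hs (pdM k S x)) μ := fun k => by
    refine intc (C := n * (n * B0 ^ 2)) ?_ fun x => ?_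
    · unfold hs
      exact continuous_finsetSum _ fun i _ => continuous_finsetSum _ fun j _ =>
        (Tw807.pd_cont (hS (i, j)).1 k).pow 2
    · rw [abs_of_nonneg (NB152.hs_nonneg _)]
      exact hhT k x
  -- the weight
  have hw : ∀ p ∈ lev (n := n) l0 l1, (p.1 ^ 2)⁻¹ ≤ (l0 ^ 2)⁻¹ ∧ 0 ≤ (p.1 ^ 2)⁻¹ := by
    intro p hp
    obtain ⟨a1, a2, a3⟩ := lev_pos h0 hp
    exact ⟨inv_anti₀ (by positivity) (pow_le_pow_left₀ h0.le a2 2), by positivity⟩
  have cw : ContinuousOn (fun p : ℝ × E n => (p.1 ^ 2)⁻¹) (lev l0 l1) := by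
    intro p hp
    obtain ⟨a1, a2, a3⟩ := lev_pos h0 hp
    exact ContinuousAt.continuousWithinAt (ContinuousAt.inv₀ (by fun_prop) (by positivity))
  have cd : ContinuousOn (fun p : ℝ × E n => ∑ k, hs (dQ a p.1 (S p.2) (pdM k S p.2)))
      (lev l0 l1) :=
    continuousOn_finsetSum _ fun k _ => cont_hs fun i j => cont_dQ hS hSs h0 k i j
  obtain ⟨k1, k2, k3⟩ := swap μ (C := (l0 ^ 2)⁻¹ * (n * (a ^ 2 * l1 * (n * (n * B0 ^ 2))))) h1
    (cw.mul cd) fun p hp => by
      obtain ⟨a1, a2, a3⟩ := lev_pos h0 hp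
      have b1 : 0 ≤ ∑ k, hs (dQ a p.1 (S p.2) (pdM k S p.2)) :=
        Finset.sum_nonneg fun k _ => NB152.hs_nonneg _
      have b2 : ∑ k, hs (dQ a p.1 (S p.2) (pdM k S p.2)) ≤
          n * (a ^ 2 * l1 * (n * (n * B0 ^ 2))) := by
        calc ∑ k, hs (dQ a p.1 (S p.2) (pdM k S p.2)) ≤
            ∑ _k : Fin n, a ^ 2 * l1 * (n * (n * B0 ^ 2)) := by
              refine Finset.sum_le_sum fun k _ => ?_
              refine (hs_dQ_le (hSs _) _ a1.le).trans ?_
              have c1 : a ^ 2 * p.1 ≤ a ^ 2 * l1 := mul_le_mul_of_nonneg_left a3 (sq_nonneg a)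
              exact mul_le_mul c1 (hhT k _) (NB152.hs_nonneg _) (by positivity)
          _ = _ := by simp
      change |(p.1 ^ 2)⁻¹ * ∑ k, hs (dQ a p.1 (S p.2) (pdM k S p.2))| ≤ _
      rw [abs_of_nonneg (mul_nonneg (hw p hp).2 b1)]
      exact mul_le_mul (hw p hp).1 b2 b1 (by positivity)
  have e : ∀ l, ∫ x, (l ^ 2)⁻¹ * ∑ k, hs (dQ a l (S x) (pdM k S x)) ∂μ =
      (l ^ 2)⁻¹ * ∫ x, ∑ k, hs (dQ a l (S x) (pdM k S x)) ∂μ := fun l => integral_const_mul _ _
  have k1' : IntervalIntegrable (fun l => ∫ x, (l ^ 2)⁻¹ *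
    ∑ k, hs (dQ a l (S x) (pdM k S x)) ∂μ) volume l0 l1 := k1
  have k3' : ∫ l in l0..l1, ∫ x, (l ^ 2)⁻¹ * ∑ k, hs (dQ a l (S x) (pdM k S x)) ∂μ =
      ∫ x, (∫ l in l0..l1, (l ^ 2)⁻¹ * ∑ k, hs (dQ a l (S x) (pdM k S x))) ∂μ := k3
  have k2' : Integrable (fun x => ∫ l in l0..l1, (l ^ 2)⁻¹ *
      ∑ k, hs (dQ a l (S x) (pdM k S x))) μ := k2
  simp only [e] at k1' k3'
  refine ⟨k1', ?_⟩
  rw [k3']
  -- the cost
  have hcost : ∫ x, (∫ l in l0..l1, (l ^ 2)⁻¹ * ∑ k, hs (dQ a l (S x) (pdM k S x))) ∂μ ≤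
      3 / 2 * a ^ 2 * ∫ x, ∑ k, hs (pdM k S x) ∂μ := by
    rw [← integral_const_mul]
    refine integral_mono k2' ((integrable_finsetSum _ fun k _ => iT k).const_mul _) fun x => ?_
    change ∫ l in l0..l1, (l ^ 2)⁻¹ * ∑ k, hs (dQ a l (S x) (pdM k S x)) ≤
      3 / 2 * a ^ 2 * ∑ k, hs (pdM k S x)
    have e : ∫ l in l0..l1, (l ^ 2)⁻¹ * ∑ k, hs (dQ a l (S x) (pdM k S x)) =
        ∑ k, ∫ l in l0..l1, (l ^ 2)⁻¹ * hs (dQ a l (S x) (pdM k S x)) := by
      simp only [Finset.mul_sum]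
      refine intervalIntegral.integral_finsetSum fun k _ => ?_
      refine ContinuousOn.intervalIntegrable ?_
      rw [uIcc_of_le h1]
      refine ContinuousOn.mul ?_ ?_
      · intro l hl
        have hl0 : 0 < l := h0.trans_le hl.1
        exact ContinuousAt.continuousWithinAt (ContinuousAt.inv₀ (by fun_prop) (by positivity))
      · have hc : ContinuousOn (fun p : ℝ × E n => hs (dQ a p.1 (S p.2) (pdM k S p.2)))
            (lev (l0 / 2) l1) := cont_hs fun i j => cont_dQ hS hSs (half_pos h0) k i j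
        refine hc.comp (f := fun l : ℝ => ((l, x) : ℝ × E n))
          (Continuous.continuousOn (by fun_prop)) fun l hl => ?_
        exact ⟨⟨by have := hl.1; simp only; linarith, hl.2⟩, mem_univ _⟩
    rw [e, Finset.mul_sum]
    exact Finset.sum_le_sum fun k _ => cost (hSs x) _ h0 h1
  exact hcost

/-- **the end game over the levels**: LSI constant `K`, errors `c0 + c1 E|Q_l|² + c2 E tr (W Q_l²)` -/
theorem endgame (μ : Measure (E n)) [IsProbabilityMeasure μ] {S W : E n → Mt n}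
    (hS : ∀ i, CB (famM S i)) (hSs : ∀ x, (S x)ᵀ = S x) (hW : ∀ i j, Continuous fun x => W x i j)
    {BW : ℝ} (hWb : ∀ x i j, |W x i j| ≤ BW) (hW0 : ∀ x, LeQ 0 (W x)) {a l0 l1 A K c0 c1 c2 : ℝ}
    (ha : 0 ≤ a) (h0 : 0 < l0) (h1 : l0 ≤ l1) (hK : 0 < K) (hc0 : 0 ≤ c0) (hc1 : 0 ≤ c1)
    (hc2 : 0 ≤ c2)
    (hA : ∀ x, (S x * S x * (S x * S x)).trace ≤ A ^ 2 * (S x * S x).trace)
    (h : ∀ l ∈ Icc l0 l1, 2 * ∫ x, ben (Ql a l (S x)) ∂μ ≤
      K * (∫ x, ∑ k, hs (dQ a l (S x) (pdM k S x)) ∂μ) + c0 + c1 * (∫ x, hs (Ql a l (S x)) ∂μ)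
        + c2 * ∫ x, (W x * (Ql a l (S x) * Ql a l (S x))).trace ∂μ) :
    2 * (a ^ 2 - Real.pi * a - a ^ 2 * l0 * A ^ 2) * ∫ x, hs (S x) ∂μ ≤
      K * (3 / 2 * a ^ 2 * (∫ x, ∑ k, hs (pdM k S x) ∂μ)) + c0 / l0
        + c1 * (a ^ 2 * ∫ x, hs (S x) ∂μ) + c2 * (a ^ 2 * ∫ x, (W x * (S x * S x)).trace ∂μ)
        + 2 * (n * a ^ 2 / l1) := by
  obtain ⟨b1, b2⟩ := ben_int μ hS hSs ha h0 h1 hA
  obtain ⟨c3, c4⟩ := cost_int μ hS hSs (a := a) h0 h1
  obtain ⟨w1, w2⟩ := weight_int μ hS hSs hW hWb hW0 ha h0 h1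
  have hone : ∀ x, LeQ 0 ((fun _ : E n => (1 : Mt n)) x) := fun x u => by
    simp only [zero_mulVec, dotProduct_zero, one_mulVec]
    exact Finset.sum_nonneg fun i _ => mul_self_nonneg _
  obtain ⟨v1, v2⟩ := weight_int (W := fun _ => (1 : Mt n)) μ hS hSs (fun i j => continuous_const)
    (BW := 1) (fun x i j => by
      by_cases hij : i = j
      · subst hij; simp
      · simp [Matrix.one_apply_ne hij]) hone ha h0 h1
  have e1 : ∀ l ∈ Icc l0 l1, ∀ x, ((1 : Mt n) * (Ql a l (S x) * Ql a l (S x))).trace =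
      hs (Ql a l (S x)) := fun l hl x => by
    rw [Matrix.one_mul, hs_eq_tr_sq (Ql_symm (hSs x) (h0.le.trans hl.1))]
  have e2 : ∀ x, ((1 : Mt n) * (S x * S x)).trace = hs (S x) := fun x => by
    rw [Matrix.one_mul, hs_eq_tr_sq (hSs x)]
  simp only [e2] at v2
  have cinv := (inv_sq_cont h0 h1).intervalIntegrable (μ := volume)
  have r1 := c3.const_mul K
  have r2 := cinv.const_mul c0
  have r3 := v1.const_mul c1
  have r4 := w1.const_mul c2
  have main : 2 * (∫ l in l0..l1, (l ^ 2)⁻¹ * ∫ x, ben (Ql a l (S x)) ∂μ) ≤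
      K * (∫ l in l0..l1, (l ^ 2)⁻¹ * (∫ x, ∑ k, hs (dQ a l (S x) (pdM k S x)) ∂μ))
      + c0 * (∫ l in l0..l1, (l ^ 2)⁻¹)
      + c1 * (∫ l in l0..l1, (l ^ 2)⁻¹ *
          ∫ x, ((1 : Mt n) * (Ql a l (S x) * Ql a l (S x))).trace ∂μ)
      + c2 * (∫ l in l0..l1, (l ^ 2)⁻¹ *
          ∫ x, (W x * (Ql a l (S x) * Ql a l (S x))).trace ∂μ) := by
    rw [← intervalIntegral.integral_const_mul, ← intervalIntegral.integral_const_mul,
      ← intervalIntegral.integral_const_mul, ← intervalIntegral.integral_const_mul,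
      ← intervalIntegral.integral_const_mul, ← intervalIntegral.integral_add r1 r2,
      ← intervalIntegral.integral_add (r1.add r2) r3,
      ← intervalIntegral.integral_add ((r1.add r2).add r3) r4]
    refine intervalIntegral.integral_mono_on h1 (b1.const_mul 2) (((r1.add r2).add r3).add r4)
      fun l hl => ?_
    have hl0 : 0 < l := h0.trans_le hl.1
    have h3 := mul_le_mul_of_nonneg_left (h l hl) (by positivity : 0 ≤ (l ^ 2)⁻¹)
    have h4 : ∫ x, ((1 : Mt n) * (Ql a l (S x) * Ql a l (S x))).trace ∂μ =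
        ∫ x, hs (Ql a l (S x)) ∂μ := by simp only [e1 l hl]
    change 2 * ((l ^ 2)⁻¹ * ∫ x, ben (Ql a l (S x)) ∂μ) ≤
      K * ((l ^ 2)⁻¹ * (∫ x, ∑ k, hs (dQ a l (S x) (pdM k S x)) ∂μ)) + c0 * (l ^ 2)⁻¹
      + c1 * ((l ^ 2)⁻¹ * ∫ x, ((1 : Mt n) * (Ql a l (S x) * Ql a l (S x))).trace ∂μ)
      + c2 * ((l ^ 2)⁻¹ * ∫ x, (W x * (Ql a l (S x) * Ql a l (S x))).trace ∂μ)
    rw [h4]
    linarith
  have m1 := mul_le_mul_of_nonneg_left c4 hK.le
  have m2 := mul_le_mul_of_nonneg_left (inv_sq_integral_le h0 h1) hc0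
  have m3 := mul_le_mul_of_nonneg_left v2 hc1
  have m4 := mul_le_mul_of_nonneg_left w2 hc2
  have m5 : c0 * (1 / l0) = c0 / l0 := by ring
  rw [m5] at m2
  linarith

end Crest.Agent.R201.Ch150
end

-- ▼ part R201/FA_150
section

/-!
# R201, KLS half (helper150): tools for the field leaves (matrix fields and the weight `P`)
-/

set_option autoImplicit false
open MeasureTheory Matrix

namespace Crest.Agent.R201.FA150

open Crest.Agent.R201.Tw807 Crest.Agent.R201.MX354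

variable {n : ℕ}

/-! ### trace forms -/

theorem trq {m m' : Type*} [Fintype m] [Fintype m'] (Q : Matrix m m ℝ) (A : Matrix m m' ℝ) :
    (Aᵀ * Q * A).trace = ∑ j, (fun i => A i j) ⬝ᵥ (Q *ᵥ fun i => A i j) := by
  unfold trace
  refine Finset.sum_congr rfl fun j _ => ?_
  rw [diag_apply, Matrix.mul_assoc, Matrix.mul_apply]
  unfold dotProduct mulVec dotProduct
  refine Finset.sum_congr rfl fun i _ => ?_
  rw [transpose_apply, Matrix.mul_apply]

theorem LeQ.trace_le {m m' : Type*} [Fintype m] [Fintype m'] {Q Q' : Matrix m m ℝ}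
    (h : LeQ Q Q') (A : Matrix m m' ℝ) : (Aᵀ * Q * A).trace ≤ (Aᵀ * Q' * A).trace := by
  rw [trq, trq]
  exact Finset.sum_le_sum fun j _ => h _

theorem LeQ.trace_nonneg {m m' : Type*} [Fintype m] [Fintype m'] {Q : Matrix m m ℝ}
    (h : LeQ 0 Q) (A : Matrix m m' ℝ) : 0 ≤ (Aᵀ * Q * A).trace := by
  have := LeQ.trace_le h A
  simpa using this

theorem hs_nonneg {m m' : Type*} [Fintype m] [Fintype m'] (A : Matrix m m' ℝ) : 0 ≤ hs A :=
  Finset.sum_nonneg fun _ _ => Finset.sum_nonneg fun _ _ => sq_nonneg _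



/-- `0 ≤ Q ≤ 1` gives `Q² ≤ Q` -/
theorem sq_le_self {m : Type*} [Fintype m] [DecidableEq m] {Q : Matrix m m ℝ} (hs : Qᵀ = Q)
    (h0 : LeQ 0 Q) (h1 : LeQ Q 1) : LeQ (Q * Q) Q := by
  intro u
  have key : ∀ a b : m → ℝ, a ⬝ᵥ (Q *ᵥ b) = (Q *ᵥ a) ⬝ᵥ b := by
    intro a b
    rw [dotProduct_mulVec, ← mulVec_transpose, hs]
  have a0 := h0 (u - Q *ᵥ u)
  have a1 := h1 (Q *ᵥ u)
  simp only [zero_mulVec, dotProduct_zero, one_mulVec] at a0 a1
  rw [mulVec_sub, sub_dotProduct, dotProduct_sub, dotProduct_sub] at a0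
  rw [← mulVec_mulVec, key u (Q *ᵥ u)]
  have e1 : u ⬝ᵥ Q *ᵥ (Q *ᵥ u) = (Q *ᵥ u) ⬝ᵥ (Q *ᵥ u) := key _ _
  linarith


/-! ### integrals of matrix fields -/

variable (K : KD n)


















end Crest.Agent.R201.FA150
end

-- ▼ part R201/Ch6_150

/-!
# R201, LSI half (helper150): end-game assembly, abstract form
-/

set_option autoImplicit false
open MeasureTheory Matrix Set
open scoped Matrix.Norms.Operator

namespace Crest.Agent.R201.Ch150

open Crest.Agent.R201 Crest.Agent.R201.NB152 Crest.Agent.R201.FA150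

variable {n : ℕ}

theorem posSemidef_of_leQ {R : Mt n} (hRs : Rᵀ = R) (h0 : LeQ 0 R) : R.PosSemidef := by
  refine PosSemidef.of_dotProduct_mulVec_nonneg ?_ fun u => ?_
  · rw [IsHermitian, conjTranspose_eq_transpose_of_trivial, hRs]
  · have := h0 u
    simpa using this

/-- `tr (Q² R) ≤ 2 a² tr (P R) + 2 tr ((1 - P) Q²)` for `0 ≤ R, P ≤ 1`, `Q² ≤ a²` -/
theorem tr_QR {Q P R : Mt n} {a : ℝ} (hQ : Qᵀ = Q) (hQa : LeQ (Q * Q) (a ^ 2 • (1 : Mt n)))
    (hP : Pᵀ = P) (hP0 : LeQ 0 P) (hP1 : LeQ P 1) (hR : Rᵀ = R) (hR0 : LeQ 0 R) (hR1 : LeQ R 1) :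
    (Q * Q * R).trace ≤ 2 * a ^ 2 * (P * R).trace + 2 * ((1 - P) * (Q * Q)).trace := by
  obtain ⟨T, hT, hTT⟩ := MX354.root_exists (posSemidef_of_leQ hR hR0)
  have hTt : Tᵀ = T := MX354.posSemidef_transpose hT
  have hP' : (1 - P)ᵀ = 1 - P := by rw [transpose_sub, transpose_one, hP]
  have hP'0 : LeQ 0 (1 - P) := fun u => by
    have := hP1 u
    rw [sub_mulVec, dotProduct_sub]
    simp only [zero_mulVec, dotProduct_zero]
    linarith
  have hP'1 : LeQ (1 - P) 1 := fun u => by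
    have := hP0 u
    rw [sub_mulVec, dotProduct_sub]
    simp only [zero_mulVec, dotProduct_zero] at this
    linarith
  -- `tr (Q² R) = |Q T|²`
  have e1 : (Q * Q * R).trace = hs (Q * T) := by
    rw [hs_eq_trace', transpose_mul, hQ, hTt, ← hTT, ← Matrix.mul_assoc, trace_mul_comm]
    simp only [Matrix.mul_assoc]
  have e2 : Q * T = Q * P * T + Q * (1 - P) * T := by
    rw [← Matrix.add_mul, ← Matrix.mul_add, add_sub_cancel, Matrix.mul_one]
  have h1 : hs (Q * T) ≤ 2 * hs (Q * P * T) + 2 * hs (Q * (1 - P) * T) := by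
    rw [e2]
    exact NB152.hs_add_le _ _
  -- first term
  have h2 : hs (Q * P * T) ≤ a ^ 2 * (P * R).trace := by
    have a1 : hs (Q * P * T) = ((P * T)ᵀ * (Q * Q) * (P * T)).trace := by
      rw [hs_eq_trace', transpose_mul, transpose_mul, hQ, hP, transpose_mul, hP, hTt]
      simp only [Matrix.mul_assoc]
    have a2 : ((P * T)ᵀ * (Q * Q) * (P * T)).trace ≤
        ((P * T)ᵀ * (a ^ 2 • (1 : Mt n)) * (P * T)).trace := LeQ.trace_le hQa _
    have a3 : ((P * T)ᵀ * (a ^ 2 • (1 : Mt n)) * (P * T)).trace = a ^ 2 * (Tᵀ * (P * P) * T).trace := by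
      rw [Matrix.mul_smul, Matrix.smul_mul, trace_smul, Matrix.mul_one, transpose_mul, hP,
        smul_eq_mul]
      simp only [Matrix.mul_assoc]
    have a4 : (Tᵀ * (P * P) * T).trace ≤ (Tᵀ * P * T).trace := LeQ.trace_le (sq_le_self hP hP0 hP1) T
    have a5 : (Tᵀ * P * T).trace = (P * R).trace := by
      rw [hTt, trace_mul_comm, ← Matrix.mul_assoc, hTT, trace_mul_comm]
    rw [a1]
    refine a2.trans ?_
    rw [a3, ← a5]
    exact mul_le_mul_of_nonneg_left a4 (sq_nonneg a)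
  -- second term
  have h3 : hs (Q * (1 - P) * T) ≤ ((1 - P) * (Q * Q)).trace := by
    have b1 : hs (Q * (1 - P) * T) = ((((1 - P) * Q))ᵀ * R * ((1 - P) * Q)).trace := by
      rw [hs_eq_trace, transpose_mul, transpose_mul, hQ, hP', transpose_mul, hQ, hP', hTt, ← hTT]
      simp only [Matrix.mul_assoc]
    have b2 : ((((1 - P) * Q))ᵀ * R * ((1 - P) * Q)).trace ≤
        ((((1 - P) * Q))ᵀ * 1 * ((1 - P) * Q)).trace := LeQ.trace_le hR1 _
    have b3 : ((((1 - P) * Q))ᵀ * 1 * ((1 - P) * Q)).trace =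
        (Qᵀ * ((1 - P) * (1 - P)) * Q).trace := by
      rw [Matrix.mul_one, transpose_mul, hP', hQ]
      simp only [Matrix.mul_assoc]
    have b4 : (Qᵀ * ((1 - P) * (1 - P)) * Q).trace ≤ (Qᵀ * (1 - P) * Q).trace :=
      LeQ.trace_le (sq_le_self hP' hP'0 hP'1) Q
    have b5 : (Qᵀ * (1 - P) * Q).trace = ((1 - P) * (Q * Q)).trace := by
      rw [hQ, trace_mul_comm, ← Matrix.mul_assoc, trace_mul_comm]
    rw [b1]
    refine b2.trans ?_
    rw [b3, ← b5]
    exact b4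
  rw [e1]
  linarith

/-- the information about one channel matrix field `Q`, obtained from the labelled LSI (809), the
static I-MMSE step (844) and the labelled trace bound (146); `nu` = the near-extremal law -/
def LevB (ν : Measure (E n)) (P : E n → Mt n) (K D δ e2 N a : ℝ) (Q : E n → Mt n) : Prop :=
  ∃ Dis u pr i r : ℝ,
    (1 / 2 * ∫ x, ben (Q x) ∂ν ≤ K / 4 * (∫ x, ∑ k, hs (pdM k Q x) ∂ν) + δ + Dis) ∧
    Dis ≤ N * u + a ^ 2 * (∫ x, hs (Q x) ∂ν) / N ∧
    u ≤ 2 * a ^ 2 * pr + 2 * ∫ x, ((1 - P x) * (Q x * Q x)).trace ∂ν ∧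
    pr ≤ e2 * (D + i + r) ∧ i ≤ ∫ x, hs (Q x) ∂ν ∧ r ≤ ∫ x, hs (Q x) ∂ν

/-- **end game, assembled** -/
theorem assembly (ν : Measure (E n)) [IsProbabilityMeasure ν] {S P : E n → Mt n}
    (hS : ∀ i, CB (famM S i)) (hSs : ∀ x, (S x)ᵀ = S x)
    (hPc : ∀ i j, Continuous fun x => P x i j) {BP : ℝ} (hPb : ∀ x i j, |P x i j| ≤ BP)
    (hP1 : ∀ x, LeQ (P x) 1) {K D δ e2 N a l0 l1 A : ℝ}
    (ha : 0 ≤ a) (h0 : 0 < l0) (h1 : l0 ≤ l1) (hK : 0 < K) (hD : 0 ≤ D) (hδ : 0 ≤ δ) (he2 : 0 ≤ e2)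
    (hN : 0 < N)
    (hA : ∀ x, (S x * S x * (S x * S x)).trace ≤ A ^ 2 * (S x * S x).trace)
    (hL : ∀ l ∈ Icc l0 l1, LevB ν P K D δ e2 N a (fun x => Ql a l (S x))) :
    2 * (a ^ 2 - Real.pi * a - a ^ 2 * l0 * A ^ 2) * ∫ x, hs (S x) ∂ν ≤
      3 / 2 * a ^ 2 * K * (∫ x, ∑ k, hs (pdM k S x) ∂ν)
        + (4 * δ + 8 * N * a ^ 2 * e2 * D) / l0
        + (16 * N * a ^ 2 * e2 + 4 * a ^ 2 / N) * (a ^ 2 * ∫ x, hs (S x) ∂ν)
        + 8 * N * (a ^ 2 * ∫ x, ((1 - P x) * (S x * S x)).trace ∂ν)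
        + 2 * (n * a ^ 2 / l1) := by
  have hW : ∀ i j, Continuous fun x => (1 - P x) i j := fun i j => by
    simp only [Matrix.sub_apply]
    exact continuous_const.sub (hPc i j)
  have hWb : ∀ x i j, |(1 - P x) i j| ≤ 1 + BP := fun x i j => by
    rw [Matrix.sub_apply]
    refine (abs_sub _ _).trans (add_le_add ?_ (hPb x i j))
    by_cases hij : i = j
    · subst hij; simp
    · simp [Matrix.one_apply_ne hij]
  have hW0 : ∀ x, LeQ 0 (1 - P x) := fun x u => by
    have := hP1 x u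
    rw [sub_mulVec, dotProduct_sub]
    simp only [zero_mulVec, dotProduct_zero]
    linarith
  have h := endgame ν hS hSs hW hWb hW0 (a := a) (l0 := l0) (l1 := l1) (A := A) (K := K)
    (c0 := 4 * δ + 8 * N * a ^ 2 * e2 * D) (c1 := 16 * N * a ^ 2 * e2 + 4 * a ^ 2 / N)
    (c2 := 8 * N) ha h0 h1 hK (by positivity) (by positivity) (by positivity) hA
    (fun l hl => by
      have hl0 : 0 ≤ l := h0.le.trans hl.1
      obtain ⟨Dis, u, pr, i, r, g1, g2, g3, g4, g5, g6⟩ := hL l hl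
      have e : ∀ x, ∑ k, hs (pdM k (fun x => Ql a l (S x)) x) =
          ∑ k, hs (dQ a l (S x) (pdM k S x)) := fun x =>
        Finset.sum_congr rfl fun k _ => by rw [pdM_Ql hS hSs hl0 k x]
      simp only [e] at g1
      set T := ∫ x, hs (Ql a l (S x)) ∂ν with hT
      set Wt := ∫ x, ((1 - P x) * (Ql a l (S x) * Ql a l (S x))).trace ∂ν with hWt
      have k1 : pr ≤ e2 * (D + T + T) := g4.trans (mul_le_mul_of_nonneg_left (by linarith) he2)
      have k2 : u ≤ 2 * a ^ 2 * (e2 * (D + T + T)) + 2 * Wt := by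
        have := mul_le_mul_of_nonneg_left k1 (by positivity : 0 ≤ 2 * a ^ 2)
        linarith
      have k3 := mul_le_mul_of_nonneg_left k2 hN.le
      have k4 : a ^ 2 * T / N = a ^ 2 / N * T := by ring
      rw [k4] at g2
      have k5 : N * (2 * a ^ 2 * (e2 * (D + T + T)) + 2 * Wt) =
          2 * N * a ^ 2 * e2 * D + 4 * N * a ^ 2 * e2 * T + 2 * N * Wt := by ring
      rw [k5] at k3
      have k6 : (16 * N * a ^ 2 * e2 + 4 * a ^ 2 / N) * T =
        16 * N * a ^ 2 * e2 * T + 4 * (a ^ 2 / N * T) := by ring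
      rw [k6]
      linarith)
  have e1 : K * (3 / 2 * a ^ 2 * (∫ x, ∑ k, hs (pdM k S x) ∂ν)) =
      3 / 2 * a ^ 2 * K * (∫ x, ∑ k, hs (pdM k S x) ∂ν) := by ring
  rw [e1] at h
  exact h

end Crest.Agent.R201.Ch150
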