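import Crest.Agent.R201.Spec_152
import Crest.Agent.R201.FD3_354
import Mathlib.Analysis.Calculus.ContDiff.Operations

-- ▼ part R201/Clip1_78
section

/-!
# R201, LSI half, CLIP block (helper78), part 1: the smooth clip `F(u) = u / √(1+u²)` at a point

`clZ A = (1 + AᵀA)^{1/2}`, `clF A = A (clZ A)⁻¹`, `clP A = Tr (clZ A) - n`.
Everything about a symmetric `A` is read off in an eigenframe.
-/

set_option autoImplicit false
set_option linter.unusedSectionVars false
open Matrix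

namespace Crest.Agent.R201.Clip78

open Crest.Agent.R201

variable {m : Type} [Fintype m] [DecidableEq m]

/-! ### scalar facts -/

/-- `√(1+a²)` -/
noncomputable def zz (a : ℝ) : ℝ := Real.sqrt (1 + a ^ 2)

/-- `a / √(1+a²)` -/
noncomputable def ff (a : ℝ) : ℝ := a / zz a

theorem zz_sq (a : ℝ) : zz a ^ 2 = 1 + a ^ 2 := Real.sq_sqrt (by positivity)

theorem one_le_zz (a : ℝ) : 1 ≤ zz a := by
  rw [zz, Real.one_le_sqrt]
  nlinarith [sq_nonneg a]

theorem zz_pos (a : ℝ) : 0 < zz a := lt_of_lt_of_le one_pos (one_le_zz a)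

theorem zz_ne (a : ℝ) : zz a ≠ 0 := (zz_pos a).ne'


theorem ff_mul_zz (a : ℝ) : ff a * zz a = a := by
  rw [ff]; field_simp [zz_ne a]

theorem ff_sq (a : ℝ) : ff a ^ 2 = a ^ 2 / (1 + a ^ 2) := by
  rw [ff, div_pow, zz_sq]

theorem ff_sq_le_one (a : ℝ) : ff a ^ 2 ≤ 1 := by
  rw [ff_sq, div_le_one (by positivity)]; linarith


/-- `F(a)² ≤ a F(a)` -/
theorem ff_sq_le_mul (a : ℝ) : ff a ^ 2 ≤ a * ff a := by
  have h1 : a * ff a = ff a ^ 2 * zz a := by
    conv_lhs => rw [← ff_mul_zz a]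
    simp only [ff_mul_zz]
    rw [show ff a ^ 2 * zz a = ff a * (ff a * zz a) by ring, ff_mul_zz]
    ring
  rw [h1]
  nlinarith [sq_nonneg (ff a), one_le_zz a]

/-- `a F(a) ≤ a²` -/
theorem mul_ff_le_sq (a : ℝ) : a * ff a ≤ a ^ 2 := by
  have h1 : a ^ 2 = a * ff a * zz a := by
    rw [show a * ff a * zz a = a * (ff a * zz a) by ring, ff_mul_zz]; ring
  have h2 : 0 ≤ a * ff a := (sq_nonneg _).trans (ff_sq_le_mul a)
  nlinarith [one_le_zz a]

/-- `a² - F² = a² F²` -/
theorem sq_sub_ff_sq (a : ℝ) : a ^ 2 - ff a ^ 2 = a ^ 2 * ff a ^ 2 := by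
  rw [ff_sq]; field_simp; ring





/-- divided difference of `F` -/
noncomputable def F1 (a b : ℝ) : ℝ := (1 + zz a * zz b - a * b) / (zz a * zz b * (zz a + zz b))

/-- divided difference of `√(1+a²)` -/
noncomputable def Z1 (a b : ℝ) : ℝ := (a + b) / (zz a + zz b)

theorem abs_mul_le (a b : ℝ) : |a * b| ≤ zz a * zz b - 1 := by
  have h1 : 1 ≤ zz a * zz b := by nlinarith [one_le_zz a, one_le_zz b]
  rw [← abs_of_nonneg (sub_nonneg.2 h1), ← sq_le_sq, mul_pow]
  have h2 := zz_sq a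
  have h3 := zz_sq b
  nlinarith [sq_nonneg (zz a - zz b)]


theorem F1_pos (a b : ℝ) : 0 < F1 a b := by
  have h := (abs_le.1 (abs_mul_le a b)).2
  have ha := zz_pos a
  have hb := zz_pos b
  unfold F1
  refine div_pos (by linarith) (by positivity)

theorem F1_le_one (a b : ℝ) : F1 a b ≤ 1 := by
  have h := (abs_le.1 (abs_mul_le a b)).1
  have ha := one_le_zz a
  have hb := one_le_zz b
  have ha' := zz_pos a
  have hb' := zz_pos b
  unfold F1
  rw [div_le_one (by positivity)]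
  have h2 : 0 < zz a * zz b := by positivity
  nlinarith [mul_nonneg h2.le (by linarith : (0:ℝ) ≤ zz a + zz b - 2)]

theorem F1_sq_le (a b : ℝ) : F1 a b ^ 2 ≤ F1 a b := by
  nlinarith [F1_pos a b, F1_le_one a b]



/-! ### the matrix functions -/

/-- `(1 + AᵀA)^{1/2}` -/
noncomputable def clZ (A : Matrix m m ℝ) : Matrix m m ℝ := rt (1 + Aᵀ * A)

/-- `F(A) = A (1 + AᵀA)^{-1/2}` -/
noncomputable def clF (A : Matrix m m ℝ) : Matrix m m ℝ := A * (clZ A)⁻¹


theorem psd_arg (A : Matrix m m ℝ) : (1 + Aᵀ * A).PosSemidef := by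
  have h := MX354.posSemidef_mul_transpose Aᵀ
  rw [transpose_transpose] at h
  exact PosSemidef.one.add h

theorem clZ_psd (A : Matrix m m ℝ) : (clZ A).PosSemidef := (MX354.rt_spec (psd_arg A)).1

theorem clZ_sq (A : Matrix m m ℝ) : clZ A * clZ A = 1 + Aᵀ * A := (MX354.rt_spec (psd_arg A)).2

theorem clZ_symm (A : Matrix m m ℝ) : (clZ A)ᵀ = clZ A := MX354.posSemidef_transpose (clZ_psd A)

/-- `c² ≤ Z²`, `Z ≥ 0` gives `c ≤ Z` (354, any index type) -/
theorem leQ_of_sq {c : ℝ} {Z : Matrix m m ℝ} (hZ : Z.PosSemidef)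
    (h : LeQ (c ^ 2 • (1 : Matrix m m ℝ)) (Z * Z)) : LeQ (c • (1 : Matrix m m ℝ)) Z := by
  refine MX354.PosSemidef.leQ (MX354.sub_posSemidef hZ (by simp) ?_)
  have : (c • (1 : Matrix m m ℝ)) * (c • (1 : Matrix m m ℝ)) = c ^ 2 • (1 : Matrix m m ℝ) := by
    rw [smul_mul_smul_comm, Matrix.one_mul, sq]
  rw [this]
  exact h

theorem posDef_of_leQ {c : ℝ} (hc : 0 < c) {Z : Matrix m m ℝ} (hZ : Zᵀ = Z)
    (h : LeQ (c • (1 : Matrix m m ℝ)) Z) : Z.PosDef := by
  refine PosDef.of_dotProduct_mulVec_pos ?_ ?_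
  · rw [IsHermitian, conjTranspose_eq_transpose_of_trivial, hZ]
  · intro x hx
    have h1 := h x
    rw [smul_mulVec, one_mulVec, dotProduct_smul, smul_eq_mul] at h1
    have h2 : 0 < x ⬝ᵥ x := by
      rcases (Finset.sum_nonneg fun i _ => mul_self_nonneg (x i) :
        (0 : ℝ) ≤ x ⬝ᵥ x).lt_or_eq with hp | h0
      · exact hp
      · exfalso
        exact hx (dotProduct_self_eq_zero.mp h0.symm)
    rw [star_trivial]
    exact lt_of_lt_of_le (mul_pos hc h2) h1

theorem clZ_ge (A : Matrix m m ℝ) : LeQ (1 : Matrix m m ℝ) (clZ A) := by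
  have h := leQ_of_sq (c := 1) (clZ_psd A) (by
    rw [clZ_sq, one_pow, one_smul]
    refine MX354.PosSemidef.leQ ?_
    rw [add_sub_cancel_left]
    have h := MX354.posSemidef_mul_transpose Aᵀ
    rwa [transpose_transpose] at h)
  rwa [one_smul] at h

theorem clZ_posDef (A : Matrix m m ℝ) : (clZ A).PosDef :=
  posDef_of_leQ one_pos (clZ_symm A) (by rw [one_smul]; exact clZ_ge A)

theorem clZ_isUnit (A : Matrix m m ℝ) : IsUnit (clZ A).det := (clZ_posDef A).det_pos.ne'.isUnit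

theorem clZ_mul_inv (A : Matrix m m ℝ) : clZ A * (clZ A)⁻¹ = 1 := Matrix.mul_nonsing_inv _ (clZ_isUnit A)

theorem clZ_inv_mul (A : Matrix m m ℝ) : (clZ A)⁻¹ * clZ A = 1 := Matrix.nonsing_inv_mul _ (clZ_isUnit A)

theorem clF_mul_clZ (A : Matrix m m ℝ) : clF A * clZ A = A := by
  rw [clF, Matrix.mul_assoc, clZ_inv_mul, Matrix.mul_one]

/-! ### eigenframe -/

open Crest.Agent.R201.NB152 (spec)


theorem spec_psd {O : Matrix m m ℝ} {f : m → ℝ} (hf : ∀ i, 0 ≤ f i) : (spec O f).PosSemidef := by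
  refine PosSemidef.of_dotProduct_mulVec_nonneg ?_ ?_
  · rw [IsHermitian, conjTranspose_eq_transpose_of_trivial, NB152.spec_transpose]
  · intro x
    rw [star_trivial, NB152.spec_form]
    exact Finset.sum_nonneg fun i _ => mul_nonneg (hf i) (sq_nonneg _)

/-- data of an eigenframe of `A` -/
structure Fr (A : Matrix m m ℝ) where
  O : Matrix m m ℝ
  a : m → ℝ
  h1 : Oᵀ * O = 1
  h2 : O * Oᵀ = 1
  hA : A = spec O a

theorem exists_fr {A : Matrix m m ℝ} (hA : Aᵀ = A) : Nonempty (Fr A) := by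
  obtain ⟨O, a, h1, h2, h3⟩ := NB152.diagonalize hA
  exact ⟨⟨O, a, h1, h2, h3⟩⟩

namespace Fr

variable {A : Matrix m m ℝ} (r : Fr A)
include r

theorem symm : Aᵀ = A := by rw [r.hA]; exact NB152.spec_transpose _ _

theorem one_eq : (1 : Matrix m m ℝ) = spec r.O (fun _ => 1) := (NB152.spec_one r.h2).symm

theorem sq_eq : A * A = spec r.O (fun i => r.a i * r.a i) := by
  conv_lhs => rw [r.hA]
  exact NB152.spec_mul r.h1 _ _

theorem clZ_eq : clZ A = spec r.O (fun i => zz (r.a i)) := by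
  refine MX354.rt_unique (spec_psd fun i => (zz_pos _).le) ?_
  rw [NB152.spec_mul r.h1, r.symm, r.sq_eq, r.one_eq, NB152.spec_add]
  congr 1
  funext i
  rw [← sq, zz_sq, sq]

theorem inv_eq : (clZ A)⁻¹ = spec r.O (fun i => (zz (r.a i))⁻¹) := by
  refine Matrix.inv_eq_right_inv ?_
  rw [r.clZ_eq, NB152.spec_mul r.h1, r.one_eq]
  congr 1
  funext i
  exact mul_inv_cancel₀ (zz_ne _)

theorem clF_eq : clF A = spec r.O (fun i => ff (r.a i)) := by
  have h : clF A = spec r.O r.a * spec r.O (fun i => (zz (r.a i))⁻¹) := by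
    rw [clF, r.inv_eq, ← r.hA]
  rw [h, NB152.spec_mul r.h1]
  rfl


end Fr

/-! ### consequences at a point, `A` symmetric -/

section Point

variable {A : Matrix m m ℝ} (hA : Aᵀ = A)
include hA

theorem clF_symm : (clF A)ᵀ = clF A := by
  obtain ⟨r⟩ := exists_fr hA
  rw [r.clF_eq]; exact NB152.spec_transpose _ _

theorem clF_comm : clF A * A = A * clF A := by
  obtain ⟨r⟩ := exists_fr hA
  have h : A = spec r.O r.a := r.hA
  calc clF A * A = spec r.O (fun i => ff (r.a i)) * spec r.O r.a := by rw [r.clF_eq, ← h]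
    _ = spec r.O r.a * spec r.O (fun i => ff (r.a i)) := by
        rw [NB152.spec_mul r.h1, NB152.spec_mul r.h1]
        congr 1; funext i; ring
    _ = A * clF A := by rw [r.clF_eq, ← h]


/-- `F(A)² = A² (1 + A²)⁻¹`, in the form `A² - F² = A² F²` -/
theorem sq_sub_clF_sq : A * A - clF A * clF A = A * A * (clF A * clF A) := by
  obtain ⟨r⟩ := exists_fr hA
  rw [r.clF_eq, r.sq_eq, NB152.spec_mul r.h1, NB152.spec_mul r.h1, NB152.spec_sub]
  congr 1
  funext i
  have := sq_sub_ff_sq (r.a i)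
  nlinarith [this]

theorem clF_sq_le_one : LeQ (clF A * clF A) 1 := by
  obtain ⟨r⟩ := exists_fr hA
  rw [r.clF_eq, NB152.spec_mul r.h1, r.one_eq]
  refine NB152.spec_mono _ fun i => ?_
  rw [← sq]; exact ff_sq_le_one _




theorem clF_sq_le_mul : LeQ (clF A * clF A) (A * clF A) := by
  obtain ⟨r⟩ := exists_fr hA
  have h : A * clF A = spec r.O (fun i => r.a i * ff (r.a i)) := by
    conv_lhs => rw [r.clF_eq]
    conv_lhs => enter [1]; rw [r.hA]
    exact NB152.spec_mul r.h1 _ _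
  rw [h, r.clF_eq, NB152.spec_mul r.h1]
  exact NB152.spec_mono _ fun i => by rw [← sq]; exact ff_sq_le_mul _

theorem mul_clF_le_sq : LeQ (A * clF A) (A * A) := by
  obtain ⟨r⟩ := exists_fr hA
  have h : A * clF A = spec r.O (fun i => r.a i * ff (r.a i)) := by
    conv_lhs => rw [r.clF_eq]
    conv_lhs => enter [1]; rw [r.hA]
    exact NB152.spec_mul r.h1 _ _
  rw [h, r.sq_eq]
  exact NB152.spec_mono _ fun i => by rw [← sq]; exact mul_ff_le_sq _

theorem mul_clF_symm : (A * clF A)ᵀ = A * clF A := by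
  rw [transpose_mul, clF_symm hA, hA, clF_comm hA]







end Point

/-- trace of a product with a form-nonnegative symmetric matrix is monotone -/
theorem trace_mul_mono {V X Y : Matrix m m ℝ} (hV : LeQ 0 V) (hX : Xᵀ = X) (hY : Yᵀ = Y) (h : LeQ X Y) :
    (V * X).trace ≤ (V * Y).trace := by
  have hps : (Y - X).PosSemidef := by
    refine PosSemidef.of_dotProduct_mulVec_nonneg ?_ ?_
    · rw [IsHermitian, conjTranspose_eq_transpose_of_trivial, transpose_sub, hX, hY]
    · intro u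
      rw [star_trivial, sub_mulVec, dotProduct_sub]
      linarith [h u]
  obtain ⟨T, hT, hTT⟩ := MX354.root_exists hps
  have h1 := NB152.trace_sq_nonneg hV T
  rw [MX354.posSemidef_transpose hT, Matrix.mul_assoc, Matrix.trace_mul_comm, Matrix.mul_assoc,
    hTT, Matrix.mul_sub, trace_sub] at h1
  linarith


/-! ### the derivative at a point, in the eigenframe -/

/-- change of frame -/
noncomputable def cj (O M : Matrix m m ℝ) : Matrix m m ℝ := Oᵀ * M * O

theorem cj_mul {O : Matrix m m ℝ} (h2 : O * Oᵀ = 1) (M N : Matrix m m ℝ) : cj O (M * N) = cj O M * cj O N := by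
  unfold cj
  calc Oᵀ * (M * N) * O = Oᵀ * M * (1 * (N * O)) := by simp only [Matrix.one_mul, Matrix.mul_assoc]
    _ = Oᵀ * M * ((O * Oᵀ) * (N * O)) := by rw [h2]
    _ = _ := by simp only [Matrix.mul_assoc]

theorem cj_add (O M N : Matrix m m ℝ) : cj O (M + N) = cj O M + cj O N := by
  simp [cj, Matrix.mul_add, Matrix.add_mul]

theorem cj_transpose (O M : Matrix m m ℝ) : (cj O M)ᵀ = cj O Mᵀ := by
  simp [cj, Matrix.mul_assoc]

theorem cj_spec {O : Matrix m m ℝ} (h1 : Oᵀ * O = 1) (f : m → ℝ) : cj O (spec O f) = diagonal f := by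
  unfold cj spec
  calc Oᵀ * (O * diagonal f * Oᵀ) * O = (Oᵀ * O) * diagonal f * (Oᵀ * O) := by
        simp only [Matrix.mul_assoc]
    _ = _ := by rw [h1, Matrix.one_mul, Matrix.mul_one]

theorem cj_trace {O : Matrix m m ℝ} (h2 : O * Oᵀ = 1) (M : Matrix m m ℝ) : (cj O M).trace = M.trace := by
  unfold cj
  rw [Matrix.mul_assoc, Matrix.trace_mul_comm, Matrix.mul_assoc, h2, Matrix.mul_one]

theorem trace_eq_sum {O : Matrix m m ℝ} (h2 : O * Oᵀ = 1) (M N : Matrix m m ℝ) :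
    (M * Nᵀ).trace = ∑ i, ∑ j, cj O M i j * cj O N i j := by
  rw [← cj_trace h2, cj_mul h2, ← cj_transpose]
  simp only [Matrix.trace, Matrix.diag_apply, Matrix.mul_apply, Matrix.transpose_apply]

theorem hs_eq_sum {O : Matrix m m ℝ} (h2 : O * Oᵀ = 1) (M : Matrix m m ℝ) : hs M = ∑ i, ∑ j, cj O M i j ^ 2 := by
  rw [MX354.hs_eq_trace, trace_eq_sum h2]
  simp only [sq]

/-- The first-order data of the clip at a symmetric `A` in direction `B`. -/
structure Der (A B dZ dF : Matrix m m ℝ) : Prop where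
  eZ : dZ * clZ A + clZ A * dZ = A * B + B * A
  eF : dF * clZ A + clF A * dZ = B

variable {A B dZ dF : Matrix m m ℝ}

/-- divided differences -/
theorem Der.frame (h : Der A B dZ dF) (r : Fr A) :
    (∀ i j, cj r.O dZ i j = Z1 (r.a i) (r.a j) * cj r.O B i j) ∧
    ∀ i j, cj r.O dF i j = F1 (r.a i) (r.a j) * cj r.O B i j := by
  have eA : cj r.O A = diagonal r.a := (congrArg (cj r.O) r.hA).trans (cj_spec r.h1 _)
  have eZ : cj r.O (clZ A) = diagonal (fun i => zz (r.a i)) := by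
    rw [r.clZ_eq]; exact cj_spec r.h1 _
  have eF : cj r.O (clF A) = diagonal (fun i => ff (r.a i)) := by
    rw [r.clF_eq]; exact cj_spec r.h1 _
  have k1 := congrArg (cj r.O) h.eZ
  rw [cj_add, cj_add, cj_mul r.h2, cj_mul r.h2, cj_mul r.h2, cj_mul r.h2, eZ, eA] at k1
  have k2 := congrArg (cj r.O) h.eF
  rw [cj_add, cj_mul r.h2, cj_mul r.h2, eZ, eF] at k2
  have g1 : ∀ i j, cj r.O dZ i j = Z1 (r.a i) (r.a j) * cj r.O B i j := by
    intro i j
    have := congrFun (congrFun k1 i) j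
    simp only [Matrix.add_apply, Matrix.mul_diagonal, Matrix.diagonal_mul] at this
    have h1 := zz_pos (r.a i)
    have h2 := zz_pos (r.a j)
    rw [Z1, div_mul_eq_mul_div, eq_div_iff (by positivity)]
    linarith
  refine ⟨g1, fun i j => ?_⟩
  have := congrFun (congrFun k2 i) j
  simp only [Matrix.add_apply, Matrix.mul_diagonal, Matrix.diagonal_mul] at this
  rw [g1 i j] at this
  have h1 := zz_pos (r.a i)
  have h2 := zz_pos (r.a j)
  have h3 := zz_sq (r.a i)
  have h4 : cj r.O dF i j * zz (r.a j)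
      = (1 - ff (r.a i) * Z1 (r.a i) (r.a j)) * cj r.O B i j := by linarith
  have h5 : (1 - ff (r.a i) * Z1 (r.a i) (r.a j)) = F1 (r.a i) (r.a j) * zz (r.a j) := by
    unfold ff Z1 F1
    field_simp
    nlinarith [h3]
  have h6 : cj r.O dF i j * zz (r.a j) = F1 (r.a i) (r.a j) * cj r.O B i j * zz (r.a j) := by
    rw [h4, h5]; ring
  exact mul_right_cancel₀ h2.ne' h6


/-- **`|dF|² ≤ ⟨dF, B⟩ ≤ |B|²`** -/
theorem Der.hs_le (h : Der A B dZ dF) (hA : Aᵀ = A) :
    hs dF ≤ (dF * Bᵀ).trace ∧ (dF * Bᵀ).trace ≤ hs B := by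
  obtain ⟨r⟩ := exists_fr hA
  have h1 := (h.frame r).2
  rw [hs_eq_sum r.h2, hs_eq_sum r.h2 B, trace_eq_sum r.h2]
  constructor
  · refine Finset.sum_le_sum fun i _ => Finset.sum_le_sum fun j _ => ?_
    rw [h1 i j]
    have := F1_sq_le (r.a i) (r.a j)
    nlinarith [sq_nonneg (cj r.O B i j)]
  · refine Finset.sum_le_sum fun i _ => Finset.sum_le_sum fun j _ => ?_
    rw [h1 i j]
    have := F1_le_one (r.a i) (r.a j)
    nlinarith [sq_nonneg (cj r.O B i j)]




end Crest.Agent.R201.Clip78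
end

-- ▼ part R201/Clip2_78
section

/-!
# R201, LSI half, CLIP block (helper78), part 2: smoothness and derivatives of the clip

`clZ`, `clF`, `clP` are smooth on the whole space `Mt n`; chain rules along fields, curves.
-/

set_option autoImplicit false
open Matrix
open scoped Matrix.Norms.Operator ContDiff

namespace Crest.Agent.R201.Clip78

open Crest.Agent.R201

variable {n : ℕ}

/-! ### smoothness of the root, any order -/

theorem contDiffAt_of_entries' {X : Type*} [NormedAddCommGroup X] [NormedSpace ℝ X] {F : X → Mt n}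
    {x : X} {k : WithTop ℕ∞} (h : ∀ i j, ContDiffAt ℝ k (fun y => F y i j) x) :
    ContDiffAt ℝ k F x := by
  have e : F = fun y => ∑ i, ∑ j, F y i j • Matrix.single i j (1 : ℝ) := by
    funext y; exact MX354.mt_eq_sum (F y)
  rw [e]
  exact ContDiffAt.sum fun i _ => ContDiffAt.sum fun j _ => (h i j).smul contDiffAt_const

theorem contDiff_of_entries {X : Type*} [NormedAddCommGroup X] [NormedSpace ℝ X] {F : X → Mt n}
    {k : WithTop ℕ∞} (h : ∀ i j, ContDiff ℝ k (fun y => F y i j)) : ContDiff ℝ k F :=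
  contDiff_iff_contDiffAt.2 fun _ => contDiffAt_of_entries' fun i j => (h i j).contDiffAt

theorem entry_contDiff {X : Type*} [NormedAddCommGroup X] [NormedSpace ℝ X] {F : X → Mt n}
    {k : WithTop ℕ∞} (h : ContDiff ℝ k F) (i j : Fin n) : ContDiff ℝ k (fun y => F y i j) :=
  (MX354.entryL i j).contDiff.comp h


theorem root_contDiffAt' {X : Type*} [NormedAddCommGroup X] [NormedSpace ℝ X] {G Z : X → Mt n}
    {x : X} {k : WithTop ℕ∞} (hk : k ≠ 0)
    (hG : ∀ i j, ContDiffAt ℝ k (fun y => G y i j) x) (hZ : ∀ y, (Z y).PosDef)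
    (hZG : ∀ y, Z y * Z y = G y) : ContDiffAt ℝ k Z x := by
  have hc : ContinuousAt Z x :=
    MX354.continuousAt_of_entries fun i j =>
      MX354.root_continuousAt (fun i j => (hG i j).continuousAt) hZ hZG i j
  have hf : ContDiffAt ℝ k (fun A : Mt n => A * A) (Z x) :=
    (contDiff_id.mul contDiff_id).contDiffAt
  have hf' := MX354.hasFDerivAt_sq (hZ x)
  have h1 := hf.to_localInverse hf' hk
  have h2 : ∀ᶠ y in nhds x, hf.localInverse hf' hk (G y) = Z y := by
    have h3 := (hf.hasStrictFDerivAt' hf' hk).eventually_left_inverse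
    have h4 := hc.eventually h3
    filter_upwards [h4] with y hy
    rw [← hZG y]
    exact hy
  have h5 : ContDiffAt ℝ k (fun y => hf.localInverse hf' hk (G y)) x := by
    refine ContDiffAt.comp x ?_ (contDiffAt_of_entries' hG)
    rw [← hZG x]
    exact h1
  exact h5.congr_of_eventuallyEq (h2.mono fun _ h => h.symm)

theorem entry_id_contDiff {k : WithTop ℕ∞} (i j : Fin n) : ContDiff ℝ k (fun A : Mt n => A i j) :=
  (MX354.entryL i j).contDiff

theorem contDiff_clZ {k : WithTop ℕ∞} : ContDiff ℝ k (clZ : Mt n → Mt n) := by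
  have h : ContDiff ℝ ω (clZ : Mt n → Mt n) := by
    rw [contDiff_iff_contDiffAt]
    intro x
    refine root_contDiffAt' (G := fun A => 1 + Aᵀ * A) (by simp) (fun i j => ?_) clZ_posDef clZ_sq
    refine ContDiff.contDiffAt ?_
    have e : (fun A : Mt n => (1 + Aᵀ * A) i j) = fun A => (1 : Mt n) i j + ∑ l, A l i * A l j := by
      funext A
      rw [Matrix.add_apply, Matrix.mul_apply]
      simp only [transpose_apply]
    rw [e]
    exact contDiff_const.add (ContDiff.sum fun l _ =>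
      (entry_id_contDiff l i).mul (entry_id_contDiff l j))
  exact h.of_le le_top

theorem contDiff_clZ_inv {k : WithTop ℕ∞} : ContDiff ℝ k (fun A : Mt n => (clZ A)⁻¹) := by
  rw [contDiff_iff_contDiffAt]
  intro A
  have hu : IsUnit (clZ A) := (Matrix.isUnit_iff_isUnit_det _).2 (clZ_isUnit A)
  obtain ⟨u, hu⟩ := hu
  have h1 : ContDiffAt ℝ k (Ring.inverse : Mt n → Mt n) (clZ A) := by
    rw [← hu]; exact contDiffAt_ringInverse ℝ u
  have h2 : ContDiffAt ℝ k (fun A : Mt n => Ring.inverse (clZ A)) A :=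
    h1.comp A contDiff_clZ.contDiffAt
  refine h2.congr_of_eventuallyEq (Filter.Eventually.of_forall fun B => ?_)
  exact Matrix.nonsing_inv_eq_ringInverse (clZ B)

theorem contDiff_clF {k : WithTop ℕ∞} : ContDiff ℝ k (clF : Mt n → Mt n) :=
  contDiff_id.mul contDiff_clZ_inv


/-! ### derivative of the maps -/

/-- derivative of `clZ` -/
noncomputable def dZ (A B : Mt n) : Mt n := fderiv ℝ (clZ : Mt n → Mt n) A B

/-- derivative of `clF` -/
noncomputable def dF (A B : Mt n) : Mt n := fderiv ℝ (clF : Mt n → Mt n) A B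

theorem diff_clZ : Differentiable ℝ (clZ : Mt n → Mt n) :=
  (contDiff_clZ (k := 1)).differentiable (by simp)

theorem diff_clF : Differentiable ℝ (clF : Mt n → Mt n) :=
  (contDiff_clF (k := 1)).differentiable (by simp)


/-- transposition as a continuous linear map -/
noncomputable def trL : Mt n →L[ℝ] Mt n :=
  LinearMap.toContinuousLinearMap
    { toFun := fun A => Aᵀ, map_add' := fun _ _ => rfl, map_smul' := fun _ _ => rfl }


/-- the Lyapunov equations for the derivatives, any `A`, `B` -/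
theorem der_eq (A B : Mt n) :
    dZ A B * clZ A + clZ A * dZ A B = Aᵀ * B + Bᵀ * A ∧
      dF A B * clZ A + clF A * dZ A B = B := by
  have hZ := (diff_clZ (n := n) A).hasFDerivAt
  have hF := (diff_clF (n := n) A).hasFDerivAt
  constructor
  · have h1 := hZ.mul' hZ
    have h3 := (trL (n := n)).hasFDerivAt (x := A)
    have h2 := (h3.mul' (hasFDerivAt_id A)).const_add (1 : Mt n)
    have h4 : (clZ * clZ : Mt n → Mt n)
        = fun A : Mt n => (1 : Mt n) + ((fun A : Mt n => trL A) * (id : Mt n → Mt n)) A := by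
      funext A; exact clZ_sq A
    rw [h4] at h1
    have h5 := h1.unique h2
    have h6 := congrArg (fun L : Mt n →L[ℝ] Mt n => L B) h5
    change clZ A * dZ A B + dZ A B * clZ A = Aᵀ * B + Bᵀ * A at h6
    rw [add_comm]
    exact h6
  · have h1 := hF.mul' hZ
    have h4 : (clF * clZ : Mt n → Mt n) = id := by
      funext A; exact clF_mul_clZ A
    rw [h4] at h1
    have h5 := h1.unique (hasFDerivAt_id A)
    have h6 := congrArg (fun L : Mt n →L[ℝ] Mt n => L B) h5
    change clF A * dZ A B + dF A B * clZ A = B at h6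
    rw [add_comm]
    exact h6



/-! ### fields -/

section Field

variable {X : Type*} [NormedAddCommGroup X] [NormedSpace ℝ X] {U : X → Mt n} {x : X}

/-- derivative of a matrix field through its entries -/
theorem fderiv_entry (hU : DifferentiableAt ℝ U x) (v : X) (i j : Fin n) :
    fderiv ℝ (fun y => U y i j) x v = fderiv ℝ U x v i j := by
  have := (MX354.entryL i j).hasFDerivAt.comp x hU.hasFDerivAt
  have h2 : HasFDerivAt (fun y => U y i j) ((MX354.entryL i j).comp (fderiv ℝ U x)) x := this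
  rw [h2.fderiv]
  rfl

theorem diffAt_of_entries (h : ∀ i j, DifferentiableAt ℝ (fun y => U y i j) x) :
    DifferentiableAt ℝ U x := by
  have e : U = fun y => ∑ i, ∑ j, U y i j • Matrix.single i j (1 : ℝ) := by
    funext y; exact MX354.mt_eq_sum (U y)
  rw [e]
  exact DifferentiableAt.fun_sum fun i _ => DifferentiableAt.fun_sum fun j _ =>
    (h i j).smul_const _




end Field



end Crest.Agent.R201.Clip78
end

-- ▼ part R201/Clip3_78
section

/-!
# R201, LSI half, CLIP block (helper78), part 3: the scaled clip `cF e A = e F(A/e)` and fields on `E n`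
-/

set_option autoImplicit false
set_option linter.unusedSectionVars false
open Matrix
open scoped ContDiff

namespace Crest.Agent.R201.Clip78

open Crest.Agent.R201

variable {n : ℕ}

/-- scaled clip -/
noncomputable def cF (e : ℝ) (A : Mt n) : Mt n := e • clF (e⁻¹ • A)


theorem leQ_smul {c : ℝ} (hc : 0 ≤ c) {X Y : Mt n} (h : LeQ X Y) : LeQ (c • X) (c • Y) := by
  intro u
  rw [smul_mulVec, smul_mulVec, dotProduct_smul, dotProduct_smul, smul_eq_mul, smul_eq_mul]
  exact mul_le_mul_of_nonneg_left (h u) hc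

section Scaled

variable {e : ℝ} (he : 0 < e) {A : Mt n}
include he

theorem smul_inv_smul (A : Mt n) : e • (e⁻¹ • A) = A := by
  rw [smul_smul, mul_inv_cancel₀ he.ne', one_smul]

variable (hA : Aᵀ = A)
include hA


























end Scaled

/-! ### smoothness -/

section Smooth

open scoped Matrix.Norms.Operator

theorem contDiff_cF {k : WithTop ℕ∞} (e : ℝ) : ContDiff ℝ k (cF e : Mt n → Mt n) :=
  (contDiff_clF.comp (contDiff_id.const_smul e⁻¹)).const_smul e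


/-- entries of `cF e ∘ U` are as smooth as the entries of `U` -/
theorem cF_field_contDiff {X : Type*} [NormedAddCommGroup X] [NormedSpace ℝ X] {U : X → Mt n}
    {k : WithTop ℕ∞} (e : ℝ) (hU : ∀ i j, ContDiff ℝ k (fun y => U y i j)) (i j : Fin n) :
    ContDiff ℝ k (fun y => cF e (U y) i j) :=
  entry_contDiff ((contDiff_cF e).comp (contDiff_of_entries hU)) i j


/-- derivative of the scaled clip -/
noncomputable def dcF (e : ℝ) (A B : Mt n) : Mt n := dF (e⁻¹ • A) B


theorem hasFDerivAt_cF {e : ℝ} (he : 0 < e) (A B : Mt n) :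
    fderiv ℝ (cF e : Mt n → Mt n) A B = dcF e A B := by
  have h1 : HasFDerivAt (fun A : Mt n => e⁻¹ • A) (e⁻¹ • ContinuousLinearMap.id ℝ (Mt n)) A :=
    (hasFDerivAt_id A).const_smul e⁻¹
  have h2 := ((diff_clF (n := n) (e⁻¹ • A)).hasFDerivAt.comp A h1).const_smul e
  have h3 : HasFDerivAt (cF e : Mt n → Mt n) (e • ((fderiv ℝ (clF : Mt n → Mt n) (e⁻¹ • A)).comp
    (e⁻¹ • ContinuousLinearMap.id ℝ (Mt n)))) A := h2
  rw [h3.fderiv]
  change e • (fderiv ℝ (clF : Mt n → Mt n) (e⁻¹ • A)) (e⁻¹ • B) = _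
  rw [map_smul, smul_smul, mul_inv_cancel₀ he.ne', one_smul]
  rfl


theorem diff_cF (e : ℝ) : Differentiable ℝ (cF e : Mt n → Mt n) :=
  (contDiff_cF (k := 1) e).differentiable (by simp)


/-! ### curves (time derivative) -/

theorem curve_fderiv {U : ℝ → Mt n} {U' : Mt n} {t : ℝ}
    (hU : ∀ i j, HasDerivAt (fun s => U s i j) (U' i j) t) :
    DifferentiableAt ℝ U t ∧ fderiv ℝ U t 1 = U' := by
  have hd : DifferentiableAt ℝ U t := diffAt_of_entries fun i j => (hU i j).differentiableAt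
  refine ⟨hd, ?_⟩
  ext i j
  rw [← fderiv_entry hd]
  exact (hU i j).deriv



theorem hasDerivAt_cF {e : ℝ} (he : 0 < e) {U : ℝ → Mt n} {U' : Mt n} {t : ℝ}
    (hU : ∀ i j, HasDerivAt (fun s => U s i j) (U' i j) t) (i j : Fin n) :
    HasDerivAt (fun s => cF e (U s) i j) (dcF e (U t) U' i j) t := by
  obtain ⟨h1, h2⟩ := curve_fderiv hU
  have h3 := (MX354.entryL i j).hasFDerivAt.comp t
    ((diff_cF (n := n) e (U t)).hasFDerivAt.comp t h1.hasFDerivAt)
  have h4 := h3.hasDerivAt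
  have h5 : ((MX354.entryL i j).comp ((fderiv ℝ (cF e : Mt n → Mt n) (U t)).comp
      (fderiv ℝ U t))) 1 = dcF e (U t) U' i j := by
    change (fderiv ℝ (cF e : Mt n → Mt n) (U t) (fderiv ℝ U t 1)) i j = _
    rw [h2, hasFDerivAt_cF he]
  exact h4.congr_deriv h5

/-! ### fields on `E n` -/

section Field

variable {U : E n → Mt n}

theorem pdM_eq (hU : ∀ i j, Differentiable ℝ (fun y => U y i j)) (k : Fin n) (x : E n) :
    pdM k U x = fderiv ℝ U x (EuclideanSpace.single k (1 : ℝ)) := by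
  have hd : DifferentiableAt ℝ U x := diffAt_of_entries fun i j => hU i j x
  ext i j
  rw [← fderiv_entry hd]
  rfl


theorem pdM_cF {e : ℝ} (he : 0 < e) (hU : ∀ i j, Differentiable ℝ (fun y => U y i j))
    (k : Fin n) (x : E n) : pdM k (fun y => cF e (U y)) x = dcF e (U x) (pdM k U x) := by
  have hd : DifferentiableAt ℝ U x := diffAt_of_entries fun i j => hU i j x
  have h3 := (diff_cF (n := n) e (U x)).hasFDerivAt.comp x hd.hasFDerivAt
  have h4 : HasFDerivAt (fun y => cF e (U y)) ((fderiv ℝ (cF e : Mt n → Mt n) (U x)).comp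
    (fderiv ℝ U x)) x := h3
  ext i j
  have h5 := fderiv_entry h4.differentiableAt (EuclideanSpace.single k (1 : ℝ)) i j
  rw [h4.fderiv, ContinuousLinearMap.comp_apply, hasFDerivAt_cF he, ← pdM_eq hU] at h5
  exact h5





end Field

/-! ### the field `b(U) = F²` -/



end Smooth

end Crest.Agent.R201.Clip78
end

-- ▼ part R201/Clip4_78
section

/-!
# R201, LSI half, CLIP block (helper78), part 4: the NON-SYMMETRIC clip
`cF e M = M (1 + e⁻² MᵀM)^{-1/2}`, all facts on `Mt n`, through the dilation `[[0, M], [Mᵀ, 0]]`.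
-/

set_option autoImplicit false
set_option linter.unusedSectionVars false
open Matrix

namespace Crest.Agent.R201.Clip78

open Crest.Agent.R201

variable {n : ℕ}

/-! ### the dilation -/

/-- the Hermitian dilation -/
def dl (M : Mt n) : Matrix (Fin n ⊕ Fin n) (Fin n ⊕ Fin n) ℝ := fromBlocks 0 M Mᵀ 0

theorem dl_symm (M : Mt n) : (dl M)ᵀ = dl M := by
  simp [dl, fromBlocks_transpose]

theorem dl_mul (M N : Mt n) : dl M * dl N = fromBlocks (M * Nᵀ) 0 0 (Mᵀ * N) := by
  simp [dl, fromBlocks_multiply]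


theorem trace_blocks (A B C D : Mt n) : (fromBlocks A B C D).trace = A.trace + D.trace := by
  simp [Matrix.trace, Fintype.sum_sum_type]

theorem hs_blocks (A B C D : Mt n) : hs (fromBlocks A B C D) = hs A + hs B + (hs C + hs D) := by
  simp only [hs, Fintype.sum_sum_type, fromBlocks_apply₁₁, fromBlocks_apply₁₂, fromBlocks_apply₂₁,
    fromBlocks_apply₂₂, Finset.sum_add_distrib]
  ring

theorem hs_zero : hs (0 : Mt n) = 0 := by simp [hs]

theorem hs_dl (M : Mt n) : hs (dl M) = 2 * hs M := by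
  rw [dl, hs_blocks, hs_zero, MX354.hs_transpose]; ring

theorem trace_dl (M N : Mt n) : (dl M * (dl N)ᵀ).trace = 2 * (M * Nᵀ).trace := by
  rw [dl_symm, dl_mul, trace_blocks]
  have : (Mᵀ * N).trace = (M * Nᵀ).trace := by
    rw [← trace_transpose, transpose_mul, transpose_transpose, Matrix.trace_mul_comm]
  rw [this]; ring

/-- quadratic forms of block diagonal matrices -/
theorem form_blocks (A D : Mt n) (u v : Fin n → ℝ) :
    (Sum.elim u v) ⬝ᵥ ((fromBlocks A 0 0 D) *ᵥ (Sum.elim u v)) = u ⬝ᵥ (A *ᵥ u) + v ⬝ᵥ (D *ᵥ v) := by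
  rw [fromBlocks_mulVec]
  simp only [Sum.elim_comp_inl, Sum.elim_comp_inr, zero_mulVec, add_zero, zero_add, dotProduct,
    Fintype.sum_sum_type, Sum.elim_inl, Sum.elim_inr]

theorem leQ_blocks {A D A' D' : Mt n}
    (h : LeQ (fromBlocks A 0 0 D) (fromBlocks A' 0 0 D')) : LeQ A A' ∧ LeQ D D' := by
  constructor
  · intro u
    have := h (Sum.elim u 0)
    rw [form_blocks, form_blocks] at this
    simpa using this
  · intro u
    have := h (Sum.elim 0 u)
    rw [form_blocks, form_blocks] at this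
    simpa using this

theorem psd_blocks {A D : Mt n} (hA : A.PosSemidef) (hD : D.PosSemidef) :
    (fromBlocks A 0 0 D).PosSemidef := by
  refine PosSemidef.of_dotProduct_mulVec_nonneg ?_ ?_
  · rw [IsHermitian, conjTranspose_eq_transpose_of_trivial, fromBlocks_transpose,
      MX354.posSemidef_transpose hA, MX354.posSemidef_transpose hD, transpose_zero]
  · intro x
    have e : x = Sum.elim (fun i => x (Sum.inl i)) (fun i => x (Sum.inr i)) := by
      funext i; cases i <;> rfl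
    rw [star_trivial, e, form_blocks]
    have h1 := hA.dotProduct_mulVec_nonneg (fun i => x (Sum.inl i))
    have h2 := hD.dotProduct_mulVec_nonneg (fun i => x (Sum.inr i))
    rw [star_trivial] at h1 h2
    linarith

theorem one_blocks : (1 : Matrix (Fin n ⊕ Fin n) (Fin n ⊕ Fin n) ℝ) = fromBlocks 1 0 0 1 :=
  fromBlocks_one.symm

theorem clZ_dl (M : Mt n) : clZ (dl M) = fromBlocks (clZ Mᵀ) 0 0 (clZ M) := by
  refine MX354.rt_unique (psd_blocks (clZ_psd _) (clZ_psd _)) ?_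
  rw [dl_symm, dl_mul, one_blocks, fromBlocks_add, fromBlocks_multiply]
  simp only [Matrix.mul_zero, Matrix.zero_mul, add_zero, zero_add, clZ_sq, transpose_transpose]

theorem clF_dl_aux (M : Mt n) : clF (dl M) = fromBlocks 0 (clF M) (clF Mᵀ) 0 := by
  have h : (clZ (dl M))⁻¹ = fromBlocks (clZ Mᵀ)⁻¹ 0 0 (clZ M)⁻¹ := by
    refine Matrix.inv_eq_right_inv ?_
    rw [clZ_dl, fromBlocks_multiply, one_blocks]
    simp only [Matrix.mul_zero, Matrix.zero_mul, add_zero, zero_add, clZ_mul_inv]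
  rw [clF, h, dl, fromBlocks_multiply]
  simp only [Matrix.mul_zero, Matrix.zero_mul, add_zero, zero_add]
  rfl

/-- (N0) the clip commutes with transposition -/
theorem clF_transpose (M : Mt n) : clF Mᵀ = (clF M)ᵀ := by
  have h := clF_symm (dl_symm M)
  rw [clF_dl_aux, fromBlocks_transpose, fromBlocks_inj] at h
  exact h.2.2.1.symm

theorem clF_dl (M : Mt n) : clF (dl M) = dl (clF M) := by
  rw [clF_dl_aux, clF_transpose]; rfl

theorem clF_zero : clF (0 : Mt n) = 0 := by rw [clF, Matrix.zero_mul]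

/-! ### unscaled bounds -/

theorem FFt_le_one (M : Mt n) : LeQ (clF M * (clF M)ᵀ) 1 ∧ LeQ ((clF M)ᵀ * clF M) 1 := by
  have h := clF_sq_le_one (dl_symm M)
  rw [clF_dl, dl_mul, one_blocks] at h
  exact leQ_blocks h

theorem FFt_le_MFt (M : Mt n) :
    LeQ (clF M * (clF M)ᵀ) (M * (clF M)ᵀ) ∧ LeQ ((clF M)ᵀ * clF M) (Mᵀ * clF M) := by
  have h := clF_sq_le_mul (dl_symm M)
  rw [clF_dl, dl_mul, dl_mul] at h
  exact leQ_blocks h

theorem MFt_le_MMt (M : Mt n) :
    LeQ (M * (clF M)ᵀ) (M * Mᵀ) ∧ LeQ (Mᵀ * clF M) (Mᵀ * M) := by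
  have h := mul_clF_le_sq (dl_symm M)
  rw [clF_dl, dl_mul, dl_mul] at h
  exact leQ_blocks h

theorem MFt_symm (M : Mt n) : (M * (clF M)ᵀ)ᵀ = M * (clF M)ᵀ ∧ (Mᵀ * clF M)ᵀ = Mᵀ * clF M := by
  have h := mul_clF_symm (dl_symm M)
  rw [clF_dl, dl_mul, fromBlocks_transpose, fromBlocks_inj] at h
  exact ⟨h.1, h.2.2.2⟩

theorem MMt_sub_FFt (M : Mt n) :
    M * Mᵀ - clF M * (clF M)ᵀ = M * Mᵀ * (clF M * (clF M)ᵀ) ∧
      Mᵀ * M - (clF M)ᵀ * clF M = Mᵀ * M * ((clF M)ᵀ * clF M) := by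
  have h := sq_sub_clF_sq (dl_symm M)
  rw [clF_dl, dl_mul, dl_mul, fromBlocks_multiply] at h
  have e : fromBlocks (M * Mᵀ) 0 0 (Mᵀ * M) - fromBlocks (clF M * (clF M)ᵀ) 0 0 ((clF M)ᵀ * clF M)
      = fromBlocks (M * Mᵀ - clF M * (clF M)ᵀ) 0 0 (Mᵀ * M - (clF M)ᵀ * clF M) := by
    rw [sub_eq_add_neg, fromBlocks_neg, fromBlocks_add]
    simp [sub_eq_add_neg]
  rw [e, fromBlocks_inj] at h
  simp only [Matrix.mul_zero, add_zero, zero_add] at h
  exact ⟨h.1, h.2.2.2⟩


/-! ### the scaled clip -/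

/-- (N0) -/
theorem cF_transpose (e : ℝ) (M : Mt n) : cF e Mᵀ = (cF e M)ᵀ := by
  rw [cF, cF, transpose_smul, ← clF_transpose, transpose_smul]

theorem cF_zero (e : ℝ) : cF e (0 : Mt n) = 0 := by
  rw [cF, smul_zero, clF_zero, smul_zero]

section Scaled

variable {e : ℝ} (he : 0 < e) (M : Mt n)
include he

theorem cFt_mul : cF e M * (cF e M)ᵀ = e ^ 2 • (clF (e⁻¹ • M) * (clF (e⁻¹ • M))ᵀ) := by
  rw [cF, transpose_smul, smul_mul_smul_comm, ← sq]

theorem cFt_mul' : (cF e M)ᵀ * cF e M = e ^ 2 • ((clF (e⁻¹ • M))ᵀ * clF (e⁻¹ • M)) := by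
  rw [cF, transpose_smul, smul_mul_smul_comm, ← sq]

theorem M_mul_cFt : M * (cF e M)ᵀ = e ^ 2 • ((e⁻¹ • M) * (clF (e⁻¹ • M))ᵀ) := by
  have h1 : M = e • (e⁻¹ • M) := (smul_inv_smul he M).symm
  calc M * (cF e M)ᵀ = (e • (e⁻¹ • M)) * (e • (clF (e⁻¹ • M))ᵀ) := by
        rw [← h1, cF, transpose_smul]
    _ = _ := by rw [smul_mul_smul_comm, ← sq]

theorem Mt_mul_cF : Mᵀ * cF e M = e ^ 2 • ((e⁻¹ • M)ᵀ * clF (e⁻¹ • M)) := by
  have h1 : M = e • (e⁻¹ • M) := (smul_inv_smul he M).symm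
  calc Mᵀ * cF e M = (e • (e⁻¹ • M))ᵀ * (e • clF (e⁻¹ • M)) := by
        rw [← h1]; rfl
    _ = _ := by rw [transpose_smul, smul_mul_smul_comm, ← sq]

theorem MMt_eq : M * Mᵀ = e ^ 2 • ((e⁻¹ • M) * (e⁻¹ • M)ᵀ) := by
  have h1 : M = e • (e⁻¹ • M) := (smul_inv_smul he M).symm
  calc M * Mᵀ = (e • (e⁻¹ • M)) * (e • (e⁻¹ • M))ᵀ := by rw [← h1]
    _ = _ := by rw [transpose_smul, smul_mul_smul_comm, ← sq]


/-- (N3) `F Fᵀ ≤ e²` -/
theorem cFt_le : LeQ (cF e M * (cF e M)ᵀ) (e ^ 2 • (1 : Mt n)) := by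
  rw [cFt_mul he]; exact leQ_smul (sq_nonneg e) (FFt_le_one _).1

/-- (N3) `Fᵀ F ≤ e²` -/
theorem cFt_le' : LeQ ((cF e M)ᵀ * cF e M) (e ^ 2 • (1 : Mt n)) := by
  rw [cFt_mul' he]; exact leQ_smul (sq_nonneg e) (FFt_le_one _).2

/-- (N3) `F Fᵀ ≤ M Fᵀ` -/
theorem cFt_le_MFt : LeQ (cF e M * (cF e M)ᵀ) (M * (cF e M)ᵀ) := by
  rw [cFt_mul he, M_mul_cFt he]; exact leQ_smul (sq_nonneg e) (FFt_le_MFt _).1

theorem cFt_le_MFt' : LeQ ((cF e M)ᵀ * cF e M) (Mᵀ * cF e M) := by
  rw [cFt_mul' he, Mt_mul_cF he]; exact leQ_smul (sq_nonneg e) (FFt_le_MFt _).2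

/-- (N3) `M Fᵀ ≤ M Mᵀ` -/
theorem MFt_le : LeQ (M * (cF e M)ᵀ) (M * Mᵀ) := by
  rw [M_mul_cFt he, MMt_eq he]; exact leQ_smul (sq_nonneg e) (MFt_le_MMt _).1


theorem MFt_tr : (M * (cF e M)ᵀ)ᵀ = M * (cF e M)ᵀ := by
  rw [M_mul_cFt he, transpose_smul, (MFt_symm _).1]

theorem MtF_tr : (Mᵀ * cF e M)ᵀ = Mᵀ * cF e M := by
  rw [Mt_mul_cF he, transpose_smul, (MFt_symm _).2]


omit he in
theorem FFt_tr (F : Mt n) : (F * Fᵀ)ᵀ = F * Fᵀ := by
  rw [transpose_mul, transpose_transpose]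

omit he in
theorem FtF_tr (F : Mt n) : (Fᵀ * F)ᵀ = Fᵀ * F := by
  rw [transpose_mul, transpose_transpose]

omit he in
theorem FFt_nonneg (F : Mt n) : LeQ 0 (F * Fᵀ) := by
  have h := MX354.posSemidef_mul_transpose F
  refine MX354.PosSemidef.leQ ?_
  rwa [sub_zero]


/-- (N3) traces against a form-nonnegative `V` -/
theorem trace_V_FFt {V : Mt n} (hV : LeQ 0 V) :
    0 ≤ (V * (cF e M * (cF e M)ᵀ)).trace ∧
    (V * (cF e M * (cF e M)ᵀ)).trace ≤ (V * (M * (cF e M)ᵀ)).trace := by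
  constructor
  · have := trace_mul_mono hV (X := 0) (by simp) (FFt_tr (cF e M)) (FFt_nonneg (cF e M))
    simpa using this
  · exact trace_mul_mono hV (FFt_tr _) (MFt_tr he M) (cFt_le_MFt he M)

/-- (N4) `M Mᵀ - F Fᵀ = e⁻² M Mᵀ F Fᵀ` -/
theorem MMt_sub : M * Mᵀ - cF e M * (cF e M)ᵀ
    = (e ^ 2)⁻¹ • (M * Mᵀ * (cF e M * (cF e M)ᵀ)) := by
  have he2 : (e ^ 2)⁻¹ * (e ^ 2 * e ^ 2) = e ^ 2 := by
    have := he.ne'
    field_simp
  have h3 : M * Mᵀ - cF e M * (cF e M)ᵀ = e ^ 2 • ((e⁻¹ • M) * (e⁻¹ • M)ᵀ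
      - clF (e⁻¹ • M) * (clF (e⁻¹ • M))ᵀ) := by
    rw [smul_sub, ← MMt_eq he, ← cFt_mul he]
  have h4 : M * Mᵀ * (cF e M * (cF e M)ᵀ) = (e ^ 2 * e ^ 2) • ((e⁻¹ • M) * (e⁻¹ • M)ᵀ
      * (clF (e⁻¹ • M) * (clF (e⁻¹ • M))ᵀ)) := by
    rw [← smul_mul_smul_comm, ← MMt_eq he, ← cFt_mul he]
  rw [h3, h4, (MMt_sub_FFt _).1, smul_smul, he2]

/-- (N4) in Hilbert–Schmidt norms -/
theorem hs_sub_hs : hs M - hs (cF e M) = (e ^ 2)⁻¹ * (M * Mᵀ * (cF e M * (cF e M)ᵀ)).trace := by
  rw [MX354.hs_eq_trace, MX354.hs_eq_trace, ← trace_sub, MMt_sub he, trace_smul, smul_eq_mul]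


end Scaled

/-- `|D S|² ≤ c |D|²` if `S Sᵀ ≤ c` -/
theorem hs_mul_le_of {c : ℝ} {D S : Mt n} (h : LeQ (S * Sᵀ) (c • (1 : Mt n))) :
    hs (D * S) ≤ c * hs D := by
  have h1 : (D * (S * Sᵀ) * Dᵀ).trace ≤ (D * (c • (1 : Mt n)) * Dᵀ).trace := by
    have h2 := NB152.trace_sq_nonneg (NB152.leq_sub.1 h) Dᵀ
    rw [transpose_transpose, Matrix.mul_sub, Matrix.sub_mul, trace_sub] at h2
    linarith
  have h3 : hs (D * S) = (D * (S * Sᵀ) * Dᵀ).trace := by
    rw [MX354.hs_eq_trace, transpose_mul]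
    simp only [Matrix.mul_assoc]
  have h4 : (D * (c • (1 : Mt n)) * Dᵀ).trace = c * hs D := by
    rw [MX354.hs_eq_trace, mul_smul_comm, smul_mul_assoc, trace_smul, Matrix.mul_one, smul_eq_mul]
  rw [h3, ← h4]
  exact h1

/-- `|S D|² ≤ c |D|²` if `SᵀS ≤ c` -/
theorem hs_mul_le_of' {c : ℝ} {D S : Mt n} (h : LeQ (Sᵀ * S) (c • (1 : Mt n))) :
    hs (S * D) ≤ c * hs D := by
  rw [← MX354.hs_transpose, transpose_mul, ← MX354.hs_transpose D]
  refine hs_mul_le_of ?_
  rwa [transpose_transpose]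

section Products

variable {e : ℝ} (he : 0 < e) (M : Mt n)
include he

/-- (N5) `|X Fᵀ| ≤ e |X|` -/
theorem hs_mul_cFt (X : Mt n) : hs (X * (cF e M)ᵀ) ≤ e ^ 2 * hs X :=
  hs_mul_le_of (by rw [transpose_transpose]; exact cFt_le' he M)


theorem hs_cF_mul (X : Mt n) : hs (cF e M * X) ≤ e ^ 2 * hs X :=
  hs_mul_le_of' (cFt_le' he M)


theorem hs_cF_le : hs (cF e M) ≤ hs M := by
  have h := trace_V_FFt he M (V := (1 : Mt n)) (by
    intro u; rw [zero_mulVec, dotProduct_zero, one_mulVec]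
    exact Finset.sum_nonneg fun i _ => mul_self_nonneg _)
  have h2 := trace_mul_mono (V := (1 : Mt n)) (by
    intro u; rw [zero_mulVec, dotProduct_zero, one_mulVec]
    exact Finset.sum_nonneg fun i _ => mul_self_nonneg _) (MFt_tr he M) (FFt_tr M) (MFt_le he M)
  rw [MX354.hs_eq_trace, MX354.hs_eq_trace]
  simp only [Matrix.one_mul] at h h2
  linarith [h.2]

/-- `|F|² ≤ ⟨M, F⟩ ≤ |M|²` -/
theorem hs_cF_le_trace : hs (cF e M) ≤ (M * (cF e M)ᵀ).trace ∧ (M * (cF e M)ᵀ).trace ≤ hs M := by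
  have h := trace_V_FFt he M (V := (1 : Mt n)) (by
    intro u; rw [zero_mulVec, dotProduct_zero, one_mulVec]
    exact Finset.sum_nonneg fun i _ => mul_self_nonneg _)
  have h2 := trace_mul_mono (V := (1 : Mt n)) (by
    intro u; rw [zero_mulVec, dotProduct_zero, one_mulVec]
    exact Finset.sum_nonneg fun i _ => mul_self_nonneg _) (MFt_tr he M) (FFt_tr M) (MFt_le he M)
  rw [MX354.hs_eq_trace, MX354.hs_eq_trace]
  simp only [Matrix.one_mul] at h h2
  exact ⟨h.2, h2⟩


end Products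

/-! ### symmetrisation -/






theorem form_sq (X : Mt n) (u : Fin n → ℝ) :
    u ⬝ᵥ ((Xᵀ * X) *ᵥ u) = (X *ᵥ u) ⬝ᵥ (X *ᵥ u) := by
  rw [← mulVec_mulVec, dotProduct_mulVec, vecMul_transpose]



end Crest.Agent.R201.Clip78
end

-- ▼ part R201/Clip5_78

/-!
# R201, LSI half, CLIP block (helper78), part 5: derivative of the NON-SYMMETRIC clip, fields

`|D_k F|² ≤ ⟨D_k F, D_k M⟩ ≤ |D_k M|²`, firm nonexpansiveness, symmetrised fields, `CB`,
compact support.
-/

set_option autoImplicit false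
set_option linter.unusedSectionVars false
open Matrix
open scoped ContDiff

namespace Crest.Agent.R201.Clip78

open Crest.Agent.R201

variable {n : ℕ}

section Der

open scoped Matrix.Norms.Operator

theorem dF_transpose (A B : Mt n) : dF Aᵀ Bᵀ = (dF A B)ᵀ := by
  have h1 : HasFDerivAt (fun X : Mt n => clF (trL X)) ((fderiv ℝ (clF : Mt n → Mt n) Aᵀ).comp trL) A :=
    (diff_clF (n := n) Aᵀ).hasFDerivAt.comp A (trL (n := n)).hasFDerivAt
  have h2 : HasFDerivAt (fun X : Mt n => trL (clF X)) (trL.comp (fderiv ℝ (clF : Mt n → Mt n) A)) A :=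
    (trL (n := n)).hasFDerivAt.comp A (diff_clF (n := n) A).hasFDerivAt
  have h3 : (fun X : Mt n => clF (trL X)) = fun X : Mt n => trL (clF X) := by
    funext X; exact clF_transpose X
  rw [h3] at h1
  have h4 := h1.unique h2
  have h5 := congrArg (fun L : Mt n →L[ℝ] Mt n => L B) h4
  exact h5

/-- dilated derivative data -/
theorem der_dl (A B : Mt n) :
    Der (dl A) (dl B) (fromBlocks (dZ Aᵀ Bᵀ) 0 0 (dZ A B)) (dl (dF A B)) := by
  obtain ⟨h1, h2⟩ := der_eq A B
  obtain ⟨h3, h4⟩ := der_eq Aᵀ Bᵀ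
  rw [transpose_transpose, transpose_transpose] at h3
  rw [dF_transpose, clF_transpose] at h4
  constructor
  · rw [clZ_dl, fromBlocks_multiply, fromBlocks_multiply, fromBlocks_add, dl_mul, dl_mul,
      fromBlocks_add]
    simp only [Matrix.mul_zero, Matrix.zero_mul, add_zero, zero_add]
    rw [h1, h3]
  · rw [clZ_dl, clF_dl, dl, dl, dl, fromBlocks_multiply, fromBlocks_multiply, fromBlocks_add]
    simp only [Matrix.mul_zero, Matrix.zero_mul, add_zero, zero_add]
    rw [h2, h4]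

/-- **(N2) at a point**: `|dF|² ≤ ⟨dF, B⟩ ≤ |B|²`, any `A`, `B` -/
theorem dF_hs (A B : Mt n) : hs (dF A B) ≤ (dF A B * Bᵀ).trace ∧ (dF A B * Bᵀ).trace ≤ hs B := by
  have h := (der_dl A B).hs_le (dl_symm A)
  rw [hs_dl, hs_dl, trace_dl] at h
  constructor <;> linarith [h.1, h.2]

theorem dcF_hs (e : ℝ) (A B : Mt n) :
    hs (dcF e A B) ≤ (dcF e A B * Bᵀ).trace ∧ (dcF e A B * Bᵀ).trace ≤ hs B := dF_hs _ B

/-! ### firm nonexpansiveness -/

theorem hasDerivAt_cF_line {e : ℝ} (he : 0 < e) (N B : Mt n) (t : ℝ) (i j : Fin n) :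
    HasDerivAt (fun s : ℝ => cF e (N + s • B) i j) (dcF e (N + t • B) B i j) t := by
  refine hasDerivAt_cF he (U := fun s => N + s • B) (fun i j => ?_) i j
  have h : HasDerivAt (fun s : ℝ => N i j + s * B i j) (1 * B i j) t :=
    ((hasDerivAt_id t).mul_const (B i j)).const_add (N i j)
  rw [one_mul] at h
  exact h

/-- `2F - id` is nonexpansive -/
theorem reflect_le {e : ℝ} (he : 0 < e) (M N : Mt n) :
    hs ((2 : ℝ) • (cF e M - cF e N) - (M - N)) ≤ hs (M - N) := by
  set B := M - N with hB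
  set K := (2 : ℝ) • (cF e M - cF e N) - B with hK
  have hMN : M = N + (1 : ℝ) • B := by rw [hB]; simp
  have hNN : N = N + (0 : ℝ) • B := by simp
  -- scalar function
  have hder : ∀ t : ℝ, HasDerivAt
      (fun s : ℝ => ∑ i, ∑ j, (2 * cF e (N + s • B) i j - s * B i j) * K i j)
      (((2 : ℝ) • dcF e (N + t • B) B - B) * Kᵀ).trace t := by
    intro t
    have h1 : HasDerivAt (fun s : ℝ => ∑ i, ∑ j, (2 * cF e (N + s • B) i j - s * B i j) * K i j)
        (∑ i, ∑ j, (2 * dcF e (N + t • B) B i j - 1 * B i j) * K i j) t :=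
      HasDerivAt.fun_sum fun i _ => HasDerivAt.fun_sum fun j _ =>
        (((hasDerivAt_cF_line he N B t i j).const_mul 2).sub
          ((hasDerivAt_id t).mul_const (B i j))).mul_const (K i j)
    have h2 : (((2 : ℝ) • dcF e (N + t • B) B - B) * Kᵀ).trace
        = ∑ i, ∑ j, (2 * dcF e (N + t • B) B i j - 1 * B i j) * K i j := by
      simp only [Matrix.trace, Matrix.diag_apply, Matrix.mul_apply, Matrix.transpose_apply,
        Matrix.sub_apply, Matrix.smul_apply, smul_eq_mul, one_mul]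
    rw [h2]
    exact h1
  obtain ⟨c, _, hc⟩ := exists_hasDerivAt_eq_slope
    (fun s : ℝ => ∑ i, ∑ j, (2 * cF e (N + s • B) i j - s * B i j) * K i j) _ one_pos
    (fun t _ => (hder t).continuousAt.continuousWithinAt) (fun t _ => hder t)
  have h3 : (∑ i, ∑ j, (2 * cF e (N + (1:ℝ) • B) i j - 1 * B i j) * K i j)
      - (∑ i, ∑ j, (2 * cF e (N + (0:ℝ) • B) i j - 0 * B i j) * K i j) = hs K := by
    rw [← hMN, ← hNN]
    simp only [hs, ← Finset.sum_sub_distrib]
    refine Finset.sum_congr rfl fun i _ => Finset.sum_congr rfl fun j _ => ?_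
    have : K i j = 2 * (cF e M i j - cF e N i j) - B i j := by
      rw [hK]
      simp only [Matrix.sub_apply, Matrix.smul_apply, smul_eq_mul]
    rw [sq]
    nth_rewrite 3 [this]
    ring
  rw [h3] at hc
  have h4 : hs K = (((2 : ℝ) • dcF e (N + c • B) B - B) * Kᵀ).trace := by
    rw [hc]; ring
  have h5 : hs ((2 : ℝ) • dcF e (N + c • B) B - B) ≤ hs B := by
    have h6 := (dcF_hs e (N + c • B) B).1
    have h7 : hs ((2 : ℝ) • dcF e (N + c • B) B - B)
        = 4 * hs (dcF e (N + c • B) B) - 4 * (dcF e (N + c • B) B * Bᵀ).trace + hs B := by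
      simp only [hs, Matrix.trace, Matrix.diag_apply, Matrix.mul_apply, Matrix.transpose_apply,
        Matrix.sub_apply, Matrix.smul_apply, smul_eq_mul, Finset.mul_sum, ← Finset.sum_sub_distrib,
        ← Finset.sum_add_distrib]
      refine Finset.sum_congr rfl fun i _ => Finset.sum_congr rfl fun j _ => ?_
      ring
    rw [h7]; linarith
  have h8 := MX354.trace_mul_sq_le ((2 : ℝ) • dcF e (N + c • B) B - B) K
  rw [← h4] at h8
  rcases (MX354.hs_nonneg K).lt_or_eq with hp | h0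
  · have h9 : hs K * hs K ≤ hs B * hs K := by
      calc hs K * hs K = hs K ^ 2 := by ring
        _ ≤ _ := h8
        _ ≤ _ := mul_le_mul_of_nonneg_right h5 hp.le
    exact le_of_mul_le_mul_right h9 hp
  · rw [← h0]; exact MX354.hs_nonneg _

/-- **(N1) firmly nonexpansive** -/
theorem cF_firm {e : ℝ} (he : 0 < e) (M N : Mt n) :
    hs (cF e M - cF e N) ≤ ((cF e M - cF e N) * (M - N)ᵀ).trace := by
  have h := reflect_le he M N
  have h7 : hs ((2 : ℝ) • (cF e M - cF e N) - (M - N))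
      = 4 * hs (cF e M - cF e N) - 4 * ((cF e M - cF e N) * (M - N)ᵀ).trace + hs (M - N) := by
    simp only [hs, Matrix.trace, Matrix.diag_apply, Matrix.mul_apply, Matrix.transpose_apply,
      Matrix.sub_apply, Matrix.smul_apply, smul_eq_mul, Finset.mul_sum, ← Finset.sum_sub_distrib,
      ← Finset.sum_add_distrib]
    refine Finset.sum_congr rfl fun i _ => Finset.sum_congr rfl fun j _ => ?_
    ring
  rw [h7] at h
  linarith

/-- **(N1) nonexpansive** -/
theorem cF_lip {e : ℝ} (he : 0 < e) (M N : Mt n) : hs (cF e M - cF e N) ≤ hs (M - N) := by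
  have h1 := cF_firm he M N
  have h2 := MX354.trace_mul_sq_le (cF e M - cF e N) (M - N)
  rcases (MX354.hs_nonneg (cF e M - cF e N)).lt_or_eq with hp | h0
  · have h3 : hs (cF e M - cF e N) * hs (cF e M - cF e N)
        ≤ hs (M - N) * hs (cF e M - cF e N) := by
      calc _ = hs (cF e M - cF e N) ^ 2 := by ring
        _ ≤ ((cF e M - cF e N) * (M - N)ᵀ).trace ^ 2 := pow_le_pow_left₀ hp.le h1 2
        _ ≤ _ := h2
        _ = _ := by ring
    exact le_of_mul_le_mul_right h3 hp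
  · rw [← h0]; exact MX354.hs_nonneg _

/-- (N6) `|F - Fᵀ| ≤ |M - Mᵀ|` -/
theorem cF_sub_transpose {e : ℝ} (he : 0 < e) (M : Mt n) :
    hs (cF e M - (cF e M)ᵀ) ≤ hs (M - Mᵀ) := by
  rw [← cF_transpose]; exact cF_lip he M Mᵀ


end Der

/-! ### fields on `E n` -/

section Field

variable {M : E n → Mt n}

theorem cF_field_C1 (e : ℝ) (hM : ∀ i j, ContDiff ℝ 1 (fun y => M y i j)) (i j : Fin n) :
    ContDiff ℝ 1 (fun y => cF e (M y) i j) := cF_field_contDiff e hM i j

/-- **(N2)** `|D_k F|² ≤ ⟨D_k F, D_k M⟩ ≤ |D_k M|²` -/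
theorem pdM_cF_le {e : ℝ} (he : 0 < e) (hM : ∀ i j, Differentiable ℝ (fun y => M y i j))
    (k : Fin n) (x : E n) :
    hs (pdM k (fun y => cF e (M y)) x) ≤ (pdM k (fun y => cF e (M y)) x * (pdM k M x)ᵀ).trace ∧
    (pdM k (fun y => cF e (M y)) x * (pdM k M x)ᵀ).trace ≤ hs (pdM k M x) := by
  rw [pdM_cF he hM]
  exact dcF_hs e (M x) (pdM k M x)






/-- compact support is preserved -/
theorem cF_cs (e : ℝ) (hM : ∀ i j, HasCompactSupport (fun y => M y i j)) (i j : Fin n) :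
    HasCompactSupport (fun y => cF e (M y) i j) := by
  have h1 : HasCompactSupport (fun y => ∑ a, ∑ b, M y a b ^ 2) := by
    have : ∀ s : Finset (Fin n), ∀ g : Fin n → E n → ℝ, (∀ a, HasCompactSupport (g a)) →
        HasCompactSupport (fun y => ∑ a ∈ s, g a y) := by
      intro s g hg
      classical
      induction s using Finset.induction_on with
      | empty =>
        simp only [Finset.sum_empty]
        exact HasCompactSupport.zero
      | insert a s ha ih =>
        simp only [Finset.sum_insert ha]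
        exact (hg a).add ih
    refine this _ _ fun a => this _ _ fun b => ?_
    exact (hM a b).comp_left (g := fun t : ℝ => t ^ 2) (by simp)
  refine h1.mono fun y hy => ?_
  rw [Function.mem_support] at hy ⊢
  intro h0
  apply hy
  have h2 : M y = 0 := by
    ext a b
    have h3 : M y a b ^ 2 ≤ hs (M y) := MX354.sq_le_hs (M y) a b
    have h4 : hs (M y) = 0 := h0
    rw [h4] at h3
    simpa using pow_eq_zero_iff (two_ne_zero) |>.1 (le_antisymm h3 (sq_nonneg _))
  rw [h2, cF_zero]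
  rfl


/-! ### the field `A = e⁻² F Fᵀ` -/

/-- `A = e⁻² F Fᵀ`, `0 ≤ A ≤ 1` -/
noncomputable def bF (e : ℝ) (M : Mt n) : Mt n := (e ^ 2)⁻¹ • (cF e M * (cF e M)ᵀ)

theorem bF_symm (e : ℝ) (M : Mt n) : (bF e M)ᵀ = bF e M := by
  rw [bF, transpose_smul, FFt_tr]

theorem bF_nonneg (e : ℝ) (M : Mt n) : LeQ 0 (bF e M) := by
  have := leQ_smul (inv_nonneg.2 (sq_nonneg e)) (FFt_nonneg (cF e M))
  rwa [smul_zero] at this

theorem bF_le_one {e : ℝ} (he : 0 < e) (M : Mt n) : LeQ (bF e M) 1 := by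
  have := leQ_smul (inv_nonneg.2 (sq_nonneg e)) (cFt_le he M)
  rwa [smul_smul, inv_mul_cancel₀ (by positivity), one_smul] at this

/-- `|M|² - |F|² = Tr M Mᵀ A` -/
theorem hs_sub_hs_bF {e : ℝ} (he : 0 < e) (M : Mt n) :
    hs M - hs (cF e M) = (M * Mᵀ * bF e M).trace := by
  rw [hs_sub_hs he, bF, mul_smul_comm, trace_smul, smul_eq_mul]

theorem pdM_bF (e : ℝ) (hM : ∀ i j, ContDiff ℝ 1 (fun y => M y i j)) (k : Fin n) (x : E n) :
    pdM k (fun y => bF e (M y)) x
      = (e ^ 2)⁻¹ • (pdM k (fun y => cF e (M y)) x * (cF e (M x))ᵀ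
        + cF e (M x) * (pdM k (fun y => cF e (M y)) x)ᵀ) := by
  have hd : ∀ i j, Differentiable ℝ (fun y => cF e (M y) i j) := fun i j =>
    (cF_field_C1 e hM i j).differentiable (by simp)
  ext i j
  have e1 : (fun y => bF e (M y) i j)
      = fun y => (e ^ 2)⁻¹ * ∑ l, cF e (M y) i l * cF e (M y) j l := by
    funext y
    simp only [bF, Matrix.smul_apply, Matrix.mul_apply, transpose_apply, smul_eq_mul]
  simp only [pdM, Matrix.of_apply, Matrix.smul_apply, Matrix.add_apply, Matrix.mul_apply,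
    transpose_apply, smul_eq_mul]
  rw [e1, Tw807.pd_const_mul _ k (DifferentiableAt.fun_sum fun l _ =>
    (hd i l x).fun_mul (hd j l x)), Tw807.pd_sum _ k fun l _ => (hd i l x).fun_mul (hd j l x),
    ← Finset.sum_add_distrib]
  congr 1
  refine Finset.sum_congr rfl fun l _ => ?_
  rw [Tw807.pd_mul k (hd i l x) (hd j l x)]
  ring

/-- `|D_k A|² ≤ 4 e⁻² |D_k F|²` -/
theorem hs_pdM_bF_le {e : ℝ} (he : 0 < e) (hM : ∀ i j, ContDiff ℝ 1 (fun y => M y i j))
    (k : Fin n) (x : E n) :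
    hs (pdM k (fun y => bF e (M y)) x) ≤ 4 / e ^ 2 * hs (pdM k (fun y => cF e (M y)) x) := by
  rw [pdM_bF e hM, NB152.hs_smul]
  set D := pdM k (fun y => cF e (M y)) x
  have h1 := NB152.hs_add_le (D * (cF e (M x))ᵀ) (cF e (M x) * Dᵀ)
  have h2 := hs_mul_cFt he (M x) D
  have h3 := hs_cF_mul he (M x) Dᵀ
  rw [MX354.hs_transpose] at h3
  have h4 : hs (D * (cF e (M x))ᵀ + cF e (M x) * Dᵀ) ≤ 4 * e ^ 2 * hs D := by linarith
  calc ((e ^ 2)⁻¹) ^ 2 * hs (D * (cF e (M x))ᵀ + cF e (M x) * Dᵀ)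
      ≤ ((e ^ 2)⁻¹) ^ 2 * (4 * e ^ 2 * hs D) := mul_le_mul_of_nonneg_left h4 (sq_nonneg _)
    _ = 4 / e ^ 2 * hs D := by field_simp

end Field

end Crest.Agent.R201.Clip78
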