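import Mathlib
import Crest.Agent.R201.Noi2_402

-- ▼ part R201/Cyc2_293
section

/-!
# R201: the forward-backward cycle with cut small times, by ONE mean value theorem (helper293)

Only `s ∈ [s₀, η]`; the small times are replaced by the static inequalities
`H(s₀) ≥ H₀ - s₀/2 I₀`, `I(s₀) ≤ I₀` (posterior LSI, `post_grad`) and
`Hb(s₀) ≤ Hb(0) + s₀/2 Ib(s₀)`, `Ib(0) ≤ Ib(s₀)` (Gaussian LSI, Cauchy–Schwarz).
Hence the good time is `≥ s₀` (the Tweedie form of the labelled `ψ₂` has the constant `κ / s₀²`).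
-/

set_option autoImplicit false
open Set

namespace Crest.Agent.R201.Cyc293

/-- the data of a cut cycle -/
structure Cut (s₀ η e₀ H₀ I₀ Hb₀ Ib₀ : ℝ) (H I A Hb Ib Ab : ℝ → ℝ) : Prop where
  lt : s₀ < η
  s_nonneg : 0 ≤ s₀
  dH : ∀ s ∈ Ioo s₀ η, HasDerivAt H (-(I s) / 2) s
  dI : ∀ s ∈ Ioo s₀ η, HasDerivAt I (-(A s)) s
  dHb : ∀ s ∈ Ioo s₀ η, HasDerivAt Hb (Ib s / 2) s
  dIb : ∀ s ∈ Ioo s₀ η, HasDerivAt Ib (Ab s) s
  cH : ContinuousOn H (Icc s₀ η)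
  cI : ContinuousOn I (Icc s₀ η)
  cHb : ContinuousOn Hb (Icc s₀ η)
  cIb : ContinuousOn Ib (Icc s₀ η)
  A_nonneg : ∀ s ∈ Ioo s₀ η, 0 ≤ A s
  Ab_nonneg : ∀ s ∈ Ioo s₀ η, 0 ≤ Ab s
  jH : H η = Hb η
  jI : I η = Ib η
  /-- start -/
  start : I₀ / 2 ≤ (1 + e₀) * H₀
  hH : H₀ - s₀ / 2 * I₀ ≤ H s₀
  hI : I s₀ ≤ I₀
  /-- end, back at the base -/
  hHb : Hb s₀ ≤ Hb₀ + s₀ / 2 * Ib s₀
  hIb : Ib₀ ≤ Ib s₀
  fin : Hb₀ ≤ Ib₀ / 2

variable {s₀ η e₀ H₀ I₀ Hb₀ Ib₀ : ℝ} {H I A Hb Ib Ab : ℝ → ℝ}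

namespace Cut

theorem I_le (c : Cut s₀ η e₀ H₀ I₀ Hb₀ Ib₀ H I A Hb Ib Ab) {s : ℝ} (hs : s ∈ Icc s₀ η) :
    I s ≤ I₀ := by
  have anti : AntitoneOn I (Icc s₀ η) := by
    refine antitoneOn_of_hasDerivWithinAt_nonpos (f' := fun s => -(A s)) (convex_Icc s₀ η) c.cI
      ?_ ?_
    · intro x hx
      rw [interior_Icc] at hx ⊢
      exact (c.dI x hx).hasDerivWithinAt
    · intro x hx
      rw [interior_Icc] at hx
      have := c.A_nonneg x hx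
      linarith
  exact (anti ⟨le_rfl, c.lt.le⟩ hs hs.1).trans c.hI

theorem Ib_le (c : Cut s₀ η e₀ H₀ I₀ Hb₀ Ib₀ H I A Hb Ib Ab) {s : ℝ} (hs : s ∈ Icc s₀ η) :
    Ib s ≤ I₀ := by
  have mono : MonotoneOn Ib (Icc s₀ η) := by
    refine monotoneOn_of_hasDerivWithinAt_nonneg (f' := Ab) (convex_Icc s₀ η) c.cIb ?_ ?_
    · intro x hx
      rw [interior_Icc] at hx ⊢
      exact (c.dIb x hx).hasDerivWithinAt
    · intro x hx
      rw [interior_Icc] at hx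
      exact c.Ab_nonneg x hx
  have h1 : Ib s ≤ Ib η := mono hs ⟨c.lt.le, le_rfl⟩ hs.2
  have h2 : I η ≤ I₀ := c.I_le ⟨c.lt.le, le_rfl⟩
  rw [c.jI] at h2
  exact h1.trans h2



/-- **good time `≥ s₀` on one of the legs**, sharp -/
theorem good (c : Cut s₀ η e₀ H₀ I₀ Hb₀ Ib₀ H I A Hb Ib Ab) :
    ∃ s ∈ Ioo s₀ η, A s ≤ I s + (e₀ * H₀ + s₀ * I₀) / (η - s₀) ∨
      Ab s ≤ Ib s + (e₀ * H₀ + s₀ * I₀) / (η - s₀) := by
  have hpos : 0 < η - s₀ := sub_pos.2 c.lt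
  obtain ⟨s, hs, h1⟩ := exists_hasDerivAt_eq_slope
    (fun t => -(I t) + Ib t + 2 * H t - 2 * Hb t)
    (fun t => -(-(A t)) + Ab t + 2 * (-(I t) / 2) - 2 * (Ib t / 2)) c.lt
    ((((c.cI.neg).add c.cIb).add (c.cH.const_mul 2)).sub (c.cHb.const_mul 2))
    (fun t ht => ((((c.dI t ht).neg).add (c.dIb t ht)).add ((c.dH t ht).const_mul 2)).sub
      ((c.dHb t ht).const_mul 2))
  have h2 : (-(I η) + Ib η + 2 * H η - 2 * Hb η) -
      (-(I s₀) + Ib s₀ + 2 * H s₀ - 2 * Hb s₀) ≤ 2 * (e₀ * H₀ + s₀ * I₀) := by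
    have a1 := c.jH
    have a2 := c.jI
    have a3 := c.start
    have a4 := c.hH
    have a5 := c.hI
    have a6 := c.hHb
    have a7 := c.hIb
    have a8 := c.fin
    have a9 := c.Ib_le (s := s₀) ⟨le_rfl, c.lt.le⟩
    have a10 : s₀ / 2 * Ib s₀ ≤ s₀ / 2 * I₀ :=
      mul_le_mul_of_nonneg_left a9 (by linarith [c.s_nonneg])
    rw [a1, a2]
    nlinarith
  have h3 : -(-(A s)) + Ab s + 2 * (-(I s) / 2) - 2 * (Ib s / 2) ≤
      2 * ((e₀ * H₀ + s₀ * I₀) / (η - s₀)) := by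
    rw [h1, mul_div_assoc']
    exact div_le_div_of_nonneg_right h2 hpos.le
  refine ⟨s, hs, ?_⟩
  by_contra hcon
  push Not at hcon
  obtain ⟨h4, h5⟩ := hcon
  linarith

end Cut

end Crest.Agent.R201.Cyc293
end

-- ▼ part R201/Ends_293

/-!
# R201: the static inequalities at the ends of the forward and of the backward leg (helper293)

* `fwd_ent` : `En w f - En (Lp w s 1) (pE w s f) ≤ s/2 Fi w f`
* `fwd_fi`  : `Fi (Lp w s 1) (pE w s f) ≤ Fi w f`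
* `bwd_ent` : `En (Lp w t 1) f - En w (NN t f) ≤ t/2 Fi (Lp w t 1) f`
* `bwd_fi`  : `Fi w (NN t f) ≤ Fi (Lp w t 1) f`
-/

set_option autoImplicit false
open MeasureTheory Matrix Filter Topology
open scoped ContDiff RealInnerProductSpace NNReal

namespace Crest.Agent.R201.Ends293

open Crest.Agent.R201 Crest.Agent.R144.Fi865 Crest.Agent.R201.An Crest.Agent.R201.Noi402

variable {n : ℕ} {w f : E n → ℝ} {s t c : ℝ}

lemma cbp_pos (hf : LL809.CBp f) : ∃ c B, Pos f c B := exists_pos hf.1 hf.2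

/-- forward leg stays in the class -/
lemma cbp_pE (hw : Ex w) (hc : 0 ≤ c) (h : SLC c w) (hs : 0 < s) (hf : LL809.CBp f) :
    LL809.CBp (pE w s f) := by
  obtain ⟨c', B, hp⟩ := cbp_pos hf
  obtain ⟨h1, h2⟩ := hp.pE hw hc h hs
  exact ⟨h1, c', hp.c_pos, h2⟩


/-- mass is preserved, forward -/
lemma mass_pE (hw : Ex w) (hs : 0 < s) (hf : LL809.CBp f) :
    Em (Lp w s fun _ => 1) (pE w s f) = Em w f := by
  obtain ⟨c', B, hp⟩ := cbp_pos hf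
  exact Em_pE hw hs hp.eg


/-- entropy loss along the forward leg -/
theorem fwd_ent (hw : Ex w) (hc : 0 ≤ c) (h : SLC c w) (hs : 0 < s) (hf : LL809.CBp f) :
    En w f - s / 2 * Fi w f ≤ En (Lp w s fun _ => 1) (pE w s f) := by
  obtain ⟨c', B, hp⟩ := cbp_pos hf
  have hρ := hw.noisy hs
  obtain ⟨c'', B'', hg⟩ := cbp_pos (cbp_pE hw hc h hs hf)
  have egpfi : EG (pE w s fun x => ‖fderiv ℝ f x‖ ^ 2 / f x) :=
    (CB.eg (CB_pE hw hc h hs hp.fi_cont.measurable hp.fi_bdd)).1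
  have egpfl : EG (pE w s fun x => f x * Real.log (f x)) :=
    (CB.eg (CB_pE hw hc h hs hp.flogf_cont.measurable hp.flogf_bdd)).1
  have k3 : Em w (fun x => f x * Real.log (f x)) -
      Em (Lp w s fun _ => 1) (fun y => pE w s f y * Real.log (pE w s f y)) ≤
      s / 2 * Em w (fun x => ‖fderiv ℝ f x‖ ^ 2 / f x) := by
    rw [← Em_pE hw hs hp.eg_flogf, ← Em_pE hw hs hp.eg_fi, ← Em_sub hρ egpfl hg.eg_flogf,
      ← Em_smul]
    exact Em_mono hρ (egpfl.sub hg.eg_flogf) (egpfi.smul _) fun y =>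
      post_ent hw hc h hs hp y
  unfold En Fi
  rw [Em_pE hw hs hp.eg]
  linarith

/-- Fisher information decreases along the forward leg -/
theorem fwd_fi (hw : Ex w) (hc : 0 ≤ c) (h : SLC c w) (hs : 0 < s) (hf : LL809.CBp f) :
    Fi (Lp w s fun _ => 1) (pE w s f) ≤ Fi w f := by
  obtain ⟨c', B, hp⟩ := cbp_pos hf
  have hρ := hw.noisy hs
  obtain ⟨c'', B'', hg⟩ := cbp_pos (cbp_pE hw hc h hs hf)
  have egpfi : EG (pE w s fun x => ‖fderiv ℝ f x‖ ^ 2 / f x) :=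
    (CB.eg (CB_pE hw hc h hs hp.fi_cont.measurable hp.fi_bdd)).1
  unfold Fi
  rw [← Em_pE hw hs hp.eg_fi]
  refine Em_mono hρ hg.eg_fi egpfi fun y => ?_
  rw [div_le_iff₀ (hg.pos y), norm_fderiv_sq, mul_comm]
  exact post_grad hw hc h hs hp y






end Crest.Agent.R201.Ends293
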