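import Crest.Agent.R201.Defs_74
import Crest.Agent.R285.Gauss

-- ▼ part R201/GC1_844
section

/-!
# R201, LSI half (helper844): Gaussian channels, part 1: Cameron–Martin, likelihood integrals
-/

set_option autoImplicit false
open MeasureTheory Matrix ProbabilityTheory Filter Topology
open scoped ENNReal RealInnerProductSpace

namespace Crest.Agent.R201.GC844

open Crest.Agent.R201 Crest.Agent.R285

variable {n : ℕ}

/-- standard Gaussian measure on `E n` -/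
noncomputable abbrev gm (n : ℕ) : Measure (E n) := stdGaussian (E n)

/-- likelihood of `y = σ z + noise`, relative to the standard Gaussian -/
noncomputable def L (σ : ℝ) (z y : E n) : ℝ := Real.exp (σ * ⟪z, y⟫ - σ ^ 2 * ‖z‖ ^ 2 / 2)

theorem L_pos (σ : ℝ) (z y : E n) : 0 < L σ z y := Real.exp_pos _

theorem L_eq (σ : ℝ) (z y : E n) :
    L σ z y = Real.exp (‖y‖ ^ 2 / 2) * Real.exp (-(‖y - σ • z‖ ^ 2 / 2)) := by
  unfold L
  rw [← Real.exp_add]
  congr 1
  have h := norm_sub_sq_real y (σ • z)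
  rw [real_inner_smul_right, norm_smul, mul_pow, Real.norm_eq_abs, sq_abs, real_inner_comm] at h
  rw [h]
  ring

theorem L_le (σ : ℝ) (z y : E n) : L σ z y ≤ Real.exp (‖y‖ ^ 2 / 2) := by
  rw [L_eq]
  have h : Real.exp (-(‖y - σ • z‖ ^ 2 / 2)) ≤ 1 := Real.exp_le_one_iff.mpr (by
    have := sq_nonneg ‖y - σ • z‖
    linarith)
  have := Real.exp_pos (‖y‖ ^ 2 / 2)
  nlinarith

theorem gdens_shift (v y : E n) :
    gdens (y - v) = gdens y * Real.exp (⟪v, y⟫ - ‖v‖ ^ 2 / 2) := by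
  unfold gdens
  rw [mul_assoc, ← Real.exp_add]
  congr 2
  have h := norm_sub_sq_real y v
  rw [h, real_inner_comm]
  ring

theorem L_gdens (σ : ℝ) (z y : E n) : gdens y * L σ z y = gdens (y - σ • z) := by
  rw [gdens_shift]
  unfold L
  congr 2
  rw [real_inner_smul_left, norm_smul, mul_pow, Real.norm_eq_abs, sq_abs]

theorem continuous_L (σ : ℝ) : Continuous fun p : E n × E n => L σ p.1 p.2 := by
  unfold L
  fun_prop


/-- Cameron–Martin, lower integrals -/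
theorem cm_lint (σ : ℝ) (z : E n) {f : E n → ℝ≥0∞} (hf : Measurable f) :
    ∫⁻ y, ENNReal.ofReal (L σ z y) * f y ∂(gm n) = ∫⁻ g, f (σ • z + g) ∂(gm n) := by
  have hg : Measurable fun x : E n => ENNReal.ofReal (gdens x) :=
    continuous_gdens.measurable.ennreal_ofReal
  have hL : Measurable fun y : E n => ENNReal.ofReal (L σ z y) :=
    ((continuous_L σ).comp (by fun_prop : Continuous fun y : E n => (z, y))).measurable.ennreal_ofReal
  have hgm : gm n = volume.withDensity fun x => ENNReal.ofReal (gdens x) :=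
    stdGaussian_eq_withDensity
  rw [hgm]
  have e1 := lintegral_withDensity_eq_lintegral_mul (volume : Measure (E n)) hg (hL.mul hf)
  have hf' : Measurable fun g => f (σ • z + g) := by fun_prop
  have e2 := lintegral_withDensity_eq_lintegral_mul (volume : Measure (E n)) hg hf'
  refine e1.trans (Eq.trans ?_ e2.symm)
  have e : ∀ y, ((fun x : E n => ENNReal.ofReal (gdens x)) *
      ((fun y : E n => ENNReal.ofReal (L σ z y)) * f)) y =
      (fun y => ENNReal.ofReal (gdens y) * f (σ • z + y)) (y - σ • z) := by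
    intro y
    simp only [Pi.mul_apply]
    rw [← mul_assoc, ← ENNReal.ofReal_mul (gdens_pos _).le, L_gdens, add_sub_cancel]
  simp_rw [e]
  rw [lintegral_sub_right_eq_self (fun y => ENNReal.ofReal (gdens y) * f (σ • z + y)) (σ • z)]
  rfl

section

variable {Ω : Type*} [MeasurableSpace Ω]

/-- joint law of `(ω, J)`, `J = σ ζ + g` -/
noncomputable def jt (ρ : Measure Ω) (ζ : Ω → E n) (σ : ℝ) : Measure (Ω × E n) :=
  (ρ.prod (gm n)).map fun p => (p.1, σ • ζ p.1 + p.2)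

theorem meas_sh {ζ : Ω → E n} (hζ : Measurable ζ) (σ : ℝ) :
    Measurable fun p : Ω × E n => (p.1, σ • ζ p.1 + p.2) := by fun_prop

theorem meas_L {ζ : Ω → E n} (hζ : Measurable ζ) (σ : ℝ) :
    Measurable fun p : Ω × E n => L σ (ζ p.1) p.2 := by
  unfold L
  have h1 : Measurable fun p : Ω × E n => ζ p.1 := hζ.comp measurable_fst
  have h2 : Measurable fun p : Ω × E n => p.2 := measurable_snd
  exact Real.measurable_exp.comp (((h1.inner h2).const_mul σ).sub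
    (((h1.norm.pow_const 2).const_mul (σ ^ 2)).div_const 2))

theorem jt_eq {ρ : Measure Ω} [SFinite ρ] {ζ : Ω → E n} (hζ : Measurable ζ) (σ : ℝ) :
    jt ρ ζ σ = (ρ.prod (gm n)).withDensity fun p => ENNReal.ofReal (L σ (ζ p.1) p.2) := by
  refine Measure.ext_of_lintegral _ fun f hf => ?_
  unfold jt
  have hf1 : Measurable fun p : Ω × E n => f (p.1, σ • ζ p.1 + p.2) := hf.comp (meas_sh hζ σ)
  have hf2 : Measurable fun p : Ω × E n => ENNReal.ofReal (L σ (ζ p.1) p.2) * f p :=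
    (meas_L hζ σ).ennreal_ofReal.mul hf
  rw [lintegral_map hf (meas_sh hζ σ),
    lintegral_withDensity_eq_lintegral_mul _ (meas_L hζ σ).ennreal_ofReal hf]
  have e1 : ∫⁻ p, f (p.1, σ • ζ p.1 + p.2) ∂(ρ.prod (gm n)) =
      ∫⁻ ω, ∫⁻ g, f (ω, σ • ζ ω + g) ∂(gm n) ∂ρ := lintegral_prod _ hf1.aemeasurable
  have e2 : ∫⁻ p, ENNReal.ofReal (L σ (ζ p.1) p.2) * f p ∂(ρ.prod (gm n)) =
      ∫⁻ ω, ∫⁻ y, ENNReal.ofReal (L σ (ζ ω) y) * f (ω, y) ∂(gm n) ∂ρ :=
    lintegral_prod _ hf2.aemeasurable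
  refine e1.trans (Eq.trans ?_ e2.symm)
  refine lintegral_congr fun ω => ?_
  exact (cm_lint σ (ζ ω) (f := fun y => f (ω, y)) (hf.comp measurable_prodMk_left)).symm

instance {ρ : Measure Ω} [IsProbabilityMeasure ρ] {ζ : Ω → E n} {σ : ℝ} [hζ : Fact (Measurable ζ)] :
    IsProbabilityMeasure (jt ρ ζ σ) :=
  Measure.isProbabilityMeasure_map (meas_sh hζ.out σ).aemeasurable

end

end Crest.Agent.R201.GC844
end

-- ▼ part R201/GC2_844

/-!
# R201, LSI half (helper844): Gaussian channels, part 2: posterior integrals, smoothness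
-/

set_option autoImplicit false
set_option linter.unusedSectionVars false
open MeasureTheory Matrix ProbabilityTheory Filter Topology
open scoped ENNReal RealInnerProductSpace

namespace Crest.Agent.R201.GC844

open Crest.Agent.R201 Crest.Agent.R285

variable {n : ℕ} {Ω : Type*} [MeasurableSpace Ω] {ρ : Measure Ω} {ζ : Ω → E n} {σ : ℝ}

/-- unnormalised posterior integral -/
noncomputable def Z (ρ : Measure Ω) (ζ : Ω → E n) (σ : ℝ) (F : Ω → ℝ) (y : E n) : ℝ :=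
  ∫ ω, F ω * L σ (ζ ω) y ∂ρ

theorem meas_L' (hζ : Measurable ζ) (σ : ℝ) (y : E n) : Measurable fun ω => L σ (ζ ω) y := by
  unfold L
  exact Real.measurable_exp.comp (((hζ.inner measurable_const).const_mul σ).sub
    (((hζ.norm.pow_const 2).const_mul (σ ^ 2)).div_const 2))

theorem int_Z (hζ : Measurable ζ) {F : Ω → ℝ} (hF : Integrable F ρ) (y : E n) :
    Integrable (fun ω => F ω * L σ (ζ ω) y) ρ :=
  hF.mul_bdd (meas_L' hζ σ y).aestronglyMeasurable
    (Eventually.of_forall fun ω => by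
      rw [Real.norm_eq_abs, abs_of_pos (L_pos _ _ _)]; exact L_le _ _ _)


theorem Z_sub (hζ : Measurable ζ) {F G : Ω → ℝ} (hF : Integrable F ρ) (hG : Integrable G ρ)
    (y : E n) : Z ρ ζ σ (fun ω => F ω - G ω) y = Z ρ ζ σ F y - Z ρ ζ σ G y := by
  unfold Z
  rw [← integral_sub (int_Z hζ hF y) (int_Z hζ hG y)]
  exact integral_congr_ae (Eventually.of_forall fun ω => by ring)

theorem Z_const_mul (c : ℝ) (F : Ω → ℝ) (y : E n) :
    Z ρ ζ σ (fun ω => c * F ω) y = c * Z ρ ζ σ F y := by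
  unfold Z
  rw [← integral_const_mul]
  exact integral_congr_ae (Eventually.of_forall fun ω => by ring)

theorem Z_sum (hζ : Measurable ζ) {ι : Type*} (s : Finset ι) {F : ι → Ω → ℝ}
    (hF : ∀ i ∈ s, Integrable (F i) ρ) (y : E n) :
    Z ρ ζ σ (fun ω => ∑ i ∈ s, F i ω) y = ∑ i ∈ s, Z ρ ζ σ (F i) y := by
  unfold Z
  rw [← integral_finsetSum s fun i hi => int_Z hζ (hF i hi) y]
  exact integral_congr_ae (Eventually.of_forall fun ω => by simp only [Finset.sum_mul])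

theorem Z_nonneg {F : Ω → ℝ} (hF : ∀ ω, 0 ≤ F ω) (y : E n) : 0 ≤ Z ρ ζ σ F y :=
  integral_nonneg fun ω => mul_nonneg (hF ω) (L_pos _ _ _).le

theorem Z_mono (hζ : Measurable ζ) {F G : Ω → ℝ} (hF : Integrable F ρ) (hG : Integrable G ρ)
    (h : ∀ ω, F ω ≤ G ω) (y : E n) : Z ρ ζ σ F y ≤ Z ρ ζ σ G y :=
  integral_mono (int_Z hζ hF y) (int_Z hζ hG y) fun ω =>
    mul_le_mul_of_nonneg_right (h ω) (L_pos _ _ _).le


/-- the weight: density of the law of `J` relative to the Gaussian -/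
noncomputable def wt (ρ : Measure Ω) (ζ : Ω → E n) (σ : ℝ) (y : E n) : ℝ :=
  Z ρ ζ σ (fun _ => 1) y

theorem wt_pos [IsProbabilityMeasure ρ] (hζ : Measurable ζ) (y : E n) : 0 < wt ρ ζ σ y := by
  unfold wt Z
  have h1 := int_Z (σ := σ) hζ (integrable_const (μ := ρ) (1 : ℝ)) y
  rw [integral_pos_iff_support_of_nonneg (fun ω => by
    have := L_pos σ (ζ ω) y
    simp only [one_mul]
    exact this.le) h1]
  have : Function.support (fun ω => 1 * L σ (ζ ω) y) = Set.univ := by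
    ext ω
    simp [(L_pos σ (ζ ω) y).ne']
  rw [this]
  simp


theorem hasFDerivAt_L (σ : ℝ) (z y : E n) :
    HasFDerivAt (fun y => L σ z y) ((σ * L σ z y) • innerSL ℝ z) y := by
  unfold L
  have h1 : HasFDerivAt (fun y : E n => σ * ⟪z, y⟫ - σ ^ 2 * ‖z‖ ^ 2 / 2) (σ • innerSL ℝ z) y :=
    ((innerSL ℝ z).hasFDerivAt.const_mul σ).sub_const _
  have h2 := h1.exp
  refine h2.congr_fderiv ?_
  rw [smul_smul, mul_comm]

theorem exp_bound {y y₀ : E n} (h : y ∈ Metric.ball y₀ 1) :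
    Real.exp (‖y‖ ^ 2 / 2) ≤ Real.exp ((‖y₀‖ + 1) ^ 2 / 2) := by
  apply Real.exp_le_exp.mpr
  rw [Metric.mem_ball, dist_eq_norm] at h
  have h1 : ‖y‖ ≤ ‖y₀‖ + 1 := by
    have := norm_le_norm_add_norm_sub' y y₀
    linarith
  have h2 : ‖y‖ ^ 2 ≤ (‖y₀‖ + 1) ^ 2 := pow_le_pow_left₀ (norm_nonneg _) h1 2
  linarith

theorem hasFDerivAt_Z (hζ : Measurable ζ) {F : Ω → ℝ} (hF : Integrable F ρ)
    (hF1 : Integrable (fun ω => ‖ζ ω‖ * F ω) ρ) (y₀ : E n) :
    HasFDerivAt (Z ρ ζ σ F) (∫ ω, F ω • ((σ * L σ (ζ ω) y₀) • innerSL ℝ (ζ ω)) ∂ρ) y₀ := by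
  unfold Z
  have hi : Measurable fun ω => innerSL ℝ (ζ ω) := (innerSL ℝ).continuous.measurable.comp hζ
  refine hasFDerivAt_integral_of_dominated_of_fderiv_le
    (F := fun y ω => F ω * L σ (ζ ω) y)
    (F' := fun y ω => F ω • ((σ * L σ (ζ ω) y) • innerSL ℝ (ζ ω)))
    (bound := fun ω => |σ| * Real.exp ((‖y₀‖ + 1) ^ 2 / 2) * |‖ζ ω‖ * F ω|)
    (Metric.ball_mem_nhds y₀ one_pos) ?_ (int_Z hζ hF y₀) ?_ ?_ (hF1.abs.const_mul _) ?_
  · exact Eventually.of_forall fun y =>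
      hF.aestronglyMeasurable.mul (meas_L' hζ σ y).aestronglyMeasurable
  · exact hF.aestronglyMeasurable.smul (((meas_L' hζ σ y₀).const_mul σ).aestronglyMeasurable.smul
      hi.aestronglyMeasurable)
  · refine Eventually.of_forall fun ω y hy => ?_
    rw [norm_smul, norm_smul, innerSL_apply_norm, Real.norm_eq_abs, Real.norm_eq_abs, abs_mul σ,
      abs_of_pos (L_pos _ _ _), abs_mul, abs_of_nonneg (norm_nonneg (ζ ω))]
    have h1 := (L_le σ (ζ ω) y).trans (exp_bound hy)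
    have h2 : 0 ≤ |F ω| * |σ| * ‖ζ ω‖ := by positivity
    calc |F ω| * (|σ| * L σ (ζ ω) y * ‖ζ ω‖) = |F ω| * |σ| * ‖ζ ω‖ * L σ (ζ ω) y := by ring
      _ ≤ |F ω| * |σ| * ‖ζ ω‖ * Real.exp ((‖y₀‖ + 1) ^ 2 / 2) := mul_le_mul_of_nonneg_left h1 h2
      _ = _ := by ring
  · refine Eventually.of_forall fun ω y _ => ?_
    have := (hasFDerivAt_L σ (ζ ω) y).const_mul (F ω)
    exact this

theorem pd_Z (hζ : Measurable ζ) {F : Ω → ℝ} (hF : Integrable F ρ)
    (hF1 : Integrable (fun ω => ‖ζ ω‖ * F ω) ρ) (k : Fin n) (y : E n) :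
    pd k (Z ρ ζ σ F) y = σ * Z ρ ζ σ (fun ω => ζ ω k * F ω) y := by
  unfold pd
  rw [(hasFDerivAt_Z hζ hF hF1 y).fderiv]
  have hi : Measurable fun ω => innerSL ℝ (ζ ω) := (innerSL ℝ).continuous.measurable.comp hζ
  have h1 : Integrable (fun ω => F ω • ((σ * L σ (ζ ω) y) • innerSL ℝ (ζ ω))) ρ := by
    refine ((hF1.abs.const_mul (|σ| * Real.exp (‖y‖ ^ 2 / 2)))).mono'
      (hF.aestronglyMeasurable.smul (((meas_L' hζ σ y).const_mul σ).aestronglyMeasurable.smul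
      hi.aestronglyMeasurable)) (Eventually.of_forall fun ω => ?_)
    rw [norm_smul, norm_smul, innerSL_apply_norm, Real.norm_eq_abs, Real.norm_eq_abs, abs_mul σ,
      abs_of_pos (L_pos _ _ _), abs_mul, abs_of_nonneg (norm_nonneg (ζ ω))]
    have h1 := L_le σ (ζ ω) y
    have h2 : 0 ≤ |F ω| * |σ| * ‖ζ ω‖ := by positivity
    calc |F ω| * (|σ| * L σ (ζ ω) y * ‖ζ ω‖) = |F ω| * |σ| * ‖ζ ω‖ * L σ (ζ ω) y := by ring
      _ ≤ |F ω| * |σ| * ‖ζ ω‖ * Real.exp (‖y‖ ^ 2 / 2) := mul_le_mul_of_nonneg_left h1 h2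
      _ = _ := by ring
  rw [ContinuousLinearMap.integral_apply h1]
  unfold Z
  rw [← integral_const_mul]
  refine integral_congr_ae (Eventually.of_forall fun ω => ?_)
  simp only [_root_.smul_apply, innerSL_apply_apply, smul_eq_mul,
    EuclideanSpace.inner_single_right, conj_trivial, one_mul]
  ring

theorem differentiable_Z (hζ : Measurable ζ) {F : Ω → ℝ} (hF : Integrable F ρ)
    (hF1 : Integrable (fun ω => ‖ζ ω‖ * F ω) ρ) : Differentiable ℝ (Z ρ ζ σ F) :=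
  fun y => (hasFDerivAt_Z hζ hF hF1 y).differentiableAt

theorem continuous_Z (hζ : Measurable ζ) {F : Ω → ℝ} (hF : Integrable F ρ) :
    Continuous (Z ρ ζ σ F) := by
  rw [continuous_iff_continuousAt]
  intro y₀
  unfold Z
  refine continuousAt_of_dominated (bound := fun ω => |F ω| * Real.exp ((‖y₀‖ + 1) ^ 2 / 2)) ?_ ?_
    (hF.abs.mul_const _) ?_
  · exact Eventually.of_forall fun y =>
      hF.aestronglyMeasurable.mul (meas_L' hζ σ y).aestronglyMeasurable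
  · filter_upwards [Metric.ball_mem_nhds y₀ one_pos] with y hy
    refine Eventually.of_forall fun ω => ?_
    rw [norm_mul, Real.norm_eq_abs, Real.norm_eq_abs, abs_of_pos (L_pos _ _ _)]
    exact mul_le_mul_of_nonneg_left ((L_le _ _ _).trans (exp_bound hy)) (abs_nonneg _)
  · refine Eventually.of_forall fun ω => ?_
    exact ((hasFDerivAt_L σ (ζ ω) y₀).continuousAt).const_mul (F ω)

/-- posterior expectation -/
noncomputable def pe (ρ : Measure Ω) (ζ : Ω → E n) (σ : ℝ) (F : Ω → ℝ) (y : E n) : ℝ :=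
  Z ρ ζ σ F y / wt ρ ζ σ y

/-- posterior mean of `ζ` -/
noncomputable def pm (ρ : Measure Ω) (ζ : Ω → E n) (σ : ℝ) (y : E n) : Fin n → ℝ :=
  fun k => pe ρ ζ σ (fun ω => ζ ω k) y


section

variable [IsProbabilityMeasure ρ]

theorem Z_eq_pe (hζ : Measurable ζ) (F : Ω → ℝ) (y : E n) :
    Z ρ ζ σ F y = pe ρ ζ σ F y * wt ρ ζ σ y := by
  unfold pe
  rw [div_mul_cancel₀ _ (wt_pos hζ y).ne']

theorem pe_const (hζ : Measurable ζ) (c : ℝ) (y : E n) : pe ρ ζ σ (fun _ => c) y = c := by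
  unfold pe
  have : Z ρ ζ σ (fun _ => c) y = c * wt ρ ζ σ y := by
    rw [wt, ← Z_const_mul]
    simp
  rw [this, mul_div_cancel_right₀ _ (wt_pos hζ y).ne']


theorem pe_sub (hζ : Measurable ζ) {F G : Ω → ℝ} (hF : Integrable F ρ) (hG : Integrable G ρ)
    (y : E n) : pe ρ ζ σ (fun ω => F ω - G ω) y = pe ρ ζ σ F y - pe ρ ζ σ G y := by
  unfold pe; rw [Z_sub hζ hF hG, sub_div]

theorem pe_const_mul (c : ℝ) (F : Ω → ℝ) (y : E n) :
    pe ρ ζ σ (fun ω => c * F ω) y = c * pe ρ ζ σ F y := by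
  unfold pe; rw [Z_const_mul, mul_div_assoc]


theorem pe_nonneg (hζ : Measurable ζ) {F : Ω → ℝ} (hF : ∀ ω, 0 ≤ F ω) (y : E n) :
    0 ≤ pe ρ ζ σ F y := div_nonneg (Z_nonneg hF y) (wt_pos hζ y).le

theorem pe_mono (hζ : Measurable ζ) {F G : Ω → ℝ} (hF : Integrable F ρ) (hG : Integrable G ρ)
    (h : ∀ ω, F ω ≤ G ω) (y : E n) : pe ρ ζ σ F y ≤ pe ρ ζ σ G y :=
  div_le_div_of_nonneg_right (Z_mono hζ hF hG h y) (wt_pos hζ y).le

/-- Jensen -/
theorem pe_sq_le (hζ : Measurable ζ) {F : Ω → ℝ} (hF : Integrable F ρ)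
    (hF2 : Integrable (fun ω => F ω ^ 2) ρ) (y : E n) :
    (pe ρ ζ σ F y) ^ 2 ≤ pe ρ ζ σ (fun ω => F ω ^ 2) y := by
  set m := pe ρ ζ σ F y with hm
  have h1 : 0 ≤ pe ρ ζ σ (fun ω => F ω ^ 2 - (2 * m * F ω - m ^ 2)) y :=
    pe_nonneg hζ (fun ω => by nlinarith [sq_nonneg (F ω - m)]) y
  have i1 : Integrable (fun ω => 2 * m * F ω) ρ := hF.const_mul _
  have i2 : Integrable (fun _ : Ω => m ^ 2) ρ := integrable_const _
  have i3 : Integrable (fun ω => 2 * m * F ω - m ^ 2) ρ := i1.sub i2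
  rw [pe_sub hζ hF2 i3, pe_sub hζ i1 i2, pe_const_mul, pe_const hζ, ← hm] at h1
  nlinarith

end

end Crest.Agent.R201.GC844
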