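import Crest.Agent.R201.Noi1_402
import Crest.Agent.R201.Noi2_402
import Crest.Prelude
import Crest.Agent.R201.Noi3_402
import Crest.Agent.R201.LDefs_74
import Crest.Agent.R201.Ends_293
import Crest.Agent.R201.An7_293

-- ▼ part R201/Fin1_293
section

/-!
# R201 (S0308), outer reduction, part 1: the truncated and tilted weights  (owner: helper293)

`tw ρ N x = ρ x 1_{|x| ≤ N} exp (-|x|²/(2(N+1)))`; translation to the barycentre; the `ψ₂` hypothesis of
S0308 gives `SG (3a²)` for the centred truncation.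
-/

set_option autoImplicit false
open MeasureTheory Matrix Filter Topology
open scoped ContDiff RealInnerProductSpace NNReal ENNReal

namespace Crest.Agent.R201.Fin293

open Crest.Agent.R201 Crest.Agent.R144.Fi865 Crest.Agent.R201.An Crest.Agent.R201.DVQ402
open Crest.Agent.R201.Noi402

variable {n : ℕ} {ρ w : E n → ℝ} {a c R κ K : ℝ}

/-- what the inner blocks deliver -/
def MainLS : Prop :=
  ∃ C : ℝ, 0 ≤ C ∧ ∀ (n : ℕ) (c R κ : ℝ) (w : E n → ℝ), 0 < c → 0 < κ → Wt c R w →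
    SG κ (nm w) → LS w (C * κ)

/-- hypotheses of S0308 on the density -/
structure Dens (ρ : E n → ℝ) : Prop where
  meas : Measurable ρ
  nonneg : ∀ x, 0 ≤ ρ x
  conv : Convex ℝ {x | 0 < ρ x}
  conc : ConcaveOn ℝ {x | 0 < ρ x} (fun x => Real.log (ρ x))
  int : Integrable ρ
  one : ∫ x, ρ x = 1

/-- truncated and tilted density -/
noncomputable def tw (ρ : E n → ℝ) (N : ℕ) (x : E n) : ℝ :=
  (if ‖x‖ ≤ N then ρ x else 0) * Real.exp (-(1 / ((N : ℝ) + 1) / 2 * ‖x - 0‖ ^ 2))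

lemma Dens.slc (h : Dens ρ) (N : ℕ) : SLC 0 (fun x => if ‖x‖ ≤ N then ρ x else 0) := by
  intro x y
  rw [zero_div, zero_mul, neg_zero, Real.exp_zero, one_mul]
  beta_reduce
  have hnn : ∀ z : E n, 0 ≤ (if ‖z‖ ≤ N then ρ z else 0) := fun z => by
    split_ifs
    · exact h.nonneg z
    · exact le_rfl
  by_cases hx : ‖x‖ ≤ N ∧ 0 < ρ x
  · by_cases hy : ‖y‖ ≤ N ∧ 0 < ρ y
    · have hm : ‖(1 / 2 : ℝ) • (x + y)‖ ≤ N := by
        rw [norm_smul, Real.norm_of_nonneg (by norm_num)]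
        have := norm_add_le x y
        linarith [hx.1, hy.1]
      have e : (1 / 2 : ℝ) • (x + y) = (1 / 2 : ℝ) • x + (1 / 2 : ℝ) • y := smul_add _ _ _
      have hp : 0 < ρ ((1 / 2 : ℝ) • (x + y)) := by
        rw [e]
        exact h.conv hx.2 hy.2 (by norm_num) (by norm_num) (by norm_num)
      have hc := h.conc.2 hx.2 hy.2 (by norm_num : (0 : ℝ) ≤ 1 / 2)
        (by norm_num : (0 : ℝ) ≤ 1 / 2) (by norm_num)
      simp only [smul_eq_mul] at hc
      rw [← e] at hc
      rw [if_pos hx.1, if_pos hy.1, if_pos hm]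
      rw [← Real.exp_log hp]
      have e1 : √(ρ x) = Real.exp (1 / 2 * Real.log (ρ x)) := by
        rw [Real.sqrt_eq_rpow, Real.rpow_def_of_pos hx.2]; ring_nf
      have e2 : √(ρ y) = Real.exp (1 / 2 * Real.log (ρ y)) := by
        rw [Real.sqrt_eq_rpow, Real.rpow_def_of_pos hy.2]; ring_nf
      rw [e1, e2, ← Real.exp_add]
      exact Real.exp_le_exp.2 hc
    · have : √(if ‖y‖ ≤ N then ρ y else 0) = 0 := by
        split_ifs with h1
        · have h2 : ρ y ≤ 0 := not_lt.1 fun h2 => hy ⟨h1, h2⟩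
          exact Real.sqrt_eq_zero_of_nonpos h2
        · exact Real.sqrt_zero
      rw [this, mul_zero]
      exact hnn _
  · have : √(if ‖x‖ ≤ N then ρ x else 0) = 0 := by
      split_ifs with h1
      · have h2 : ρ x ≤ 0 := not_lt.1 fun h2 => hx ⟨h1, h2⟩
        exact Real.sqrt_eq_zero_of_nonpos h2
      · exact Real.sqrt_zero
    rw [this, zero_mul]
    exact hnn _

lemma tw_nonneg (h : Dens ρ) (N : ℕ) (x : E n) : 0 ≤ tw ρ N x := by
  unfold tw
  split_ifs
  · exact mul_nonneg (h.nonneg x) (Real.exp_pos _).le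
  · simp

lemma tw_le (h : Dens ρ) (N : ℕ) (x : E n) : tw ρ N x ≤ ρ x := by
  unfold tw
  split_ifs
  · have : Real.exp (-(1 / ((N : ℝ) + 1) / 2 * ‖x - 0‖ ^ 2)) ≤ 1 := by
      rw [Real.exp_le_one_iff]
      have : 0 ≤ 1 / ((N : ℝ) + 1) / 2 * ‖x - 0‖ ^ 2 := by positivity
      linarith
    nlinarith [h.nonneg x]
  · rw [zero_mul]; exact h.nonneg x

lemma tw_meas (h : Dens ρ) (N : ℕ) : Measurable (tw ρ N) := by
  unfold tw
  refine Measurable.mul (Measurable.ite ?_ h.meas measurable_const) (by fun_prop)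
  exact measurableSet_le measurable_norm measurable_const

lemma tw_int (h : Dens ρ) (N : ℕ) : Integrable (tw ρ N) :=
  h.int.mono' (tw_meas h N).aestronglyMeasurable (Eventually.of_forall fun x => by
    rw [Real.norm_of_nonneg (tw_nonneg h N x)]; exact tw_le h N x)

lemma tw_lim (x : E n) : Tendsto (fun N => tw ρ N x) atTop (𝓝 (ρ x)) := by
  have h1 : Tendsto (fun N : ℕ => Real.exp (-(1 / ((N : ℝ) + 1) / 2 * ‖x - 0‖ ^ 2))) atTop
      (𝓝 (Real.exp (-(0 / 2 * ‖x - 0‖ ^ 2)))) := by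
    refine (Real.continuous_exp.tendsto _).comp ?_
    exact ((tendsto_one_div_add_atTop_nhds_zero_nat.div_const 2).mul_const _).neg
  rw [zero_div, zero_mul, neg_zero, Real.exp_zero] at h1
  have h2 := h1.const_mul (ρ x)
  rw [mul_one] at h2
  refine h2.congr' ?_
  obtain ⟨N0, hN0⟩ := exists_nat_ge ‖x‖
  filter_upwards [eventually_ge_atTop N0] with N hN
  have : ‖x‖ ≤ N := hN0.trans (by exact_mod_cast hN)
  simp [tw, this]

/-- integrals against the truncations converge -/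
lemma tw_tendsto (h : Dens ρ) {F : E n → ℝ} (mF : Measurable F)
    (hF : Integrable fun x => F x * ρ x) :
    Tendsto (fun N => ∫ x, F x * tw ρ N x) atTop (𝓝 (∫ x, F x * ρ x)) := by
  refine tendsto_integral_of_dominated_convergence (fun x => ‖F x * ρ x‖)
    (fun N => (mF.mul (tw_meas h N)).aestronglyMeasurable) hF.norm ?_ ?_
  · intro N
    refine Eventually.of_forall fun x => ?_
    rw [norm_mul, norm_mul, Real.norm_of_nonneg (tw_nonneg h N x), Real.norm_of_nonneg (h.nonneg x)]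
    exact mul_le_mul_of_nonneg_left (tw_le h N x) (norm_nonneg _)
  · exact Eventually.of_forall fun x => (tw_lim x).const_mul _

lemma tw_mass (h : Dens ρ) : Tendsto (fun N => ∫ x, tw ρ N x) atTop (𝓝 1) := by
  have := tw_tendsto h (F := fun _ => 1) measurable_const (by simpa using h.int)
  simpa [h.one] using this

lemma tw_mass_ge (h : Dens ρ) : ∀ᶠ N in atTop, (1 / 2 : ℝ) ≤ ∫ x, tw ρ N x :=
  (tw_mass h).eventually_const_le (by norm_num)

lemma tw_Em (h : Dens ρ) {F : E n → ℝ} (mF : Measurable F)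
    (hF : Integrable fun x => F x * ρ x) :
    Tendsto (fun N => Em (tw ρ N) F) atTop (𝓝 (∫ x, F x * ρ x)) := by
  have := (tw_tendsto h mF hF).div (tw_mass h) one_ne_zero
  rw [div_one] at this
  exact this

lemma tw_wt (h : Dens ρ) {N : ℕ} (hN : (1 / 2 : ℝ) ≤ ∫ x, tw ρ N x) :
    Wt (1 / ((N : ℝ) + 1)) N (tw ρ N) where
  nonneg := tw_nonneg h N
  meas := tw_meas h N
  int := tw_int h N
  supp := fun x hx => by
    by_contra hc
    exact hx (by simp [tw, hc])
  slc := slc_gauss (a := 1 / ((N : ℝ) + 1)) 0 (fun x => by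
    split_ifs
    · exact h.nonneg x
    · exact le_rfl) (h.slc N)
  pos := by linarith

/-! ### translation -/

/-- translated weight -/
def trw (b : E n) (w : E n → ℝ) : E n → ℝ := fun x => w (x + b)


lemma Em_trw (b : E n) (w F : E n → ℝ) : Em (trw b w) (fun x => F (x + b)) = Em w F := by
  unfold Em trw
  rw [integral_add_right_eq_self (fun x => F x * w x) b, integral_add_right_eq_self w b]

lemma wt_trw (hw : Wt c R w) (b : E n) : Wt c (R + ‖b‖) (trw b w) where
  nonneg := fun x => hw.nonneg _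
  meas := hw.meas.comp (measurable_id.add_const b)
  int := hw.int.comp_add_right b
  supp := fun x hx => by
    have h1 := hw.supp (x + b) hx
    have h2 : ‖x‖ ≤ ‖x + b‖ + ‖b‖ := by
      have := norm_sub_le (x + b) b
      simpa using this
    linarith
  slc := fun x y => by
    have h1 := hw.slc (x + b) (y + b)
    have e1 : x + b - (y + b) = x - y := by abel
    have e2 : (1 / 2 : ℝ) • (x + b + (y + b)) = (1 / 2 : ℝ) • (x + y) + b := by module
    rw [e1, e2] at h1
    exact h1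
  pos := by
    unfold trw
    rw [integral_add_right_eq_self w b]
    exact hw.pos

lemma cb_comp_sub {f : E n → ℝ} (hf : CB f) (b : E n) : CB fun x => f (x + b) := by
  obtain ⟨h1, B, hB⟩ := hf
  refine ⟨h1.comp (contDiff_id.add contDiff_const), B, fun x => ⟨(hB _).1, fun k => ?_⟩⟩
  have e : pd k (fun x => f (x + b)) x = pd k f (x + b) := by
    unfold pd
    rw [fderiv_comp_add_right]
  rw [e]
  exact (hB _).2 k

lemma LS_trw (b : E n) (h : LS (trw b w) K) : LS w K := by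
  intro f hf hfc
  have h1 := h (fun x => f (x + b)) (cb_comp_sub hf b) (by
    obtain ⟨c, hc, h2⟩ := hfc
    exact ⟨c, hc, fun x => h2 _⟩)
  have e : ∀ x, ‖fderiv ℝ (fun x => f (x + b)) x‖ ^ 2 / f (x + b) =
      (fun y => ‖fderiv ℝ f y‖ ^ 2 / f y) (x + b) := fun x => by
    rw [fderiv_comp_add_right]
  rw [Em_trw b w (fun x => f x * Real.log (f x)), Em_trw b w f] at h1
  simp only [e] at h1
  rwa [Em_trw b w (fun y => ‖fderiv ℝ f y‖ ^ 2 / f y)] at h1

end Crest.Agent.R201.Fin293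
end

-- ▼ part R201/Fin2_293
section

/-!
# R201 (S0308), outer reduction, part 2: `ψ₂` gives the sub-Gaussian bound for the centred weight
(owner: helper293)
-/

set_option autoImplicit false
open MeasureTheory Matrix Filter Topology
open scoped ContDiff RealInnerProductSpace NNReal ENNReal

namespace Crest.Agent.R201.Fin293

open Crest.Agent.R201 Crest.Agent.R144.Fi865 Crest.Agent.R201.An Crest.Agent.R201.DVQ402
open Crest.Agent.R201.Noi402

variable {n : ℕ} {ρ w F G : E n → ℝ} {a c R κ K : ℝ}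

lemma int_cont (hw : Wt c R w) (hF : Continuous F) : Integrable fun x => F x * w x := by
  obtain ⟨C, hC⟩ := (isCompact_closedBall (0 : E n) R).exists_bound_of_continuousOn hF.continuousOn
  have h1 : Integrable fun x => C * w x := hw.int.const_mul C
  refine h1.mono' (hF.measurable.mul hw.meas).aestronglyMeasurable (Eventually.of_forall fun x => ?_)
  rw [norm_mul, Real.norm_of_nonneg (hw.nonneg x)]
  by_cases hx : w x = 0
  · rw [hx, mul_zero, mul_zero]
  · exact mul_le_mul_of_nonneg_right (hC x (by simpa using hw.supp x hx)) (hw.nonneg x)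

lemma Em_mono' (hw : Wt c R w) (hF : Continuous F) (hG : Continuous G) (h : ∀ x, F x ≤ G x) :
    Em w F ≤ Em w G := by
  unfold Em
  refine div_le_div_of_nonneg_right ?_ hw.pos.le
  exact integral_mono (int_cont hw hF) (int_cont hw hG) fun x =>
    mul_le_mul_of_nonneg_right (h x) (hw.nonneg x)

lemma Em_lin (hw : Wt c R w) (hF : Continuous F) (hG : Continuous G) (u v : ℝ) :
    Em w (fun x => u * F x + v * G x) = u * Em w F + v * Em w G := by
  unfold Em
  have e : (fun x => (u * F x + v * G x) * w x) = fun x => u * (F x * w x) + v * (G x * w x) := by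
    funext x; ring
  rw [e, integral_add ((int_cont hw hF).const_mul u) ((int_cont hw hG).const_mul v),
    integral_const_mul, integral_const_mul]
  ring

lemma Em_one (hw : Wt c R w) : Em w (fun _ => 1) = 1 := by
  unfold Em
  simp only [one_mul]
  exact div_self hw.pos.ne'

/-- barycentre -/
noncomputable def bary (w : E n → ℝ) : E n := WithLp.toLp 2 fun k => Em w fun x => x k

lemma inner_bary (hw : Wt c R w) (t : E n) : ⟪t, bary w⟫ = Em w fun x => ⟪t, x⟫ := by
  have e : (fun x : E n => ⟪t, x⟫) = fun x => ∑ k, t k * x k := by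
    funext x
    rw [PiLp.inner_apply]
    exact Finset.sum_congr rfl fun k _ => by simp [mul_comm]
  rw [e, Em_sum Finset.univ hw.ex (fun k _ => (EG.coord k).smul (t k)), PiLp.inner_apply]
  refine Finset.sum_congr rfl fun k _ => ?_
  rw [Em_smul]
  simp [bary, mul_comm]

/-- `E cosh ⟨t,x⟩ ≤ exp (3 a² |t|² / 2)` -/
lemma cosh_bound (hw : Wt c R w) (ha : 0 < a)
    (hG : ∀ θ : E n, ‖θ‖ = 1 → Em w (fun x => Real.exp (⟪x, θ⟫ ^ 2 / a ^ 2)) ≤ 4) (t : E n) :
    Em w (fun x => Real.cosh ⟪t, x⟫) ^ 2 ≤ Real.exp (3 * a ^ 2 * ‖t‖ ^ 2) := by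
  have cc : Continuous fun x : E n => Real.cosh ⟪t, x⟫ := by fun_prop
  have hA0 : 0 ≤ Em w (fun x => Real.cosh ⟪t, x⟫) := by
    unfold Em
    exact div_nonneg (integral_nonneg fun x => mul_nonneg (Real.cosh_pos _).le (hw.nonneg x))
      hw.pos.le
  by_cases ht : t = 0
  · subst ht
    simp only [inner_zero_left, Real.cosh_zero, norm_zero]
    rw [Em_one hw]
    simp
  set l := ‖t‖ with hl
  have hl0 : 0 < l := norm_pos_iff.2 ht
  set θ : E n := l⁻¹ • t with hθ
  have hθ1 : ‖θ‖ = 1 := by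
    rw [hθ, norm_smul, norm_inv, Real.norm_of_nonneg hl0.le]
    exact inv_mul_cancel₀ hl0.ne'
  have e1 : ∀ x : E n, ⟪t, x⟫ = l * ⟪x, θ⟫ := fun x => by
    rw [hθ, real_inner_smul_right, real_inner_comm, ← mul_assoc, mul_inv_cancel₀ hl0.ne', one_mul]
  have hG1 := hG θ hθ1
  set p := l ^ 2 * a ^ 2 / 2 with hp
  have hp0 : 0 < p := by positivity
  have cG : Continuous fun x : E n => Real.exp (⟪x, θ⟫ ^ 2 / a ^ 2) := by fun_prop
  by_cases hp1 : p ≤ 1
  · have h1 : Em w (fun x => Real.cosh ⟪t, x⟫) ≤ 1 + 3 * p := by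
      calc Em w (fun x => Real.cosh ⟪t, x⟫)
          ≤ Em w (fun x => (1 - p) * 1 + p * Real.exp (⟪x, θ⟫ ^ 2 / a ^ 2)) := by
            refine Em_mono' hw cc (by fun_prop) fun x => ?_
            refine (Real.cosh_le_exp_half_sq _).trans ?_
            have e2 : ⟪t, x⟫ ^ 2 / 2 = p * (⟪x, θ⟫ ^ 2 / a ^ 2) := by
              rw [e1, hp]; field_simp
            rw [e2]
            have hc := convexOn_exp.2 (Set.mem_univ (0 : ℝ))
              (Set.mem_univ (⟪x, θ⟫ ^ 2 / a ^ 2)) (sub_nonneg.2 hp1) hp0.le (by ring)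
            simp only [smul_eq_mul, mul_zero, zero_add, Real.exp_zero] at hc
            exact hc
        _ = (1 - p) * 1 + p * Em w (fun x => Real.exp (⟪x, θ⟫ ^ 2 / a ^ 2)) := by
            rw [Em_lin hw (F := fun _ => 1) continuous_const cG, Em_one hw]
        _ ≤ 1 + 3 * p := by nlinarith
    have h2 : 1 + 3 * p ≤ Real.exp (3 * p) := by
      have := Real.add_one_le_exp (3 * p)
      linarith
    calc Em w (fun x => Real.cosh ⟪t, x⟫) ^ 2 ≤ Real.exp (3 * p) ^ 2 :=
          pow_le_pow_left₀ hA0 (h1.trans h2) 2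
      _ = Real.exp (3 * a ^ 2 * l ^ 2) := by
          rw [← Real.exp_nat_mul, hp]
          congr 1
          push_cast
          ring
  · have hp1' : 1 < p := not_le.1 hp1
    have h1 : Em w (fun x => Real.cosh ⟪t, x⟫) ≤ Real.exp (p / 2) * 4 := by
      calc Em w (fun x => Real.cosh ⟪t, x⟫)
          ≤ Em w (fun x => Real.exp (p / 2) * Real.exp (⟪x, θ⟫ ^ 2 / a ^ 2)) := by
            refine Em_mono' hw cc (by fun_prop) fun x => ?_
            rw [← Real.exp_add, ← Real.cosh_abs]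
            have h2 : Real.cosh |⟪t, x⟫| ≤ Real.exp |⟪t, x⟫| := by
              rw [Real.cosh_eq]
              have : Real.exp (-|⟪t, x⟫|) ≤ Real.exp |⟪t, x⟫| :=
                Real.exp_le_exp.2 (by linarith [abs_nonneg ⟪t, x⟫])
              linarith
            refine h2.trans (Real.exp_le_exp.2 ?_)
            rw [e1, abs_mul, abs_of_pos hl0]
            have h3 : 0 ≤ (l * a / 2 - |⟪x, θ⟫| / a) ^ 2 := sq_nonneg _
            have h4 : (l * a / 2 - |⟪x, θ⟫| / a) ^ 2 =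
                p / 2 - l * |⟪x, θ⟫| + ⟪x, θ⟫ ^ 2 / a ^ 2 := by
              rw [hp, ← sq_abs ⟪x, θ⟫]
              field_simp
              ring
            linarith
        _ = Real.exp (p / 2) * Em w (fun x => Real.exp (⟪x, θ⟫ ^ 2 / a ^ 2)) := Em_smul _ _ _
        _ ≤ Real.exp (p / 2) * 4 := mul_le_mul_of_nonneg_left hG1 (Real.exp_pos _).le
    have h5 : (16 : ℝ) ≤ Real.exp (5 * p) := by
      have h6 : (2 : ℝ) ≤ Real.exp 1 := by
        have := Real.add_one_le_exp (1 : ℝ)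
        linarith
      have h7 : Real.exp 1 ^ 4 = Real.exp 4 := by
        rw [← Real.exp_nat_mul]; norm_num
      have h8 : (16 : ℝ) ≤ Real.exp 4 := by
        rw [← h7]
        calc (16 : ℝ) = 2 ^ 4 := by norm_num
          _ ≤ Real.exp 1 ^ 4 := pow_le_pow_left₀ (by norm_num) h6 4
      exact h8.trans (Real.exp_le_exp.2 (by linarith))
    calc Em w (fun x => Real.cosh ⟪t, x⟫) ^ 2 ≤ (Real.exp (p / 2) * 4) ^ 2 :=
          pow_le_pow_left₀ hA0 h1 2
      _ = 16 * Real.exp p := by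
          rw [mul_pow, ← Real.exp_nat_mul]
          push_cast
          rw [show (2 : ℝ) * (p / 2) = p by ring]
          ring
      _ ≤ Real.exp (5 * p) * Real.exp p := mul_le_mul_of_nonneg_right h5 (Real.exp_pos _).le
      _ = Real.exp (3 * a ^ 2 * l ^ 2) := by
          rw [← Real.exp_add, hp]
          congr 1
          ring

/-- the centred weight is sub-Gaussian -/
theorem sg_centred (hw : Wt c R w) (ha : 0 < a)
    (hG : ∀ θ : E n, ‖θ‖ = 1 → Em w (fun x => Real.exp (⟪x, θ⟫ ^ 2 / a ^ 2)) ≤ 4) :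
    SG (3 * a ^ 2) (nm (trw (bary w) w)) := by
  intro t
  have hb := wt_trw hw (bary w)
  have hE : EG fun x : E n => Real.exp ⟪t, x⟫ := by
    refine ⟨by fun_prop, 1, ‖t‖, zero_le_one, norm_nonneg _, fun x => ?_⟩
    rw [one_mul, abs_of_pos (Real.exp_pos _)]
    exact Real.exp_le_exp.2 (real_inner_le_norm _ _)
  refine ⟨integrable_nm hb.ex hE, ?_⟩
  rw [int_nm hb.ex]
  have e0 : (fun x : E n => Real.exp ⟪t, x⟫) =
      fun x => (fun y => Real.exp (-⟪t, bary w⟫) * Real.exp ⟪t, y⟫) (x + bary w) := by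
    funext x
    beta_reduce
    rw [← Real.exp_add, inner_add_right]
    congr 1
    ring
  rw [e0, Em_trw (bary w) w (fun y => Real.exp (-⟪t, bary w⟫) * Real.exp ⟪t, y⟫), Em_smul]
  set m := ⟪t, bary w⟫ with hm
  have hmE : m = Em w fun x => ⟪t, x⟫ := inner_bary hw t
  set P := Em w fun y => Real.exp ⟪t, y⟫ with hP
  set Q := Em w fun y => Real.exp (-⟪t, y⟫) with hQ
  have cP : Continuous fun y : E n => Real.exp ⟪t, y⟫ := by fun_prop
  have cQ : Continuous fun y : E n => Real.exp (-⟪t, y⟫) := by fun_prop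
  have cL : Continuous fun y : E n => ⟪t, y⟫ := by fun_prop
  have hP0 : 0 ≤ P := by
    rw [hP]; unfold Em
    exact div_nonneg (integral_nonneg fun x => mul_nonneg (Real.exp_pos _).le (hw.nonneg x))
      hw.pos.le
  have hA : Em w (fun x => Real.cosh ⟪t, x⟫) = (P + Q) / 2 := by
    have e : (fun x : E n => Real.cosh ⟪t, x⟫) =
        fun x => (1 / 2) * Real.exp ⟪t, x⟫ + (1 / 2) * Real.exp (-⟪t, x⟫) := by
      funext x
      rw [Real.cosh_eq]; ring
    rw [e, Em_lin hw cP cQ, ← hP, ← hQ]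
    ring
  have hJ : Real.exp (-m) ≤ Q := by
    have h1 : Em w (fun x => (Real.exp (-m) * (1 + m)) * 1 + (-Real.exp (-m)) * ⟪t, x⟫) ≤ Q := by
      refine Em_mono' hw (by fun_prop) cQ fun x => ?_
      have h2 := Real.add_one_le_exp (m - ⟪t, x⟫)
      have h3 : Real.exp (-⟪t, x⟫) = Real.exp (-m) * Real.exp (m - ⟪t, x⟫) := by
        rw [← Real.exp_add]; congr 1; ring
      rw [h3]
      nlinarith [Real.exp_pos (-m)]
    rw [Em_lin hw (F := fun _ => 1) continuous_const cL, Em_one hw, ← hmE] at h1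
    nlinarith
  have hB := cosh_bound hw ha hG t
  rw [hA] at hB
  calc Real.exp (-m) * P ≤ Q * P := mul_le_mul_of_nonneg_right hJ hP0
    _ ≤ ((P + Q) / 2) ^ 2 := by nlinarith [sq_nonneg (P - Q)]
    _ ≤ _ := hB

end Crest.Agent.R201.Fin293
end

-- ▼ part R201/Fin3_293
section

/-!
# R201 (S0308), outer reduction, part 3: `MainLS` implies the literal statement of S0308
(owner: helper293)
-/

set_option autoImplicit false
open MeasureTheory Matrix Filter Topology
open scoped ContDiff RealInnerProductSpace NNReal ENNReal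

namespace Crest.Agent.R201.Fin293

open Crest.Agent.R201 Crest.Agent.R144.Fi865 Crest.Agent.R201.An Crest.Agent.R201.DVQ402
open Crest.Agent.R201.Noi402

variable {n : ℕ} {ρ w F G : E n → ℝ} {a c R κ K : ℝ}

lemma int_mu {μ : Measure (E n)} (mρ : Measurable ρ) (hρ : ∀ x, 0 ≤ ρ x)
    (hμ : μ = volume.withDensity (fun x => ENNReal.ofReal (ρ x))) (F : E n → ℝ) :
    ∫ x, F x ∂μ = ∫ x, F x * ρ x := by
  rw [hμ, integral_withDensity_eq_integral_toReal_smul mρ.ennreal_ofReal
    (ae_of_all _ fun x => ENNReal.ofReal_lt_top)]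
  refine integral_congr_ae (ae_of_all _ fun y => ?_)
  simp only [smul_eq_mul]
  rw [ENNReal.toReal_ofReal (hρ y)]
  ring

lemma dens_of {μ : Measure (E n)} (mρ : Measurable ρ) (hρ : ∀ x, 0 ≤ ρ x)
    (hc : Convex ℝ {x | 0 < ρ x}) (hl : ConcaveOn ℝ {x | 0 < ρ x} (fun x => Real.log (ρ x)))
    (hμ : μ = volume.withDensity (fun x => ENNReal.ofReal (ρ x))) (hp : IsProbabilityMeasure μ) :
    Dens ρ := by
  have h1 : ∫⁻ x, ENNReal.ofReal (ρ x) = 1 := by
    have := hp.measure_univ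
    rw [hμ, withDensity_apply _ MeasurableSet.univ, Measure.restrict_univ] at this
    exact this
  have hi : Integrable ρ := by
    refine ⟨mρ.aestronglyMeasurable, ?_⟩
    rw [hasFiniteIntegral_iff_ofReal (Eventually.of_forall hρ), h1]
    exact ENNReal.one_lt_top
  refine ⟨mρ, hρ, hc, hl, hi, ?_⟩
  rw [integral_eq_lintegral_of_nonneg_ae (Eventually.of_forall hρ) mρ.aestronglyMeasurable, h1]
  simp

lemma bdd_int (h : Dens ρ) (mF : Measurable F) {B : ℝ} (hB : ∀ x, |F x| ≤ B) :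
    Integrable fun x => F x * ρ x := by
  refine (h.int.const_mul B).mono' (mF.mul h.meas).aestronglyMeasurable
    (Eventually.of_forall fun x => ?_)
  rw [norm_mul, Real.norm_eq_abs, Real.norm_of_nonneg (h.nonneg x)]
  exact mul_le_mul_of_nonneg_right (hB x) (h.nonneg x)

/-- the truncations satisfy the `ψ₂` bound with `4` -/
lemma psi_tw {μ : Measure (E n)} (h : Dens ρ)
    (hμ : μ = volume.withDensity (fun x => ENNReal.ofReal (ρ x)))
    {θ : E n} (hθ : ∫⁻ x, ENNReal.ofReal (Real.exp (inner ℝ x θ ^ 2 / a ^ 2)) ∂μ ≤ 2)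
    {N : ℕ} (hN : (1 / 2 : ℝ) ≤ ∫ x, tw ρ N x) :
    Em (tw ρ N) (fun x => Real.exp (⟪x, θ⟫ ^ 2 / a ^ 2)) ≤ 4 := by
  set Φ : E n → ℝ := fun x => Real.exp (⟪x, θ⟫ ^ 2 / a ^ 2) with hΦ
  have mΦ : Measurable Φ := by
    have : Continuous Φ := by rw [hΦ]; fun_prop
    exact this.measurable
  have hΦ0 : ∀ x, 0 ≤ Φ x := fun x => (Real.exp_pos _).le
  have h1 : ∫⁻ x, ENNReal.ofReal (Φ x * ρ x) ≤ 2 := by
    rw [hμ, lintegral_withDensity_eq_lintegral_mul _ h.meas.ennreal_ofReal mΦ.ennreal_ofReal] at hθ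
    refine le_trans (le_of_eq (lintegral_congr fun x => ?_)) hθ
    rw [Pi.mul_apply, ← ENNReal.ofReal_mul (h.nonneg x), mul_comm]
  have hi : Integrable fun x => Φ x * ρ x := by
    refine ⟨(mΦ.mul h.meas).aestronglyMeasurable, ?_⟩
    rw [hasFiniteIntegral_iff_ofReal
      (Eventually.of_forall fun x => mul_nonneg (hΦ0 x) (h.nonneg x))]
    exact h1.trans_lt (by simp)
  have h2 : ∫ x, Φ x * ρ x ≤ 2 := by
    rw [integral_eq_lintegral_of_nonneg_ae
      (Eventually.of_forall fun x => mul_nonneg (hΦ0 x) (h.nonneg x)) hi.aestronglyMeasurable]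
    have := ENNReal.toReal_mono (by simp) h1
    simpa using this
  have hw := tw_wt h hN
  have h3 : ∫ x, Φ x * tw ρ N x ≤ ∫ x, Φ x * ρ x := by
    refine integral_mono (int_cont hw (by rw [hΦ]; fun_prop)) hi fun x => ?_
    exact mul_le_mul_of_nonneg_left (tw_le h N x) (hΦ0 x)
  unfold Em
  rw [div_le_iff₀ hw.pos]
  linarith

/-- **the outer reduction** -/
theorem final (hM : MainLS) :
    ∃ C : ℝ, ∀ (n : ℕ), 1 ≤ n →
      ∀ (ρ : EuclideanSpace ℝ (Fin n) → ℝ) (μ : Measure (EuclideanSpace ℝ (Fin n))) (a : ℝ),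
        Measurable ρ → (∀ x, 0 ≤ ρ x) → Convex ℝ {x | 0 < ρ x} →
        ConcaveOn ℝ {x | 0 < ρ x} (fun x => Real.log (ρ x)) →
        μ = volume.withDensity (fun x => ENNReal.ofReal (ρ x)) → IsProbabilityMeasure μ →
        ∫ x, x ∂μ = 0 → 0 < a →
        (∀ θ : EuclideanSpace ℝ (Fin n), ‖θ‖ = 1 →
          ∫⁻ x, ENNReal.ofReal (Real.exp (inner ℝ x θ ^ 2 / a ^ 2)) ∂μ ≤ 2) →
        ∀ f : EuclideanSpace ℝ (Fin n) → ℝ, ContDiff ℝ ∞ f → HasCompactSupport f →
          ∫ x, f x ^ 2 * Real.log (f x ^ 2) ∂μ - (∫ x, f x ^ 2 ∂μ) * Real.log (∫ x, f x ^ 2 ∂μ) ≤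
            C * a ^ 2 * ∫ x, ‖fderiv ℝ f x‖ ^ 2 ∂μ := by
  obtain ⟨C, hC0, hC⟩ := hM
  refine ⟨6 * C, fun n _ ρ μ a mρ hρ hconv hconc hμ hp _ ha hψ f hf hfs => ?_⟩
  have hD := dens_of mρ hρ hconv hconc hμ hp
  -- `f` is CB
  obtain ⟨B1, hB1⟩ := hfs.exists_bound_of_continuous hf.continuous
  have cfd : Continuous (fderiv ℝ f) := hf.continuous_fderiv (by simp)
  obtain ⟨B2, hB2⟩ := (hfs.fderiv (𝕜 := ℝ)).exists_bound_of_continuous cfd
  have hB1' : ∀ x, |f x| ≤ B1 := fun x => by simpa using hB1 x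
  have hcb : CB f := by
    refine ⟨hf.of_le (by exact_mod_cast le_top), max B1 B2, fun x => ⟨(hB1' x).trans
      (le_max_left _ _), fun k => ?_⟩⟩
    refine le_trans ?_ (le_max_right _ _)
    unfold pd
    have h1 := (fderiv ℝ f x).le_opNorm (EuclideanSpace.single k (1 : ℝ))
    rw [EuclideanSpace.norm_single] at h1
    simp only [norm_one, mul_one] at h1
    exact h1.trans (hB2 x)
  -- inequality for the truncations
  have key : ∀ᶠ N in atTop,
      Em (tw ρ N) (fun x => f x ^ 2 * Real.log (f x ^ 2)) -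
        Em (tw ρ N) (fun x => f x ^ 2) * Real.log (Em (tw ρ N) fun x => f x ^ 2) ≤
      6 * C * a ^ 2 * Em (tw ρ N) (fun x => ‖fderiv ℝ f x‖ ^ 2) := by
    filter_upwards [tw_mass_ge hD] with N hN
    have hw := tw_wt hD hN
    have hsg := sg_centred hw ha (fun θ hθ => psi_tw hD hμ (hψ θ hθ) hN)
    have hL := hC n _ _ (3 * a ^ 2) _ (by positivity) (by positivity)
      (wt_trw hw (bary (tw ρ N))) hsg
    have h1 := LS_sq hw.ex (by positivity) (LS_trw _ hL) hcb
    refine h1.trans (le_of_eq ?_)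
    ring
  -- limits
  have hB1n : 0 ≤ B1 := (abs_nonneg _).trans (hB1' 0)
  have c1 : Continuous fun x => f x ^ 2 * Real.log (f x ^ 2) :=
    Real.continuous_mul_log.comp (hf.continuous.pow 2)
  have c2 : Continuous fun x => f x ^ 2 := hf.continuous.pow 2
  have c3 : Continuous fun x => ‖fderiv ℝ f x‖ ^ 2 := cfd.norm.pow 2
  have b2 : ∀ x, |f x ^ 2| ≤ B1 ^ 2 := fun x => by
    rw [abs_pow]; exact pow_le_pow_left₀ (abs_nonneg _) (hB1' x) 2
  have b3 : ∀ x, |‖fderiv ℝ f x‖ ^ 2| ≤ B2 ^ 2 := fun x => by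
    rw [abs_pow, abs_norm]; exact pow_le_pow_left₀ (norm_nonneg _) (hB2 x) 2
  obtain ⟨B3, hB3⟩ := (isCompact_Icc (a := (0 : ℝ)) (b := B1 ^ 2)).exists_bound_of_continuousOn
    (Real.continuous_mul_log.continuousOn)
  have b1 : ∀ x, |f x ^ 2 * Real.log (f x ^ 2)| ≤ B3 := fun x => by
    have := hB3 (f x ^ 2) ⟨sq_nonneg _, by rw [← abs_of_nonneg (sq_nonneg (f x))]; exact b2 x⟩
    simpa using this
  have l1 := tw_Em hD c1.measurable (bdd_int hD c1.measurable b1)
  have l2 := tw_Em hD c2.measurable (bdd_int hD c2.measurable b2)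
  have l3 := tw_Em hD c3.measurable (bdd_int hD c3.measurable b3)
  have l4 : Tendsto (fun N => Em (tw ρ N) (fun x => f x ^ 2) *
      Real.log (Em (tw ρ N) fun x => f x ^ 2)) atTop
      (𝓝 ((∫ x, f x ^ 2 * ρ x) * Real.log (∫ x, f x ^ 2 * ρ x))) :=
    (Real.continuous_mul_log.tendsto _).comp l2
  have hfin := le_of_tendsto_of_tendsto (l1.sub l4) (l3.const_mul (6 * C * a ^ 2)) key
  rw [int_mu mρ hρ hμ, int_mu mρ hρ hμ (fun x => f x ^ 2),
    int_mu mρ hρ hμ (fun x => ‖fderiv ℝ f x‖ ^ 2)]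
  exact hfin

end Crest.Agent.R201.Fin293
end

-- ▼ part R201/Fin4_293
section

/-!
# R201 (S0308): the whole row from `Key`  (owner: helper293)
-/

set_option autoImplicit false
open MeasureTheory Matrix Filter Topology
open scoped ContDiff RealInnerProductSpace NNReal ENNReal

namespace Crest.Agent.R201.Fin293

open Crest.Agent.R201 Crest.Agent.R201.An Crest.Agent.R201.DVQ402 Crest.Agent.R201.Noi402

lemma mainLS_of_key (h : ∃ κ₀ : ℝ, 0 < κ₀ ∧ Key κ₀) : MainLS := by
  obtain ⟨C, hC, h1⟩ := ls_lin h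
  exact ⟨C, hC.le, fun n c R κ w hc hκ hw hs => h1 n c R κ w hc hw hκ.le hs⟩

/-- **S0308 from `Key`** -/
theorem S0308_of_key (h : ∃ κ₀ : ℝ, 0 < κ₀ ∧ Key κ₀) :
    ∃ C : ℝ, ∀ (n : ℕ), 1 ≤ n →
      ∀ (ρ : EuclideanSpace ℝ (Fin n) → ℝ) (μ : Measure (EuclideanSpace ℝ (Fin n))) (a : ℝ),
        Measurable ρ → (∀ x, 0 ≤ ρ x) → Convex ℝ {x | 0 < ρ x} →
        ConcaveOn ℝ {x | 0 < ρ x} (fun x => Real.log (ρ x)) →
        μ = volume.withDensity (fun x => ENNReal.ofReal (ρ x)) → IsProbabilityMeasure μ →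
        ∫ x, x ∂μ = 0 → 0 < a →
        (∀ θ : EuclideanSpace ℝ (Fin n), ‖θ‖ = 1 →
          ∫⁻ x, ENNReal.ofReal (Real.exp (inner ℝ x θ ^ 2 / a ^ 2)) ∂μ ≤ 2) →
        ∀ f : EuclideanSpace ℝ (Fin n) → ℝ, ContDiff ℝ ∞ f → HasCompactSupport f →
          ∫ x, f x ^ 2 * Real.log (f x ^ 2) ∂μ - (∫ x, f x ^ 2 ∂μ) * Real.log (∫ x, f x ^ 2 ∂μ) ≤
            C * a ^ 2 * ∫ x, ‖fderiv ℝ f x‖ ^ 2 ∂μ :=
  final (mainLS_of_key h)

end Crest.Agent.R201.Fin293
end

-- ▼ part R201/Key_74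
section

/-!
# R201 (S0308): assembly of `Key` from the static theorem and the dynamic blocks (helper74)

Selection lemma of helper352 (forward leg only).
-/

set_option autoImplicit false
set_option maxHeartbeats 1000000
open MeasureTheory Matrix Set
open scoped ContDiff ENNReal

namespace Crest.Agent.R201.L74

open Crest.Agent.R201 Crest.Agent.R201.An

variable {n : ℕ}

/-- selection of a good time -/
theorem select {f f' : ℝ → ℝ} {a b M : ℝ} (hab : a < b) (hM : 0 < M)
    (hf : ∀ s ∈ Icc a b, HasDerivAt f (f' s) s) (h0 : ∀ s ∈ Icc a b, 0 ≤ f s) (ha : f a ≤ M) :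
    ∃ s ∈ Icc a b, f s ≤ M ∧ -(2 * M / (b - a)) ≤ f' s := by
  by_contra h
  push Not at h
  have hba : 0 < b - a := sub_pos.2 hab
  have hB : ∀ x : ℝ, HasDerivAt (fun x => M - 2 * M / (b - a) * (x - a)) (-(2 * M / (b - a))) x := by
    intro x
    have h1 : HasDerivAt (fun x : ℝ => 2 * M / (b - a) * (x - a)) (2 * M / (b - a) * 1) x :=
      ((hasDerivAt_id x).sub_const a).const_mul _
    have h2 := h1.const_sub M
    rwa [mul_one] at h2
  have key := image_le_of_deriv_right_lt_deriv_boundary (f := f) (f' := f') (a := a) (b := b)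
    (B := fun x => M - 2 * M / (b - a) * (x - a)) (B' := fun _ => -(2 * M / (b - a)))
    (fun x hx => (hf x hx).continuousAt.continuousWithinAt)
    (fun x hx => (hf x (Ico_subset_Icc_self hx)).hasDerivWithinAt) (by simpa using ha) hB
    (fun x hx hfx => h x (Ico_subset_Icc_self hx) (by
      rw [hfx]
      have h3 : 0 ≤ 2 * M / (b - a) * (x - a) :=
        mul_nonneg (by positivity) (sub_nonneg.2 hx.1)
      linarith)) (right_mem_Icc.2 hab.le)
  have h4 : f b ≤ M - 2 * M := by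
    have h5 : 2 * M / (b - a) * (b - a) = 2 * M := div_mul_cancel₀ _ hba.ne'
    simpa [h5] using key
  have h6 := h0 b (right_mem_Icc.2 hab.le)
  linarith

/-- integral against `f μ` -/
theorem int_wd {μ : Measure (E n)} {f : E n → ℝ} (hf : Continuous f) (h0 : ∀ x, 0 ≤ f x)
    (F : E n → ℝ) :
    ∫ x, F x ∂(μ.withDensity fun x => ENNReal.ofReal (f x)) = ∫ x, f x * F x ∂μ := by
  rw [integral_withDensity_eq_integral_toReal_smul hf.measurable.ennreal_ofReal
    (Filter.Eventually.of_forall fun x => ENNReal.ofReal_lt_top)]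
  refine integral_congr_ae (Filter.Eventually.of_forall fun x => ?_)
  simp only [smul_eq_mul]
  rw [ENNReal.toReal_ofReal (h0 x)]

section Bridge

variable {c R : ℝ} {q f₀ : E n → ℝ} {s : ℝ}

/-- `E_ν |w|² = I` -/
theorem nsq_eq (P : Pre n q f₀ s) (hf : LL809.CBp (fs q f₀ s)) (hm : IsProbabilityMeasure (ms q s)) :
    nsq P.ν P.w = Is q f₀ s := by
  have hp := fun x => (hf.pos x).le
  unfold nsq Is LL809.Fi
  simp only [P.ν_eq, int_wd hf.cont hp]
  rw [← integral_finsetSum]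
  · refine integral_congr_ae (Filter.Eventually.of_forall fun x => ?_)
    simp only [P.w_eq]
    rw [Finset.sum_div]
    refine Finset.sum_congr rfl fun i _ => ?_
    have := (hf.pos x).ne'
    field_simp
  · intro i _
    obtain ⟨B, -, hB⟩ := hf.bdd
    obtain ⟨C, hC⟩ := (P.w_cb i).2
    refine Integrable.of_bound (C := B * C ^ 2) ?_ (Filter.Eventually.of_forall fun x => ?_)
    · exact (hf.cont.mul ((P.w_cb i).1.continuous.pow 2)).aestronglyMeasurable
    · rw [Real.norm_eq_abs, abs_mul, abs_pow]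
      exact mul_le_mul (hB x).1 (pow_le_pow_left₀ (abs_nonneg _) (hC x).1 2) (by positivity)
        ((abs_nonneg _).trans (hB x).1)

theorem w_eq_sc (P : Pre n q f₀ s) (i : Fin n) : P.w i = sc q f₀ s i := funext fun x => P.w_eq i x

/-- `E_ν |Dw|² = U` -/
theorem dsq_eq (P : Pre n q f₀ s) (hf : LL809.CBp (fs q f₀ s)) :
    dsq P.ν P.w = Us q f₀ s := by
  have hp := fun x => (hf.pos x).le
  unfold dsq Us
  simp only [P.ν_eq, int_wd hf.cont hp, w_eq_sc]

theorem Us_nonneg (hf : LL809.CBp (fs q f₀ s)) : 0 ≤ Us q f₀ s :=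
  Finset.sum_nonneg fun _ _ => Finset.sum_nonneg fun _ _ =>
    integral_nonneg fun x => mul_nonneg (hf.pos x).le (sq_nonneg _)

theorem Ks_nonneg (hf : LL809.CBp (fs q f₀ s)) (hV : ∀ x, LeQ 0 (An.Vh q s x)) :
    0 ≤ Ks q f₀ s := by
  refine integral_nonneg fun x => mul_nonneg (hf.pos x).le ?_
  have h := hV x (fun i => sc q f₀ s i x)
  simp only [Matrix.zero_mulVec, dotProduct_zero] at h
  refine h.trans_eq ?_
  simp only [dotProduct, Matrix.mulVec, Finset.mul_sum]
  refine Finset.sum_congr rfl fun i _ => Finset.sum_congr rfl fun j _ => ?_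
  ring

end Bridge

theorem tr_nonneg' {A : Mt n} (h : LeQ 0 A) : 0 ≤ A.trace := by
  refine Finset.sum_nonneg fun i _ => ?_
  have := h (Pi.single i 1)
  simpa [Matrix.mulVec_single, Matrix.zero_mulVec] using this

/-- mutual information is nonnegative -/
theorem MI_nonneg' {L : Type*} [MeasurableSpace L] {μ : Measure (E n)} [IsProbabilityMeasure μ]
    {f : E n → ℝ} {l : Measure L} [SFinite l] {p : L → E n → ℝ} {G k : L → ℝ}
    (hf : LL809.CBp f) (h1 : ∫ x, f x ∂μ = 1) (hp : LL809.Chan l p G k) :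
    0 ≤ LL809.MI μ f l p := by
  unfold LL809.MI
  refine integral_nonneg fun j => ?_
  obtain ⟨hm, -, -⟩ := LL809.pJ_bd hp hf h1 j
  set m := LL809.pJ μ f p j with hmdef
  obtain ⟨B, hB0, hB⟩ := hf.bdd
  have m2 : Measurable fun z : L × E n => p z.1 z.2 * Real.log (p z.1 z.2) :=
    hp.meas.mul hp.meas.log
  have i1 : Integrable (fun x => f x * (p j x * Real.log (p j x))) μ :=
    hp.int_right (q := fun j x => p j x * Real.log (p j x)) hf.cont.measurable
      (fun x => (hB x).1) m2 hp.q2 j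
  have i2 : Integrable (fun x => f x * p j x) μ :=
    hp.int_right (q := p) hf.cont.measurable (fun x => (hB x).1) hp.meas hp.q1 j
  have i3 : Integrable f μ := (integrable_const B).mono' hf.cont.aestronglyMeasurable
    (Filter.Eventually.of_forall fun x => (hB x).1)
  have i4 : Integrable (fun x => f x * p j x * (1 + Real.log m) - f x * m) μ :=
    (i2.mul_const _).sub (i3.mul_const _)
  have h2 : ∫ x, (f x * p j x * (1 + Real.log m) - f x * m) ∂μ = m * Real.log m := by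
    rw [integral_sub (i2.mul_const _) (i3.mul_const _), integral_mul_const, integral_mul_const, h1]
    change m * (1 + Real.log m) - 1 * m = _
    ring
  have h3 : ∫ x, (f x * p j x * (1 + Real.log m) - f x * m) ∂μ ≤
      ∫ x, f x * (p j x * Real.log (p j x)) ∂μ := by
    refine integral_mono i4 i1 fun x => ?_
    have hx := (hp.cb j).pos x
    have h4 : Real.log (m / p j x) ≤ m / p j x - 1 := Real.log_le_sub_one_of_pos (div_pos hm hx)
    rw [Real.log_div hm.ne' hx.ne'] at h4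
    have h5 : p j x * (Real.log m - Real.log (p j x)) ≤ p j x * (m / p j x - 1) :=
      mul_le_mul_of_nonneg_left h4 hx.le
    have h6 : p j x * (m / p j x - 1) = m - p j x := by field_simp
    have h7 : p j x * (1 + Real.log m) - m ≤ p j x * Real.log (p j x) := by linarith
    have h8 := mul_le_mul_of_nonneg_left h7 (hf.pos x).le
    simp only
    linarith
  simp only [Pi.zero_apply]
  linarith

/-- **assembly of `Key`** -/
theorem key_of (hNS : NoState) (hSL : SL) (hFL : FL) (hLB : LB) (hSB : SB) : Key := by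
  obtain ⟨ε, hε, hno⟩ := hNS
  obtain ⟨C, hC, hLB⟩ := hLB
  obtain ⟨e, he0, he1, heε⟩ : ∃ e : ℝ, 0 < e ∧ e ≤ 1 ∧ e ≤ ε :=
    ⟨min ε 1, lt_min hε one_pos, min_le_right _ _, min_le_left _ _⟩
  obtain ⟨δ, hδdef⟩ : ∃ δ : ℝ, δ = e ^ 2 / 128 := ⟨_, rfl⟩
  have he2 : e ^ 2 ≤ e := by nlinarith
  have hδ : 0 < δ := by rw [hδdef]; positivity
  have hδ8 : δ ≤ e / 128 := by rw [hδdef]; linarith
  obtain ⟨κ₁, hκ₁, hSL⟩ := hSL δ hδ
  obtain ⟨κ₀, hκ₀, hκ01, hκ0C⟩ : ∃ κ₀ : ℝ, 0 < κ₀ ∧ κ₀ ≤ κ₁ ∧ C * κ₀ / δ ^ 2 ≤ e / 2 := by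
    refine ⟨min κ₁ (e / 2 * δ ^ 2 / C), lt_min hκ₁ (by positivity), min_le_left _ _, ?_⟩
    rw [div_le_iff₀ (by positivity)]
    calc C * min κ₁ (e / 2 * δ ^ 2 / C) ≤ C * (e / 2 * δ ^ 2 / C) := by
          gcongr; exact min_le_right _ _
      _ = e / 2 * δ ^ 2 := by field_simp
  refine ⟨κ₀, hκ₀, fun n c R w hc hw hSG hLS => ⟨δ, hδ, by linarith, ?_⟩⟩
  by_contra hnot
  obtain ⟨f₀, hf₀, hone, hnear, hEn⟩ := Noi402.near_of_not hw.ex (by linarith) hnot
  set H₀ := Noi402.En w f₀ with hH₀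
  set I₀ := Noi402.Fi w f₀ with hI₀
  have hLS' : H₀ ≤ 1 / 2 * I₀ := (Noi402.LS_def.1 hLS) f₀ hf₀
  have hI₀p : 0 < I₀ := by linarith
  -- facts at one level
  have fact : ∀ s : ℝ, 0 < s → s ≤ 1 / 2 →
      H₀ - s / 2 * I₀ ≤ Hs w f₀ s ∧ Is w f₀ s ≤ I₀ ∧ Hs w f₀ s ≤ (1 + δ) / 2 * Is w f₀ s := by
    intro s hs hs2
    have hx : Ex (An.Lp w s fun _ => 1) := hw.ex.noisy hs
    have h1 : Hs w f₀ s = Noi402.En (An.Lp w s fun _ => 1) (An.pE w s f₀) := Noi402.ent_nm hx _
    have h2 : Is w f₀ s = Noi402.Fi (An.Lp w s fun _ => 1) (An.pE w s f₀) := Noi402.fi_nm hx _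
    refine ⟨?_, ?_, ?_⟩
    · rw [h1]; exact Ends293.fwd_ent hw.ex hc.le hw.slc hs hf₀
    · rw [h2]; exact Ends293.fwd_fi hw.ex hc.le hw.slc hs hf₀
    · exact hSL n c R w hc hw (hSG.mono hκ01) ((Noi402.lsi_iff hw.ex).2 hLS) s hs hs2 _
        (Ends293.cbp_pE hw.ex hc.le hw.slc hs hf₀)
  -- selection
  set η := δ + δ / 2 with hη
  have hder : ∀ s ∈ Icc δ (e / 4), HasDerivAt (fun s => (1 + δ) / 2 * Is w f₀ s - Hs w f₀ s)
      ((1 + δ) / 2 * (-(Us w f₀ s + 2 * Ks w f₀ s)) - -(1 / 2) * Is w f₀ s) s := by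
    intro s hs
    obtain ⟨h1, h2⟩ := hFL n c R w f₀ hc hw hf₀ hone s (hδ.trans_le hs.1)
    exact (h2.const_mul _).sub h1
  obtain ⟨s, ⟨hs1, hs2⟩, hsM, hsD⟩ := select (M := η * I₀) (by linarith : δ < e / 4)
    (by positivity) hder (fun s hs => by
      have := (fact s (hδ.trans_le hs.1) (by linarith [hs.2])).2.2
      linarith) (by
      obtain ⟨h1, h2, -⟩ := fact δ hδ (by linarith)
      have h3 : (1 + δ) / 2 * Is w f₀ δ ≤ (1 + δ) / 2 * I₀ := by gcongr
      simp only [hη]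
      nlinarith)
  have hs0 : 0 < s := hδ.trans_le hs1
  obtain ⟨hent, hfi, hlsi⟩ := fact s hs0 (by linarith)
  obtain ⟨⟨P⟩, hprob, hcbp, hone', ⟨BV, hBV⟩, hV0, hV1⟩ := hSB n c R w f₀ hc hw hf₀ hone s hs0
  have hU0 := Us_nonneg (q := w) (f₀ := f₀) (s := s) hcbp
  have hK0 := Ks_nonneg (q := w) (f₀ := f₀) (s := s) hcbp hV0
  -- lower bound for I
  have hIlow : I₀ ≤ 2 * Is w f₀ s := by
    have h1 : (1 - δ) / 2 * I₀ - s / 2 * I₀ ≤ (1 + δ) / 2 * Is w f₀ s := by linarith
    have h2 : (1 - δ - s) * I₀ ≤ (1 + δ) * Is w f₀ s := by linarith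
    have h3 : 5 / 8 * I₀ ≤ (1 - δ - s) * I₀ := by
      refine mul_le_mul_of_nonneg_right ?_ hI₀p.le
      linarith
    have h4 : 0 ≤ Is w f₀ s := by
      by_contra hneg
      push Not at hneg
      nlinarith
    have h5 : (1 + δ) * Is w f₀ s ≤ 9 / 8 * Is w f₀ s := by
      refine mul_le_mul_of_nonneg_right ?_ h4
      linarith
    linarith
  have hIp : 0 < Is w f₀ s := by linarith
  -- level 1
  have hU : Us w f₀ s ≤ (1 + e) * Is w f₀ s := by
    have hd : e / 8 ≤ e / 4 - δ := by linarith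
    have h1 : 2 * (η * I₀) / (e / 4 - δ) ≤ 2 * (η * I₀) / (e / 8) := by
      gcongr
    have h2 : 2 * (η * I₀) / (e / 8) ≤ e / 2 * Is w f₀ s := by
      rw [div_le_iff₀ (by positivity)]
      have h3 : η * I₀ ≤ η * (2 * Is w f₀ s) := by gcongr
      have h4 : η = 3 * e ^ 2 / 256 := by rw [hη, hδdef]; ring
      rw [h4] at h3 ⊢
      nlinarith [mul_pos (pow_pos he0 2) hIp]
    have h5 : (1 + δ) / 2 * (Us w f₀ s + 2 * Ks w f₀ s) ≤ 1 / 2 * Is w f₀ s + e / 2 * Is w f₀ s := by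
      linarith
    have h6 := mul_nonneg hδ.le hU0
    have h7 := mul_nonneg hδ.le hK0
    have h8 : (1 + δ) / 2 * (Us w f₀ s + 2 * Ks w f₀ s) =
        1 / 2 * Us w f₀ s + Ks w f₀ s + 1 / 2 * (δ * Us w f₀ s) + δ * Ks w f₀ s := by ring
    linarith
  -- labels
  have hCs : C * κ₀ / s ^ 2 ≤ e / 2 := by
    refine le_trans ?_ hκ0C
    gcongr
  have hCs' : C * κ₀ / s ≤ e / 2 := by
    refine le_trans ?_ hCs
    have h1 : s ^ 2 ≤ s := by
      rw [sq]
      calc s * s ≤ s * 1 := mul_le_mul_of_nonneg_left (by linarith) hs0.le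
        _ = s := mul_one s
    exact div_le_div_of_nonneg_left (by positivity) (by positivity) h1
  have hpos2 : 0 < C * κ₀ / s ^ 2 := by positivity
  have hpos1 : 0 < C * κ₀ / s := by positivity
  have hHI : Hs w f₀ s ≤ Is w f₀ s := by
    have : (1 + δ) / 2 * Is w f₀ s ≤ 1 * Is w f₀ s := by
      refine mul_le_mul_of_nonneg_right ?_ hIp.le
      linarith
    linarith
  have hns := nsq_eq P hcbp hprob
  have hds := dsq_eq P hcbp
  have hp := fun x => (hcbp.pos x).le
  let S : State n ε :=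
    { P.toSt with
      μ := ms w s
      prob_μ := hprob
      f := fs w f₀ s
      f_cbp := hcbp
      f_one := hone'
      ν_eq := P.ν_eq
      w_eq := P.w_eq
      w_cb := P.w_cb
      V2_bdd := ⟨BV, fun x i j => by rw [P.V2_eq]; exact hBV x i j⟩
      V2_nonneg := fun x => by rw [P.V2_eq]; exact hV0 x
      h := s
      h_pos := hs0
      h_le := by linarith
      V2_le := fun x => by rw [P.V2_eq]; exact hV1 x
      lsi := by
        intro f hf
        refine (hSL n c R w hc hw (hSG.mono hκ01) ((Noi402.lsi_iff hw.ex).2 hLS) s hs0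
          (by linarith) f hf).trans ?_
        have : 0 ≤ LL809.Fi (ms w s) f := integral_nonneg fun x =>
          div_nonneg (Finset.sum_nonneg fun k _ => sq_nonneg _) (hf.pos x).le
        gcongr
        linarith
      S1 := by
        rw [hns]
        change (1 + ε) / 2 * Is w f₀ s - Hs w f₀ s ≤ ε * Is w f₀ s
        have h1 : η * I₀ ≤ η * (2 * Is w f₀ s) := by gcongr
        have h2 : η * (2 * Is w f₀ s) ≤ ε / 2 * Is w f₀ s := by
          rw [← mul_assoc]
          refine mul_le_mul_of_nonneg_right ?_ hIp.le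
          rw [hη]; linarith
        nlinarith [mul_pos hδ hIp]
      S2 := by
        rw [hns, hds]
        refine hU.trans ?_
        gcongr
      S3 := by
        intro p G k hp'
        obtain ⟨h1, -⟩ := hLB n c R κ₀ w f₀ hc hw hf₀ hone hκ₀ hSG s hs0 (by linarith) p G k hp'
        have h2 : ∀ x i, P.w i x = sc w f₀ s i x := fun x i => P.w_eq i x
        rw [hns]
        simp only [h2]
        have h3 : 0 ≤ LL809.MI (ms w s) (fs w f₀ s) (LL809.gam n) p := MI_nonneg' hcbp hone' hp'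
        have h4 : LL809.Ent (An.nm w) f₀ ≤ Is w f₀ s := by
          rw [Noi402.ent_nm hw.ex]; linarith
        have h5 : C * κ₀ / s ^ 2 * (LL809.Ent (An.nm w) f₀ + Hs w f₀ s +
            LL809.MI (ms w s) (fs w f₀ s) (LL809.gam n) p) ≤
            e / 2 * (2 * (Is w f₀ s + LL809.MI (ms w s) (fs w f₀ s) (LL809.gam n) p)) := by
          refine (mul_le_mul_of_nonneg_left (?_ : _ ≤ 2 * (Is w f₀ s +
            LL809.MI (ms w s) (fs w f₀ s) (LL809.gam n) p)) hpos2.le).trans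
            (mul_le_mul_of_nonneg_right hCs (by linarith))
          linarith
        refine h1.trans (h5.trans ?_)
        have h6 : e * (Is w f₀ s + LL809.MI (ms w s) (fs w f₀ s) (LL809.gam n) p) ≤
            ε * (Is w f₀ s + LL809.MI (ms w s) (fs w f₀ s) (LL809.gam n) p) :=
          mul_le_mul_of_nonneg_right heε (by linarith)
        linarith
      P1L := by
        intro p G k hp' R' hR1 hR2 hR3 hR4
        obtain ⟨-, h1⟩ := hLB n c R κ₀ w f₀ hc hw hf₀ hone hκ₀ hSG s hs0 (by linarith) p G k hp'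
        have h1 := h1 R' hR1 hR2 hR3 hR4
        rw [hns]
        simp only [P.V2_eq]
        have h3 : 0 ≤ LL809.MI (ms w s) (fs w f₀ s) (LL809.gam n) p := MI_nonneg' hcbp hone' hp'
        have h3' : 0 ≤ Hs w f₀ s := by
          have a1 : s * I₀ ≤ 1 / 4 * I₀ := mul_le_mul_of_nonneg_right (by linarith) hI₀p.le
          have a2 : δ * I₀ ≤ 1 / 128 * I₀ := mul_le_mul_of_nonneg_right (by linarith) hI₀p.le
          linarith
        have h4 : 0 ≤ ∫ j, (R' j).trace * LL809.pJ (ms w s) (fs w f₀ s) p j ∂(LL809.gam n) :=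
          integral_nonneg fun j => mul_nonneg (tr_nonneg' (hR3 j))
            (integral_nonneg fun x => mul_nonneg (hp x) (((hp'.cb j).pos x).le))
        refine h1.trans ((mul_le_mul_of_nonneg_right
          (hCs'.trans (by linarith : e / 2 ≤ ε)) (by linarith)).trans ?_)
        gcongr }
  refine hno n S ?_
  change 0 < nsq P.ν P.w
  rw [hns]
  exact hIp

end Crest.Agent.R201.L74
end

-- ▼ part R201/Hf1_391
section

/-!
# R201 flow calculus: the class `T` of tame space-time functions (helper391)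

Space-time points are `p = (s, y) : ℝ × E n`, times range over `(a, b)`.
`T a b m φ`: `φ` and all its derivatives up to order `m` are continuous on `{a < s < b}`, of
exponential growth in `y` uniformly in `s`, and `φ` is `m` times differentiable.
-/

set_option autoImplicit false
open MeasureTheory Matrix Filter Topology

namespace Crest.Agent.R201.Hf391

open Crest.Agent.R201 Crest.Agent.R201.An

variable {n : ℕ} {a b : ℝ} {m : ℕ}

/-- space-time -/
abbrev ST (n : ℕ) := ℝ × E n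

/-- time derivative -/
noncomputable def ds (φ : ST n → ℝ) (p : ST n) : ℝ := fderiv ℝ φ p ((1 : ℝ), (0 : E n))

/-- space derivative -/
noncomputable def dy (k : Fin n) (φ : ST n → ℝ) (p : ST n) : ℝ :=
  fderiv ℝ φ p ((0 : ℝ), (EuclideanSpace.single k (1 : ℝ) : E n))

/-- the open slab `a < s < b` -/
def Om (n : ℕ) (a b : ℝ) : Set (ST n) := {p | a < p.1 ∧ p.1 < b}

lemma Om_open : IsOpen (Om n a b) :=
  (isOpen_lt continuous_const continuous_fst).inter (isOpen_lt continuous_fst continuous_const)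

/-- level `0` of the class `T` -/
def T0 (a b : ℝ) (φ : ST n → ℝ) : Prop :=
  ContinuousOn φ (Om n a b) ∧ ∃ C : ℝ, 0 ≤ C ∧ ∀ p ∈ Om n a b, |φ p| ≤ C * Real.exp (C * ‖p.2‖)

/-- tame functions -/
def T (a b : ℝ) : ℕ → (ST n → ℝ) → Prop
  | 0, φ => T0 a b φ
  | m + 1, φ => T0 a b φ ∧ (∀ p ∈ Om n a b, DifferentiableAt ℝ φ p) ∧
      T a b m (ds φ) ∧ ∀ k, T a b m (dy k φ)

lemma T.t0 {φ : ST n → ℝ} (h : T a b m φ) : T0 a b φ := by
  cases m with
  | zero => exact h
  | succ m => exact h.1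

lemma T.diff {φ : ST n → ℝ} (h : T a b (m + 1) φ) : ∀ p ∈ Om n a b, DifferentiableAt ℝ φ p := h.2.1

lemma T.hds {φ : ST n → ℝ} (h : T a b (m + 1) φ) : T a b m (ds φ) := h.2.2.1

lemma T.hdy {φ : ST n → ℝ} (h : T a b (m + 1) φ) (k : Fin n) : T a b m (dy k φ) := h.2.2.2 k

lemma T.cont {φ : ST n → ℝ} (h : T a b m φ) : ContinuousOn φ (Om n a b) := h.t0.1

lemma T.bd {φ : ST n → ℝ} (h : T a b m φ) :
    ∃ C : ℝ, 0 ≤ C ∧ ∀ p ∈ Om n a b, |φ p| ≤ C * Real.exp (C * ‖p.2‖) := h.t0.2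

lemma T.pred : ∀ {m : ℕ} {φ : ST n → ℝ}, T a b (m + 1) φ → T a b m φ := by
  intro m
  induction m with
  | zero => intro φ h; exact h.1
  | succ m ih => intro φ h; exact ⟨h.1, h.2.1, ih h.2.2.1, fun k => ih (h.2.2.2 k)⟩

lemma T.le {φ : ST n → ℝ} {m m' : ℕ} (h : T a b m φ) (hm : m' ≤ m) : T a b m' φ := by
  induction m, hm using Nat.le_induction with
  | base => exact h
  | succ m hm ih => exact ih (T.pred h)

lemma T0.congr {φ ψ : ST n → ℝ} (h : T0 a b φ) (e : ∀ p ∈ Om n a b, ψ p = φ p) : T0 a b ψ := by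
  refine ⟨h.1.congr e, ?_⟩
  obtain ⟨C, hC, hb⟩ := h.2
  exact ⟨C, hC, fun p hp => by rw [e p hp]; exact hb p hp⟩

lemma evEq {φ ψ : ST n → ℝ} (e : ∀ p ∈ Om n a b, ψ p = φ p) {p : ST n} (hp : p ∈ Om n a b) :
    ψ =ᶠ[𝓝 p] φ := by
  filter_upwards [Om_open.mem_nhds hp] with q hq using e q hq

lemma ds_congr {φ ψ : ST n → ℝ} (e : ∀ p ∈ Om n a b, ψ p = φ p) :
    ∀ p ∈ Om n a b, ds ψ p = ds φ p := by
  intro p hp
  unfold ds
  rw [(evEq e hp).fderiv_eq]

lemma dy_congr {φ ψ : ST n → ℝ} (e : ∀ p ∈ Om n a b, ψ p = φ p) (k : Fin n) :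
    ∀ p ∈ Om n a b, dy k ψ p = dy k φ p := by
  intro p hp
  unfold dy
  rw [(evEq e hp).fderiv_eq]

lemma T.congr : ∀ {m : ℕ} {φ ψ : ST n → ℝ}, T a b m φ → (∀ p ∈ Om n a b, ψ p = φ p) → T a b m ψ := by
  intro m
  induction m with
  | zero => intro φ ψ h e; exact T0.congr h e
  | succ m ih =>
    intro φ ψ h e
    refine ⟨h.1.congr e, fun p hp => ?_, ih h.2.2.1 (ds_congr e), fun k => ih (h.2.2.2 k) (dy_congr e k)⟩
    exact (evEq e hp).differentiableAt_iff.2 (h.2.1 p hp)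

/-! ### algebra -/

lemma T0.const (c : ℝ) : T0 a b (fun _ : ST n => c) := by
  refine ⟨continuousOn_const, |c|, abs_nonneg c, fun p _ => ?_⟩
  have : 1 ≤ Real.exp (|c| * ‖p.2‖) := Real.one_le_exp (by positivity)
  nlinarith [abs_nonneg c]

lemma ds_const (c : ℝ) : ds (fun _ : ST n => c) = fun _ => 0 := by
  funext p; simp [ds]

lemma dy_const (c : ℝ) (k : Fin n) : dy k (fun _ : ST n => c) = fun _ => 0 := by
  funext p; simp [dy]

lemma T.const : ∀ (m : ℕ) (c : ℝ), T a b m (fun _ : ST n => c) := by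
  intro m
  induction m with
  | zero => intro c; exact T0.const c
  | succ m ih =>
    intro c
    refine ⟨T0.const c, fun p _ => by fun_prop, ?_, fun k => ?_⟩
    · rw [ds_const]; exact ih 0
    · rw [dy_const]; exact ih 0

lemma T0.add {φ ψ : ST n → ℝ} (h : T0 a b φ) (h' : T0 a b ψ) : T0 a b (fun p => φ p + ψ p) := by
  refine ⟨h.1.add h'.1, ?_⟩
  obtain ⟨C, hC, hb⟩ := h.2
  obtain ⟨C', hC', hb'⟩ := h'.2
  refine ⟨C + C', by positivity, fun p hp => ?_⟩
  have h1 := hb p hp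
  have h2 := hb' p hp
  have e1 : Real.exp (C * ‖p.2‖) ≤ Real.exp ((C + C') * ‖p.2‖) :=
    Real.exp_le_exp.2 (by nlinarith [norm_nonneg p.2])
  have e2 : Real.exp (C' * ‖p.2‖) ≤ Real.exp ((C + C') * ‖p.2‖) :=
    Real.exp_le_exp.2 (by nlinarith [norm_nonneg p.2])
  calc |φ p + ψ p| ≤ |φ p| + |ψ p| := abs_add_le _ _
    _ ≤ C * Real.exp ((C + C') * ‖p.2‖) + C' * Real.exp ((C + C') * ‖p.2‖) := by
        nlinarith
    _ = _ := by ring

lemma T0.mul {φ ψ : ST n → ℝ} (h : T0 a b φ) (h' : T0 a b ψ) : T0 a b (fun p => φ p * ψ p) := by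
  refine ⟨h.1.mul h'.1, ?_⟩
  obtain ⟨C, hC, hb⟩ := h.2
  obtain ⟨C', hC', hb'⟩ := h'.2
  refine ⟨C + C' + C * C', by positivity, fun p hp => ?_⟩
  have h1 := hb p hp
  have h2 := hb' p hp
  have e1 : Real.exp ((C + C') * ‖p.2‖) ≤ Real.exp ((C + C' + C * C') * ‖p.2‖) :=
    Real.exp_le_exp.2 (by
      have : 0 ≤ C * C' * ‖p.2‖ := by positivity
      nlinarith [norm_nonneg p.2])
  calc |φ p * ψ p| = |φ p| * |ψ p| := abs_mul _ _
    _ ≤ (C * Real.exp (C * ‖p.2‖)) * (C' * Real.exp (C' * ‖p.2‖)) :=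
        mul_le_mul h1 h2 (abs_nonneg _) (by positivity)
    _ = (C * C') * Real.exp ((C + C') * ‖p.2‖) := by rw [add_mul, Real.exp_add]; ring
    _ ≤ (C + C' + C * C') * Real.exp ((C + C' + C * C') * ‖p.2‖) :=
        mul_le_mul (by linarith) e1 (Real.exp_pos _).le (by positivity)

lemma ds_add {φ ψ : ST n → ℝ} {p : ST n} (h : DifferentiableAt ℝ φ p) (h' : DifferentiableAt ℝ ψ p) :
    ds (fun p => φ p + ψ p) p = ds φ p + ds ψ p := by
  unfold ds
  rw [fderiv_fun_add h h']; rfl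

lemma dy_add {φ ψ : ST n → ℝ} {p : ST n} (k : Fin n) (h : DifferentiableAt ℝ φ p)
    (h' : DifferentiableAt ℝ ψ p) :
    dy k (fun p => φ p + ψ p) p = dy k φ p + dy k ψ p := by
  unfold dy
  rw [fderiv_fun_add h h']; rfl

lemma ds_mul {φ ψ : ST n → ℝ} {p : ST n} (h : DifferentiableAt ℝ φ p) (h' : DifferentiableAt ℝ ψ p) :
    ds (fun p => φ p * ψ p) p = φ p * ds ψ p + ψ p * ds φ p := by
  unfold ds
  rw [fderiv_fun_mul h h']; rfl

lemma dy_mul {φ ψ : ST n → ℝ} {p : ST n} (k : Fin n) (h : DifferentiableAt ℝ φ p)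
    (h' : DifferentiableAt ℝ ψ p) :
    dy k (fun p => φ p * ψ p) p = φ p * dy k ψ p + ψ p * dy k φ p := by
  unfold dy
  rw [fderiv_fun_mul h h']; rfl

lemma T.add : ∀ {m : ℕ} {φ ψ : ST n → ℝ}, T a b m φ → T a b m ψ → T a b m (fun p => φ p + ψ p) := by
  intro m
  induction m with
  | zero => intro φ ψ h h'; exact T0.add h h'
  | succ m ih =>
    intro φ ψ h h'
    refine ⟨h.1.add h'.1, fun p hp => (h.diff p hp).add (h'.diff p hp), ?_, fun k => ?_⟩
    · exact (ih h.hds h'.hds).congr fun p hp => ds_add (h.diff p hp) (h'.diff p hp)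
    · exact (ih (h.hdy k) (h'.hdy k)).congr fun p hp => dy_add k (h.diff p hp) (h'.diff p hp)

lemma T.mul : ∀ {m : ℕ} {φ ψ : ST n → ℝ}, T a b m φ → T a b m ψ → T a b m (fun p => φ p * ψ p) := by
  intro m
  induction m with
  | zero => intro φ ψ h h'; exact T0.mul h h'
  | succ m ih =>
    intro φ ψ h h'
    refine ⟨h.1.mul h'.1, fun p hp => (h.diff p hp).mul (h'.diff p hp), ?_, fun k => ?_⟩
    · exact ((ih (T.pred h) h'.hds).add (ih (T.pred h') h.hds)).congr
        fun p hp => ds_mul (h.diff p hp) (h'.diff p hp)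
    · exact ((ih (T.pred h) (h'.hdy k)).add (ih (T.pred h') (h.hdy k))).congr
        fun p hp => dy_mul k (h.diff p hp) (h'.diff p hp)

lemma T.smul (c : ℝ) {φ : ST n → ℝ} (h : T a b m φ) : T a b m (fun p => c * φ p) :=
  (T.const m c).mul h

lemma T.neg {φ : ST n → ℝ} (h : T a b m φ) : T a b m (fun p => -φ p) :=
  (h.smul (-1)).congr fun p _ => by ring

lemma T.sub {φ ψ : ST n → ℝ} (h : T a b m φ) (h' : T a b m ψ) : T a b m (fun p => φ p - ψ p) :=
  (h.add h'.neg).congr fun p _ => by ring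

lemma T.sum {ι : Type*} (S : Finset ι) {φ : ι → ST n → ℝ} (h : ∀ i ∈ S, T a b m (φ i)) :
    T a b m (fun p => ∑ i ∈ S, φ i p) := by
  classical
  induction S using Finset.induction_on with
  | empty => simpa using T.const m 0
  | insert i S hi ih =>
    have := (h i (Finset.mem_insert_self _ _)).add (ih fun j hj => h j (Finset.mem_insert_of_mem hj))
    exact this.congr fun p _ => by rw [Finset.sum_insert hi]

lemma T.pow {φ : ST n → ℝ} (h : T a b m φ) : ∀ j : ℕ, T a b m (fun p => φ p ^ j) := by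
  intro j
  induction j with
  | zero => simpa using T.const m 1
  | succ j ih => exact (ih.mul h).congr fun p _ => pow_succ _ _

/-! ### coordinates -/

lemma hasFDerivAt_coord (k : Fin n) (p : ST n) :
    HasFDerivAt (fun p : ST n => p.2 k)
      ((EuclideanSpace.proj k : E n →L[ℝ] ℝ).comp (ContinuousLinearMap.snd ℝ ℝ (E n))) p :=
  ((EuclideanSpace.proj k : E n →L[ℝ] ℝ).comp (ContinuousLinearMap.snd ℝ ℝ (E n))).hasFDerivAt

lemma ds_coord (k : Fin n) : ds (fun p : ST n => p.2 k) = fun _ => 0 := by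
  funext p; unfold ds; rw [(hasFDerivAt_coord k p).fderiv]; simp

lemma dy_coord (l k : Fin n) : dy l (fun p : ST n => p.2 k) = fun _ => if k = l then 1 else 0 := by
  funext p; unfold dy; rw [(hasFDerivAt_coord k p).fderiv]
  simp

lemma T.coord (m : ℕ) (k : Fin n) : T a b m (fun p : ST n => p.2 k) := by
  have h0 : T0 a b (fun p : ST n => p.2 k) := by
    refine ⟨by fun_prop, 1, zero_le_one, fun p _ => ?_⟩
    have h1 : |p.2 k| ≤ ‖p.2‖ := by
      have := PiLp.norm_apply_le p.2 k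
      simpa using this
    have h2 := Real.add_one_le_exp (1 * ‖p.2‖)
    linarith
  cases m with
  | zero => exact h0
  | succ m =>
    refine ⟨h0, fun p _ => (hasFDerivAt_coord k p).differentiableAt, ?_, fun l => ?_⟩
    · rw [ds_coord]; exact T.const m 0
    · rw [dy_coord]; exact T.const m _

lemma T.time (m : ℕ) : T a b m (fun p : ST n => p.1) := by
  have h0 : T0 a b (fun p : ST n => p.1) := by
    refine ⟨by fun_prop, |a| + |b|, by positivity, fun p hp => ?_⟩
    have h1 : |p.1| ≤ |a| + |b| := by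
      rw [abs_le]
      have := hp.1; have := hp.2
      constructor
      · linarith [neg_abs_le a, abs_nonneg b]
      · linarith [le_abs_self b, abs_nonneg a]
    have : 1 ≤ Real.exp ((|a| + |b|) * ‖p.2‖) := Real.one_le_exp (by positivity)
    have h2 : 0 ≤ |a| + |b| := by positivity
    nlinarith
  have hd : ∀ p : ST n, HasFDerivAt (fun p : ST n => p.1) (ContinuousLinearMap.fst ℝ ℝ (E n)) p :=
    fun p => (ContinuousLinearMap.fst ℝ ℝ (E n)).hasFDerivAt
  cases m with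
  | zero => exact h0
  | succ m =>
    refine ⟨h0, fun p _ => (hd p).differentiableAt, ?_, fun l => ?_⟩
    · have : ds (fun p : ST n => p.1) = fun _ => 1 := by
        funext p; unfold ds; rw [(hd p).fderiv]; simp
      rw [this]; exact T.const m 1
    · have : dy l (fun p : ST n => p.1) = fun _ => 0 := by
        funext p; unfold dy; rw [(hd p).fderiv]; simp
      rw [this]; exact T.const m 0

/-! ### composition with a function of one variable -/

lemma ds_comp {φ : ST n → ℝ} {p : ST n} {g : ℝ → ℝ} {g' : ℝ} (h : DifferentiableAt ℝ φ p)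
    (hg : HasDerivAt g g' (φ p)) : ds (fun p => g (φ p)) p = g' * ds φ p := by
  unfold ds
  have := hg.comp_hasFDerivAt p h.hasFDerivAt
  rw [show (fun p => g (φ p)) = g ∘ φ from rfl, this.fderiv]; simp

lemma dy_comp {φ : ST n → ℝ} {p : ST n} (k : Fin n) {g : ℝ → ℝ} {g' : ℝ}
    (h : DifferentiableAt ℝ φ p) (hg : HasDerivAt g g' (φ p)) :
    dy k (fun p => g (φ p)) p = g' * dy k φ p := by
  unfold dy
  have := hg.comp_hasFDerivAt p h.hasFDerivAt
  rw [show (fun p => g (φ p)) = g ∘ φ from rfl, this.fderiv]; simp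

/-- inverse of a function bounded below -/
lemma T.inv {c : ℝ} (hc : 0 < c) : ∀ {m : ℕ} {φ : ST n → ℝ}, T a b m φ →
    (∀ p ∈ Om n a b, c ≤ φ p) → T a b m (fun p => (φ p)⁻¹) := by
  have base : ∀ {φ : ST n → ℝ}, T0 a b φ → (∀ p ∈ Om n a b, c ≤ φ p) →
      T0 a b (fun p => (φ p)⁻¹) := by
    intro φ h hφ
    refine ⟨h.1.inv₀ fun p hp => (hc.trans_le (hφ p hp)).ne', c⁻¹, by positivity, fun p hp => ?_⟩
    have h0 : 0 < φ p := hc.trans_le (hφ p hp)
    rw [abs_of_pos (inv_pos.2 h0)]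
    have h1 : (φ p)⁻¹ ≤ c⁻¹ := inv_anti₀ hc (hφ p hp)
    have h2 : 1 ≤ Real.exp (c⁻¹ * ‖p.2‖) := Real.one_le_exp (by positivity)
    have h3 : 0 < c⁻¹ := by positivity
    nlinarith
  intro m
  induction m with
  | zero => intro φ h hφ; exact base h hφ
  | succ m ih =>
    intro φ h hφ
    have hne : ∀ p ∈ Om n a b, φ p ≠ 0 := fun p hp => (hc.trans_le (hφ p hp)).ne'
    have hi : T a b m (fun p => (φ p)⁻¹) := ih (T.pred h) hφ
    refine ⟨base h.1 hφ, fun p hp => (h.diff p hp).inv (hne p hp), ?_, fun k => ?_⟩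
    · refine (((hi.mul hi).mul h.hds).neg).congr fun p hp => ?_
      rw [ds_comp (h.diff p hp) (hasDerivAt_inv (hne p hp))]
      ring
    · refine (((hi.mul hi).mul (h.hdy k)).neg).congr fun p hp => ?_
      rw [dy_comp k (h.diff p hp) (hasDerivAt_inv (hne p hp))]
      ring

/-- logarithm of a function bounded below -/
lemma T.log {c : ℝ} (hc : 0 < c) {φ : ST n → ℝ} (h : T a b m φ)
    (hφ : ∀ p ∈ Om n a b, c ≤ φ p) : T a b m (fun p => Real.log (φ p)) := by
  have hne : ∀ p ∈ Om n a b, φ p ≠ 0 := fun p hp => (hc.trans_le (hφ p hp)).ne'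
  have base : T0 a b (fun p => Real.log (φ p)) := by
    refine ⟨h.cont.log hne, ?_⟩
    obtain ⟨C, hC, hb⟩ := h.bd
    refine ⟨|Real.log c| + C, by positivity, fun p hp => ?_⟩
    have h0 : 0 < φ p := hc.trans_le (hφ p hp)
    have h1 : Real.log c ≤ Real.log (φ p) := Real.log_le_log hc (hφ p hp)
    have h2 : Real.log (φ p) ≤ φ p := (Real.log_le_sub_one_of_pos h0).trans (by linarith)
    have h3 : φ p ≤ C * Real.exp (C * ‖p.2‖) := (le_abs_self _).trans (hb p hp)
    have e1 : Real.exp (C * ‖p.2‖) ≤ Real.exp ((|Real.log c| + C) * ‖p.2‖) :=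
      Real.exp_le_exp.2 (by nlinarith [norm_nonneg p.2, abs_nonneg (Real.log c)])
    have e2 : 1 ≤ Real.exp ((|Real.log c| + C) * ‖p.2‖) := Real.one_le_exp (by positivity)
    have h4 : C * Real.exp (C * ‖p.2‖) ≤ C * Real.exp ((|Real.log c| + C) * ‖p.2‖) :=
      mul_le_mul_of_nonneg_left e1 hC
    have h5 : |Real.log c| ≤ |Real.log c| * Real.exp ((|Real.log c| + C) * ‖p.2‖) := by
      nlinarith [abs_nonneg (Real.log c)]
    rw [abs_le, add_mul]
    constructor
    · have := neg_abs_le (Real.log c)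
      have : 0 ≤ C * Real.exp ((|Real.log c| + C) * ‖p.2‖) := by positivity
      linarith
    · have : 0 ≤ |Real.log c| * Real.exp ((|Real.log c| + C) * ‖p.2‖) := by positivity
      linarith
  cases m with
  | zero => exact base
  | succ m =>
    have hi : T a b m (fun p => (φ p)⁻¹) := T.inv hc (T.pred h) hφ
    refine ⟨base, fun p hp => (h.diff p hp).log (hne p hp), ?_, fun k => ?_⟩
    · refine (hi.mul h.hds).congr fun p hp => ?_
      rw [ds_comp (h.diff p hp) (Real.hasDerivAt_log (hne p hp))]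
    · refine (hi.mul (h.hdy k)).congr fun p hp => ?_
      rw [dy_comp k (h.diff p hp) (Real.hasDerivAt_log (hne p hp))]

/-! ### symmetry of second derivatives -/

lemma st_eq_sum (v : ST n) : v = v.1 • ((1 : ℝ), (0 : E n)) +
    ∑ k, v.2 k • ((0 : ℝ), (EuclideanSpace.single k (1 : ℝ) : E n)) := by
  have h : v.2 = ∑ k, v.2 k • (EuclideanSpace.single k (1 : ℝ) : E n) := vec_eq_sum v.2
  refine Prod.ext ?_ ?_
  · simp [Prod.fst_sum]
  · simp only [Prod.snd_add, Prod.smul_snd, smul_zero, zero_add, Prod.snd_sum]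
    exact h

lemma fderiv_eq (φ : ST n → ℝ) (p v : ST n) :
    fderiv ℝ φ p v = v.1 * ds φ p + ∑ k, v.2 k * dy k φ p := by
  conv_lhs => rw [st_eq_sum v]
  rw [map_add, map_smul, map_sum]
  simp only [map_smul, smul_eq_mul]
  rfl

/-- the linear form `v ↦ v.1 a + ∑ v_k b_k` -/
noncomputable def lf (α : ℝ) (β : Fin n → ℝ) : ST n →L[ℝ] ℝ :=
  α • ContinuousLinearMap.fst ℝ ℝ (E n) +
    ∑ k, β k • ((EuclideanSpace.proj k : E n →L[ℝ] ℝ).comp (ContinuousLinearMap.snd ℝ ℝ (E n)))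

lemma lf_apply (α : ℝ) (β : Fin n → ℝ) (v : ST n) : lf α β v = v.1 * α + ∑ k, v.2 k * β k := by
  simp [lf, mul_comm]

lemma fderiv_eq_lf (φ : ST n → ℝ) (p : ST n) : fderiv ℝ φ p = lf (ds φ p) fun k => dy k φ p := by
  ext v <;> simp [fderiv_eq, lf_apply]

lemma T.diff2 {φ : ST n → ℝ} (h : T a b (m + 2) φ) {p : ST n} (hp : p ∈ Om n a b) :
    DifferentiableAt ℝ (fderiv ℝ φ) p := by
  have e : fderiv ℝ φ = fun p => lf (ds φ p) fun k => dy k φ p := funext fun p => fderiv_eq_lf φ p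
  rw [e]
  unfold lf
  have h1 := h.hds.diff p hp
  have h2 := fun k => (h.hdy k).diff p hp
  fun_prop

lemma symm2 {φ : ST n → ℝ} (h : T a b (m + 2) φ) {p : ST n} (hp : p ∈ Om n a b) (u v : ST n) :
    fderiv ℝ (fderiv ℝ φ) p u v = fderiv ℝ (fderiv ℝ φ) p v u := by
  refine second_derivative_symmetric_of_eventually (f' := fderiv ℝ φ) (f := φ) (x := p) ?_
    (h.diff2 hp).hasFDerivAt u v
  filter_upwards [Om_open.mem_nhds hp] with q hq using
    (T.diff (m := m + 1) h q hq).hasFDerivAt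

lemma fderiv_apply_const {φ : ST n → ℝ} (h : T a b (m + 2) φ) {p : ST n} (hp : p ∈ Om n a b)
    (u v : ST n) : fderiv ℝ (fun q => fderiv ℝ φ q v) p u = fderiv ℝ (fderiv ℝ φ) p u v := by
  have h1 := (h.diff2 hp).hasFDerivAt.clm_apply (hasFDerivAt_const v p)
  rw [h1.fderiv]; simp

lemma ds_dy {φ : ST n → ℝ} (h : T a b (m + 2) φ) (k : Fin n) {p : ST n} (hp : p ∈ Om n a b) :
    ds (dy k φ) p = dy k (ds φ) p := by
  change fderiv ℝ (fun q => fderiv ℝ φ q _) p _ = fderiv ℝ (fun q => fderiv ℝ φ q _) p _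
  rw [fderiv_apply_const h hp, fderiv_apply_const h hp, symm2 h hp]

lemma dy_dy {φ : ST n → ℝ} (h : T a b (m + 2) φ) (j k : Fin n) {p : ST n} (hp : p ∈ Om n a b) :
    dy j (dy k φ) p = dy k (dy j φ) p := by
  change fderiv ℝ (fun q => fderiv ℝ φ q _) p _ = fderiv ℝ (fun q => fderiv ℝ φ q _) p _
  rw [fderiv_apply_const h hp, fderiv_apply_const h hp, symm2 h hp]

/-! ### slices -/

lemma mem_Om {s : ℝ} (hs : a < s ∧ s < b) (y : E n) : (s, y) ∈ Om n a b := hs

lemma hasFDerivAt_slice {φ : ST n → ℝ} {s : ℝ} {y : E n} (h : DifferentiableAt ℝ φ (s, y)) :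
    HasFDerivAt (fun y => φ (s, y)) ((fderiv ℝ φ (s, y)).comp (ContinuousLinearMap.inr ℝ ℝ (E n))) y := by
  have h1 : HasFDerivAt (fun y : E n => ((s, y) : ST n)) (ContinuousLinearMap.inr ℝ ℝ (E n)) y :=
    hasFDerivAt_prodMk_right s y
  exact h.hasFDerivAt.comp y h1

lemma pd_slice {φ : ST n → ℝ} {s : ℝ} {y : E n} (k : Fin n) (h : DifferentiableAt ℝ φ (s, y)) :
    pd k (fun y => φ (s, y)) y = dy k φ (s, y) := by
  unfold pd dy
  rw [(hasFDerivAt_slice h).fderiv]; simp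

lemma hasDerivAt_slice {φ : ST n → ℝ} {s : ℝ} {y : E n} (h : DifferentiableAt ℝ φ (s, y)) :
    HasDerivAt (fun s => φ (s, y)) (ds φ (s, y)) s := by
  have h1 : HasDerivAt (fun s : ℝ => ((s, y) : ST n)) ((1 : ℝ), (0 : E n)) s :=
    (hasDerivAt_id s).prodMk (hasDerivAt_const s y)
  exact h.hasFDerivAt.comp_hasDerivAt s h1

lemma T.slice_cont {φ : ST n → ℝ} (h : T a b m φ) {s : ℝ} (hs : a < s ∧ s < b) :
    Continuous fun y => φ (s, y) := by
  refine continuous_iff_continuousAt.2 fun y => ?_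
  have h1 : ContinuousAt φ (s, y) := h.cont.continuousAt (Om_open.mem_nhds (mem_Om hs y))
  exact ContinuousAt.comp (f := fun y : E n => ((s, y) : ST n)) h1 (by fun_prop)

lemma T.slice_EG {φ : ST n → ℝ} (h : T a b m φ) {s : ℝ} (hs : a < s ∧ s < b) :
    EG fun y => φ (s, y) := by
  obtain ⟨C, hC, hb⟩ := h.bd
  exact ⟨(h.slice_cont hs).measurable, C, C, hC, hC, fun y => hb (s, y) hs⟩

lemma T.slice_diff {φ : ST n → ℝ} (h : T a b (m + 1) φ) {s : ℝ} (hs : a < s ∧ s < b) :
    Differentiable ℝ fun y => φ (s, y) := fun y =>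
  (hasFDerivAt_slice (h.diff (s, y) hs)).differentiableAt

end Crest.Agent.R201.Hf391
end

-- ▼ part R201/Hf2_391
section

/-!
# R201 flow calculus: the posterior means `pE w s F y` are tame in `(s, y)` (helper391)
-/

set_option autoImplicit false
open MeasureTheory Matrix Filter Topology
open scoped RealInnerProductSpace

namespace Crest.Agent.R201.Hf391

open Crest.Agent.R201 Crest.Agent.R201.An

variable {n : ℕ} {a b : ℝ} {w F G : E n → ℝ} {s c R : ℝ}

/-! ### joint differentiation of `Lp` -/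

/-- derivative of the kernel in `(s, y)` -/
noncomputable def gkD (s : ℝ) (z : E n) : ST n →L[ℝ] ℝ :=
  gk s z • ((‖z‖ ^ 2 / (2 * s ^ 2)) • ContinuousLinearMap.fst ℝ ℝ (E n) -
    (1 / s) • (innerSL ℝ z).comp (ContinuousLinearMap.snd ℝ ℝ (E n)))

lemma gk_joint (x : E n) {p : ST n} (hp : 0 < p.1) :
    HasFDerivAt (fun p : ST n => gk p.1 (p.2 - x)) (gkD p.1 (p.2 - x)) p := by
  have h1 : HasFDerivAt (fun p : ST n => p.2 - x) (ContinuousLinearMap.snd ℝ ℝ (E n)) p :=
    (ContinuousLinearMap.snd ℝ ℝ (E n)).hasFDerivAt.sub_const x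
  have h2 : HasFDerivAt (fun z : E n => ‖z‖ ^ 2) ((2 : ℝ) • innerSL ℝ (p.2 - x)) (p.2 - x) := by
    have := (hasStrictFDerivAt_norm_sq (p.2 - x)).hasFDerivAt
    convert! this using 1
    ext v
    simp [two_smul]
  have h3 : HasFDerivAt (fun p : ST n => ‖p.2 - x‖ ^ 2)
      (((2 : ℝ) • innerSL ℝ (p.2 - x)).comp (ContinuousLinearMap.snd ℝ ℝ (E n))) p :=
    HasFDerivAt.comp (g := fun z : E n => ‖z‖ ^ 2) (f := fun p : ST n => p.2 - x) p h2 h1
  have h4 : HasFDerivAt (fun p : ST n => (2 * p.1)) ((2 : ℝ) • ContinuousLinearMap.fst ℝ ℝ (E n)) p :=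
    (ContinuousLinearMap.fst ℝ ℝ (E n)).hasFDerivAt.const_mul 2
  have h5 : HasFDerivAt (fun p : ST n => (2 * p.1)⁻¹)
      ((-((2 * p.1) ^ 2)⁻¹) • ((2 : ℝ) • ContinuousLinearMap.fst ℝ ℝ (E n))) p :=
    (hasDerivAt_inv (by positivity : (2 * p.1) ≠ 0)).comp_hasFDerivAt p h4
  have h6 := ((h3.mul h5).neg).exp
  have e : (fun p : ST n => gk p.1 (p.2 - x)) = fun p : ST n =>
      Real.exp ((-((fun p : ST n => ‖p.2 - x‖ ^ 2) * fun p : ST n => (2 * p.1)⁻¹)) p) := by
    funext q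
    simp only [gk, Pi.neg_apply, Pi.mul_apply, div_eq_mul_inv]
  have e' : Real.exp ((-((fun p : ST n => ‖p.2 - x‖ ^ 2) * fun p : ST n => (2 * p.1)⁻¹)) p) =
      gk p.1 (p.2 - x) := by
    simp only [gk, Pi.neg_apply, Pi.mul_apply, div_eq_mul_inv]
  rw [e'] at h6
  rw [e]
  refine h6.congr_fderiv ?_
  have hp' : p.1 ≠ 0 := hp.ne'
  unfold gkD
  congr 1
  refine ContinuousLinearMap.ext fun v => ?_
  simp only [_root_.neg_apply, _root_.add_apply, _root_.sub_apply, _root_.smul_apply, smul_eq_mul,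
    ContinuousLinearMap.comp_apply, ContinuousLinearMap.coe_fst', ContinuousLinearMap.coe_snd',
    innerSL_apply_apply]
  field_simp
  ring

lemma gkD_apply (s : ℝ) (z : E n) (v : ST n) :
    gkD s z v = gk s z * (‖z‖ ^ 2 / (2 * s ^ 2) * v.1 - (1 / s) * ∑ k, z k * v.2 k) := by
  have e2 : (inner ℝ z v.2 : ℝ) = ∑ k, z k * v.2 k := by
    rw [PiLp.inner_apply]
    exact Finset.sum_congr rfl fun k _ => by simp [mul_comm]
  simp [gkD, e2]

lemma gkD_norm_le {s s₁ : ℝ} (hs₁ : 0 < s₁) (h : s₁ ≤ s) (z : E n) :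
    ‖gkD s z‖ ≤ (1 / (2 * s₁ ^ 2) + 1 / s₁) * Real.exp (2 * ‖z‖) := by
  have hs : 0 < s := hs₁.trans_le h
  refine ContinuousLinearMap.opNorm_le_bound _ (by positivity) fun v => ?_
  have h1 : ‖v.1‖ ≤ ‖v‖ := norm_fst_le v
  have h2 : ‖v.2‖ ≤ ‖v‖ := norm_snd_le v
  have e : gkD s z v = gk s z * (‖z‖ ^ 2 / (2 * s ^ 2) * v.1 - (1 / s) * inner ℝ z v.2) := by
    simp [gkD]
  rw [e, norm_mul, Real.norm_eq_abs, abs_of_pos (gk_pos s z)]
  have h3 : gk s z ≤ 1 := gk_le_one hs z
  have h4 : ‖‖z‖ ^ 2 / (2 * s ^ 2) * v.1 - (1 / s) * inner ℝ z v.2‖ ≤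
      (1 / (2 * s₁ ^ 2) + 1 / s₁) * Real.exp (2 * ‖z‖) * ‖v‖ := by
    refine (norm_sub_le _ _).trans ?_
    rw [norm_mul, norm_mul, Real.norm_of_nonneg (by positivity : 0 ≤ ‖z‖ ^ 2 / (2 * s ^ 2)),
      Real.norm_of_nonneg (by positivity : 0 ≤ 1 / s)]
    have h5 : ‖(inner ℝ z v.2 : ℝ)‖ ≤ ‖z‖ * ‖v‖ :=
      (norm_inner_le_norm z v.2).trans (by gcongr)
    have h6 : ‖z‖ ≤ Real.exp (‖z‖) := by linarith [Real.add_one_le_exp ‖z‖]
    have h7 : ‖z‖ ^ 2 ≤ Real.exp (2 * ‖z‖) := by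
      calc ‖z‖ ^ 2 ≤ Real.exp ‖z‖ ^ 2 := by gcongr
        _ = Real.exp (2 * ‖z‖) := by rw [← Real.exp_nat_mul]; norm_num
    have h8 : ‖z‖ ≤ Real.exp (2 * ‖z‖) := h6.trans (Real.exp_le_exp.2 (by linarith [norm_nonneg z]))
    calc ‖z‖ ^ 2 / (2 * s ^ 2) * ‖v.1‖ + 1 / s * ‖(inner ℝ z v.2 : ℝ)‖
        ≤ Real.exp (2 * ‖z‖) / (2 * s₁ ^ 2) * ‖v‖ + 1 / s₁ * (‖z‖ * ‖v‖) := by gcongr
      _ ≤ Real.exp (2 * ‖z‖) / (2 * s₁ ^ 2) * ‖v‖ + 1 / s₁ * (Real.exp (2 * ‖z‖) * ‖v‖) := by gcongr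
      _ = _ := by ring
  calc gk s z * ‖‖z‖ ^ 2 / (2 * s ^ 2) * v.1 - (1 / s) * inner ℝ z v.2‖
      ≤ 1 * ‖‖z‖ ^ 2 / (2 * s ^ 2) * v.1 - (1 / s) * inner ℝ z v.2‖ := by gcongr
    _ ≤ _ := by rw [one_mul]; exact h4

lemma gkD_meas (s : ℝ) (y : E n) : Measurable fun x : E n => gkD s (y - x) := by
  refine Continuous.measurable ?_
  have h1 : Continuous fun x : E n => y - x := by fun_prop
  have h2 : Continuous fun z : E n => gkD s z := by
    unfold gkD
    refine Continuous.smul (gk_cont s) ?_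
    refine Continuous.sub ?_ ?_
    · exact Continuous.smul (by fun_prop : Continuous fun z : E n => ‖z‖ ^ 2 / (2 * s ^ 2))
        continuous_const
    · refine Continuous.const_smul ?_ (1 / s)
      exact Continuous.clm_comp (innerSL ℝ (E := E n)).continuous continuous_const
  exact h2.comp h1

attribute [irreducible] gkD

/-- the time coefficient -/
noncomputable def LpS (w : E n → ℝ) (s : ℝ) (F : E n → ℝ) (y : E n) : ℝ :=
  (Lp w s (fun x => F x * ‖x‖ ^ 2) y - 2 * (∑ k, y k * Lp w s (fun x => F x * x k) y) +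
    ‖y‖ ^ 2 * Lp w s F y) / (2 * s ^ 2)

lemma EG.nsq : EG fun x : E n => ‖x‖ ^ 2 := by
  simpa [sq] using EG.norm.mul EG.norm

set_option maxHeartbeats 1000000 in
theorem hasFDerivAt_Lq (hw : Ex w) (hF : EG F) {p : ST n} (hp : 0 < p.1) :
    HasFDerivAt (fun p : ST n => Lp w p.1 F p.2)
      (lf (LpS w p.1 F p.2) fun k => (Lp w p.1 (fun x => F x * x k) p.2 - p.2 k * Lp w p.1 F p.2) / p.1)
      p := by
  obtain ⟨s₀, y₀⟩ := p
  simp only at hp ⊢
  obtain ⟨mF, C, a, hC, ha, h⟩ := id hF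
  have mw := hw.meas
  have mg : ∀ (s : ℝ) (y : E n), Measurable fun x : E n => gk s (y - x) := fun s y =>
    (gk_cont (n := n) s).measurable.comp (measurable_const.sub measurable_id)
  set K : ℝ := 1 / (2 * (s₀ / 2) ^ 2) + 1 / (s₀ / 2) with hK
  have hK0 : 0 ≤ K := by positivity
  let F₁ : ST n → E n → ℝ := fun p x => F x * (w x * gk p.1 (p.2 - x))
  let F' : ST n → E n → (ST n →L[ℝ] ℝ) := fun p x => (F x * w x) • gkD p.1 (p.2 - x)
  have key : HasFDerivAt (fun p : ST n => ∫ x, F₁ p x) (∫ x, F' (s₀, y₀) x) (s₀, y₀) := by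
    refine hasFDerivAt_integral_of_dominated_of_fderiv_le (F := F₁) (F' := F')
      (x₀ := ((s₀, y₀) : ST n))
      (s := Metric.ball ((s₀, y₀) : ST n) (min 1 (s₀ / 2)))
      (bound := fun x => K * (C * (Real.exp (2 * (‖y₀‖ + 1)) * (Real.exp ((a + 2) * ‖x‖) * w x))))
      (Metric.ball_mem_nhds _ (by positivity)) ?_ (hw.int_Lp hp hF y₀) ?_ ?_ ?_ ?_
    · exact Eventually.of_forall fun p => (mF.mul (mw.mul (mg _ _))).aestronglyMeasurable
    · exact ((mF.mul mw).smul (gkD_meas _ _)).aestronglyMeasurable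
    · refine ae_of_all _ fun x q hq => ?_
      have hq' := mem_ball_iff_norm.1 hq
      have hq1 : ‖q.1 - s₀‖ ≤ ‖q - (s₀, y₀)‖ := norm_fst_le (q - (s₀, y₀))
      have hq2 : ‖q.2 - y₀‖ ≤ ‖q - (s₀, y₀)‖ := norm_snd_le (q - (s₀, y₀))
      have hs1 : s₀ / 2 ≤ q.1 := by
        have : |q.1 - s₀| < s₀ / 2 := by
          rw [← Real.norm_eq_abs]
          exact (hq1.trans_lt hq').trans_le (min_le_right _ _)
        linarith [(abs_lt.1 this).1]
      have h2 : ‖q.2 - x‖ ≤ ‖y₀‖ + 1 + ‖x‖ := by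
        have h3 : ‖q.2 - y₀‖ < 1 := (hq2.trans_lt hq').trans_le (min_le_left _ _)
        calc ‖q.2 - x‖ = ‖(q.2 - y₀) + y₀ - x‖ := by congr 1; abel
          _ ≤ ‖(q.2 - y₀) + y₀‖ + ‖x‖ := norm_sub_le _ _
          _ ≤ ‖q.2 - y₀‖ + ‖y₀‖ + ‖x‖ := by gcongr; exact norm_add_le _ _
          _ ≤ _ := by linarith
      show ‖(F x * w x) • gkD q.1 (q.2 - x)‖ ≤ _
      rw [norm_smul, norm_mul, Real.norm_eq_abs, Real.norm_eq_abs, abs_of_nonneg (hw.nonneg x)]
      have h5 := gkD_norm_le (by positivity : 0 < s₀ / 2) hs1 (q.2 - x)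
      have h6 := hw.nonneg x
      calc |F x| * w x * ‖gkD q.1 (q.2 - x)‖
          ≤ (C * Real.exp (a * ‖x‖)) * w x * (K * Real.exp (2 * ‖q.2 - x‖)) := by
            gcongr
            exact h x
        _ ≤ (C * Real.exp (a * ‖x‖)) * w x * (K * Real.exp (2 * (‖y₀‖ + 1 + ‖x‖))) := by
            gcongr
        _ = _ := by
            rw [show (a + 2) * ‖x‖ = a * ‖x‖ + 2 * ‖x‖ by ring, Real.exp_add (a * ‖x‖),
              show 2 * (‖y₀‖ + 1 + ‖x‖) = 2 * (‖y₀‖ + 1) + 2 * ‖x‖ by ring,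
              Real.exp_add (2 * (‖y₀‖ + 1))]
            ring
    · exact (((hw.int (a + 2)).const_mul _).const_mul _).const_mul _
    · refine ae_of_all _ fun x q hq => ?_
      have hq' := mem_ball_iff_norm.1 hq
      have hq1 : ‖q.1 - s₀‖ ≤ ‖q - (s₀, y₀)‖ := norm_fst_le (q - (s₀, y₀))
      have hs1 : 0 < q.1 := by
        have : |q.1 - s₀| < s₀ / 2 := by
          rw [← Real.norm_eq_abs]
          exact (hq1.trans_lt hq').trans_le (min_le_right _ _)
        linarith [(abs_lt.1 this).1]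
      have := (gk_joint x hs1).const_mul (F x * w x)
      refine this.congr_of_eventuallyEq (Eventually.of_forall fun z => ?_)
      show F x * (w x * gk z.1 (z.2 - x)) = F x * w x * gk z.1 (z.2 - x)
      ring
  have hint : Integrable fun x => (F x * w x) • gkD s₀ (y₀ - x) := by
    refine Integrable.mono' (g := fun x => K * (C * (Real.exp (2 * (‖y₀‖ + 1)) *
      (Real.exp ((a + 2) * ‖x‖) * w x)))) ((((hw.int (a + 2)).const_mul _).const_mul _).const_mul _)
      ((mF.mul mw).smul (gkD_meas _ _)).aestronglyMeasurable (ae_of_all _ fun x => ?_)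
    rw [norm_smul, norm_mul, Real.norm_eq_abs, Real.norm_eq_abs, abs_of_nonneg (hw.nonneg x)]
    have h5 := gkD_norm_le (by positivity : 0 < s₀ / 2) (by linarith : s₀ / 2 ≤ s₀) (y₀ - x)
    have h6 := hw.nonneg x
    have h2 : ‖y₀ - x‖ ≤ ‖y₀‖ + 1 + ‖x‖ := (norm_sub_le _ _).trans (by linarith)
    calc |F x| * w x * ‖gkD s₀ (y₀ - x)‖
        ≤ (C * Real.exp (a * ‖x‖)) * w x * (K * Real.exp (2 * ‖y₀ - x‖)) := by
          gcongr
          exact h x
      _ ≤ (C * Real.exp (a * ‖x‖)) * w x * (K * Real.exp (2 * (‖y₀‖ + 1 + ‖x‖))) := by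
          gcongr
      _ = _ := by
          rw [show (a + 2) * ‖x‖ = a * ‖x‖ + 2 * ‖x‖ by ring, Real.exp_add (a * ‖x‖),
            show 2 * (‖y₀‖ + 1 + ‖x‖) = 2 * (‖y₀‖ + 1) + 2 * ‖x‖ by ring,
            Real.exp_add (2 * (‖y₀‖ + 1))]
          ring
  have e : (∫ x, (F x * w x) • gkD s₀ (y₀ - x)) = lf (LpS w s₀ F y₀)
      fun k => (Lp w s₀ (fun x => F x * x k) y₀ - y₀ k * Lp w s₀ F y₀) / s₀ := by
    refine ContinuousLinearMap.ext fun v => ?_
    rw [ContinuousLinearMap.integral_apply hint, lf_apply]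
    have i1 : ∀ k, Integrable fun x => F x * x k * (w x * gk s₀ (y₀ - x)) := fun k =>
      hw.int_Lp hp (hF.mul (EG.coord k)) y₀
    have i2 := hw.int_Lp hp hF y₀
    have i3 : Integrable fun x => F x * ‖x‖ ^ 2 * (w x * gk s₀ (y₀ - x)) :=
      hw.int_Lp hp (hF.mul EG.nsq) y₀
    have e1 : ∀ x, ((F x * w x) • gkD s₀ (y₀ - x)) v =
        (v.1 / (2 * s₀ ^ 2)) * ((F x * ‖x‖ ^ 2 * (w x * gk s₀ (y₀ - x)) -
          2 * ∑ k, y₀ k * (F x * x k * (w x * gk s₀ (y₀ - x)))) +
          ‖y₀‖ ^ 2 * (F x * (w x * gk s₀ (y₀ - x)))) +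
        ∑ k, (v.2 k / s₀) * (F x * x k * (w x * gk s₀ (y₀ - x)) -
          y₀ k * (F x * (w x * gk s₀ (y₀ - x)))) := by
      intro x
      have e2 : ‖y₀ - x‖ ^ 2 = ‖x‖ ^ 2 - 2 * (∑ k, y₀ k * x k) + ‖y₀‖ ^ 2 := by
        have : (inner ℝ y₀ x : ℝ) = ∑ k, y₀ k * x k := by
          rw [PiLp.inner_apply]
          exact Finset.sum_congr rfl fun k _ => by simp [mul_comm]
        rw [norm_sub_sq_real, this]; ring
      rw [_root_.smul_apply, gkD_apply, smul_eq_mul, e2]
      have e3 : ∑ k, y₀ k * (F x * x k * (w x * gk s₀ (y₀ - x))) =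
          (F x * (w x * gk s₀ (y₀ - x))) * ∑ k, y₀ k * x k := by
        rw [Finset.mul_sum]; exact Finset.sum_congr rfl fun k _ => by ring
      have e4 : ∑ k, (v.2 k / s₀) * (F x * x k * (w x * gk s₀ (y₀ - x)) -
          y₀ k * (F x * (w x * gk s₀ (y₀ - x)))) =
          -((F x * (w x * gk s₀ (y₀ - x))) * ((1 / s₀) * ∑ k, (y₀ - x) k * v.2 k)) := by
        rw [Finset.mul_sum, Finset.mul_sum, ← Finset.sum_neg_distrib]
        refine Finset.sum_congr rfl fun k _ => ?_
        simp only [PiLp.sub_apply]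
        ring
      rw [e3, e4]
      ring
    rw [integral_congr_ae (ae_of_all _ e1)]
    have i4 : Integrable fun x => (F x * ‖x‖ ^ 2 * (w x * gk s₀ (y₀ - x)) -
          2 * ∑ k, y₀ k * (F x * x k * (w x * gk s₀ (y₀ - x)))) +
          ‖y₀‖ ^ 2 * (F x * (w x * gk s₀ (y₀ - x))) :=
      (i3.sub ((integrable_finsetSum _ fun k _ => (i1 k).const_mul (y₀ k)).const_mul 2)).add
        (i2.const_mul _)
    have i5 : ∀ k, Integrable fun x => (v.2 k / s₀) * (F x * x k * (w x * gk s₀ (y₀ - x)) -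
        y₀ k * (F x * (w x * gk s₀ (y₀ - x)))) := fun k =>
      ((i1 k).sub (i2.const_mul (y₀ k))).const_mul (v.2 k / s₀)
    have i6 : Integrable fun x => 2 * ∑ k, y₀ k * (F x * x k * (w x * gk s₀ (y₀ - x))) :=
      (integrable_finsetSum _ fun k _ => (i1 k).const_mul (y₀ k)).const_mul 2
    have i7 : Integrable fun x => F x * ‖x‖ ^ 2 * (w x * gk s₀ (y₀ - x)) -
          2 * ∑ k, y₀ k * (F x * x k * (w x * gk s₀ (y₀ - x))) := i3.sub i6
    rw [integral_add (i4.const_mul _) (integrable_finsetSum _ fun k _ => i5 k),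
      integral_const_mul, integral_add i7 (i2.const_mul _),
      integral_sub i3 i6,
      integral_const_mul, integral_const_mul, integral_finsetSum _ fun k _ => (i1 k).const_mul (y₀ k),
      integral_finsetSum _ fun k _ => i5 k]
    congr 1
    · simp_rw [integral_const_mul]
      unfold LpS An.Lp
      ring
    · refine Finset.sum_congr rfl fun k _ => ?_
      rw [integral_const_mul, integral_sub (i1 k) (i2.const_mul _), integral_const_mul]
      unfold An.Lp
      ring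
  rw [← e]
  exact key

lemma lf_ds {φ : ST n → ℝ} {p : ST n} {α : ℝ} {β : Fin n → ℝ} (h : HasFDerivAt φ (lf α β) p) :
    ds φ p = α := by
  unfold ds; rw [h.fderiv, lf_apply]; simp


/-- posterior mean as a space-time function -/
noncomputable def PE (w : E n → ℝ) (F : E n → ℝ) (p : ST n) : ℝ := pE w p.1 F p.2

lemma PE_diff (hw : Ex w) (hF : EG F) {p : ST n} (hp : 0 < p.1) : DifferentiableAt ℝ (PE w F) p := by
  have h0 := Lp_one_pos hw hp p.2
  have e0 : PE w F = (fun p : ST n => Lp w p.1 F p.2) *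
      (fun y => y⁻¹) ∘ fun p : ST n => Lp w p.1 (fun _ => 1) p.2 := by
    funext q
    simp only [PE, pE, div_eq_mul_inv, Function.comp_apply, Pi.mul_apply]
  rw [e0]
  exact ((hasFDerivAt_Lq hw hF hp).mul
    ((hasDerivAt_inv h0.ne').comp_hasFDerivAt p (hasFDerivAt_Lq hw (EG.const 1) hp))).differentiableAt

lemma dy_PE (hw : Ex w) (hF : EG F) {p : ST n} (hp : 0 < p.1) (k : Fin n) :
    dy k (PE w F) p =
      (PE w (fun x => F x * x k) p - PE w F p * PE w (fun x => x k) p) * p.1⁻¹ := by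
  rw [← pd_slice (φ := PE w F) (s := p.1) (y := p.2) k (PE_diff hw hF hp)]
  exact (pd_pE hw hp hF k p.2).trans (div_eq_mul_inv _ _)

lemma ds_PE (hw : Ex w) (hF : EG F) {p : ST n} (hp : 0 < p.1) :
    ds (PE w F) p =
      ((PE w (fun x => F x * ‖x‖ ^ 2) p - PE w F p * PE w (fun x => ‖x‖ ^ 2) p) -
        2 * ∑ k, p.2 k * (PE w (fun x => F x * x k) p - PE w F p * PE w (fun x => x k) p)) *
        (2⁻¹ * (p.1⁻¹ * p.1⁻¹)) := by
  have h0 := Lp_one_pos hw hp p.2
  have d1 := hasFDerivAt_Lq hw hF hp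
  have d2 := hasFDerivAt_Lq hw (EG.const 1) hp
  have d3 := d1.mul ((hasDerivAt_inv h0.ne').comp_hasFDerivAt p d2)
  have e0 : PE w F = (fun p : ST n => Lp w p.1 F p.2) *
      (fun y => y⁻¹) ∘ fun p : ST n => Lp w p.1 (fun _ => 1) p.2 := by
    funext q
    simp only [PE, pE, div_eq_mul_inv, Function.comp_apply, Pi.mul_apply]
  have e9 : ds (PE w F) p = fderiv ℝ ((fun p : ST n => Lp w p.1 F p.2) *
      (fun y => y⁻¹) ∘ fun p : ST n => Lp w p.1 (fun _ => 1) p.2) p ((1 : ℝ), (0 : E n)) := by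
    unfold ds; rw [e0]
  rw [e9, d3.fderiv]
  simp only [_root_.smul_apply, _root_.add_apply, smul_eq_mul, Function.comp_apply, lf_apply]
  simp only [PiLp.zero_apply, zero_mul, Finset.sum_const_zero, add_zero, one_mul]
  unfold PE pE LpS
  simp only [one_mul]
  have e1 : ∑ k, p.2 k * (Lp w p.1 (fun x => F x * x k) p.2 / Lp w p.1 (fun _ => 1) p.2 -
      Lp w p.1 F p.2 / Lp w p.1 (fun _ => 1) p.2 *
        (Lp w p.1 (fun x => x k) p.2 / Lp w p.1 (fun _ => 1) p.2)) =
      (∑ k, p.2 k * Lp w p.1 (fun x => F x * x k) p.2) * (Lp w p.1 (fun _ => 1) p.2)⁻¹ -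
      Lp w p.1 F p.2 * (Lp w p.1 (fun _ => 1) p.2)⁻¹ ^ 2 *
        (∑ k, p.2 k * Lp w p.1 (fun x => x k) p.2) := by
    rw [Finset.sum_mul, Finset.mul_sum, ← Finset.sum_sub_distrib]
    refine Finset.sum_congr rfl fun k _ => ?_
    field_simp
  rw [e1]
  have hp' := hp.ne'
  have h0' := h0.ne'
  field_simp
  ring

lemma T.timeInv (m : ℕ) (ha : 0 < a) : T a b m (fun p : ST n => p.1⁻¹) :=
  T.inv ha (T.time m) fun p hp => hp.1.le

/-- **posterior means are tame** -/
theorem T.PE (hw : Wt c R w) (ha : 0 < a) : ∀ (m : ℕ) {F : E n → ℝ}, EG F → T a b m (PE w F) := by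
  have base : ∀ {F : E n → ℝ}, EG F → T0 a b (Hf391.PE w F) := by
    intro F hF
    refine ⟨fun p hp => (PE_diff hw.ex hF (ha.trans hp.1)).continuousAt.continuousWithinAt, ?_⟩
    obtain ⟨C, a', hC, ha', hB⟩ := hF.2
    refine ⟨C * Real.exp (a' * R), by positivity, fun p hp => ?_⟩
    have h1 : |Hf391.PE w F p| ≤ C * Real.exp (a' * R) :=
      An.pE_bdd hw (ha.trans hp.1) hF (fun x hx => (hB x).trans
        (mul_le_mul_of_nonneg_left (Real.exp_le_exp.2 (mul_le_mul_of_nonneg_left hx ha')) hC)) p.2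
    have h2 : 1 ≤ Real.exp (C * Real.exp (a' * R) * ‖p.2‖) := Real.one_le_exp (by positivity)
    have h3 : 0 ≤ C * Real.exp (a' * R) := by positivity
    nlinarith
  intro m
  induction m with
  | zero => intro F hF; exact base hF
  | succ m ih =>
    intro F hF
    refine ⟨base hF, fun p hp => PE_diff hw.ex hF (ha.trans hp.1), ?_, fun k => ?_⟩
    · have h1 := ((ih (hF.mul EG.nsq)).sub ((ih hF).mul (ih (EG.nsq (n := n))))).sub
        ((T.sum (Finset.univ : Finset (Fin n)) fun k _ => (T.coord (a := a) (b := b) m k).mul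
          ((ih (hF.mul (EG.coord k))).sub ((ih hF).mul (ih (EG.coord k))))).smul 2)
      have h2 := h1.mul (((T.timeInv (n := n) (b := b) m ha).mul (T.timeInv m ha)).smul 2⁻¹)
      exact h2.congr fun p hp => ds_PE hw.ex hF (ha.trans hp.1)
    · have h1 := ((ih (hF.mul (EG.coord k))).sub ((ih hF).mul (ih (EG.coord k)))).mul
        (T.timeInv (n := n) (b := b) m ha)
      exact h1.congr fun p hp => dy_PE hw.ex hF (ha.trans hp.1) k

end Crest.Agent.R201.Hf391
end

-- ▼ part R201/Hf3_391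
section

/-!
# R201 flow calculus: the time-derivative theorem for `Em (Lp w s 1)` (helper391)

`EE w s φ = Em (Lp w s 1) (φ (s, ·))`;
`d/ds EE w s φ = EE w s (∂_s φ + ½ ∑ V_k ∂_k φ) = EE w s (∂_s φ + ½ Δ φ)`.
-/

set_option autoImplicit false
open MeasureTheory Matrix Filter Topology
open scoped RealInnerProductSpace

namespace Crest.Agent.R201.Hf391

open Crest.Agent.R201 Crest.Agent.R201.An

variable {n : ℕ} {a b : ℝ} {m : ℕ} {w F G : E n → ℝ} {s c R : ℝ}

/-- gradient of the potential as a space-time function -/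
noncomputable def VG (w : E n → ℝ) (k : Fin n) (p : ST n) : ℝ := Vg w p.1 k p.2

/-- Hessian of the potential as a space-time function -/
noncomputable def VH (w : E n → ℝ) (i j : Fin n) (p : ST n) : ℝ := Vh w p.1 p.2 i j

lemma T.VG (hw : Wt c R w) (ha : 0 < a) (m : ℕ) (k : Fin n) : T a b m (VG w k) :=
  (((T.coord (a := a) (b := b) m k).sub (T.PE hw ha m (EG.coord k))).mul
    (T.timeInv (n := n) (b := b) m ha)).congr fun p _ => by
      simp only [Hf391.VG, Vg, Hf391.PE, div_eq_mul_inv]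

lemma dy_VG (hw : Wt c R w) {p : ST n} (hp : 0 < p.1) (j k : Fin n) :
    dy j (VG w k) p = VH w j k p := by
  have h : T (p.1 / 2) (p.1 + 1) 1 (VG w k) := T.VG hw (by positivity) 1 k
  have hm : p.1 / 2 < p.1 ∧ p.1 < p.1 + 1 := ⟨by linarith, by linarith⟩
  rw [← pd_slice (φ := VG w k) (s := p.1) (y := p.2) j (h.diff (p.1, p.2) hm)]
  exact pd_Vg hw.ex hp j k p.2

lemma T.VH (hw : Wt c R w) (ha : 0 < a) (m : ℕ) (j k : Fin n) : T a b m (VH w j k) :=
  ((T.VG hw ha (m + 1) k).hdy j).congr fun p hp => (dy_VG hw (ha.trans hp.1) j k).symm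

lemma VH_symm (w : E n → ℝ) (i j : Fin n) (p : ST n) : VH w i j p = VH w j i p := by
  unfold VH
  conv_lhs => rw [← Vh_symm w p.1 p.2, Matrix.transpose_apply]

/-! ### the averages -/

/-- average of a space-time function over `X + √s G` -/
noncomputable def EE (w : E n → ℝ) (s : ℝ) (φ : ST n → ℝ) : ℝ :=
  Em (Lp w s fun _ => 1) fun y => φ (s, y)

lemma EE_congr {φ ψ : ST n → ℝ} (h : ∀ y, φ (s, y) = ψ (s, y)) : EE w s φ = EE w s ψ := by
  unfold EE; congr 1; funext y; exact h y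

lemma EE_add (hw : Ex w) (hs : 0 < s) (hab : a < s ∧ s < b) {φ ψ : ST n → ℝ} (h : T a b m φ)
    (h' : T a b m ψ) : EE w s (fun p => φ p + ψ p) = EE w s φ + EE w s ψ :=
  Em_add (hw.noisy hs) (h.slice_EG hab) (h'.slice_EG hab)

lemma EE_sub (hw : Ex w) (hs : 0 < s) (hab : a < s ∧ s < b) {φ ψ : ST n → ℝ} (h : T a b m φ)
    (h' : T a b m ψ) : EE w s (fun p => φ p - ψ p) = EE w s φ - EE w s ψ :=
  Em_sub (hw.noisy hs) (h.slice_EG hab) (h'.slice_EG hab)

lemma EE_smul (w : E n → ℝ) (s : ℝ) (r : ℝ) (φ : ST n → ℝ) :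
    EE w s (fun p => r * φ p) = r * EE w s φ := Em_smul _ _ _

lemma EE_sum {ι : Type*} (S : Finset ι) (hw : Ex w) (hs : 0 < s) (hab : a < s ∧ s < b)
    {φ : ι → ST n → ℝ} (h : ∀ i ∈ S, T a b m (φ i)) :
    EE w s (fun p => ∑ i ∈ S, φ i p) = ∑ i ∈ S, EE w s (φ i) :=
  Em_sum S (hw.noisy hs) fun i hi => (h i hi).slice_EG hab

/-- integration by parts -/
theorem EE_ibp (hw : Wt c R w) (hs : 0 < s) (hab : a < s ∧ s < b) {φ : ST n → ℝ}
    (h : T a b (m + 1) φ) (k : Fin n) :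
    EE w s (fun p => VG w k p * φ p) = EE w s (dy k φ) := by
  have h1 := ibp_EG hw hs k (F := fun y => φ (s, y)) (h.slice_diff hab) (h.slice_EG hab) ?_
  · unfold EE
    refine h1.trans ?_
    congr 1
    funext y
    exact pd_slice k (h.diff (s, y) hab)
  · have e : pd k (fun y => φ (s, y)) = fun y => dy k φ (s, y) :=
      funext fun y => pd_slice k (h.diff (s, y) hab)
    rw [e]
    exact (h.hdy k).slice_EG hab

/-! ### the kernel -/

/-- the density (unnormalised) as a space-time function -/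
noncomputable def RR (w : E n → ℝ) (p : ST n) : ℝ := Lp w p.1 (fun _ => 1) p.2

/-- `∂_s R / R` -/
noncomputable def qq (w : E n → ℝ) (p : ST n) : ℝ :=
  2⁻¹ * (∑ k, (VG w k p * VG w k p - VH w k k p)) + (n : ℝ) / 2 * p.1⁻¹

lemma T.qq (hw : Wt c R w) (ha : 0 < a) (m : ℕ) : T a b m (qq w) :=
  ((T.sum (Finset.univ : Finset (Fin n)) fun k _ =>
    ((T.VG hw ha m k).mul (T.VG hw ha m k)).sub (T.VH hw ha m k k)).smul 2⁻¹).add
      ((T.timeInv (n := n) (b := b) m ha).smul _)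

lemma RR_diff (hw : Ex w) {p : ST n} (hp : 0 < p.1) : DifferentiableAt ℝ (RR w) p :=
  (hasFDerivAt_Lq hw (EG.const 1) hp).differentiableAt

lemma ds_RR (hw : Ex w) {p : ST n} (hp : 0 < p.1) : ds (RR w) p = qq w p * RR w p := by
  have h0 := (Lp_one_pos hw hp p.2).ne'
  have hp' := hp.ne'
  have e := lf_ds (hasFDerivAt_Lq hw (EG.const 1) hp)
  have e1 : ds (RR w) p = LpS w p.1 (fun _ => 1) p.2 := e
  rw [e1]
  have e2 : ∀ k, VG w k p * VG w k p - VH w k k p =
      (p.2 k ^ 2 - 2 * p.2 k * pE w p.1 (fun x => x k) p.2 + pE w p.1 (fun x => x k * x k) p.2) *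
        (p.1⁻¹) ^ 2 - p.1⁻¹ := by
    intro k
    simp only [VG, Vg, VH, Vh, pC, Matrix.smul_apply, Matrix.sub_apply, Matrix.one_apply_eq,
      Matrix.of_apply, smul_eq_mul]
    field_simp
    ring
  have e3 : ∑ k, (VG w k p * VG w k p - VH w k k p) =
      (‖p.2‖ ^ 2 - 2 * (∑ k, p.2 k * pE w p.1 (fun x => x k) p.2) +
        pE w p.1 (fun x => ‖x‖ ^ 2) p.2) * (p.1⁻¹) ^ 2 - n * p.1⁻¹ := by
    simp_rw [e2]
    rw [Finset.sum_sub_distrib, ← Finset.sum_mul, Finset.sum_add_distrib, Finset.sum_sub_distrib]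
    have n1 : ∑ k, p.2 k ^ 2 = ‖p.2‖ ^ 2 := (EuclideanSpace.real_norm_sq_eq p.2).symm
    have n2 : (fun x : E n => ‖x‖ ^ 2) = fun x => ∑ k, x k * x k := by
      funext x
      rw [EuclideanSpace.real_norm_sq_eq]
      exact Finset.sum_congr rfl fun k _ => by ring
    rw [n1, n2, pE_sum _ hw hp fun k _ => (EG.coord k).mul (EG.coord k)]
    have n3 : ∑ k, 2 * p.2 k * pE w p.1 (fun x => x k) p.2 =
        2 * ∑ k, p.2 k * pE w p.1 (fun x => x k) p.2 := by
      rw [Finset.mul_sum]; exact Finset.sum_congr rfl fun k _ => by ring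
    rw [n3]
    simp
  unfold qq
  rw [e3]
  unfold LpS RR pE
  simp only [one_mul]
  have e4 : ∑ k, p.2 k * (Lp w p.1 (fun x => x k) p.2 / Lp w p.1 (fun _ => 1) p.2) =
      (∑ k, p.2 k * Lp w p.1 (fun x => x k) p.2) / Lp w p.1 (fun _ => 1) p.2 := by
    rw [Finset.sum_div]; exact Finset.sum_congr rfl fun k _ => by ring
  rw [e4]
  field_simp
  ring

lemma RR_mono (hw : Ex w) {s t : ℝ} (hs : 0 < s) (hst : s ≤ t) (y : E n) :
    Lp w s (fun _ => 1) y ≤ Lp w t (fun _ => 1) y := by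
  have ht : 0 < t := hs.trans_le hst
  unfold An.Lp
  refine integral_mono (hw.int_Lp hs (EG.const 1) y) (hw.int_Lp ht (EG.const 1) y) fun x => ?_
  simp only [one_mul]
  refine mul_le_mul_of_nonneg_left ?_ (hw.nonneg x)
  unfold gk
  refine Real.exp_le_exp.2 (neg_le_neg ?_)
  exact div_le_div_of_nonneg_left (by positivity) (by positivity) (by linarith)

/-- unnormalised time derivative -/
theorem hasDerivAt_int (hw : Wt c R w) (ha : 0 < a) (hab : a < s ∧ s < b) {φ : ST n → ℝ}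
    (h : T a b (m + 1) φ) :
    HasDerivAt (fun s => ∫ y, φ (s, y) * Lp w s (fun _ => 1) y)
      (∫ y, (ds φ (s, y) + φ (s, y) * qq w (s, y)) * Lp w s (fun _ => 1) y) s := by
  have hs : 0 < s := ha.trans hab.1
  have hb : 0 < b := hs.trans hab.2
  have hψ : T a b m (fun p => ds φ p + φ p * qq w p) := h.hds.add ((T.pred h).mul (T.qq hw ha m))
  obtain ⟨C, hC, hbd⟩ := hψ.bd
  have hρ := hw.ex.noisy hb
  have hmeas : ∀ t : ℝ, 0 < t → a < t ∧ t < b →
      AEStronglyMeasurable (fun y => φ (t, y) * Lp w t (fun _ => 1) y) volume := fun t ht hab =>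
    ((h.slice_cont hab).measurable.mul (hw.ex.noisy ht).meas).aestronglyMeasurable
  have key := hasDerivAt_integral_of_dominated_loc_of_deriv_le (μ := (volume : Measure (E n)))
    (F := fun s y => φ (s, y) * Lp w s (fun _ => 1) y)
    (F' := fun s y => (ds φ (s, y) + φ (s, y) * qq w (s, y)) * Lp w s (fun _ => 1) y)
    (x₀ := s) (s := Set.Ioo a b) (bound := fun y => (C * Real.exp (C * ‖y‖)) * Lp w b (fun _ => 1) y)
    (Ioo_mem_nhds hab.1 hab.2) ?_ ?_ ?_ ?_ ?_ ?_
  · exact key.2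
  · filter_upwards [Ioo_mem_nhds hab.1 hab.2] with t ht using hmeas t (ha.trans ht.1) ht
  · exact (hw.ex.noisy hs).int_mul (h.slice_EG hab)
  · exact ((hψ.slice_cont hab).measurable.mul (hw.ex.noisy hs).meas).aestronglyMeasurable
  · refine ae_of_all _ fun y t ht => ?_
    have h1 := hbd (t, y) ht
    have h2 := RR_mono hw.ex (ha.trans ht.1) ht.2.le y
    have h3 := (Lp_one_pos hw.ex (ha.trans ht.1) y).le
    rw [norm_mul, Real.norm_eq_abs, Real.norm_eq_abs, abs_of_nonneg h3]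
    exact mul_le_mul h1 h2 h3 (by positivity)
  · exact hρ.int_mul ((EG.const C).mul (EG.exp C))
  · refine ae_of_all _ fun y t ht => ?_
    have d1 := hasDerivAt_slice (h.diff (t, y) ht)
    have d2 := hasDerivAt_slice (RR_diff hw.ex (p := (t, y)) (ha.trans ht.1))
    rw [ds_RR hw.ex (p := (t, y)) (ha.trans ht.1)] at d2
    have d3 := d1.mul d2
    refine d3.congr_deriv ?_
    unfold RR
    ring

lemma Z_pos (hw : Ex w) (hs : 0 < s) : 0 < ∫ y, Lp w s (fun _ => 1) y := (hw.noisy hs).pos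

lemma int_eq_EE (hw : Ex w) (hs : 0 < s) (φ : ST n → ℝ) :
    ∫ y, φ (s, y) * Lp w s (fun _ => 1) y = EE w s φ * ∫ y, Lp w s (fun _ => 1) y := by
  unfold EE Em
  rw [div_mul_cancel₀ _ (Z_pos hw hs).ne']

lemma EE_qq (hw : Wt c R w) (ha : 0 < a) (hab : a < s ∧ s < b) {φ : ST n → ℝ}
    (h : T a b (m + 1) φ) :
    EE w s (fun p => φ p * qq w p) =
      EE w s (fun p => 2⁻¹ * ∑ k, VG w k p * dy k φ p) + (n : ℝ) / 2 * s⁻¹ * EE w s φ := by
  have hs : 0 < s := ha.trans hab.1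
  have hV := fun k => T.VG (a := a) (b := b) hw ha (m + 1) k
  have hV' := fun k => T.pred (hV k)
  have hH := fun j k => T.VH (a := a) (b := b) hw ha m j k
  have h' := T.pred h
  have e1 : ∀ k, EE w s (fun p => φ p * (VG w k p * VG w k p - VH w k k p)) =
      EE w s (fun p => VG w k p * dy k φ p) := by
    intro k
    have i1 : EE w s (fun p => VG w k p * (φ p * VG w k p)) = EE w s (dy k fun p => φ p * VG w k p) :=
      EE_ibp hw hs hab (h.mul (hV k)) k
    have i2 : EE w s (dy k fun p => φ p * VG w k p) =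
        EE w s (fun p => φ p * VH w k k p + VG w k p * dy k φ p) := by
      refine EE_congr fun y => ?_
      rw [dy_mul k (h.diff _ hab) ((hV k).diff _ hab), dy_VG hw hs]
    have i3 : EE w s (fun p => φ p * (VG w k p * VG w k p - VH w k k p)) =
        EE w s (fun p => VG w k p * (φ p * VG w k p) - φ p * VH w k k p) :=
      EE_congr fun y => by ring
    rw [i3, EE_sub hw.ex hs hab ((hV' k).mul (h'.mul (hV' k))) (h'.mul (hH k k)), i1, i2,
      EE_add hw.ex hs hab (h'.mul (hH k k)) ((hV' k).mul (h.hdy k))]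
    ring
  have t1 : ∀ k ∈ (Finset.univ : Finset (Fin n)),
      T a b m (fun p => φ p * (VG w k p * VG w k p - VH w k k p)) := fun k _ =>
    h'.mul (((hV' k).mul (hV' k)).sub (hH k k))
  have t2 : ∀ k ∈ (Finset.univ : Finset (Fin n)), T a b m (fun p => VG w k p * dy k φ p) :=
    fun k _ => (hV' k).mul (h.hdy k)
  have e2 : EE w s (fun p => φ p * qq w p) =
      EE w s (fun p => 2⁻¹ * (∑ k, φ p * (VG w k p * VG w k p - VH w k k p)) +
        ((n : ℝ) / 2 * s⁻¹) * φ p) := by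
    refine EE_congr fun y => ?_
    unfold qq
    rw [← Finset.mul_sum]
    ring
  rw [e2, EE_add hw.ex hs hab ((T.sum _ t1).smul _) (h'.smul _), EE_smul, EE_smul, EE_smul,
    EE_sum _ hw.ex hs hab t1, EE_sum _ hw.ex hs hab t2, Finset.sum_congr rfl fun k _ => e1 k]

/-- **time derivative of the averages** -/
theorem hasDerivAt_EE (hw : Wt c R w) (ha : 0 < a) (hab : a < s ∧ s < b) {φ : ST n → ℝ}
    (h : T a b (m + 1) φ) :
    HasDerivAt (fun s => EE w s φ)
      (EE w s (fun p => ds φ p + 2⁻¹ * ∑ k, VG w k p * dy k φ p)) s := by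
  have hs : 0 < s := ha.trans hab.1
  have h' := T.pred h
  have hone : T a b (m + 1) (fun _ : ST n => (1 : ℝ)) := T.const _ 1
  have d1 := hasDerivAt_int hw ha hab h
  have d2 := hasDerivAt_int hw ha hab hone
  have hZ := Z_pos hw.ex hs
  have e1 : (∫ y, (ds φ (s, y) + φ (s, y) * qq w (s, y)) * Lp w s (fun _ => 1) y) =
      (EE w s (fun p => ds φ p + 2⁻¹ * ∑ k, VG w k p * dy k φ p) +
        (n : ℝ) / 2 * s⁻¹ * EE w s φ) * ∫ y, Lp w s (fun _ => 1) y := by
    rw [int_eq_EE hw.ex hs (fun p => ds φ p + φ p * qq w p)]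
    congr 1
    have t2 : T a b m (fun p => 2⁻¹ * ∑ k, VG w k p * dy k φ p) :=
      (T.sum _ fun k _ => (T.VG hw ha m k).mul (h.hdy k)).smul _
    rw [EE_add hw.ex hs hab h.hds (h'.mul (T.qq hw ha m)), EE_qq hw ha hab h,
      EE_add hw.ex hs hab h.hds t2]
    ring
  have e2 : (∫ y, (ds (fun _ : ST n => (1 : ℝ)) (s, y) + 1 * qq w (s, y)) * Lp w s (fun _ => 1) y) =
      (n : ℝ) / 2 * s⁻¹ * ∫ y, Lp w s (fun _ => 1) y := by
    rw [int_eq_EE hw.ex hs (fun p => ds (fun _ : ST n => (1 : ℝ)) p + 1 * qq w p)]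
    congr 1
    have e3 : EE w s (fun p => ds (fun _ : ST n => (1 : ℝ)) p + 1 * qq w p) =
        EE w s (fun p => 1 * qq w p) := EE_congr fun y => by rw [ds_const]; simp
    rw [e3, EE_qq hw ha hab hone]
    have e4 : EE w s (fun p => 2⁻¹ * ∑ k, VG w k p * dy k (fun _ : ST n => (1 : ℝ)) p) = 0 := by
      have : EE w s (fun p => 2⁻¹ * ∑ k, VG w k p * dy k (fun _ : ST n => (1 : ℝ)) p) =
          EE w s (fun _ => 0) := EE_congr fun y => by simp [dy_const]
      rw [this]
      exact Em_const (hw.ex.noisy hs) 0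
    have e5 : EE w s (fun _ : ST n => (1 : ℝ)) = 1 := Em_const (hw.ex.noisy hs) 1
    rw [e4, e5]
    ring
  rw [e1] at d1
  rw [e2] at d2
  have e6 : (fun s => ∫ y, (1 : ℝ) * Lp w s (fun _ => 1) y) =
      fun s => ∫ y, Lp w s (fun _ => 1) y := by
    funext t; simp only [one_mul]
  rw [e6] at d2
  have d3 := d1.div d2 hZ.ne'
  have e7 : (fun s => EE w s φ) =
      (fun s => ∫ y, φ (s, y) * Lp w s (fun _ => 1) y) / fun s => ∫ y, Lp w s (fun _ => 1) y := rfl
  rw [e7]
  refine d3.congr_deriv ?_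
  rw [int_eq_EE hw.ex hs φ]
  field_simp
  ring


/-! ### the equation of the posterior mean -/

/-- `∂_s f = ½ Δ f - V'·Df` for `f = pE w s F` -/
theorem PE_pde (hw : Wt c R w) (hF : EG F) {p : ST n} (hp : 0 < p.1) :
    ds (PE w F) p = 2⁻¹ * (∑ k, dy k (dy k (PE w F)) p) - ∑ k, VG w k p * dy k (PE w F) p := by
  have ha : 0 < p.1 / 2 := by positivity
  have hm : p ∈ Om n (p.1 / 2) (p.1 + 1) := ⟨by linarith, by linarith⟩
  have tP : ∀ {G : E n → ℝ}, EG G → T (p.1 / 2) (p.1 + 1) 1 (PE w G) := fun hG => T.PE hw ha 1 hG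
  have hp' := hp.ne'
  have e1 : ∀ k, dy k (dy k (PE w F)) p =
      ((PE w (fun x => F x * (x k * x k)) p - PE w F p * PE w (fun x => x k * x k) p) -
        2 * PE w (fun x => x k) p * (PE w (fun x => F x * x k) p - PE w F p * PE w (fun x => x k) p))
        * (p.1⁻¹ * p.1⁻¹) := by
    intro k
    have c1 : dy k (dy k (PE w F)) p = dy k (fun p =>
        (PE w (fun x => F x * x k) p - PE w F p * PE w (fun x => x k) p) * p.1⁻¹) p :=
      dy_congr (a := p.1 / 2) (b := p.1 + 1)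
        (fun q hq => dy_PE hw.ex hF (ha.trans hq.1) k) k p hm
    have dA := (tP (hF.mul (EG.coord k))).diff p hm
    have dF := (tP hF).diff p hm
    have dX := (tP (EG.coord k)).diff p hm
    have dI := (T.timeInv (n := n) (b := p.1 + 1) 1 ha).diff p hm
    have c2 : dy k (fun p : ST n => p.1⁻¹) p = 0 := by
      have := dy_comp (φ := fun p : ST n => p.1) (p := p) k (g := fun x => x⁻¹)
        ((T.time (n := n) (a := p.1 / 2) (b := p.1 + 1) 1).diff p hm) (hasDerivAt_inv hp')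
      rw [this]
      have h0 : dy k (fun p : ST n => p.1) p = 0 := by
        have hd : HasFDerivAt (fun p : ST n => p.1) (ContinuousLinearMap.fst ℝ ℝ (E n)) p :=
          (ContinuousLinearMap.fst ℝ ℝ (E n)).hasFDerivAt
        unfold dy
        rw [hd.fderiv]; simp
      rw [h0, mul_zero]
    have dM : DifferentiableAt ℝ (fun p => PE w F p * PE w (fun x => x k) p) p := dF.mul dX
    have dM' : DifferentiableAt ℝ (fun p => -1 * (PE w F p * PE w (fun x => x k) p)) p :=
      dM.const_mul (-1)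
    have dN : DifferentiableAt ℝ
        (fun p => PE w (fun x => F x * x k) p - PE w F p * PE w (fun x => x k) p) p := dA.sub dM
    have c3 : dy k (fun p => PE w (fun x => F x * x k) p - PE w F p * PE w (fun x => x k) p) p =
        dy k (PE w (fun x => F x * x k)) p -
          (PE w F p * dy k (PE w fun x => x k) p + PE w (fun x => x k) p * dy k (PE w F) p) := by
      have e0 : (fun p => PE w (fun x => F x * x k) p - PE w F p * PE w (fun x => x k) p) =
          fun p => PE w (fun x => F x * x k) p + (-1) * (PE w F p * PE w (fun x => x k) p) := by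
        funext q; ring
      rw [e0, dy_add k dA dM', dy_mul k (differentiableAt_const (-1)) dM, dy_const, dy_mul k dF dX]
      ring
    rw [c1, dy_mul k dN dI, c2, c3, dy_PE hw.ex (hF.mul (EG.coord k)) hp,
      dy_PE hw.ex (EG.coord k) hp, dy_PE hw.ex hF hp]
    have e5 : (fun x : E n => F x * x k * x k) = fun x => F x * (x k * x k) := by
      funext x; ring
    rw [e5]
    ring
  have e2 : ∀ k, VG w k p * dy k (PE w F) p =
      (p.2 k - PE w (fun x => x k) p) *
        (PE w (fun x => F x * x k) p - PE w F p * PE w (fun x => x k) p) * (p.1⁻¹ * p.1⁻¹) := by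
    intro k
    rw [dy_PE hw.ex hF hp]
    simp only [VG, Vg, PE]
    ring
  simp_rw [e1, e2]
  rw [ds_PE hw.ex hF hp]
  have n2 : (fun x : E n => ‖x‖ ^ 2) = fun x => ∑ k, x k * x k := by
    funext x
    rw [EuclideanSpace.real_norm_sq_eq]
    exact Finset.sum_congr rfl fun k _ => by ring
  have e3 : PE w (fun x => F x * ‖x‖ ^ 2) p = ∑ k, PE w (fun x => F x * (x k * x k)) p := by
    have : (fun x : E n => F x * ‖x‖ ^ 2) = fun x => ∑ k, F x * (x k * x k) := by
      funext x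
      rw [← Finset.mul_sum, ← congrFun n2 x]
    rw [this]
    exact pE_sum _ hw.ex hp (fun k _ => hF.mul ((EG.coord k).mul (EG.coord k))) p.2
  have e4 : PE w (fun x => ‖x‖ ^ 2) p = ∑ k, PE w (fun x => x k * x k) p := by
    rw [n2]
    exact pE_sum _ hw.ex hp (fun k _ => (EG.coord k).mul (EG.coord k)) p.2
  rw [e3, e4, Finset.mul_sum Finset.univ _ (PE w F p), ← Finset.sum_sub_distrib,
    Finset.mul_sum Finset.univ _ (2 : ℝ), ← Finset.sum_sub_distrib, Finset.sum_mul,
    Finset.mul_sum Finset.univ _ (2⁻¹ : ℝ), ← Finset.sum_sub_distrib]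
  refine Finset.sum_congr rfl fun k _ => ?_
  ring

end Crest.Agent.R201.Hf391
end

-- ▼ part R201/Hf4_391
section

/-!
# R201 flow calculus: the forward identities `H' = -I/2`, `I' = -(E|U|² + 2 E V''vv)` (helper391)
-/

set_option autoImplicit false
open MeasureTheory Matrix Filter Topology
open scoped RealInnerProductSpace

namespace Crest.Agent.R201.Hf391

open Crest.Agent.R201 Crest.Agent.R144.Fi865 Crest.Agent.R201.An Crest.Agent.R201.Noi402

variable {n : ℕ} {a b : ℝ} {m : ℕ} {w F G : E n → ℝ} {s c R c' : ℝ}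

/-! ### the density ratio -/

lemma PE_ge (hw : Wt c R w) (hF : EG F) (hge : ∀ x, c' ≤ F x) {p : ST n} (hp : 0 < p.1) :
    c' ≤ PE w F p := by
  have := pE_mono hw.ex hp (EG.const c') hF hge p.2
  rwa [pE_const hw.ex hp] at this

/-- `h = log f` -/
noncomputable def hh (w F : E n → ℝ) (p : ST n) : ℝ := Real.log (PE w F p)

/-- `v = D log f` -/
noncomputable def vv (w F : E n → ℝ) (k : Fin n) (p : ST n) : ℝ := dy k (hh w F) p

/-- `U = D² log f` -/
noncomputable def UU (w F : E n → ℝ) (j k : Fin n) (p : ST n) : ℝ := dy j (vv w F k) p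

section
variable (hw : Wt c R w) (ha : 0 < a) (hF : EG F) (hc' : 0 < c') (hge : ∀ x, c' ≤ F x)
include hw ha hF hc' hge

lemma T.hh (m : ℕ) : T a b m (hh w F) :=
  T.log hc' (T.PE hw ha m hF) fun _ hp => PE_ge hw hF hge (ha.trans hp.1)

lemma T.vv (m : ℕ) (k : Fin n) : T a b m (vv w F k) := (T.hh hw ha hF hc' hge (m + 1)).hdy k

lemma T.UU (m : ℕ) (j k : Fin n) : T a b m (UU w F j k) := (T.vv hw ha hF hc' hge (m + 1) k).hdy j

lemma dy_PE_eq {p : ST n} (hp : p ∈ Om n a b) (k : Fin n) :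
    dy k (PE w F) p = PE w F p * vv w F k p := by
  have h0 : 0 < PE w F p := hc'.trans_le (PE_ge hw hF hge (ha.trans hp.1))
  have := dy_comp k (PE_diff hw.ex hF (ha.trans hp.1)) (Real.hasDerivAt_log h0.ne')
  have e : vv w F k p = (PE w F p)⁻¹ * dy k (PE w F) p := this
  rw [e]
  field_simp

lemma ds_PE_eq {p : ST n} (hp : p ∈ Om n a b) :
    ds (PE w F) p = PE w F p * ds (Hf391.hh w F) p := by
  have h0 : 0 < PE w F p := hc'.trans_le (PE_ge hw hF hge (ha.trans hp.1))
  have := ds_comp (PE_diff hw.ex hF (ha.trans hp.1)) (Real.hasDerivAt_log h0.ne')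
  have e : ds (Hf391.hh w F) p = (PE w F p)⁻¹ * ds (PE w F) p := this
  rw [e]
  field_simp

lemma UU_symm {p : ST n} (hp : p ∈ Om n a b) (j k : Fin n) :
    Hf391.UU w F j k p = Hf391.UU w F k j p :=
  dy_dy (m := 0) (T.hh hw ha hF hc' hge 2) j k hp

/-- `∂_s h = ½ Δ h + ½ |Dh|² - V'·Dh` -/
lemma ds_hh {p : ST n} (hp : p ∈ Om n a b) :
    ds (Hf391.hh w F) p = 2⁻¹ * (∑ k, Hf391.UU w F k k p) +
      2⁻¹ * (∑ k, Hf391.vv w F k p * Hf391.vv w F k p) - ∑ k, VG w k p * Hf391.vv w F k p := by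
  have hp0 : 0 < p.1 := ha.trans hp.1
  have h0 : 0 < PE w F p := hc'.trans_le (PE_ge hw hF hge hp0)
  have hpde := PE_pde hw hF hp0
  have e1 : ∀ k, dy k (dy k (PE w F)) p = PE w F p * Hf391.UU w F k k p +
      PE w F p * (Hf391.vv w F k p * Hf391.vv w F k p) := by
    intro k
    have c1 : dy k (dy k (PE w F)) p = dy k (fun p => PE w F p * Hf391.vv w F k p) p :=
      dy_congr (a := a) (b := b) (fun q hq => dy_PE_eq hw ha hF hc' hge hq k) k p hp
    rw [c1, dy_mul k (PE_diff hw.ex hF hp0) ((T.vv hw ha hF hc' hge 1 k).diff p hp),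
      dy_PE_eq hw ha hF hc' hge hp]
    unfold Hf391.UU
    ring
  have e2 : ∀ k, VG w k p * dy k (PE w F) p = PE w F p * (VG w k p * Hf391.vv w F k p) := by
    intro k
    rw [dy_PE_eq hw ha hF hc' hge hp]; ring
  rw [ds_PE_eq hw ha hF hc' hge hp] at hpde
  simp_rw [e1, e2] at hpde
  rw [Finset.sum_add_distrib, ← Finset.mul_sum, ← Finset.mul_sum, ← Finset.mul_sum] at hpde
  have h3 : PE w F p * ds (Hf391.hh w F) p = PE w F p * (2⁻¹ * (∑ k, Hf391.UU w F k k p) +
      2⁻¹ * (∑ k, Hf391.vv w F k p * Hf391.vv w F k p) - ∑ k, VG w k p * Hf391.vv w F k p) := by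
    rw [hpde]; ring
  exact mul_left_cancel₀ h0.ne' h3

/-! ### averages with the density `f` -/

/-- integration by parts for `f μ_s` -/
lemma EF_ibp (hab : a < s ∧ s < b) {φ : ST n → ℝ} (h : T a b (m + 1) φ) (k : Fin n) :
    EE w s (fun p => PE w F p * dy k φ p) =
      EE w s (fun p => PE w F p * (VG w k p * φ p)) -
        EE w s (fun p => PE w F p * (Hf391.vv w F k p * φ p)) := by
  have hs : 0 < s := ha.trans hab.1
  have tP := T.PE (a := a) (b := b) hw ha (m + 1) hF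
  have tv := T.vv (a := a) (b := b) hw ha hF hc' hge m k
  have tV := T.VG (a := a) (b := b) hw ha m k
  have i1 := EE_ibp hw hs hab (tP.mul h) k
  have i2 : EE w s (dy k fun p => PE w F p * φ p) =
      EE w s (fun p => PE w F p * dy k φ p + PE w F p * (Hf391.vv w F k p * φ p)) := by
    refine EE_congr fun y => ?_
    rw [dy_mul k (tP.diff _ hab) (h.diff _ hab), dy_PE_eq hw ha hF hc' hge (mem_Om hab y)]
    ring
  have i3 : EE w s (fun p => VG w k p * (PE w F p * φ p)) =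
      EE w s (fun p => PE w F p * (VG w k p * φ p)) := EE_congr fun y => by ring
  rw [i2, i3, EE_add hw.ex hs hab ((T.pred tP).mul (h.hdy k))
    ((T.pred tP).mul (tv.mul (T.pred h)))] at i1
  linarith

/-- **the time derivative along the forward flow** -/
theorem hasDerivAt_EF (hab : a < s ∧ s < b) {ψ : ST n → ℝ} (h : T a b (m + 2) ψ) :
    HasDerivAt (fun s => EE w s (fun p => PE w F p * ψ p))
      (EE w s (fun p => PE w F p * ds ψ p) +
        2⁻¹ * EE w s (fun p => PE w F p * ∑ k, dy k (dy k ψ) p)) s := by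
  have hs : 0 < s := ha.trans hab.1
  have tP := T.PE (a := a) (b := b) hw ha (m + 2) hF
  have tP0 := T.pred (T.pred tP)
  have tv := fun k => T.vv (a := a) (b := b) hw ha hF hc' hge (m + 1) k
  have tV := fun k => T.VG (a := a) (b := b) hw ha m k
  have tU := fun j k => T.UU (a := a) (b := b) hw ha hF hc' hge m j k
  have h0 := T.pred (T.pred h)
  have h1 : T a b (m + 1) ψ := T.pred h
  have d := hasDerivAt_EE (m := m + 1) hw ha hab (tP.mul h)
  refine d.congr_deriv ?_
  -- pointwise form of the integrand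
  have e1 : EE w s (fun p => ds (fun p => PE w F p * ψ p) p +
        2⁻¹ * ∑ k, VG w k p * dy k (fun p => PE w F p * ψ p) p) =
      EE w s (fun p => PE w F p * ds ψ p + 2⁻¹ * ∑ k, (PE w F p * (dy k (fun q => Hf391.vv w F k q * ψ q) p) +
        PE w F p * (Hf391.vv w F k p * (Hf391.vv w F k p * ψ p)) -
        PE w F p * (VG w k p * (Hf391.vv w F k p * ψ p)) +
        (PE w F p * (VG w k p * dy k ψ p) - PE w F p * (Hf391.vv w F k p * dy k ψ p)))) := by
    refine EE_congr fun y => ?_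
    have hp := mem_Om hab y
    have e2 : ∀ k, dy k (fun q => Hf391.vv w F k q * ψ q) (s, y) =
        Hf391.vv w F k (s, y) * dy k ψ (s, y) + ψ (s, y) * Hf391.UU w F k k (s, y) := by
      intro k
      rw [dy_mul k ((tv k).diff _ hp) (h1.diff _ hp)]
      rfl
    have e3 : ∀ k, dy k (fun p => PE w F p * ψ p) (s, y) = PE w F (s, y) * dy k ψ (s, y) +
        ψ (s, y) * (PE w F (s, y) * Hf391.vv w F k (s, y)) := by
      intro k
      rw [dy_mul k ((T.pred tP).diff _ hp) (h1.diff _ hp), dy_PE_eq hw ha hF hc' hge hp]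
    rw [ds_mul ((T.pred tP).diff _ hp) (h1.diff _ hp), ds_PE_eq hw ha hF hc' hge hp,
      ds_hh hw ha hF hc' hge hp]
    simp_rw [e2, e3]
    have e4 : ∑ k, VG w k (s, y) * (PE w F (s, y) * dy k ψ (s, y) +
        ψ (s, y) * (PE w F (s, y) * Hf391.vv w F k (s, y))) =
        PE w F (s, y) * (∑ k, VG w k (s, y) * dy k ψ (s, y)) +
          (PE w F (s, y) * ψ (s, y)) * ∑ k, VG w k (s, y) * Hf391.vv w F k (s, y) := by
      rw [Finset.mul_sum, Finset.mul_sum, ← Finset.sum_add_distrib]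
      exact Finset.sum_congr rfl fun k _ => by ring
    have e5 : ∑ k, (PE w F (s, y) * (Hf391.vv w F k (s, y) * dy k ψ (s, y) +
        ψ (s, y) * Hf391.UU w F k k (s, y)) +
        PE w F (s, y) * (Hf391.vv w F k (s, y) * (Hf391.vv w F k (s, y) * ψ (s, y))) -
        PE w F (s, y) * (VG w k (s, y) * (Hf391.vv w F k (s, y) * ψ (s, y))) +
        (PE w F (s, y) * (VG w k (s, y) * dy k ψ (s, y)) -
          PE w F (s, y) * (Hf391.vv w F k (s, y) * dy k ψ (s, y)))) =
        (PE w F (s, y) * ψ (s, y)) * (∑ k, Hf391.UU w F k k (s, y)) +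
        (PE w F (s, y) * ψ (s, y)) * (∑ k, Hf391.vv w F k (s, y) * Hf391.vv w F k (s, y)) -
        (PE w F (s, y) * ψ (s, y)) * (∑ k, VG w k (s, y) * Hf391.vv w F k (s, y)) +
        PE w F (s, y) * (∑ k, VG w k (s, y) * dy k ψ (s, y)) := by
      rw [Finset.mul_sum, Finset.mul_sum, Finset.mul_sum, Finset.mul_sum, ← Finset.sum_add_distrib,
        ← Finset.sum_sub_distrib, ← Finset.sum_add_distrib]
      exact Finset.sum_congr rfl fun k _ => by ring
    rw [e4, e5]
    ring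
  have tψ0 := h0
  have tψ1 : ∀ k, T a b (m + 1) (fun q => Hf391.vv w F k q * ψ q) := fun k => (tv k).mul h1
  have u1 : ∀ k, T a b m (fun p => PE w F p * (dy k (fun q => Hf391.vv w F k q * ψ q) p)) :=
    fun k => tP0.mul ((tψ1 k).hdy k)
  have u2 : ∀ k, T a b m (fun p => PE w F p * (Hf391.vv w F k p * (Hf391.vv w F k p * ψ p))) :=
    fun k => tP0.mul ((T.pred (tv k)).mul ((T.pred (tv k)).mul h0))
  have u3 : ∀ k, T a b m (fun p => PE w F p * (VG w k p * (Hf391.vv w F k p * ψ p))) :=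
    fun k => tP0.mul ((tV k).mul ((T.pred (tv k)).mul h0))
  have u4 : ∀ k, T a b m (fun p => PE w F p * (VG w k p * dy k ψ p)) :=
    fun k => tP0.mul ((tV k).mul (h1.hdy k))
  have u5 : ∀ k, T a b m (fun p => PE w F p * (Hf391.vv w F k p * dy k ψ p)) :=
    fun k => tP0.mul ((T.pred (tv k)).mul (h1.hdy k))
  have t1 : ∀ k ∈ (Finset.univ : Finset (Fin n)), T a b m (fun p =>
      PE w F p * (dy k (fun q => Hf391.vv w F k q * ψ q) p) +
        PE w F p * (Hf391.vv w F k p * (Hf391.vv w F k p * ψ p)) -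
        PE w F p * (VG w k p * (Hf391.vv w F k p * ψ p)) +
        (PE w F p * (VG w k p * dy k ψ p) - PE w F p * (Hf391.vv w F k p * dy k ψ p))) :=
    fun k _ => (((u1 k).add (u2 k)).sub (u3 k)).add ((u4 k).sub (u5 k))
  have u6 : ∀ k ∈ (Finset.univ : Finset (Fin n)), T a b m (fun p => PE w F p * dy k (dy k ψ) p) :=
    fun k _ => tP0.mul (T.hdy (m := m) (T.hdy (m := m + 1) h k) k)
  have e6 : EE w s (fun p => PE w F p * ∑ k, dy k (dy k ψ) p) =
      ∑ k, EE w s (fun p => PE w F p * dy k (dy k ψ) p) := by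
    rw [← EE_sum _ hw.ex hs hab u6]
    exact EE_congr fun y => by rw [Finset.mul_sum]
  rw [e1, EE_add hw.ex hs hab (tP0.mul (T.pred (T.hds (m := m + 1) h))) ((T.sum _ t1).smul _),
    EE_smul, EE_sum _ hw.ex hs hab t1, e6]
  congr 2
  refine Finset.sum_congr rfl fun k _ => ?_
  rw [EE_add hw.ex hs hab (((u1 k).add (u2 k)).sub (u3 k)) ((u4 k).sub (u5 k)),
    EE_sub hw.ex hs hab ((u1 k).add (u2 k)) (u3 k), EE_add hw.ex hs hab (u1 k) (u2 k),
    EE_sub hw.ex hs hab (u4 k) (u5 k), EF_ibp hw ha hF hc' hge hab (tψ1 k) k,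
    EF_ibp hw ha hF hc' hge hab (T.hdy (m := m + 1) h k) k]
  ring

/-! ### level 0 -/

/-- `d/ds E f log f = -½ E f |v|²` -/
theorem hasDerivAt_H (hab : a < s ∧ s < b) :
    HasDerivAt (fun s => EE w s (fun p => PE w F p * Hf391.hh w F p))
      (-(2⁻¹ * EE w s (fun p => PE w F p * ∑ k, Hf391.vv w F k p * Hf391.vv w F k p))) s := by
  have hs : 0 < s := ha.trans hab.1
  have th := T.hh (a := a) (b := b) hw ha hF hc' hge 2
  have d := hasDerivAt_EF (m := 0) hw ha hF hc' hge hab th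
  refine d.congr_deriv ?_
  have tP := T.PE (a := a) (b := b) hw ha 0 hF
  have tv := fun k => T.vv (a := a) (b := b) hw ha hF hc' hge 1 k
  have tV := fun k => T.VG (a := a) (b := b) hw ha 0 k
  have tU := fun j k => T.UU (a := a) (b := b) hw ha hF hc' hge 0 j k
  have u1 : ∀ k ∈ (Finset.univ : Finset (Fin n)), T a b 0 (fun p => PE w F p * Hf391.UU w F k k p) :=
    fun k _ => tP.mul (tU k k)
  have u2 : ∀ k ∈ (Finset.univ : Finset (Fin n)),
      T a b 0 (fun p => PE w F p * (Hf391.vv w F k p * Hf391.vv w F k p)) :=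
    fun k _ => tP.mul ((T.pred (tv k)).mul (T.pred (tv k)))
  have u3 : ∀ k ∈ (Finset.univ : Finset (Fin n)),
      T a b 0 (fun p => PE w F p * (VG w k p * Hf391.vv w F k p)) :=
    fun k _ => tP.mul ((tV k).mul (T.pred (tv k)))
  have e1 : EE w s (fun p => PE w F p * ds (Hf391.hh w F) p) =
      2⁻¹ * (∑ k, EE w s (fun p => PE w F p * Hf391.UU w F k k p)) +
      2⁻¹ * (∑ k, EE w s (fun p => PE w F p * (Hf391.vv w F k p * Hf391.vv w F k p))) -
      ∑ k, EE w s (fun p => PE w F p * (VG w k p * Hf391.vv w F k p)) := by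
    rw [← EE_sum _ hw.ex hs hab u1, ← EE_sum _ hw.ex hs hab u2, ← EE_sum _ hw.ex hs hab u3,
      ← EE_smul, ← EE_smul, ← EE_add hw.ex hs hab ((T.sum _ u1).smul _) ((T.sum _ u2).smul _),
      ← EE_sub hw.ex hs hab (((T.sum _ u1).smul _).add ((T.sum _ u2).smul _)) (T.sum _ u3)]
    refine EE_congr fun y => ?_
    rw [ds_hh hw ha hF hc' hge (mem_Om hab y), ← Finset.mul_sum, ← Finset.mul_sum,
      ← Finset.mul_sum]
    ring
  have e2 : EE w s (fun p => PE w F p * ∑ k, dy k (dy k (Hf391.hh w F)) p) =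
      ∑ k, EE w s (fun p => PE w F p * Hf391.UU w F k k p) := by
    rw [← EE_sum _ hw.ex hs hab u1]
    exact EE_congr fun y => by rw [Finset.mul_sum]; rfl
  have e3 : EE w s (fun p => PE w F p * ∑ k, Hf391.vv w F k p * Hf391.vv w F k p) =
      ∑ k, EE w s (fun p => PE w F p * (Hf391.vv w F k p * Hf391.vv w F k p)) := by
    rw [← EE_sum _ hw.ex hs hab u2]
    exact EE_congr fun y => by rw [Finset.mul_sum]
  have e4 : ∑ k, EE w s (fun p => PE w F p * Hf391.UU w F k k p) =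
      (∑ k, EE w s (fun p => PE w F p * (VG w k p * Hf391.vv w F k p))) -
        ∑ k, EE w s (fun p => PE w F p * (Hf391.vv w F k p * Hf391.vv w F k p)) := by
    rw [← Finset.sum_sub_distrib]
    exact Finset.sum_congr rfl fun k _ => EF_ibp hw ha hF hc' hge hab (tv k) k
  rw [e1, e2, e3, e4]
  ring

end

end Crest.Agent.R201.Hf391
end

-- ▼ part R201/Hf5_391

/-!
# R201 flow calculus: level 1 and the block FL (helper391)

`I' = -(E|U|² + 2 E V''vv)`, and `fl_391 : L74.FL`.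
-/

set_option autoImplicit false
open MeasureTheory Matrix Filter Topology
open scoped RealInnerProductSpace

namespace Crest.Agent.R201.Hf391

open Crest.Agent.R201 Crest.Agent.R144.Fi865 Crest.Agent.R201.An Crest.Agent.R201.Noi402

variable {n : ℕ} {a b : ℝ} {m : ℕ} {w F G : E n → ℝ} {s c R c' : ℝ}

section
variable (hw : Wt c R w) (ha : 0 < a) (hF : EG F) (hc' : 0 < c') (hge : ∀ x, c' ≤ F x)
include hw ha hF hc' hge

/-- third derivative, `∂_k U_jj = ∂_j U_jk` -/
lemma dy_UU {p : ST n} (hp : p ∈ Om n a b) (j k : Fin n) :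
    dy k (Hf391.UU w F j j) p = dy j (Hf391.UU w F j k) p := by
  have tv := T.vv (a := a) (b := b) hw ha hF hc' hge 2 j
  have e1 : dy k (dy j (Hf391.vv w F j)) p = dy j (dy k (Hf391.vv w F j)) p :=
    dy_dy (m := 0) tv k j hp
  have e2 : dy j (dy k (Hf391.vv w F j)) p = dy j (Hf391.UU w F j k) p :=
    dy_congr (a := a) (b := b) (fun q hq => UU_symm hw ha hF hc' hge hq k j) j p hp
  exact e1.trans e2

/-- `∂_s v_k` -/
lemma ds_vv {p : ST n} (hp : p ∈ Om n a b) (k : Fin n) :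
    ds (Hf391.vv w F k) p = 2⁻¹ * (∑ j, dy j (Hf391.UU w F j k) p) +
      (∑ j, Hf391.vv w F j p * Hf391.UU w F j k p) -
      ∑ j, (VH w j k p * Hf391.vv w F j p + VG w j p * Hf391.UU w F j k p) := by
  have hp0 : 0 < p.1 := ha.trans hp.1
  have th := T.hh (a := a) (b := b) hw ha hF hc' hge 2
  have tv := fun j => T.vv (a := a) (b := b) hw ha hF hc' hge 1 j
  have tV := fun j => T.VG (a := a) (b := b) hw ha 1 j
  have tU := fun i j => T.UU (a := a) (b := b) hw ha hF hc' hge 1 i j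
  have e1 : ds (Hf391.vv w F k) p = dy k (ds (Hf391.hh w F)) p := ds_dy (m := 0) th k hp
  have e2 : dy k (ds (Hf391.hh w F)) p = dy k (fun p => ∑ j, (2⁻¹ * Hf391.UU w F j j p +
      2⁻¹ * (Hf391.vv w F j p * Hf391.vv w F j p) - VG w j p * Hf391.vv w F j p)) p := by
    refine dy_congr (a := a) (b := b) (fun q hq => ?_) k p hp
    rw [ds_hh hw ha hF hc' hge hq, Finset.mul_sum, Finset.mul_sum, ← Finset.sum_add_distrib,
      ← Finset.sum_sub_distrib]
  have d1 : ∀ j, HasFDerivAt (fun p => 2⁻¹ * Hf391.UU w F j j p +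
      2⁻¹ * (Hf391.vv w F j p * Hf391.vv w F j p) - VG w j p * Hf391.vv w F j p)
      ((2⁻¹ : ℝ) • fderiv ℝ (Hf391.UU w F j j) p +
        (2⁻¹ : ℝ) • (Hf391.vv w F j p • fderiv ℝ (Hf391.vv w F j) p +
          Hf391.vv w F j p • fderiv ℝ (Hf391.vv w F j) p) -
        (VG w j p • fderiv ℝ (Hf391.vv w F j) p + Hf391.vv w F j p • fderiv ℝ (VG w j) p)) p :=
    fun j => (((tU j j).diff p hp).hasFDerivAt.const_mul 2⁻¹ |>.add
      ((((tv j).diff p hp).hasFDerivAt.mul ((tv j).diff p hp).hasFDerivAt).const_mul 2⁻¹)).sub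
      (((tV j).diff p hp).hasFDerivAt.mul ((tv j).diff p hp).hasFDerivAt)
  have d2 := HasFDerivAt.fun_sum (u := Finset.univ) fun j _ => d1 j
  rw [e1, e2]
  unfold dy
  rw [d2.fderiv]
  simp only [_root_.sum_apply, _root_.add_apply, _root_.sub_apply, _root_.smul_apply, smul_eq_mul]
  rw [Finset.mul_sum, ← Finset.sum_add_distrib, ← Finset.sum_sub_distrib]
  refine Finset.sum_congr rfl fun j _ => ?_
  have f1 : fderiv ℝ (Hf391.UU w F j j) p ((0 : ℝ), (EuclideanSpace.single k (1 : ℝ) : E n)) =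
      dy j (Hf391.UU w F j k) p := dy_UU hw ha hF hc' hge hp j k
  have f2 : fderiv ℝ (Hf391.vv w F j) p ((0 : ℝ), (EuclideanSpace.single k (1 : ℝ) : E n)) =
      Hf391.UU w F j k p := UU_symm hw ha hF hc' hge hp k j
  have f3 : fderiv ℝ (VG w j) p ((0 : ℝ), (EuclideanSpace.single k (1 : ℝ) : E n)) =
      VH w j k p := (dy_VG hw hp0 k j).trans (VH_symm w k j p)
  rw [f1, f2, f3]
  unfold dy
  ring

/-- **level 1** -/
theorem hasDerivAt_I (hab : a < s ∧ s < b) :
    HasDerivAt (fun s => EE w s (fun p => PE w F p * ∑ k, Hf391.vv w F k p * Hf391.vv w F k p))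
      (-((∑ k, ∑ j, EE w s (fun p => PE w F p * (Hf391.UU w F j k p * Hf391.UU w F j k p))) +
        2 * ∑ k, ∑ j, EE w s (fun p => PE w F p *
          (VH w j k p * (Hf391.vv w F j p * Hf391.vv w F k p))))) s := by
  have hs : 0 < s := ha.trans hab.1
  have tv := fun k => T.vv (a := a) (b := b) hw ha hF hc' hge 2 k
  have tv1 := fun k => T.pred (tv k)
  have tv0 := fun k => T.pred (tv1 k)
  have tV := fun k => T.VG (a := a) (b := b) hw ha 0 k
  have tH := fun j k => T.VH (a := a) (b := b) hw ha 0 j k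
  have tU := fun j k => T.UU (a := a) (b := b) hw ha hF hc' hge 1 j k
  have tU0 := fun j k => T.pred (tU j k)
  have tP := T.PE (a := a) (b := b) hw ha 0 hF
  have tψ : T a b 2 (fun p => ∑ k, Hf391.vv w F k p * Hf391.vv w F k p) :=
    T.sum _ fun k _ => (tv k).mul (tv k)
  have d := hasDerivAt_EF (m := 0) hw ha hF hc' hge hab tψ
  refine d.congr_deriv ?_
  -- names of the terms
  set A : Fin n → Fin n → ST n → ℝ := fun k j p =>
    PE w F p * (Hf391.vv w F k p * dy j (Hf391.UU w F j k) p) with hA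
  set B : Fin n → Fin n → ST n → ℝ := fun k j p =>
    PE w F p * (Hf391.UU w F j k p * Hf391.UU w F j k p) with hB
  set C : Fin n → Fin n → ST n → ℝ := fun k j p =>
    PE w F p * (Hf391.vv w F k p * (Hf391.vv w F j p * Hf391.UU w F j k p)) with hC
  set D : Fin n → Fin n → ST n → ℝ := fun k j p =>
    PE w F p * (VH w j k p * (Hf391.vv w F j p * Hf391.vv w F k p)) with hD
  set E' : Fin n → Fin n → ST n → ℝ := fun k j p =>
    PE w F p * (VG w j p * (Hf391.vv w F k p * Hf391.UU w F j k p)) with hE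
  have tA : ∀ k j, T a b 0 (A k j) := fun k j => tP.mul ((tv0 k).mul ((tU j k).hdy j))
  have tB : ∀ k j, T a b 0 (B k j) := fun k j => tP.mul ((tU0 j k).mul (tU0 j k))
  have tC : ∀ k j, T a b 0 (C k j) := fun k j => tP.mul ((tv0 k).mul ((tv0 j).mul (tU0 j k)))
  have tD : ∀ k j, T a b 0 (D k j) := fun k j => tP.mul ((tH j k).mul ((tv0 j).mul (tv0 k)))
  have tE : ∀ k j, T a b 0 (E' k j) := fun k j => tP.mul ((tV j).mul ((tv0 k).mul (tU0 j k)))
  -- derivatives of ψ
  have c1 : ∀ y, PE w F (s, y) * ds (fun p => ∑ k, Hf391.vv w F k p * Hf391.vv w F k p) (s, y) =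
      ∑ k, ∑ j, (A k j (s, y) + 2 * C k j (s, y) - 2 * D k j (s, y) - 2 * E' k j (s, y)) := by
    intro y
    have hp := mem_Om hab y
    have d1 : ∀ k, HasFDerivAt (fun p => Hf391.vv w F k p * Hf391.vv w F k p)
        (Hf391.vv w F k (s, y) • fderiv ℝ (Hf391.vv w F k) (s, y) +
          Hf391.vv w F k (s, y) • fderiv ℝ (Hf391.vv w F k) (s, y)) (s, y) := fun k =>
      ((tv1 k).diff _ hp).hasFDerivAt.mul ((tv1 k).diff _ hp).hasFDerivAt
    have d2 := HasFDerivAt.fun_sum (u := Finset.univ) fun k _ => d1 k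
    have d3 : ds (fun p => ∑ k, Hf391.vv w F k p * Hf391.vv w F k p) (s, y) =
        ∑ k, 2 * (Hf391.vv w F k (s, y) * ds (Hf391.vv w F k) (s, y)) := by
      unfold ds
      rw [d2.fderiv]
      simp only [_root_.sum_apply, _root_.add_apply, _root_.smul_apply, smul_eq_mul]
      exact Finset.sum_congr rfl fun k _ => by ring
    rw [d3, Finset.mul_sum]
    refine Finset.sum_congr rfl fun k _ => ?_
    rw [ds_vv hw ha hF hc' hge hp]
    simp only [hA, hC, hD, hE]
    rw [Finset.mul_sum, ← Finset.sum_add_distrib, ← Finset.sum_sub_distrib, Finset.mul_sum,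
      Finset.mul_sum, Finset.mul_sum]
    refine Finset.sum_congr rfl fun j _ => ?_
    ring
  have c2 : ∀ y, PE w F (s, y) * ∑ j, dy j (dy j (fun p => ∑ k, Hf391.vv w F k p *
      Hf391.vv w F k p)) (s, y) = ∑ k, ∑ j, (2 * A k j (s, y) + 2 * B k j (s, y)) := by
    intro y
    have hp := mem_Om hab y
    have g1 : ∀ j, ∀ q ∈ Om n a b, dy j (fun p => ∑ k, Hf391.vv w F k p * Hf391.vv w F k p) q =
        ∑ k, 2 * (Hf391.vv w F k q * Hf391.UU w F j k q) := by
      intro j q hq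
      have d1 : ∀ k, HasFDerivAt (fun p => Hf391.vv w F k p * Hf391.vv w F k p)
          (Hf391.vv w F k q • fderiv ℝ (Hf391.vv w F k) q +
            Hf391.vv w F k q • fderiv ℝ (Hf391.vv w F k) q) q := fun k =>
        ((tv1 k).diff _ hq).hasFDerivAt.mul ((tv1 k).diff _ hq).hasFDerivAt
      have d2 := HasFDerivAt.fun_sum (u := Finset.univ) fun k _ => d1 k
      have g0 : dy j (fun p => ∑ k, Hf391.vv w F k p * Hf391.vv w F k p) q =
          ∑ k, 2 * (Hf391.vv w F k q * dy j (Hf391.vv w F k) q) := by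
        unfold dy
        rw [d2.fderiv]
        simp only [_root_.sum_apply, _root_.add_apply, _root_.smul_apply, smul_eq_mul]
        exact Finset.sum_congr rfl fun k _ => by ring
      rw [g0]; rfl
    have g2 : ∀ j, dy j (dy j (fun p => ∑ k, Hf391.vv w F k p * Hf391.vv w F k p)) (s, y) =
        ∑ k, (2 * (Hf391.vv w F k (s, y) * dy j (Hf391.UU w F j k) (s, y)) +
          2 * (Hf391.UU w F j k (s, y) * Hf391.UU w F j k (s, y))) := by
      intro j
      rw [dy_congr (a := a) (b := b) (g1 j) j _ hp]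
      have d1 : ∀ k, HasFDerivAt (fun p => 2 * (Hf391.vv w F k p * Hf391.UU w F j k p))
          ((2 : ℝ) • (Hf391.vv w F k (s, y) • fderiv ℝ (Hf391.UU w F j k) (s, y) +
            Hf391.UU w F j k (s, y) • fderiv ℝ (Hf391.vv w F k) (s, y))) (s, y) := fun k =>
        (((tv1 k).diff _ hp).hasFDerivAt.mul ((tU j k).diff _ hp).hasFDerivAt).const_mul 2
      have d2 := HasFDerivAt.fun_sum (u := Finset.univ) fun k _ => d1 k
      have g0 : dy j (fun p => ∑ k, 2 * (Hf391.vv w F k p * Hf391.UU w F j k p)) (s, y) =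
          ∑ k, (2 * (Hf391.vv w F k (s, y) * dy j (Hf391.UU w F j k) (s, y)) +
            2 * (Hf391.UU w F j k (s, y) * dy j (Hf391.vv w F k) (s, y))) := by
        unfold dy
        rw [d2.fderiv]
        simp only [_root_.sum_apply, _root_.add_apply, _root_.smul_apply, smul_eq_mul]
        exact Finset.sum_congr rfl fun k _ => by ring
      rw [g0]; rfl
    simp_rw [g2]
    rw [Finset.sum_comm, Finset.mul_sum]
    refine Finset.sum_congr rfl fun k _ => ?_
    rw [Finset.mul_sum]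
    refine Finset.sum_congr rfl fun j _ => ?_
    simp only [hA, hB]
    ring
  have t1 : ∀ k j, T a b 0 (fun p => A k j p + 2 * C k j p - 2 * D k j p - 2 * E' k j p) :=
    fun k j => (((tA k j).add ((tC k j).smul 2)).sub ((tD k j).smul 2)).sub ((tE k j).smul 2)
  have t2 : ∀ k j, T a b 0 (fun p => 2 * A k j p + 2 * B k j p) :=
    fun k j => ((tA k j).smul 2).add ((tB k j).smul 2)
  have c3 : EE w s (fun p => PE w F p * ds (fun p => ∑ k, Hf391.vv w F k p * Hf391.vv w F k p) p) =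
      ∑ k, ∑ j, (EE w s (A k j) + 2 * EE w s (C k j) - 2 * EE w s (D k j) - 2 * EE w s (E' k j)) := by
    rw [EE_congr (ψ := fun p => ∑ k, ∑ j,
      (A k j p + 2 * C k j p - 2 * D k j p - 2 * E' k j p)) c1,
      EE_sum _ hw.ex hs hab fun k _ => T.sum _ fun j _ => t1 k j]
    refine Finset.sum_congr rfl fun k _ => ?_
    rw [EE_sum _ hw.ex hs hab fun j _ => t1 k j]
    refine Finset.sum_congr rfl fun j _ => ?_
    rw [EE_sub hw.ex hs hab (((tA k j).add ((tC k j).smul 2)).sub ((tD k j).smul 2))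
      ((tE k j).smul 2), EE_sub hw.ex hs hab ((tA k j).add ((tC k j).smul 2)) ((tD k j).smul 2),
      EE_add hw.ex hs hab (tA k j) ((tC k j).smul 2), EE_smul, EE_smul, EE_smul]
  have c4 : EE w s (fun p => PE w F p * ∑ j, dy j (dy j (fun p => ∑ k, Hf391.vv w F k p *
      Hf391.vv w F k p)) p) = ∑ k, ∑ j, (2 * EE w s (A k j) + 2 * EE w s (B k j)) := by
    rw [EE_congr (ψ := fun p => ∑ k, ∑ j, (2 * A k j p + 2 * B k j p)) c2,
      EE_sum _ hw.ex hs hab fun k _ => T.sum _ fun j _ => t2 k j]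
    refine Finset.sum_congr rfl fun k _ => ?_
    rw [EE_sum _ hw.ex hs hab fun j _ => t2 k j]
    refine Finset.sum_congr rfl fun j _ => ?_
    rw [EE_add hw.ex hs hab ((tA k j).smul 2) ((tB k j).smul 2), EE_smul, EE_smul]
  -- integration by parts
  have c5 : ∀ k j, EE w s (B k j) + EE w s (A k j) = EE w s (E' k j) - EE w s (C k j) := by
    intro k j
    have i := EF_ibp hw ha hF hc' hge hab (m := 0) (φ := fun p => Hf391.vv w F k p *
      Hf391.UU w F j k p) ((tv1 k).mul (tU j k)) j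
    have e1 : EE w s (fun p => PE w F p * dy j (fun p => Hf391.vv w F k p *
        Hf391.UU w F j k p) p) = EE w s (fun p => B k j p + A k j p) := by
      refine EE_congr fun y => ?_
      have hp := mem_Om hab y
      rw [dy_mul j ((tv1 k).diff _ hp) ((tU j k).diff _ hp)]
      simp only [hA, hB]
      have : dy j (Hf391.vv w F k) (s, y) = Hf391.UU w F j k (s, y) := rfl
      rw [this]; ring
    have e2 : EE w s (fun p => PE w F p * (VG w j p * (Hf391.vv w F k p * Hf391.UU w F j k p))) =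
        EE w s (E' k j) := rfl
    have e3 : EE w s (fun p => PE w F p * (Hf391.vv w F j p * (Hf391.vv w F k p *
        Hf391.UU w F j k p))) = EE w s (C k j) := EE_congr fun y => by simp only [hC]; ring
    rw [e1, e2, e3, EE_add hw.ex hs hab (tB k j) (tA k j)] at i
    exact i
  rw [c3, c4, Finset.mul_sum, Finset.mul_sum, ← Finset.sum_add_distrib, ← Finset.sum_add_distrib,
    ← Finset.sum_neg_distrib]
  refine Finset.sum_congr rfl fun k _ => ?_
  rw [Finset.mul_sum, Finset.mul_sum, ← Finset.sum_add_distrib, ← Finset.sum_add_distrib,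
    ← Finset.sum_neg_distrib]
  refine Finset.sum_congr rfl fun j _ => ?_
  have := c5 k j
  linarith

end

/-! ### the literal block FL -/

lemma fs_pd (hw : Wt c R w) (hF : EG F) (hc' : 0 < c') (hge : ∀ x, c' ≤ F x) (hs : 0 < s)
    (k : Fin n) (y : E n) : pd k (L74.fs w F s) y = PE w F (s, y) * vv w F k (s, y) := by
  have e : L74.fs w F s = fun y => PE w F (s, y) := rfl
  rw [e, pd_slice k (PE_diff hw.ex hF (p := (s, y)) hs)]
  exact dy_PE_eq (a := s / 2) (b := s + 1) hw (by positivity) hF hc' hge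
    (p := (s, y)) ⟨by simp only; linarith, by simp only; linarith⟩ k

lemma sc_eq (hw : Wt c R w) (hF : EG F) (hc' : 0 < c') (hge : ∀ x, c' ≤ F x) (hs : 0 < s)
    (k : Fin n) (y : E n) : L74.sc w F s k y = vv w F k (s, y) := by
  unfold L74.sc
  rw [fs_pd hw hF hc' hge hs]
  have h0 : PE w F (s, y) ≠ 0 := (hc'.trans_le (PE_ge hw hF hge (p := (s, y)) hs)).ne'
  have e : L74.fs w F s y = PE w F (s, y) := rfl
  rw [e]
  field_simp

lemma pd_sc (hw : Wt c R w) (hF : EG F) (hc' : 0 < c') (hge : ∀ x, c' ≤ F x) (hs : 0 < s)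
    (j k : Fin n) (y : E n) : pd j (L74.sc w F s k) y = UU w F j k (s, y) := by
  have e : L74.sc w F s k = fun y => vv w F k (s, y) := funext fun y => sc_eq hw hF hc' hge hs k y
  have hm : s / 2 < s ∧ s < s + 1 := ⟨by linarith, by linarith⟩
  rw [e, pd_slice j ((T.vv (a := s / 2) (b := s + 1) hw (by positivity) hF hc' hge 1 k).diff
    (s, y) hm)]
  rfl

lemma Hs_eq (hw : Wt c R w) (hF : EG F) (h1 : Em w F = 1) (hs : 0 < s) :
    L74.Hs w F s = EE w s (fun p => PE w F p * hh w F p) := by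
  have hρ := hw.ex.noisy hs
  have e1 : ∫ x, L74.fs w F s x ∂(L74.ms w s) = 1 := by
    unfold L74.ms L74.fs
    rw [int_nm hρ, Em_pE hw.ex hs hF, h1]
  have e2 : ∫ x, L74.fs w F s x * Real.log (L74.fs w F s x) ∂(L74.ms w s) =
      EE w s (fun p => PE w F p * hh w F p) := by
    unfold L74.ms
    rw [int_nm hρ]
    rfl
  unfold L74.Hs LL809.Ent
  rw [e1, e2, Real.log_one]
  ring

lemma Is_eq (hw : Wt c R w) (hF : EG F) (hc' : 0 < c') (hge : ∀ x, c' ≤ F x) (hs : 0 < s) :
    L74.Is w F s = EE w s (fun p => PE w F p * ∑ k, vv w F k p * vv w F k p) := by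
  have hρ := hw.ex.noisy hs
  unfold L74.Is LL809.Fi L74.ms
  rw [int_nm hρ]
  refine EE_congr (φ := fun p => (∑ k, pd k (L74.fs w F s) p.2 ^ 2) / L74.fs w F s p.2)
    fun y => ?_
  have h0 : PE w F (s, y) ≠ 0 := (hc'.trans_le (PE_ge hw hF hge (p := (s, y)) hs)).ne'
  have e : L74.fs w F s y = PE w F (s, y) := rfl
  simp only
  rw [e]
  simp_rw [fs_pd hw hF hc' hge hs]
  rw [Finset.mul_sum, Finset.sum_div]
  refine Finset.sum_congr rfl fun k _ => ?_
  field_simp

/-- **Block FL** -/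
theorem fl_391 : L74.FL := by
  intro n c R w F hc hw hF h1 s hs
  obtain ⟨hcb, c', hc', hge⟩ := id hF
  have hEG : EG F := (CB.eg hcb).1
  have ha : 0 < s / 2 := by positivity
  have hab : s / 2 < s ∧ s < s + 1 := ⟨by linarith, by linarith⟩
  have hρ := hw.ex.noisy hs
  refine ⟨?_, ?_⟩
  · have d := hasDerivAt_H (a := s / 2) (b := s + 1) hw ha hEG hc' hge hab
    refine (d.congr_of_eventuallyEq ?_).congr_deriv ?_
    · filter_upwards [Ioi_mem_nhds hs] with t ht using Hs_eq hw hEG h1 ht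
    · rw [Is_eq hw hEG hc' hge hs]
      ring
  · have d := hasDerivAt_I (a := s / 2) (b := s + 1) hw ha hEG hc' hge hab
    refine (d.congr_of_eventuallyEq ?_).congr_deriv ?_
    · filter_upwards [Ioi_mem_nhds hs] with t ht using Is_eq hw hEG hc' hge ht
    · have tv := fun k => T.vv (a := s / 2) (b := s + 1) hw ha hEG hc' hge 0 k
      have tH := fun j k => T.VH (a := s / 2) (b := s + 1) hw ha 0 j k
      have tP := T.PE (a := s / 2) (b := s + 1) hw ha 0 hEG
      have eU : L74.Us w F s =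
          ∑ k, ∑ j, EE w s (fun p => PE w F p * (UU w F j k p * UU w F j k p)) := by
        unfold L74.Us L74.ms
        refine Finset.sum_congr rfl fun k _ => Finset.sum_congr rfl fun j _ => ?_
        rw [int_nm hρ]
        refine EE_congr (φ := fun p => L74.fs w F s p.2 * pd j (L74.sc w F s k) p.2 ^ 2)
          fun y => ?_
        simp only
        rw [pd_sc hw hEG hc' hge hs]
        have e : L74.fs w F s y = PE w F (s, y) := rfl
        rw [e]; ring
      have eK : L74.Ks w F s = ∑ k, ∑ j, EE w s (fun p => PE w F p *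
          (VH w j k p * (vv w F j p * vv w F k p))) := by
        unfold L74.Ks L74.ms
        rw [int_nm hρ]
        have t1 : ∀ k j, T (s / 2) (s + 1) 0 (fun p => PE w F p *
          (VH w j k p * (vv w F j p * vv w F k p))) := fun k j =>
          tP.mul ((tH j k).mul ((tv j).mul (tv k)))
        have e2 : ∀ k ∈ (Finset.univ : Finset (Fin n)), ∑ j, EE w s (fun p => PE w F p *
            (VH w j k p * (vv w F j p * vv w F k p))) =
            EE w s (fun p => ∑ j, PE w F p * (VH w j k p * (vv w F j p * vv w F k p))) :=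
          fun k _ => (EE_sum _ hw.ex hs hab fun j _ => t1 k j).symm
        rw [Finset.sum_congr rfl e2,
          ← EE_sum _ hw.ex hs hab fun k _ => T.sum _ fun j _ => t1 k j]
        refine EE_congr (φ := fun p => L74.fs w F s p.2 * ∑ i, ∑ j, Vh w s p.2 i j *
          L74.sc w F s i p.2 * L74.sc w F s j p.2) fun y => ?_
        simp only
        rw [Finset.sum_comm, Finset.mul_sum]
        refine Finset.sum_congr rfl fun k _ => ?_
        rw [Finset.mul_sum]
        refine Finset.sum_congr rfl fun j _ => ?_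
        rw [sc_eq hw hEG hc' hge hs, sc_eq hw hEG hc' hge hs]
        have e : L74.fs w F s y = PE w F (s, y) := rfl
        have e' : VH w j k (s, y) = Vh w s y j k := rfl
        rw [e, e']; ring
      rw [eU, eK]

end Crest.Agent.R201.Hf391
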