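import Crest.Agent.R201.LabG1_809
import Crest.Agent.R201.Spec_152
import Crest.Agent.R201.FD3_354

-- ▼ part R201/LabG2_809
section

/-!
# R201, LSI half (helper809): matrix fields (determinant, inverse), Gaussian density with covariance `M`
-/

set_option autoImplicit false
set_option maxHeartbeats 400000
set_option linter.unusedSectionVars false
open MeasureTheory Matrix Filter Topology
open scoped ContDiff RealInnerProductSpace

namespace Crest.Agent.R201.LL809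

open Crest.Agent.R201.An

variable {n : ℕ}

/-! ### scalar fields -/

theorem cb_prod {ι : Type*} (s : Finset ι) {f : ι → E n → ℝ} (hf : ∀ i ∈ s, CB (f i)) :
    CB (fun x => ∏ i ∈ s, f i x) := by
  classical
  induction s using Finset.induction_on with
  | empty => simpa using Tw807.cb_const (n := n) 1
  | insert a s ha ih =>
    have := Tw807.cb_mul (hf a (Finset.mem_insert_self a s))
      (ih fun i hi => hf i (Finset.mem_insert_of_mem hi))
    simpa [Finset.prod_insert ha] using this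

theorem pd_comp {f : E n → ℝ} {φ : ℝ → ℝ} {φ' : ℝ} (k : Fin n) {x : E n}
    (hf : DifferentiableAt ℝ f x) (hφ : HasDerivAt φ φ' (f x)) :
    pd k (fun y => φ (f y)) x = φ' * pd k f x := by
  unfold pd
  have h := hφ.comp_hasFDerivAt x hf.hasFDerivAt
  have e : (fun y => φ (f y)) = φ ∘ f := rfl
  rw [e, h.fderiv]
  simp

theorem pd_exp {f : E n → ℝ} (k : Fin n) {x : E n} (hf : DifferentiableAt ℝ f x) :
    pd k (fun y => Real.exp (f y)) x = Real.exp (f x) * pd k f x :=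
  pd_comp k hf (Real.hasDerivAt_exp (f x))

theorem pd_log {f : E n → ℝ} (k : Fin n) {x : E n} (hf : DifferentiableAt ℝ f x) (h0 : f x ≠ 0) :
    pd k (fun y => Real.log (f y)) x = (f x)⁻¹ * pd k f x :=
  pd_comp k hf (Real.hasDerivAt_log h0)

theorem cb_exp {f : E n → ℝ} (hf : CB f) : CBp (fun x => Real.exp (f x)) := by
  obtain ⟨h1, ⟨B, hB⟩, h3⟩ := Tw807.cb_iff.1 hf
  refine ⟨Tw807.cb_iff.2 ⟨h1.exp, ⟨Real.exp B, fun x => ?_⟩, fun k => ?_⟩, Real.exp (-B),
    Real.exp_pos _, fun x => Real.exp_le_exp.2 (abs_le.1 (hB x)).1⟩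
  · rw [abs_of_pos (Real.exp_pos _)]
    exact Real.exp_le_exp.2 ((le_abs_self _).trans (hB x))
  · obtain ⟨C, hC⟩ := h3 k
    refine ⟨Real.exp B * C, fun x => ?_⟩
    rw [pd_exp k (Tw807.cb_diff hf x), abs_mul, abs_of_pos (Real.exp_pos _)]
    exact mul_le_mul (Real.exp_le_exp.2 ((le_abs_self _).trans (hB x))) (hC x) (abs_nonneg _)
      (Real.exp_pos _).le

theorem cbp_log {f : E n → ℝ} (hf : CBp f) : CB (fun x => Real.log (f x)) := by
  obtain ⟨B, hB0, hB⟩ := hf.log_bdd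
  obtain ⟨h1, ⟨C, hC⟩, h3⟩ := Tw807.cb_iff.1 hf.1
  obtain ⟨-, c, hc, hcf⟩ := id hf
  refine Tw807.cb_iff.2 ⟨h1.log fun x => (hf.pos x).ne', ⟨B, hB⟩, fun k => ?_⟩
  obtain ⟨D, hD⟩ := h3 k
  refine ⟨c⁻¹ * D, fun x => ?_⟩
  rw [pd_log k (Tw807.cb_diff hf.1 x) (hf.pos x).ne', abs_mul, abs_inv, abs_of_pos (hf.pos x)]
  exact mul_le_mul (inv_anti₀ hc (hcf x)) (hD x) (abs_nonneg _) (inv_pos.2 hc).le

theorem cbp_inv {f : E n → ℝ} (hf : CBp f) : CB (fun x => (f x)⁻¹) := by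
  have h := (cb_exp (Tw807.cb_neg (cbp_log hf))).1
  have e : (fun x => Real.exp (-Real.log (f x))) = fun x => (f x)⁻¹ := by
    funext x
    rw [Real.exp_neg, Real.exp_log (hf.pos x)]
  rwa [e] at h

/-! ### determinant and inverse of a matrix field -/

theorem cb_det {M : E n → Mt n} (hM : ∀ i j, CB fun x => M x i j) : CB fun x => (M x).det := by
  have e : (fun x => (M x).det) = fun x => ∑ σ : Equiv.Perm (Fin n),
      ((Equiv.Perm.sign σ : ℤ) : ℝ) * ∏ i, M x (σ i) i := by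
    funext x
    rw [Matrix.det_apply']
  rw [e]
  exact Tw807.cb_sum _ fun σ _ => Tw807.cb_const_mul _ (cb_prod _ fun i _ => hM _ _)

theorem symm_posDef {M : Mt n} (hM : Mᵀ = M) {c : ℝ} (hc : 0 < c) (h : LeQ (c • (1 : Mt n)) M) :
    M.PosDef := MX354.posDef_of_leQ hc hM h

theorem det_ge {M : Mt n} (hM : Mᵀ = M) {c : ℝ} (hc : 0 < c) (h : LeQ (c • (1 : Mt n)) M) :
    c ^ n ≤ M.det := by
  obtain ⟨U, lam, hU, hU', hMU⟩ := NB152.diagonalize hM
  have h1 : ∀ i, c ≤ lam i := by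
    intro i
    have h2 := h (fun j => U j i)
    have e1 : (fun j => U j i) = U *ᵥ Pi.single i 1 := by
      funext j
      simp
    have e2 : (fun j => U j i) ⬝ᵥ (fun j => U j i) = 1 := by
      have := congrFun (congrFun hU i) i
      rw [Matrix.mul_apply, Matrix.one_apply_eq] at this
      simpa [dotProduct, transpose_apply] using this
    have e3 : M *ᵥ (fun j => U j i) = lam i • fun j => U j i := by
      rw [e1, hMU, Matrix.mulVec_mulVec, Matrix.mul_assoc, hU, Matrix.mul_one, ← Matrix.mulVec_mulVec,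
        Matrix.diagonal_mulVec_single]
      rw [mul_one]
      have : (Pi.single i (lam i) : Fin n → ℝ) = lam i • Pi.single i 1 := by
        rw [← Pi.single_smul]
        simp
      rw [this, Matrix.mulVec_smul]
    rw [Matrix.smul_mulVec, Matrix.one_mulVec, dotProduct_smul, e2, e3, dotProduct_smul, e2,
      smul_eq_mul, smul_eq_mul, mul_one, mul_one] at h2
    exact h2
  have h3 : M.det = ∏ i, lam i := by
    rw [hMU, Matrix.det_mul, Matrix.det_mul, Matrix.det_diagonal, Matrix.det_transpose]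
    have : U.det * U.det = 1 := by
      have := congrArg Matrix.det hU
      rwa [Matrix.det_mul, Matrix.det_transpose, Matrix.det_one] at this
    calc U.det * (∏ i, lam i) * U.det = (U.det * U.det) * ∏ i, lam i := by ring
      _ = _ := by rw [this, one_mul]
  rw [h3]
  calc c ^ n = ∏ _i : Fin n, c := by simp
    _ ≤ ∏ i, lam i := Finset.prod_le_prod (fun _ _ => hc.le) fun i _ => h1 i

/-- a symmetric, uniformly positive matrix field with `CB` entries -/
structure MF (M : E n → Mt n) : Prop where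
  cb : ∀ i j, CB fun x => M x i j
  symm : ∀ x, (M x)ᵀ = M x
  ge : ∃ c : ℝ, 0 < c ∧ ∀ x, LeQ (c • (1 : Mt n)) (M x)

variable {M : E n → Mt n}

theorem MF.det_cbp (hM : MF M) : CBp fun x => (M x).det := by
  obtain ⟨c, hc, h⟩ := hM.ge
  exact ⟨cb_det hM.cb, c ^ n, pow_pos hc n, fun x => det_ge (hM.symm x) hc (h x)⟩

theorem MF.det_pos (hM : MF M) (x : E n) : 0 < (M x).det := hM.det_cbp.pos x

theorem MF.unit (hM : MF M) (x : E n) : IsUnit (M x).det :=
  isUnit_iff_ne_zero.2 (hM.det_pos x).ne'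

theorem MF.cb_inv (hM : MF M) (i j : Fin n) : CB fun x => (M x)⁻¹ i j := by
  have e : (fun x => (M x)⁻¹ i j) = fun x => ((M x).det)⁻¹ *
      ((M x).updateRow j (Pi.single i 1)).det := by
    funext x
    rw [Matrix.inv_def, Matrix.smul_apply, Ring.inverse_eq_inv', Matrix.adjugate_apply, smul_eq_mul]
  rw [e]
  refine Tw807.cb_mul (cbp_inv hM.det_cbp) (cb_det fun k l => ?_)
  by_cases hk : k = j
  · subst hk
    simp only [Matrix.updateRow_self]
    exact Tw807.cb_const _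
  · simp only [Matrix.updateRow_ne hk]
    exact hM.cb k l

theorem MF.symm_inv (hM : MF M) (x : E n) : ((M x)⁻¹)ᵀ = (M x)⁻¹ := by
  rw [Matrix.transpose_nonsing_inv, hM.symm]

theorem pdM_mul {A B : E n → Mt n} (hA : ∀ i j, CB fun x => A x i j)
    (hB : ∀ i j, CB fun x => B x i j) (k : Fin n) (x : E n) :
    pdM k (fun y => A y * B y) x = pdM k A x * B x + A x * pdM k B x := by
  ext i j
  simp only [pdM, Matrix.of_apply, Matrix.add_apply, Matrix.mul_apply]
  rw [Tw807.pd_sum _ (f := fun l y => A y i l * B y l j) k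
    fun l _ => (Tw807.cb_diff (hA i l) x).mul (Tw807.cb_diff (hB l j) x),
    ← Finset.sum_add_distrib]
  refine Finset.sum_congr rfl fun l _ => ?_
  rw [Tw807.pd_mul k (Tw807.cb_diff (hA i l) x) (Tw807.cb_diff (hB l j) x)]
  ring

/-- `∂ M⁻¹ = - M⁻¹ ∂M M⁻¹` -/
theorem MF.pd_inv (hM : MF M) (k : Fin n) (x : E n) :
    pdM k (fun y => (M y)⁻¹) x = -((M x)⁻¹ * pdM k M x * (M x)⁻¹) := by
  have h1 := pdM_mul hM.cb hM.cb_inv k x
  have e : (fun y => M y * (M y)⁻¹) = fun _ => 1 := by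
    funext y
    exact Matrix.mul_nonsing_inv _ (hM.unit y)
  have e2 : pdM k (fun _ : E n => (1 : Mt n)) x = 0 := by
    ext i j
    simp only [pdM, Matrix.of_apply, Matrix.zero_apply]
    exact Tw807.pd_const _ k x
  rw [e, e2] at h1
  have h2 : M x * pdM k (fun y => (M y)⁻¹) x = -(pdM k M x * (M x)⁻¹) := by
    rw [eq_neg_iff_add_eq_zero, add_comm]
    exact h1.symm
  calc pdM k (fun y => (M y)⁻¹) x = (M x)⁻¹ * (M x * pdM k (fun y => (M y)⁻¹) x) := by
        rw [← Matrix.mul_assoc, Matrix.nonsing_inv_mul _ (hM.unit x), Matrix.one_mul]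
    _ = _ := by rw [h2, Matrix.mul_neg, Matrix.mul_assoc]

/-! #### Jacobi's formula (adapted from R208.N3, helper589) -/

theorem det_one_add_deriv (B : Mt n) :
    HasDerivAt (fun t : ℝ => (1 + t • B).det) B.trace 0 := by
  have h : ∀ t : ℝ, (1 + t • B).det = 1 + B.trace * t
      + (((1 : Matrix (Fin n) (Fin n) (Polynomial ℝ)) + (Polynomial.X : Polynomial ℝ) •
        B.map Polynomial.C).det.divX.divX.eval t) * t ^ 2 := by
    intro t; exact Matrix.det_one_add_smul _ _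
  simp only [h]
  have h0 : HasDerivAt (fun t : ℝ => t) 1 0 := hasDerivAt_id 0
  have h1 := (((1 : Matrix (Fin n) (Fin n) (Polynomial ℝ)) + (Polynomial.X : Polynomial ℝ) •
        B.map Polynomial.C).det.divX.divX).hasDerivAt (0 : ℝ)
  have h2 := ((h0.const_mul B.trace).const_add 1).add (h1.mul (h0.pow 2))
  refine h2.congr_deriv ?_
  simp

section jacobi

attribute [local instance] Matrix.normedAddCommGroup Matrix.normedSpace

theorem diffAt_det (A : Mt n) : DifferentiableAt ℝ (fun B : Mt n => B.det) A := by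
  simp only [Matrix.det_apply]
  refine DifferentiableAt.fun_sum fun σ _ => ?_
  refine DifferentiableAt.fun_const_smul ?_ _
  have hL : ∀ i : Fin n, ∃ L : Mt n →L[ℝ] ℝ, HasFDerivAt (fun B : Mt n => B (σ i) i) L A := by
    intro i
    have h1 : HasFDerivAt (fun B : Mt n => (B (σ i) : Fin n → ℝ))
        (ContinuousLinearMap.proj (R := ℝ) (φ := fun _ : Fin n => Fin n → ℝ) (σ i)) A :=
      (ContinuousLinearMap.proj (R := ℝ) (φ := fun _ : Fin n => Fin n → ℝ) (σ i)).hasFDerivAt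
    have h2 : HasFDerivAt (fun r : Fin n → ℝ => r i)
        (ContinuousLinearMap.proj (R := ℝ) (φ := fun _ : Fin n => ℝ) i) (A (σ i)) :=
      (ContinuousLinearMap.proj (R := ℝ) (φ := fun _ : Fin n => ℝ) i).hasFDerivAt
    exact ⟨_, (h2.comp A h1 : HasFDerivAt ((fun r : Fin n → ℝ => r i) ∘
      (fun B : Mt n => (B (σ i) : Fin n → ℝ))) _ A)⟩
  choose L hL using hL
  exact (HasFDerivAt.finsetProd (u := Finset.univ)
    (g := fun i (B : Mt n) => B (σ i) i) (x := A) (fun i _ => hL i)).differentiableAt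

theorem det_deriv {A : ℝ → Mt n} {A' : Mt n} {t : ℝ}
    (hA : ∀ i j, HasDerivAt (fun t => A t i j) (A' i j) t) (hd : IsUnit (A t).det) :
    HasDerivAt (fun t => (A t).det) ((A t).det * ((A t)⁻¹ * A').trace) t := by
  have hA' : HasDerivAt A A' t := hasDerivAt_pi.2 fun i => hasDerivAt_pi.2 fun j => hA i j
  have h1 := (diffAt_det (A t)).hasFDerivAt
  have h2 := h1.comp_hasDerivAt t hA'
  refine h2.congr_deriv ?_
  have h3 : HasDerivAt (fun s : ℝ => A t + s • A') A' 0 := by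
    have := ((hasDerivAt_id (0 : ℝ)).smul_const A').const_add (A t)
    rw [one_smul] at this
    exact this
  have h4 : HasFDerivAt (fun B : Mt n => B.det)
      (fderiv ℝ (fun B : Mt n => B.det) (A t)) (A t + (0 : ℝ) • A') := by
    simpa using h1
  have h5 := h4.comp_hasDerivAt (0 : ℝ) h3
  have h6 : ((fun B : Mt n => B.det) ∘ fun s : ℝ => A t + s • A')
      = fun s : ℝ => (A t).det * (1 + s • ((A t)⁻¹ * A')).det := by
    ext s
    simp only [Function.comp]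
    rw [← Matrix.det_mul, Matrix.mul_add, Matrix.mul_one, Matrix.mul_smul, ← Matrix.mul_assoc,
      Matrix.mul_nonsing_inv _ hd, Matrix.one_mul]
  rw [h6] at h5
  have h7 := (det_one_add_deriv ((A t)⁻¹ * A')).const_mul (A t).det
  exact h5.unique h7

end jacobi

/-- `∂ₖ log det M = tr (M⁻¹ ∂ₖM)` -/
theorem MF.pd_logdet (hM : MF M) (k : Fin n) (x : E n) :
    pd k (fun y => Real.log (M y).det) x = ((M x)⁻¹ * pdM k M x).trace := by
  rw [pd_log k (Tw807.cb_diff hM.det_cbp.1 x) (hM.det_pos x).ne']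
  have h1 : ∀ {f : E n → ℝ}, DifferentiableAt ℝ f x →
      HasDerivAt (fun t : ℝ => f (x + t • EuclideanSpace.single k (1 : ℝ))) (pd k f x) 0 := by
    intro f hf
    have h2 : HasDerivAt (fun t : ℝ => x + t • (EuclideanSpace.single k (1 : ℝ) : E n))
        (EuclideanSpace.single k (1 : ℝ)) 0 := by
      simpa using ((hasDerivAt_id (0 : ℝ)).smul_const (EuclideanSpace.single k (1 : ℝ))).const_add x
    have h3 : HasFDerivAt f (fderiv ℝ f x) (x + (0 : ℝ) • (EuclideanSpace.single k (1 : ℝ) : E n)) := by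
      simpa using hf.hasFDerivAt
    exact h3.comp_hasDerivAt (0 : ℝ) h2
  have h4 := h1 (Tw807.cb_diff hM.det_cbp.1 x)
  have h5 := det_deriv (A := fun t : ℝ => M (x + t • EuclideanSpace.single k (1 : ℝ)))
    (A' := pdM k M x) (t := 0) (fun i j => h1 (Tw807.cb_diff (hM.cb i j) x))
    (by simpa using hM.unit x)
  have h6 := h4.unique h5
  rw [h6]
  have h7 : M (x + (0 : ℝ) • EuclideanSpace.single k (1 : ℝ)) = M x := by simp
  rw [h7]
  have := (hM.det_pos x).ne'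
  field_simp

/-- symmetric square root -/
theorem MF.root (hM : MF M) (x : E n) : ∃ B : Mt n, Bᵀ = B ∧ B * B = M x ∧ 0 < B.det := by
  obtain ⟨c, hc, h⟩ := hM.ge
  obtain ⟨T, hT, hTT⟩ := MX354.root_exists (symm_posDef (hM.symm x) hc (h x)).posSemidef
  refine ⟨T, MX354.posSemidef_transpose hT, hTT, ?_⟩
  refine lt_of_le_of_ne hT.det_nonneg fun h0 => ?_
  have h1 := hM.det_pos x
  rw [← hTT, Matrix.det_mul, ← h0, mul_zero] at h1
  exact lt_irrefl _ h1

/-! ### the density of `N(v, M)` with respect to the standard Gaussian -/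

/-- log-density of `N(v, M)` with respect to `gam n` -/
noncomputable def gl (v : Fin n → ℝ) (M : Mt n) (y : E n) : ℝ :=
  -(1 / 2) * ((y.ofLp - v) ⬝ᵥ (M⁻¹ *ᵥ (y.ofLp - v))) + (1 / 2) * (y.ofLp ⬝ᵥ y.ofLp) -
    (1 / 2) * Real.log M.det

/-- density of `N(v, M)` with respect to `gam n` -/
noncomputable def gd (v : Fin n → ℝ) (M : Mt n) (y : E n) : ℝ := Real.exp (gl v M y)


/-- the affine map `g ↦ v + B g` -/
noncomputable def am (v : Fin n → ℝ) (B : Mt n) (g : E n) : E n := WithLp.toLp 2 (v + B *ᵥ g.ofLp)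

theorem am_ofLp (v : Fin n → ℝ) (B : Mt n) (g : E n) : (am v B g).ofLp = v + B *ᵥ g.ofLp := rfl


theorem norm_sq_dot (y : E n) : ‖y‖ ^ 2 = y.ofLp ⬝ᵥ y.ofLp := by
  rw [EuclideanSpace.norm_sq_eq]
  simp [dotProduct, sq]

/-- change of variables for the affine map -/
theorem int_am (v : Fin n → ℝ) {B : Mt n} (hB : 0 < B.det) (H : E n → ℝ) :
    (Integrable H ↔ Integrable fun g => H (am v B g)) ∧
    ∫ y, H y = B.det * ∫ g, H (am v B g) := by
  set e : E n ≃L[ℝ] (Fin n → ℝ) := PiLp.continuousLinearEquiv 2 ℝ fun _ : Fin n => ℝ with he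
  set f : E n →ₗ[ℝ] E n := (e.symm : (Fin n → ℝ) →ₗ[ℝ] E n) ∘ₗ (Matrix.toLin' B) ∘ₗ
    (e : E n →ₗ[ℝ] (Fin n → ℝ)) with hf
  have hdet : LinearMap.det f = B.det := by
    rw [hf]
    have := LinearMap.det_conj (Matrix.toLin' B) (e.symm.toLinearEquiv)
    rw [LinearMap.det_toLin'] at this
    exact this
  have hfd : LinearMap.det f ≠ 0 := by rw [hdet]; exact hB.ne'
  have hmap := Measure.map_linearMap_addHaar_eq_smul_addHaar (volume : Measure (E n)) hfd
  rw [hdet, abs_of_pos (inv_pos.2 hB)] at hmap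
  have hfa : ∀ g, am v B g = WithLp.toLp 2 v + f g := fun g => rfl
  set fe : E n ≃L[ℝ] E n := (LinearEquiv.ofIsUnitDet (f := f) (v := (stdOrthonormalBasis ℝ (E n)).toBasis)
    (v' := (stdOrthonormalBasis ℝ (E n)).toBasis) (by
      rw [LinearMap.det_toMatrix]; exact isUnit_iff_ne_zero.2 hfd)).toContinuousLinearEquiv with hfe
  have hfef : ∀ g, fe g = f g := fun g => rfl
  have hme : MeasurableEmbedding (f : E n → E n) := by
    have := fe.toHomeomorph.measurableEmbedding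
    exact this
  have hT : ∀ H : E n → ℝ, ∫ y, H (WithLp.toLp 2 v + y) = ∫ y, H y := fun H =>
    integral_add_left_eq_self H _
  constructor
  · have h1 : Integrable H ↔ Integrable fun y => H (WithLp.toLp 2 v + y) := by
      constructor
      · intro h; exact h.comp_add_left _
      · intro h
        have := h.comp_add_left (-(WithLp.toLp 2 v : E n))
        simpa using this
    rw [h1]
    have h2 := hme.integrable_map_iff (μ := (volume : Measure (E n)))
      (g := fun y => H (WithLp.toLp 2 v + y))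
    rw [hmap] at h2
    have h3 : Integrable (fun y => H (WithLp.toLp 2 v + y)) (ENNReal.ofReal (B.det)⁻¹ •
        (volume : Measure (E n))) ↔ Integrable fun y => H (WithLp.toLp 2 v + y) :=
      integrable_smul_measure (by simpa using hB) ENNReal.ofReal_ne_top
    rw [← h3, h2]
    rfl
  · rw [← hT H]
    have h2 := hme.integral_map (μ := (volume : Measure (E n)))
      (fun y => H (WithLp.toLp 2 v + y))
    rw [hmap, integral_smul_measure, ENNReal.toReal_ofReal (inv_pos.2 hB).le, smul_eq_mul] at h2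
    have h3 : ∫ g, H (am v B g) = ∫ g, H (WithLp.toLp 2 v + f g) := rfl
    rw [h3, ← h2, ← mul_assoc, mul_inv_cancel₀ hB.ne', one_mul]

theorem gd_am (v : Fin n → ℝ) {B : Mt n} (hBs : Bᵀ = B) (hB : 0 < B.det) (g : E n) :
    B.det * (gd v (B * B) (am v B g) * gk 1 (am v B g)) = gk 1 g := by
  have hu : IsUnit B.det := isUnit_iff_ne_zero.2 hB.ne'
  have h1 : (B *ᵥ g.ofLp) ⬝ᵥ ((B * B)⁻¹ *ᵥ (B *ᵥ g.ofLp)) = g.ofLp ⬝ᵥ g.ofLp := by
    rw [Matrix.mul_inv_rev, Matrix.mulVec_mulVec, Matrix.mul_assoc, Matrix.nonsing_inv_mul _ hu,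
      Matrix.mul_one]
    have : (B *ᵥ g.ofLp) ⬝ᵥ (B⁻¹ *ᵥ g.ofLp) = g.ofLp ⬝ᵥ ((Bᵀ * B⁻¹) *ᵥ g.ofLp) := by
      rw [← Matrix.mulVec_mulVec, Matrix.dotProduct_mulVec g.ofLp, Matrix.vecMul_transpose]
    rw [this, hBs, Matrix.mul_nonsing_inv _ hu, Matrix.one_mulVec]
  have h2 : Real.exp (-(1 / 2) * Real.log (B * B).det) = (B.det)⁻¹ := by
    rw [Matrix.det_mul, Real.log_mul hB.ne' hB.ne', ← Real.exp_log (inv_pos.2 hB), Real.log_inv]
    congr 1
    ring
  unfold gd gl gk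
  rw [am_ofLp, add_sub_cancel_left, h1]
  have h3 : -(1 / 2) * (g.ofLp ⬝ᵥ g.ofLp) + 1 / 2 * ((v + B *ᵥ g.ofLp) ⬝ᵥ (v + B *ᵥ g.ofLp)) -
      1 / 2 * Real.log (B * B).det = (-(‖g‖ ^ 2 / (2 * 1)) + -(1 / 2) * Real.log (B * B).det) +
        (‖am v B g‖ ^ 2 / (2 * 1)) := by
    rw [norm_sq_dot, norm_sq_dot, am_ofLp]
    ring
  rw [h3, Real.exp_add, Real.exp_add, h2]
  have h4 : Real.exp (‖am v B g‖ ^ 2 / (2 * 1)) * Real.exp (-(‖am v B g‖ ^ 2 / (2 * 1))) = 1 := by
    rw [← Real.exp_add]; simp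
  calc B.det * (Real.exp (-(‖g‖ ^ 2 / (2 * 1))) * (B.det)⁻¹ * Real.exp (‖am v B g‖ ^ 2 / (2 * 1)) *
        Real.exp (-(‖am v B g‖ ^ 2 / (2 * 1))))
      = (B.det * (B.det)⁻¹) * Real.exp (-(‖g‖ ^ 2 / (2 * 1))) *
        (Real.exp (‖am v B g‖ ^ 2 / (2 * 1)) * Real.exp (-(‖am v B g‖ ^ 2 / (2 * 1)))) := by ring
    _ = _ := by rw [h4, mul_inv_cancel₀ hB.ne', one_mul, mul_one]

/-- the law of `v + B g` has density `gd v (B²)` with respect to `gam n` -/
theorem gd_cov (v : Fin n → ℝ) {B : Mt n} (hBs : Bᵀ = B) (hB : 0 < B.det) (F : E n → ℝ) :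
    (Integrable (fun y => F y * gd v (B * B) y) (gam n) ↔
      Integrable (fun g => F (am v B g)) (gam n)) ∧
    ∫ y, F y * gd v (B * B) y ∂(gam n) = ∫ g, F (am v B g) ∂(gam n) := by
  have hρ : Ex (gk 1 : E n → ℝ) := ex_gk one_pos
  obtain ⟨h1, h2⟩ := int_am v hB fun y => F y * gd v (B * B) y * gk 1 y
  have e : ∀ g, B.det * (F (am v B g) * gd v (B * B) (am v B g) * gk 1 (am v B g)) =
      F (am v B g) * gk 1 g := by
    intro g
    rw [← gd_am v hBs hB g]
    ring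
  constructor
  · unfold gam
    rw [integrable_nm_iff hρ, integrable_nm_iff hρ, h1]
    have e2 : (fun g => F (am v B g) * gk 1 g) = fun g =>
        B.det * (F (am v B g) * gd v (B * B) (am v B g) * gk 1 (am v B g)) := by
      funext g; exact (e g).symm
    rw [e2]
    constructor
    · intro h; exact h.const_mul _
    · intro h
      have := h.const_mul (B.det)⁻¹
      refine this.congr (ae_of_all _ fun g => ?_)
      simp only
      rw [← mul_assoc, inv_mul_cancel₀ hB.ne', one_mul]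
  · rw [int_gam, int_gam]
    unfold Em
    rw [h2, ← integral_const_mul]
    simp only [e]

end Crest.Agent.R201.LL809
end

-- ▼ part R201/LabG3_809

/-!
# R201, LSI half (helper809): Gaussian labels `J | x ~ N(v(x), M(x))` as channels,
their Fisher information and mutual information
-/

set_option autoImplicit false
set_option maxHeartbeats 400000
set_option linter.unusedSectionVars false
open MeasureTheory Matrix Filter Topology
open scoped ContDiff RealInnerProductSpace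

namespace Crest.Agent.R201.LL809

open Crest.Agent.R201.An

variable {n : ℕ}

/-! ### families of fields with polynomial growth in the label -/

/-- `CB` in `x`, polynomial growth of degree `d` in the label `y` -/
structure PG (d : ℕ) (φ : E n → E n → ℝ) : Prop where
  cb : ∀ y, CB (φ y)
  meas : Measurable fun z : E n × E n => φ z.1 z.2
  measd : ∀ k, Measurable fun z : E n × E n => pd k (φ z.1) z.2
  bd : ∃ C : ℝ, 0 ≤ C ∧ ∀ y x, |φ y x| ≤ C * (1 + ‖y‖) ^ d ∧
    ∀ k, |pd k (φ y) x| ≤ C * (1 + ‖y‖) ^ d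

theorem PG.cst {f : E n → ℝ} (hf : CB f) : PG 0 (fun _ x => f x) where
  cb _ := hf
  meas := hf.1.continuous.measurable.comp measurable_snd
  measd k := (pd_meas hf k).comp measurable_snd
  bd := by
    obtain ⟨-, B, hB⟩ := hf
    exact ⟨B, (abs_nonneg _).trans (hB 0).1, fun y x => by simpa using hB x⟩

theorem PG.coord (i : Fin n) : PG 1 (fun (y _ : E n) => y i) where
  cb y := Tw807.cb_const _
  meas := by fun_prop
  measd k := by
    have : (fun z : E n × E n => pd k ((fun (y _ : E n) => y i) z.1) z.2) = fun _ => 0 := by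
      funext z; exact Tw807.pd_const _ k _
    rw [this]; exact measurable_const
  bd := by
    refine ⟨1, zero_le_one, fun y x => ⟨?_, fun k => ?_⟩⟩
    · have := PiLp.norm_apply_le y i
      rw [Real.norm_eq_abs] at this
      rw [pow_one, one_mul]
      linarith
    · rw [show pd k (fun _ : E n => y i) x = 0 from Tw807.pd_const _ k x, abs_zero]
      positivity

theorem PG.add {d : ℕ} {φ ψ : E n → E n → ℝ} (hφ : PG d φ) (hψ : PG d ψ) :
    PG d (fun y x => φ y x + ψ y x) where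
  cb y := Tw807.cb_add (hφ.cb y) (hψ.cb y)
  meas := hφ.meas.add hψ.meas
  measd k := by
    have : (fun z : E n × E n => pd k (fun x => φ z.1 x + ψ z.1 x) z.2) =
        fun z => pd k (φ z.1) z.2 + pd k (ψ z.1) z.2 := by
      funext z
      exact Tw807.pd_add k (Tw807.cb_diff (hφ.cb z.1) z.2) (Tw807.cb_diff (hψ.cb z.1) z.2)
    simp only [this]
    exact (hφ.measd k).add (hψ.measd k)
  bd := by
    obtain ⟨C, hC, h⟩ := hφ.bd
    obtain ⟨C', hC', h'⟩ := hψ.bd
    refine ⟨C + C', by positivity, fun y x => ⟨?_, fun k => ?_⟩⟩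
    · rw [add_mul]
      exact (abs_add_le _ _).trans (add_le_add (h y x).1 (h' y x).1)
    · rw [add_mul, Tw807.pd_add k (Tw807.cb_diff (hφ.cb y) x) (Tw807.cb_diff (hψ.cb y) x)]
      exact (abs_add_le _ _).trans (add_le_add ((h y x).2 k) ((h' y x).2 k))

theorem PG.mul {d e : ℕ} {φ ψ : E n → E n → ℝ} (hφ : PG d φ) (hψ : PG e ψ) :
    PG (d + e) (fun y x => φ y x * ψ y x) where
  cb y := Tw807.cb_mul (hφ.cb y) (hψ.cb y)
  meas := hφ.meas.mul hψ.meas
  measd k := by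
    have : (fun z : E n × E n => pd k (fun x => φ z.1 x * ψ z.1 x) z.2) =
        fun z => φ z.1 z.2 * pd k (ψ z.1) z.2 + pd k (φ z.1) z.2 * ψ z.1 z.2 := by
      funext z
      exact Tw807.pd_mul k (Tw807.cb_diff (hφ.cb z.1) z.2) (Tw807.cb_diff (hψ.cb z.1) z.2)
    simp only [this]
    exact (hφ.meas.mul (hψ.measd k)).add ((hφ.measd k).mul hψ.meas)
  bd := by
    obtain ⟨C, hC, h⟩ := hφ.bd
    obtain ⟨C', hC', h'⟩ := hψ.bd
    refine ⟨C * C' + C * C', by positivity, fun y x => ⟨?_, fun k => ?_⟩⟩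
    · rw [abs_mul]
      have h1 : 0 ≤ C * (1 + ‖y‖) ^ d := by positivity
      have := mul_le_mul (h y x).1 (h' y x).1 (abs_nonneg _) h1
      refine this.trans ?_
      rw [pow_add]
      have h2 : 0 ≤ C * C' * ((1 + ‖y‖) ^ d * (1 + ‖y‖) ^ e) := by positivity
      nlinarith
    · rw [Tw807.pd_mul k (Tw807.cb_diff (hφ.cb y) x) (Tw807.cb_diff (hψ.cb y) x)]
      refine (abs_add_le _ _).trans ?_
      rw [abs_mul, abs_mul]
      have h1 : 0 ≤ C * (1 + ‖y‖) ^ d := by positivity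
      have a1 := mul_le_mul (h y x).1 ((h' y x).2 k) (abs_nonneg _) h1
      have a2 := mul_le_mul ((h y x).2 k) (h' y x).1 (abs_nonneg _) h1
      refine (add_le_add a1 a2).trans (le_of_eq ?_)
      rw [pow_add]
      ring

theorem PG.mono {d e : ℕ} (hde : d ≤ e) {φ : E n → E n → ℝ} (hφ : PG d φ) : PG e φ where
  cb := hφ.cb
  meas := hφ.meas
  measd := hφ.measd
  bd := by
    obtain ⟨C, hC, h⟩ := hφ.bd
    refine ⟨C, hC, fun y x => ?_⟩
    have h1 : (1 + ‖y‖) ^ d ≤ (1 + ‖y‖) ^ e :=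
      pow_le_pow_right₀ (by linarith [norm_nonneg y]) hde
    exact ⟨(h y x).1.trans (mul_le_mul_of_nonneg_left h1 hC),
      fun k => ((h y x).2 k).trans (mul_le_mul_of_nonneg_left h1 hC)⟩

theorem PG.smul {d : ℕ} (c : ℝ) {φ : E n → E n → ℝ} (hφ : PG d φ) : PG d (fun y x => c * φ y x) := by
  have := (PG.cst (Tw807.cb_const (n := n) c)).mul hφ
  rwa [zero_add] at this

theorem PG.sub {d : ℕ} {φ ψ : E n → E n → ℝ} (hφ : PG d φ) (hψ : PG d ψ) :
    PG d (fun y x => φ y x - ψ y x) := by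
  have := hφ.add (hψ.smul (-1))
  simpa [sub_eq_add_neg] using this

theorem PG.sum {ι : Type*} (s : Finset ι) {d : ℕ} {φ : ι → E n → E n → ℝ}
    (h : ∀ i ∈ s, PG d (φ i)) : PG d (fun y x => ∑ i ∈ s, φ i y x) := by
  classical
  induction s using Finset.induction_on with
  | empty =>
    simp only [Finset.sum_empty]
    exact (PG.cst (Tw807.cb_const (n := n) 0)).mono (Nat.zero_le d)
  | insert a s ha ih =>
    simp only [Finset.sum_insert ha]
    exact (h a (Finset.mem_insert_self a s)).add (ih fun i hi => h i (Finset.mem_insert_of_mem hi))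

/-- exponential of a family of degree 2 is a channel -/
theorem chan_of_PG {φ : E n → E n → ℝ} (hφ : PG 2 φ) {K c : ℝ} (hc : 0 < c)
    (hup : ∀ y x, φ y x ≤ K + (1 / 2) * ‖y‖ ^ 2 - c * ‖y‖ ^ 2)
    (one : ∀ x, ∫ y, Real.exp (φ y x) ∂(gam n) = 1)
    (zero : ∀ k x, ∫ y, pd k (φ y) x * Real.exp (φ y x) ∂(gam n) = 0) :
    ∃ G h : E n → ℝ, Chan (gam n) (fun y x => Real.exp (φ y x)) G h := by
  obtain ⟨C, hC, hb⟩ := hφ.bd
  have hpd : ∀ k y x, pd k (fun x => Real.exp (φ y x)) x = Real.exp (φ y x) * pd k (φ y) x :=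
    fun k y x => pd_exp k (Tw807.cb_diff (hφ.cb y) x)
  refine ⟨fun y => Real.exp (K + (1 / 2) * ‖y‖ ^ 2 - c * ‖y‖ ^ 2), fun y => C * (1 + ‖y‖) ^ 2, ?_⟩
  refine
    { cb := fun y => cb_exp (hφ.cb y)
      meas := hφ.meas.exp
      measd := fun k => ?_
      one := one
      zero := fun k x => ?_
      le := fun y x => Real.exp_le_exp.2 (hup y x)
      log_le := fun y x => ?_
      pd_le := fun y x k => ?_
      mh := ?_
      mG := ?_
      int := ?_ }
  · simp only [hpd]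
    exact hφ.meas.exp.mul (hφ.measd k)
  · rw [← zero k x]
    refine integral_congr_ae (ae_of_all _ fun y => ?_)
    simp only
    rw [hpd, mul_comm]
  · rw [Real.log_exp]
    exact (hb y x).1
  · rw [hpd, abs_mul, abs_of_pos (Real.exp_pos _), mul_comm]
    exact mul_le_mul_of_nonneg_right ((hb y x).2 k) (Real.exp_pos _).le
  · exact (measurable_const.add measurable_norm).pow_const 2 |>.const_mul C
  · fun_prop
  · unfold gam
    rw [integrable_nm_iff (ex_gk one_pos)]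
    have hE : EG fun y : E n => (1 + C * (1 + ‖y‖) ^ 2) ^ 2 * Real.exp K := by
      have a1 : EG fun y : E n => 1 + ‖y‖ := (EG.const 1).add EG.norm
      have a2 : EG fun y : E n => (1 + ‖y‖) ^ 2 := by simpa [sq] using a1.mul a1
      have a3 : EG fun y : E n => 1 + C * (1 + ‖y‖) ^ 2 := (EG.const 1).add (a2.smul C)
      have a4 : EG fun y : E n => (1 + C * (1 + ‖y‖) ^ 2) ^ 2 := by simpa [sq] using a3.mul a3
      exact a4.mul (EG.const _)
    have hs : 0 < 1 / (2 * c) := by positivity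
    refine ((ex_gk (n := n) hs).int_mul hE).congr (ae_of_all _ fun y => ?_)
    simp only
    have : Real.exp (K + 1 / 2 * ‖y‖ ^ 2 - c * ‖y‖ ^ 2) * gk 1 y =
        Real.exp K * gk (1 / (2 * c)) y := by
      unfold gk
      rw [← Real.exp_add, ← Real.exp_add]
      congr 1
      field_simp
      ring
    calc (1 + C * (1 + ‖y‖) ^ 2) ^ 2 * Real.exp K * gk (1 / (2 * c)) y
        = (1 + C * (1 + ‖y‖) ^ 2) ^ 2 * (Real.exp K * gk (1 / (2 * c)) y) := by ring
      _ = _ := by rw [← this]; ring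

/-! ### the log-density as a family -/

variable {M : E n → Mt n} {v : E n → Fin n → ℝ}

/-- derivative of a vector field -/
noncomputable def pdv (k : Fin n) (v : E n → Fin n → ℝ) (x : E n) : Fin n → ℝ :=
  fun i => pd k (fun y => v y i) x

/-- the Gaussian channel -/
noncomputable def gp (v : E n → Fin n → ℝ) (M : E n → Mt n) : E n → E n → ℝ :=
  fun y x => gd (v x) (M x) y

theorem PG_D (hv : ∀ i, CB fun x => v x i) (i : Fin n) : PG 1 (fun y x => y i - v x i) :=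
  (PG.coord i).sub ((PG.cst (hv i)).mono zero_le_one)

theorem PG_gl (hM : MF M) (hv : ∀ i, CB fun x => v x i) : PG 2 (fun y x => gl (v x) (M x) y) := by
  have h1 : PG 2 (fun (y x : E n) => ∑ i, (y i - v x i) * ∑ j, (M x)⁻¹ i j * (y j - v x j)) := by
    refine PG.sum _ fun i _ => ?_
    have h2 : PG 1 (fun (y x : E n) => ∑ j, (M x)⁻¹ i j * (y j - v x j)) := by
      refine PG.sum _ fun j _ => ?_
      have := (PG.cst (hM.cb_inv i j)).mul (PG_D hv j)
      rwa [zero_add] at this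
    exact (PG_D hv i).mul h2
  have h3 : PG 2 (fun (y _ : E n) => ∑ i, y i * y i) :=
    PG.sum _ fun i _ => (PG.coord i).mul (PG.coord i)
  have h4 : PG 2 (fun (_ x : E n) => Real.log (M x).det) :=
    (PG.cst (cbp_log hM.det_cbp)).mono (Nat.zero_le 2)
  exact ((h1.smul (-(1 / 2))).add (h3.smul (1 / 2))).sub (h4.smul (1 / 2))

/-- derivative of the log-density -/
theorem pd_gl (hM : MF M) (hv : ∀ i, CB fun x => v x i) (k : Fin n) (x y : E n) :
    pd k (fun x => gl (v x) (M x) y) x =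
      -(1 / 2) * ((M x)⁻¹ * pdM k M x).trace + (y.ofLp - v x) ⬝ᵥ ((M x)⁻¹ *ᵥ pdv k v x) +
        (1 / 2) * ((y.ofLp - v x) ⬝ᵥ (((M x)⁻¹ * pdM k M x * (M x)⁻¹) *ᵥ (y.ofLp - v x))) := by
  set A := fun x => (M x)⁻¹ with hA
  set D := y.ofLp - v x with hD
  have dA : ∀ i j, DifferentiableAt ℝ (fun x => A x i j) x := fun i j =>
    Tw807.cb_diff (hM.cb_inv i j) x
  have dD : ∀ i, DifferentiableAt ℝ (fun x => y i - v x i) x := fun i =>
    (differentiableAt_const _).sub (Tw807.cb_diff (hv i) x)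
  have pD : ∀ i, pd k (fun x => y i - v x i) x = -(pdv k v x i) := by
    intro i
    rw [Tw807.pd_sub k (differentiableAt_const _) (Tw807.cb_diff (hv i) x), Tw807.pd_const]
    simp [pdv]
  have d1 : ∀ i j, DifferentiableAt ℝ (fun x => A x i j * (y j - v x j)) x := fun i j =>
    (dA i j).mul (dD j)
  have d2 : ∀ i, DifferentiableAt ℝ (fun x => ∑ j, A x i j * (y j - v x j)) x := fun i =>
    DifferentiableAt.fun_sum fun j _ => d1 i j
  have d3 : ∀ i, DifferentiableAt ℝ (fun x => (y i - v x i) * ∑ j, A x i j * (y j - v x j)) x :=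
    fun i => (dD i).mul (d2 i)
  have d4 : DifferentiableAt ℝ
      (fun x => ∑ i, (y i - v x i) * ∑ j, A x i j * (y j - v x j)) x :=
    DifferentiableAt.fun_sum fun i _ => d3 i
  have dl : DifferentiableAt ℝ (fun x => Real.log (M x).det) x :=
    Tw807.cb_diff (cbp_log hM.det_cbp) x
  have e1 : pd k (fun x => ∑ i, (y i - v x i) * ∑ j, A x i j * (y j - v x j)) x =
      D ⬝ᵥ (pdM k A x *ᵥ D) - D ⬝ᵥ (A x *ᵥ pdv k v x) - pdv k v x ⬝ᵥ (A x *ᵥ D) := by
    rw [Tw807.pd_sum _ k fun i _ => d3 i]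
    have : ∀ i, pd k (fun x => (y i - v x i) * ∑ j, A x i j * (y j - v x j)) x =
        D i * (pdM k A x *ᵥ D) i - D i * (A x *ᵥ pdv k v x) i - pdv k v x i * (A x *ᵥ D) i := by
      intro i
      rw [Tw807.pd_mul k (dD i) (d2 i), Tw807.pd_sum _ k fun j _ => d1 i j, pD]
      have h5 : ∀ j, pd k (fun x => A x i j * (y j - v x j)) x =
          pdM k A x i j * D j - A x i j * pdv k v x j := by
        intro j
        rw [Tw807.pd_mul k (dA i j) (dD j), pD]
        simp only [pdM, Matrix.of_apply, hD, Pi.sub_apply]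
        ring
      simp only [h5, Finset.sum_sub_distrib, Matrix.mulVec, dotProduct]
      simp only [hD, Pi.sub_apply]
      ring
    simp only [this, Finset.sum_sub_distrib, dotProduct]
  have e2 : (fun x => gl (v x) (M x) y) = fun x =>
      (-(1 / 2) * (∑ i, (y i - v x i) * ∑ j, A x i j * (y j - v x j)) +
        (1 / 2) * (y.ofLp ⬝ᵥ y.ofLp)) - (1 / 2) * Real.log (M x).det := rfl
  have d5 : DifferentiableAt ℝ (fun x => -(1 / 2) *
      (∑ i, (y i - v x i) * ∑ j, A x i j * (y j - v x j)) + (1 / 2) * (y.ofLp ⬝ᵥ y.ofLp)) x :=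
    (d4.const_mul _).add (differentiableAt_const _)
  have d6 : DifferentiableAt ℝ (fun x => -(1 / 2) *
      (∑ i, (y i - v x i) * ∑ j, A x i j * (y j - v x j))) x := d4.const_mul _
  have d7 : DifferentiableAt ℝ (fun x => (1 / 2) * Real.log (M x).det) x := dl.const_mul _
  rw [e2, Tw807.pd_sub k d5 d7, Tw807.pd_add k d6 (differentiableAt_const _),
    Tw807.pd_const_mul _ k d4,
    Tw807.pd_const_mul _ k dl, Tw807.pd_const, e1, hM.pd_logdet]
  have h6 : pdM k A x = -(A x * pdM k M x * A x) := hM.pd_inv k x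
  have h7 : pdv k v x ⬝ᵥ (A x *ᵥ D) = D ⬝ᵥ (A x *ᵥ pdv k v x) := by
    rw [Matrix.dotProduct_mulVec, ← Matrix.mulVec_transpose, hM.symm_inv, dotProduct_comm]
  rw [h6, h7, Matrix.neg_mulVec, dotProduct_neg]
  ring

/-- the score in whitened coordinates -/
theorem score_am (v w : Fin n → ℝ) {B : Mt n} (hBs : Bᵀ = B) (hB : 0 < B.det) (K : Mt n) (g : E n) :
    -(1 / 2) * ((B * B)⁻¹ * K).trace + ((am v B g).ofLp - v) ⬝ᵥ ((B * B)⁻¹ *ᵥ w) +
        (1 / 2) * (((am v B g).ofLp - v) ⬝ᵥ (((B * B)⁻¹ * K * (B * B)⁻¹) *ᵥ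
          ((am v B g).ofLp - v))) =
      (∑ i, (B⁻¹ *ᵥ w) i * g i) + ((∑ i, ∑ j, ((1 / 2 : ℝ) • (B⁻¹ * K * B⁻¹)) i j * (g i * g j)) -
        ((1 / 2 : ℝ) • (B⁻¹ * K * B⁻¹)).trace) := by
  have hu : IsUnit B.det := isUnit_iff_ne_zero.2 hB.ne'
  have hadj : ∀ z : Fin n → ℝ, (B *ᵥ g.ofLp) ⬝ᵥ z = g.ofLp ⬝ᵥ (B *ᵥ z) := by
    intro z
    rw [Matrix.dotProduct_mulVec g.ofLp, ← Matrix.mulVec_transpose, hBs]
  rw [am_ofLp, add_sub_cancel_left, hadj, hadj]
  have h1 : B *ᵥ ((B * B)⁻¹ *ᵥ w) = B⁻¹ *ᵥ w := by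
    rw [Matrix.mul_inv_rev, Matrix.mulVec_mulVec, ← Matrix.mul_assoc, Matrix.mul_nonsing_inv _ hu,
      Matrix.one_mul]
  have h2 : B *ᵥ (((B * B)⁻¹ * K * (B * B)⁻¹) *ᵥ (B *ᵥ g.ofLp)) =
      (B⁻¹ * K * B⁻¹) *ᵥ g.ofLp := by
    rw [Matrix.mul_inv_rev, Matrix.mulVec_mulVec, Matrix.mulVec_mulVec]
    congr 1
    calc B * (B⁻¹ * B⁻¹ * K * (B⁻¹ * B⁻¹)) * B
        = (B * B⁻¹) * B⁻¹ * K * B⁻¹ * (B⁻¹ * B) := by simp only [Matrix.mul_assoc]
      _ = _ := by
        rw [Matrix.mul_nonsing_inv _ hu, Matrix.nonsing_inv_mul _ hu, Matrix.one_mul, Matrix.mul_one]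
  have h3 : ((B * B)⁻¹ * K).trace = (B⁻¹ * K * B⁻¹).trace := by
    rw [Matrix.mul_inv_rev, Matrix.mul_assoc, Matrix.trace_mul_comm]
  rw [h1, h2, h3]
  have h4 : g.ofLp ⬝ᵥ (B⁻¹ *ᵥ w) = ∑ i, (B⁻¹ *ᵥ w) i * g i := by
    rw [dotProduct_comm]; rfl
  have h5 : (1 / 2 : ℝ) * (g.ofLp ⬝ᵥ ((B⁻¹ * K * B⁻¹) *ᵥ g.ofLp)) =
      ∑ i, ∑ j, ((1 / 2 : ℝ) • (B⁻¹ * K * B⁻¹)) i j * (g i * g j) := by
    simp only [dotProduct, Matrix.mulVec, Finset.mul_sum, Matrix.smul_apply, smul_eq_mul]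
    refine Finset.sum_congr rfl fun i _ => Finset.sum_congr rfl fun j _ => ?_
    ring
  rw [h4, h5, Matrix.trace_smul, smul_eq_mul]
  ring

/-- second moment of the score -/
theorem score_sq (w : Fin n → ℝ) {B K : Mt n} (hBs : Bᵀ = B) (hK : Kᵀ = K) :
    (B⁻¹ *ᵥ w) ⬝ᵥ (B⁻¹ *ᵥ w) + (((1 / 2 : ℝ) • (B⁻¹ * K * B⁻¹)) *
        ((1 / 2 : ℝ) • (B⁻¹ * K * B⁻¹))ᵀ).trace +
        (((1 / 2 : ℝ) • (B⁻¹ * K * B⁻¹)) * ((1 / 2 : ℝ) • (B⁻¹ * K * B⁻¹))).trace =
      w ⬝ᵥ ((B * B)⁻¹ *ᵥ w) + (1 / 2) * ((B * B)⁻¹ * K * (B * B)⁻¹ * K).trace := by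
  have hBi : (B⁻¹)ᵀ = B⁻¹ := by rw [Matrix.transpose_nonsing_inv, hBs]
  have h1 : (B⁻¹ *ᵥ w) ⬝ᵥ (B⁻¹ *ᵥ w) = w ⬝ᵥ ((B * B)⁻¹ *ᵥ w) := by
    rw [Matrix.mul_inv_rev, ← Matrix.mulVec_mulVec, Matrix.dotProduct_mulVec w,
      ← Matrix.mulVec_transpose, hBi]
  have hs : ((1 / 2 : ℝ) • (B⁻¹ * K * B⁻¹))ᵀ = (1 / 2 : ℝ) • (B⁻¹ * K * B⁻¹) := by
    rw [Matrix.transpose_smul, Matrix.transpose_mul, Matrix.transpose_mul, hBi, hK, Matrix.mul_assoc]
  have h2 : (((1 / 2 : ℝ) • (B⁻¹ * K * B⁻¹)) * ((1 / 2 : ℝ) • (B⁻¹ * K * B⁻¹))).trace =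
      (1 / 4) * ((B * B)⁻¹ * K * (B * B)⁻¹ * K).trace := by
    rw [Matrix.smul_mul, Matrix.mul_smul, Matrix.trace_smul, Matrix.trace_smul, smul_eq_mul,
      smul_eq_mul, ← mul_assoc, Matrix.mul_inv_rev]
    have : (B⁻¹ * K * B⁻¹ * (B⁻¹ * K * B⁻¹)).trace = (B⁻¹ * B⁻¹ * K * (B⁻¹ * B⁻¹) * K).trace := by
      have e1 : B⁻¹ * K * B⁻¹ * (B⁻¹ * K * B⁻¹) = B⁻¹ * (K * (B⁻¹ * B⁻¹) * K * B⁻¹) := by
        simp only [Matrix.mul_assoc]
      have e2 : K * (B⁻¹ * B⁻¹) * K * B⁻¹ * B⁻¹ = (K * (B⁻¹ * B⁻¹) * K) * (B⁻¹ * B⁻¹) := by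
        simp only [Matrix.mul_assoc]
      have e3 : (B⁻¹ * B⁻¹ * K * (B⁻¹ * B⁻¹) * K) = (B⁻¹ * B⁻¹) * (K * (B⁻¹ * B⁻¹) * K) := by
        simp only [Matrix.mul_assoc]
      rw [e1, Matrix.trace_mul_comm, e2, e3, Matrix.trace_mul_comm]
    rw [this]
    norm_num
  rw [hs, h1, h2]
  ring

theorem pdM_symm (hM : MF M) (k : Fin n) (x : E n) : (pdM k M x)ᵀ = pdM k M x := by
  ext i j
  simp only [pdM, Matrix.transpose_apply, Matrix.of_apply]
  congr 1
  funext y
  have := congrFun (congrFun (hM.symm y) i) j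
  rw [Matrix.transpose_apply] at this
  exact this


/-- moments of the Gaussian channel -/
theorem gp_moments (hM : MF M) (hv : ∀ i, CB fun x => v x i) (x : E n) :
    ∫ y, gd (v x) (M x) y ∂(gam n) = 1 ∧
    (∀ k, ∫ y, pd k (fun x => gl (v x) (M x) y) x * gd (v x) (M x) y ∂(gam n) = 0) ∧
    (∀ k, ∫ y, pd k (fun x => gl (v x) (M x) y) x ^ 2 * gd (v x) (M x) y ∂(gam n) =
      pdv k v x ⬝ᵥ ((M x)⁻¹ *ᵥ pdv k v x) +
        (1 / 2) * ((M x)⁻¹ * pdM k M x * (M x)⁻¹ * pdM k M x).trace) ∧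
    ∫ y, gl (v x) (M x) y * gd (v x) (M x) y ∂(gam n) =
      (1 / 2) * (v x ⬝ᵥ v x + (M x).trace - n - Real.log (M x).det) := by
  obtain ⟨B, hBs, hBB, hB⟩ := hM.root x
  refine ⟨?_, fun k => ?_, fun k => ?_, ?_⟩
  · have := (gd_cov (v x) hBs hB (fun _ => 1)).2
    rw [hBB] at this
    simpa using this
  · have := (gd_cov (v x) hBs hB fun y => pd k (fun x => gl (v x) (M x) y) x).2
    rw [hBB] at this
    rw [this, int_gam]
    simp only [pd_gl hM hv]
    rw [← hBB]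
    simp only [score_am _ _ hBs hB]
    exact mscore0 _ _
  · have := (gd_cov (v x) hBs hB fun y => pd k (fun x => gl (v x) (M x) y) x ^ 2).2
    rw [hBB] at this
    rw [this, int_gam]
    simp only [pd_gl hM hv]
    rw [← hBB]
    simp only [score_am _ _ hBs hB]
    rw [mscore]
    exact score_sq _ hBs (pdM_symm hM k x)
  · have := (gd_cov (v x) hBs hB fun y => gl (v x) (M x) y).2
    rw [hBB] at this
    rw [this, int_gam, ← hBB]
    have hu : IsUnit B.det := isUnit_iff_ne_zero.2 hB.ne'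
    have e : ∀ g : E n, gl (v x) (B * B) (am (v x) B g) =
        (1 / 2) * (v x ⬝ᵥ v x - Real.log (B * B).det) + ((∑ i, (B *ᵥ v x) i * g i) +
          ∑ i, ∑ j, ((1 / 2 : ℝ) • (B * B - 1)) i j * (g i * g j)) := by
      intro g
      have hadj : ∀ z : Fin n → ℝ, (B *ᵥ g.ofLp) ⬝ᵥ z = g.ofLp ⬝ᵥ (B *ᵥ z) := by
        intro z
        rw [Matrix.dotProduct_mulVec g.ofLp, ← Matrix.mulVec_transpose, hBs]
      have h1 : (B *ᵥ g.ofLp) ⬝ᵥ ((B * B)⁻¹ *ᵥ (B *ᵥ g.ofLp)) = g.ofLp ⬝ᵥ g.ofLp := by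
        rw [hadj, Matrix.mulVec_mulVec, Matrix.mulVec_mulVec, Matrix.mul_inv_rev]
        have : B * (B⁻¹ * B⁻¹) * B = 1 := by
          calc B * (B⁻¹ * B⁻¹) * B = (B * B⁻¹) * (B⁻¹ * B) := by simp only [Matrix.mul_assoc]
            _ = 1 := by
              rw [Matrix.mul_nonsing_inv _ hu, Matrix.nonsing_inv_mul _ hu, Matrix.one_mul]
        rw [← Matrix.mul_assoc] at this ⊢
        rw [this, Matrix.one_mulVec]
      have h2 : (v x + B *ᵥ g.ofLp) ⬝ᵥ (v x + B *ᵥ g.ofLp) =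
          v x ⬝ᵥ v x + 2 * (g.ofLp ⬝ᵥ (B *ᵥ v x)) + g.ofLp ⬝ᵥ ((B * B) *ᵥ g.ofLp) := by
        have h0 : v x ⬝ᵥ (B *ᵥ g.ofLp) = g.ofLp ⬝ᵥ (B *ᵥ v x) := by
          rw [dotProduct_comm, hadj]
        rw [add_dotProduct, dotProduct_add, dotProduct_add, hadj, hadj, h0, Matrix.mulVec_mulVec]
        ring
      have h3 : ∑ i, (B *ᵥ v x) i * g i = g.ofLp ⬝ᵥ (B *ᵥ v x) := by
        rw [dotProduct_comm]; rfl
      have h4 : ∑ i, ∑ j, ((1 / 2 : ℝ) • (B * B - 1)) i j * (g i * g j) =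
          (1 / 2) * (g.ofLp ⬝ᵥ ((B * B) *ᵥ g.ofLp) - g.ofLp ⬝ᵥ g.ofLp) := by
        have h5 : g.ofLp ⬝ᵥ ((B * B) *ᵥ g.ofLp) - g.ofLp ⬝ᵥ g.ofLp =
            g.ofLp ⬝ᵥ ((B * B - 1) *ᵥ g.ofLp) := by
          rw [Matrix.sub_mulVec, Matrix.one_mulVec, dotProduct_sub]
        rw [h5]
        simp only [dotProduct, Matrix.mulVec, Finset.mul_sum, Matrix.smul_apply, smul_eq_mul]
        refine Finset.sum_congr rfl fun i _ => Finset.sum_congr rfl fun j _ => ?_
        ring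
      unfold gl
      rw [am_ofLp, add_sub_cancel_left, h1, h2, h3, h4]
      ring
    simp only [e]
    have hρ : Ex (gk 1 : E n → ℝ) := ex_gk one_pos
    rw [Em_add hρ (EG.const _) ((EGl _).add (EGq _)), Em_add hρ (EGl _) (EGq _), Em_const hρ, ml, mq,
      Matrix.trace_smul, Matrix.trace_sub, Matrix.trace_one, Fintype.card_fin, smul_eq_mul]
    ring

/-- lower bound for the quadratic form of the inverse -/
theorem inv_quad_ge {A : Mt n} (hA : Aᵀ = A) {m c : ℝ} (hc : 0 < c) (h0 : LeQ (c • (1 : Mt n)) A)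
    (hm : LeQ A (m • (1 : Mt n))) (u : Fin n → ℝ) : u ⬝ᵥ u ≤ m * (u ⬝ᵥ (A⁻¹ *ᵥ u)) := by
  have hP := symm_posDef hA hc h0
  have hu : IsUnit A.det := isUnit_iff_ne_zero.2 hP.det_pos.ne'
  set w := A⁻¹ *ᵥ u with hw
  have hAw : A *ᵥ w = u := by rw [hw, Matrix.mulVec_mulVec, Matrix.mul_nonsing_inv _ hu, Matrix.one_mulVec]
  obtain ⟨B, hB, hBB⟩ := MX354.root_exists hP.posSemidef
  have hBs := MX354.posSemidef_transpose hB
  have hadj : ∀ z z' : Fin n → ℝ, (B *ᵥ z) ⬝ᵥ z' = z ⬝ᵥ (B *ᵥ z') := by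
    intro z z'
    rw [Matrix.dotProduct_mulVec z, ← Matrix.mulVec_transpose, hBs]
  have h1 : u ⬝ᵥ u = (B *ᵥ w) ⬝ᵥ (A *ᵥ (B *ᵥ w)) := by
    rw [← hAw, ← hBB]
    simp only [← Matrix.mulVec_mulVec]
    rw [hadj, hadj]
  have h2 := hm (B *ᵥ w)
  rw [Matrix.smul_mulVec, Matrix.one_mulVec, dotProduct_smul, smul_eq_mul] at h2
  have h3 : (B *ᵥ w) ⬝ᵥ (B *ᵥ w) = u ⬝ᵥ w := by
    rw [hadj, Matrix.mulVec_mulVec, hBB, hAw, dotProduct_comm]
  rw [h1]
  rw [h3] at h2
  exact h2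

/-- upper bound of a bounded matrix field -/
theorem MF.le (hM : MF M) : ∃ m : ℝ, 0 < m ∧ ∀ x, LeQ (M x) (m • (1 : Mt n)) := by
  have h1 : ∀ i j, ∃ B : ℝ, ∀ x, |M x i j| ≤ B := fun i j => by
    obtain ⟨-, B, hB⟩ := hM.cb i j
    exact ⟨B, fun x => (hB x).1⟩
  choose B hB using h1
  have hB0 : ∀ i j, 0 ≤ B i j := fun i j => (abs_nonneg _).trans (hB i j 0)
  set S := ∑ i, ∑ j, B i j with hS
  have hS0 : 0 ≤ S := Finset.sum_nonneg fun i _ => Finset.sum_nonneg fun j _ => hB0 i j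
  refine ⟨S + 1, by linarith, fun x u => ?_⟩
  rw [Matrix.smul_mulVec, Matrix.one_mulVec, dotProduct_smul, smul_eq_mul]
  have hu0 : 0 ≤ u ⬝ᵥ u := Finset.sum_nonneg fun i _ => mul_self_nonneg (u i)
  have hui : ∀ i, u i * u i ≤ u ⬝ᵥ u := fun i =>
    Finset.single_le_sum (f := fun i => u i * u i) (fun i _ => mul_self_nonneg (u i))
      (Finset.mem_univ i)
  have h2 : u ⬝ᵥ (M x *ᵥ u) ≤ S * (u ⬝ᵥ u) := by
    simp only [hS, Finset.sum_mul]
    have e : u ⬝ᵥ (M x *ᵥ u) = ∑ i, ∑ j, u i * (M x i j * u j) := by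
      simp only [dotProduct, Matrix.mulVec, Finset.mul_sum]
    rw [e]
    refine Finset.sum_le_sum fun i _ => Finset.sum_le_sum fun j _ => ?_
    have h3 : |u i * u j| ≤ u ⬝ᵥ u := by
      rw [abs_mul]
      have h5 := hui i
      have h6 := hui j
      nlinarith [sq_nonneg (|u i| - |u j|), abs_mul_abs_self (u i), abs_mul_abs_self (u j)]
    calc u i * (M x i j * u j) ≤ |u i * (M x i j * u j)| := le_abs_self _
      _ = |M x i j| * |u i * u j| := by rw [← abs_mul]; congr 1; ring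
      _ ≤ B i j * (u ⬝ᵥ u) := mul_le_mul (hB i j x) h3 (abs_nonneg _) (hB0 i j)
  nlinarith

/-- **(G1)** the Gaussian channel -/
theorem gchan (hM : MF M) (hv : ∀ i, CB fun x => v x i) :
    ∃ G h : E n → ℝ, Chan (gam n) (gp v M) G h := by
  obtain ⟨c, hc, hge⟩ := hM.ge
  obtain ⟨m, hm, hle⟩ := hM.le
  obtain ⟨L, hL0, hL⟩ := hM.det_cbp.log_bdd
  have h1 : ∀ i, ∃ B : ℝ, ∀ x, |v x i| ≤ B := fun i => by
    obtain ⟨-, B, hB⟩ := hv i
    exact ⟨B, fun x => (hB x).1⟩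
  choose b hb using h1
  set V := ∑ i, b i ^ 2 with hV
  have hvV : ∀ x, v x ⬝ᵥ v x ≤ V := by
    intro x
    refine Finset.sum_le_sum fun i _ => ?_
    rw [← sq, ← sq_abs]
    exact pow_le_pow_left₀ (abs_nonneg _) (hb i x) 2
  refine chan_of_PG (PG_gl hM hv) (K := 1 / (2 * m) * V + (1 / 2) * L) (c := 1 / (4 * m))
    (by positivity) (fun y x => ?_) (fun x => (gp_moments hM hv x).1)
    (fun k x => (gp_moments hM hv x).2.1 k)
  have h2 := inv_quad_ge (hM.symm x) hc (hge x) (hle x) (y.ofLp - v x)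
  have h3 : y.ofLp ⬝ᵥ y.ofLp ≤ 2 * ((y.ofLp - v x) ⬝ᵥ (y.ofLp - v x)) + 2 * (v x ⬝ᵥ v x) := by
    simp only [dotProduct, Finset.mul_sum, ← Finset.sum_add_distrib, Pi.sub_apply]
    refine Finset.sum_le_sum fun i _ => ?_
    nlinarith [sq_nonneg (y.ofLp i - 2 * v x i)]
  have h4 := hvV x
  have h5 := (abs_le.1 (hL x)).1
  rw [norm_sq_dot]
  unfold gl
  set q := (y.ofLp - v x) ⬝ᵥ ((M x)⁻¹ *ᵥ (y.ofLp - v x)) with hq
  set D := (y.ofLp - v x) ⬝ᵥ (y.ofLp - v x) with hD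
  set Y := y.ofLp ⬝ᵥ y.ofLp with hY
  have h6 : Y ≤ 2 * (m * q) + 2 * V := by linarith
  have h7 : 1 / (4 * m) * Y ≤ 1 / (4 * m) * (2 * (m * q) + 2 * V) :=
    mul_le_mul_of_nonneg_left h6 (by positivity)
  have h8 : 1 / (4 * m) * (2 * (m * q) + 2 * V) = (1 / 2) * q + 1 / (2 * m) * V := by
    field_simp
    ring
  linarith

section Info

variable {μ : Measure (E n)} [IsFiniteMeasure μ] {f : E n → ℝ}

/-- KL divergence of the label from the standard Gaussian -/
noncomputable def Dis (μ : Measure (E n)) (f : E n → ℝ) (v : E n → Fin n → ℝ) (M : E n → Mt n) : ℝ :=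
  ∫ y, pJ μ f (gp v M) y * Real.log (pJ μ f (gp v M) y) ∂(gam n)

/-- **(G2)** the Fisher information of the Gaussian channel -/
theorem LF_gp (hM : MF M) (hv : ∀ i, CB fun x => v x i) (hf : CBp f) :
    LF μ f (gam n) (gp v M) = ∫ x, f x * ∑ k, (pdv k v x ⬝ᵥ ((M x)⁻¹ *ᵥ pdv k v x) +
      (1 / 2) * ((M x)⁻¹ * pdM k M x * (M x)⁻¹ * pdM k M x).trace) ∂μ := by
  obtain ⟨G, h, hp⟩ := gchan hM hv
  obtain ⟨B, hB0, hB⟩ := hf.bdd
  have mf := hf.cont.measurable
  have s5 := fun k => hp.swap (μ := μ) (q := fun j x => pd k (gp v M j) x ^ 2 / gp v M j x) mf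
    (fun x => (hB x).1) (hp.mq4 k) (hp.q4 k)
  have e1 : LF μ f (gam n) (gp v M) =
      ∑ k, ∫ j, ∫ x, f x * (pd k (gp v M j) x ^ 2 / gp v M j x) ∂μ ∂(gam n) := by
    unfold LF
    rw [← integral_finsetSum _ fun k _ => (s5 k).1]
    refine integral_congr_ae (Filter.Eventually.of_forall fun j => ?_)
    simp only
    rw [← integral_finsetSum _ fun k _ => hp.int_right (μ := μ)
      (q := fun j x => pd k (gp v M j) x ^ 2 / gp v M j x) mf (fun x => (hB x).1)
      (hp.mq4 k) (hp.q4 k) j]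
    refine integral_congr_ae (Filter.Eventually.of_forall fun x => ?_)
    simp only
    rw [Finset.sum_div, Finset.mul_sum]
  have e2 : ∀ k x, ∫ j, pd k (gp v M j) x ^ 2 / gp v M j x ∂(gam n) =
      pdv k v x ⬝ᵥ ((M x)⁻¹ *ᵥ pdv k v x) +
        (1 / 2) * ((M x)⁻¹ * pdM k M x * (M x)⁻¹ * pdM k M x).trace := by
    intro k x
    rw [← (gp_moments hM hv x).2.2.1 k]
    refine integral_congr_ae (Filter.Eventually.of_forall fun y => ?_)
    simp only
    have : pd k (gp v M y) x = gd (v x) (M x) y * pd k (fun x => gl (v x) (M x) y) x :=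
      pd_exp k (Tw807.cb_diff ((PG_gl hM hv).cb y) x)
    have h0 : gp v M y x = gd (v x) (M x) y := rfl
    have h1 : gd (v x) (M x) y ≠ 0 := (Real.exp_pos _).ne'
    rw [this, h0]
    field_simp
  have h3 : ∀ k, Integrable (fun x => f x * (pdv k v x ⬝ᵥ ((M x)⁻¹ *ᵥ pdv k v x) +
        (1 / 2) * ((M x)⁻¹ * pdM k M x * (M x)⁻¹ * pdM k M x).trace)) μ := by
    intro k
    have := (hp.int_prod (μ := μ) (q := fun j x => pd k (gp v M j) x ^ 2 / gp v M j x) mf
      (fun x => (hB x).1) (hp.mq4 k) (hp.q4 k)).integral_prod_right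
    refine this.congr (Filter.Eventually.of_forall fun x => ?_)
    simp only
    rw [integral_const_mul, e2]
  rw [e1]
  simp only [fun k => (s5 k).2, e2]
  rw [← integral_finsetSum _ fun k _ => h3 k]
  simp only [Finset.mul_sum]

/-- **(G3)** the mutual information of the Gaussian channel -/
theorem MI_gp (hM : MF M) (hv : ∀ i, CB fun x => v x i) (hf : CBp f) (h1 : ∫ x, f x ∂μ = 1) :
    MI μ f (gam n) (gp v M) = (1 / 2) * (∫ x, f x * (v x ⬝ᵥ v x + (M x).trace - n -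
      Real.log (M x).det) ∂μ) - Dis μ f v M := by
  obtain ⟨G, h, hp⟩ := gchan hM hv
  obtain ⟨B, hB0, hB⟩ := hf.bdd
  have mf := hf.cont.measurable
  have m2 : Measurable fun z : E n × E n => gp v M z.1 z.2 * Real.log (gp v M z.1 z.2) :=
    hp.meas.mul hp.meas.log
  obtain ⟨i2, s2⟩ := hp.swap (μ := μ) (q := fun j x => gp v M j x * Real.log (gp v M j x)) mf
    (fun x => (hB x).1) m2 hp.q2
  unfold MI Dis
  rw [integral_sub i2 (pJlog_int hp hf h1), s2]
  congr 1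
  rw [← integral_const_mul]
  refine integral_congr_ae (Filter.Eventually.of_forall fun x => ?_)
  simp only
  have : ∫ j, gp v M j x * Real.log (gp v M j x) ∂(gam n) =
      (1 / 2) * (v x ⬝ᵥ v x + (M x).trace - n - Real.log (M x).det) := by
    rw [← (gp_moments hM hv x).2.2.2]
    refine integral_congr_ae (Filter.Eventually.of_forall fun y => ?_)
    simp only
    have h0 : gp v M y x = gd (v x) (M x) y := rfl
    rw [h0]
    unfold gd
    rw [Real.log_exp, mul_comm]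
  rw [this]
  ring

end Info

end Crest.Agent.R201.LL809
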