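import Crest.Agent.R201.St6_352
import Crest.Agent.R201.LDefs_74
import Crest.Agent.R201.Lps1_146
import Crest.Agent.R201.An7_293
import Crest.Agent.R201.LA2_446
import Crest.Agent.R201.LabLSI_809
import Crest.Agent.R201.Ends_293
import Crest.Agent.R201.El5_593
import Crest.Agent.R201.An14_293
import Crest.Agent.R201.Hf5_391_Mg
import Crest.Agent.R201.Ch6_150
import Crest.Agent.R201.Clip5_78
import Crest.Agent.R201.NsDefs_674
import Crest.Agent.R201.LabG3_809
import Crest.Agent.R201.NSL4_674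
import Crest.Agent.R201.GC2_844

-- ▼ part R201/St7_352
section

/-!
# R201 St7: block **SL** of LDefs_74 (helper352)
-/

set_option autoImplicit false
open MeasureTheory Matrix Filter Topology
open scoped ContDiff RealInnerProductSpace NNReal

namespace Crest.Agent.R201.St352

open Crest.Agent.R201 Crest.Agent.R144.Fi865 Crest.Agent.R201.An Crest.Agent.R201.DVQ402

/-- Block SL: the log-Sobolev constant of `X + √s G` does not grow -/
theorem sl_352 : L74.SL := by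
  intro δ hδ
  set d : ℝ := min δ 1 with hd
  have hd0 : 0 < d := lt_min hδ one_pos
  have hd1 : d ≤ 1 := min_le_right _ _
  have hdδ : d ≤ δ := min_le_left _ _
  set σ : ℝ := d / 16 with hσ
  set e : ℝ := d / 8 with he
  have hσ0 : 0 < σ := by positivity
  have hσ1 : σ ≤ 1 / 16 := by rw [hσ]; linarith
  have he0 : 0 < e := by positivity
  have he1 : e ≤ 1 / 8 := by rw [he]; linarith
  refine ⟨e ^ 3 * σ ^ 2 / 128, by positivity, ?_⟩
  intro n c R w hc hw hSG hL s hs hs1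
  have hex := hw.ex
  have hρ := hex.noisy hs
  have hL' : Noi402.LS w 1 := (Noi402.lsi_iff hex).1 hL
  unfold L74.ms
  rw [Noi402.lsi_iff hρ]
  rcases le_or_gt s σ with h | h
  · refine Noi402.LS_mono hρ (Noi402.LS_noisy hex hs zero_le_one hL') ?_
    rw [hσ] at h
    linarith
  · have h1 : LSn77.LS (An.Lp w σ fun _ => 1) (1 + σ) :=
      Noi402.ls77_iff.2 (Noi402.LS_noisy hex hσ0 zero_le_one hL')
    have h2 := stat hw hc.le hσ0 hσ1 he0 he1 le_rfl hSG (by linarith : (1 : ℝ) ≤ 1 + σ)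
      (by linarith) h1 (t := s - σ) (by linarith) (by linarith)
    have h3 : σ + (s - σ) = s := by ring
    rw [h3] at h2
    refine Noi402.LS_mono hρ (Noi402.ls77_iff.1 h2) ?_
    have h4 : 0 < 1 - 2 * e := by linarith
    rw [div_le_iff₀ h4, hσ, he]
    nlinarith

end Crest.Agent.R201.St352
end

-- ▼ part R201/Lps2_146
section

/-!
# R201 (S0308), LSI half: the joint law of `(Y, X)`, `Y = X + √s G` (owner: helper146)

`jl w s` is the joint law (first coordinate `Y`, second `X`); a density `g(x)` of `X`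
becomes `pE w s g (y)` on `Y`.
-/

set_option autoImplicit false
set_option linter.unusedSectionVars false
open MeasureTheory ProbabilityTheory Matrix
open scoped BigOperators ENNReal RealInnerProductSpace

namespace Crest.Agent.R201.Lps146

open Crest.Agent.R201 Crest.Agent.R201.DVQ402 Crest.Agent.R201.An

variable {n : ℕ} {w g : E n → ℝ} {s : ℝ}

/-- joint law of `(Y, X)`, `Y = X + √s G` -/
noncomputable def jl (w : E n → ℝ) (s : ℝ) : Measure (E n × E n) :=
  ((volume : Measure (E n)).prod volume).withDensity fun p =>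
    ENNReal.ofReal (w p.2 * gk s (p.1 - p.2) / ∫ y, Lp w s (fun _ => 1) y)

/-- law of `Y` -/
noncomputable abbrev lY (w : E n → ℝ) (s : ℝ) : Measure (E n) := nm (Lp w s fun _ => 1)

lemma jl_dens_meas (hw : Ex w) (s : ℝ) : Measurable fun p : E n × E n =>
    w p.2 * gk s (p.1 - p.2) / ∫ y, Lp w s (fun _ => 1) y := by
  have m3 : Measurable fun p : E n × E n => w p.2 := hw.meas.comp measurable_snd
  have m4 : Measurable fun p : E n × E n => gk s (p.1 - p.2) :=
    (gk_cont (n := n) s).measurable.comp (measurable_fst.sub measurable_snd)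
  exact (m3.mul m4).div_const _

lemma jl_dens_nonneg (hw : Ex w) (hs : 0 < s) (p : E n × E n) :
    0 ≤ w p.2 * gk s (p.1 - p.2) / ∫ y, Lp w s (fun _ => 1) y :=
  div_nonneg (mul_nonneg (hw.nonneg _) (gk_pos _ _).le) (hw.noisy hs).pos.le

/-- change of density, `lintegral` form -/
theorem lint_jl (hw : Ex w) (hs : 0 < s) (hg : EG g) (h0 : ∀ x, 0 ≤ g x) {k : E n → ℝ≥0∞}
    (hk : Measurable k) :
    ∫⁻ p, ENNReal.ofReal (g p.2) * k p.1 ∂(jl w s) =
      ∫⁻ y, ENNReal.ofReal (pE w s g y) * k y ∂(lY w s) := by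
  have hρ := hw.noisy hs
  have mg : Measurable fun p : E n × E n => ENNReal.ofReal (g p.2) :=
    (hg.1.comp measurable_snd).ennreal_ofReal
  have mk : Measurable fun p : E n × E n => k p.1 := hk.comp measurable_fst
  have md := (jl_dens_meas hw s).ennreal_ofReal
  have mgk : Measurable fun p : E n × E n => ENNReal.ofReal (g p.2) * k p.1 := mg.mul mk
  have mpE : Measurable (pE w s g) := (Lp_meas hw hs hg).div (Lp_meas hw hs (EG.const 1))
  have mpk : Measurable fun y : E n => ENNReal.ofReal (pE w s g y) * k y :=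
    mpE.ennreal_ofReal.mul hk
  unfold jl lY nm
  rw [lintegral_withDensity_eq_lintegral_mul _ md mgk,
    lintegral_prod _ (md.mul mgk).aemeasurable,
    lintegral_withDensity_eq_lintegral_mul _ (nm_dens_meas hρ) mpk]
  refine lintegral_congr fun y => ?_
  simp only [Pi.mul_apply]
  have e1 : ∀ x, ENNReal.ofReal (w x * gk s (y - x) / ∫ y, Lp w s (fun _ => 1) y) *
      (ENNReal.ofReal (g x) * k y) =
      ENNReal.ofReal (g x * (w x * gk s (y - x)) / ∫ y, Lp w s (fun _ => 1) y) * k y := by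
    intro x
    rw [← mul_assoc, ← ENNReal.ofReal_mul (jl_dens_nonneg hw hs (y, x))]
    congr 2
    ring
  simp only [e1]
  have mx : Measurable fun x : E n => ENNReal.ofReal (g x * (w x * gk s (y - x)) /
      ∫ y, Lp w s (fun _ => 1) y) := by
    have m4 : Measurable fun x : E n => gk s (y - x) :=
      (gk_cont (n := n) s).measurable.comp (measurable_const.sub measurable_id)
    exact ((hg.1.mul (hw.meas.mul m4)).div_const _).ennreal_ofReal
  rw [lintegral_mul_const _ mx, ← ofReal_integral_eq_lintegral_ofReal ((hw.int_Lp hs hg y).div_const _)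
      (Filter.Eventually.of_forall fun x => div_nonneg (mul_nonneg (h0 x)
        (mul_nonneg (hw.nonneg _) (gk_pos _ _).le)) hρ.pos.le), integral_div, ← mul_assoc,
    ← ENNReal.ofReal_mul (div_nonneg (hρ.nonneg y) hρ.pos.le)]
  congr 2
  have h1 : (∫ x, g x * (w x * gk s (y - x))) = Lp w s g y := rfl
  rw [h1, ← pE_mul_one hw hs]
  ring

instance jl_sfinite : SFinite (jl w s) := by
  unfold jl
  infer_instance

theorem jl_prob (hw : Ex w) (hs : 0 < s) : IsProbabilityMeasure (jl w s) := by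
  constructor
  have h := lint_jl (g := fun _ => 1) hw hs (EG.const 1) (fun _ => zero_le_one)
    (k := fun _ => 1) measurable_const
  have h2 := nm_prob (hw.noisy hs)
  have e : ∀ y, pE w s (fun _ => 1) y = 1 := fun y => pE_const hw hs 1 y
  simp only [e, ENNReal.ofReal_one, mul_one, lintegral_one] at h
  rw [h]
  exact h2.measure_univ

lemma int_jl_iff (hw : Ex w) (hs : 0 < s) {G : E n × E n → ℝ} :
    Integrable G (jl w s) ↔ Integrable (fun p => w p.2 * gk s (p.1 - p.2) /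
      (∫ y, Lp w s (fun _ => 1) y) * G p) ((volume : Measure (E n)).prod volume) := by
  unfold jl
  rw [integrable_withDensity_iff_integrable_smul' (jl_dens_meas hw s).ennreal_ofReal
    (ae_of_all _ fun x => ENNReal.ofReal_lt_top)]
  simp only [ENNReal.toReal_ofReal (jl_dens_nonneg hw hs _), smul_eq_mul]

lemma int_jl (hw : Ex w) (hs : 0 < s) (G : E n × E n → ℝ) :
    ∫ p, G p ∂(jl w s) = ∫ p, w p.2 * gk s (p.1 - p.2) /
      (∫ y, Lp w s (fun _ => 1) y) * G p ∂((volume : Measure (E n)).prod volume) := by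
  unfold jl
  rw [integral_withDensity_eq_integral_toReal_smul (jl_dens_meas hw s).ennreal_ofReal
    (ae_of_all _ fun x => ENNReal.ofReal_lt_top)]
  simp only [ENNReal.toReal_ofReal (jl_dens_nonneg hw hs _), smul_eq_mul]

/-- change of density, Bochner form -/
theorem int_jl_mul (hw : Ex w) (hs : 0 < s) (_hg : EG g) {K : E n → ℝ}
    (h : Integrable (fun p : E n × E n => g p.2 * K p.1) (jl w s)) :
    Integrable (fun y => pE w s g y * K y) (lY w s) ∧
      ∫ p, g p.2 * K p.1 ∂(jl w s) = ∫ y, pE w s g y * K y ∂(lY w s) := by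
  have hρ := hw.noisy hs
  have h1 := (int_jl_iff hw hs).1 h
  have e : ∀ y, ∫ x, w x * gk s (y - x) / (∫ y, Lp w s (fun _ => 1) y) * (g x * K y) =
      (∫ y, Lp w s (fun _ => 1) y)⁻¹ * (pE w s g y * K y * Lp w s (fun _ => 1) y) := by
    intro y
    have e1 : ∀ x, w x * gk s (y - x) / (∫ y, Lp w s (fun _ => 1) y) * (g x * K y) =
        ((∫ y, Lp w s (fun _ => 1) y)⁻¹ * K y) * (g x * (w x * gk s (y - x))) := fun x => by ring
    simp only [e1]
    rw [integral_const_mul]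
    have h1 : (∫ x, g x * (w x * gk s (y - x))) = Lp w s g y := rfl
    rw [h1, ← pE_mul_one hw hs]
    ring
  constructor
  · rw [lY, integrable_nm_iff hρ]
    have h2 := (h1.integral_prod_left).const_mul (∫ y, Lp w s (fun _ => 1) y)
    refine h2.congr (ae_of_all _ fun y => ?_)
    simp only
    rw [e, ← mul_assoc, mul_inv_cancel₀ hρ.pos.ne', one_mul]
  · rw [int_jl hw hs, integral_prod _ h1, lY, int_nm hρ]
    simp only [e]
    rw [integral_const_mul]
    unfold Em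
    rw [div_eq_inv_mul]

/-- integrability transfers back -/
theorem int_jl_of (hw : Ex w) (hs : 0 < s) (hg : EG g) (h0 : ∀ x, 0 ≤ g x) {K : E n → ℝ}
    (hK : Measurable K) (h : Integrable (fun y => pE w s g y * K y) (lY w s)) :
    Integrable (fun p : E n × E n => g p.2 * K p.1) (jl w s) := by
  refine ⟨((hg.1.comp measurable_snd).mul (hK.comp measurable_fst)).aestronglyMeasurable, ?_⟩
  have e1 : ∀ p : E n × E n, ‖g p.2 * K p.1‖ₑ = ENNReal.ofReal (g p.2) * ‖K p.1‖ₑ := by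
    intro p
    rw [enorm_mul, Real.enorm_of_nonneg (h0 _)]
  have e2 : ∀ y, ‖pE w s g y * K y‖ₑ = ENNReal.ofReal (pE w s g y) * ‖K y‖ₑ := by
    intro y
    rw [enorm_mul, Real.enorm_of_nonneg (pE_nonneg hw hs h0 y)]
  have h1 := h.2
  unfold HasFiniteIntegral at h1 ⊢
  simp only [e1]
  simp only [e2] at h1
  rwa [lint_jl hw hs hg h0 hK.enorm]

theorem int_jl_iff' (hw : Ex w) (hs : 0 < s) (hg : EG g) (h0 : ∀ x, 0 ≤ g x) {K : E n → ℝ}
    (hK : Measurable K) : Integrable (fun p : E n × E n => g p.2 * K p.1) (jl w s) ↔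
      Integrable (fun y => pE w s g y * K y) (lY w s) :=
  ⟨fun h => (int_jl_mul hw hs hg h).1, int_jl_of hw hs hg h0 hK⟩

theorem int_jl_eq (hw : Ex w) (hs : 0 < s) (hg : EG g) (h0 : ∀ x, 0 ≤ g x) {K : E n → ℝ}
    (hK : Measurable K) :
    ∫ p, g p.2 * K p.1 ∂(jl w s) = ∫ y, pE w s g y * K y ∂(lY w s) := by
  by_cases h : Integrable (fun p : E n × E n => g p.2 * K p.1) (jl w s)
  · exact (int_jl_mul hw hs hg h).2
  · rw [integral_undef h, integral_undef (fun h' => h (int_jl_of hw hs hg h0 hK h'))]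

/-- functions of `Y` -/
theorem int_jl_fst (hw : Ex w) (hs : 0 < s) {K : E n → ℝ} (hK : Measurable K) :
    (Integrable (fun p : E n × E n => K p.1) (jl w s) ↔ Integrable K (lY w s)) ∧
      ∫ p, K p.1 ∂(jl w s) = ∫ y, K y ∂(lY w s) := by
  have e : ∀ y, pE w s (fun _ => 1) y = 1 := fun y => pE_const hw hs 1 y
  have h1 := int_jl_iff' (g := fun _ => 1) hw hs (EG.const 1) (fun _ => zero_le_one) hK
  have h2 := int_jl_eq (g := fun _ => 1) hw hs (EG.const 1) (fun _ => zero_le_one) hK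
  simp only [e, one_mul] at h1 h2
  exact ⟨h1, h2⟩

/-- functions of `X` -/
theorem int_jl_snd (hw : Ex w) (hs : 0 < s) (hg : EG g) :
    Integrable (fun p : E n × E n => g p.2) (jl w s) ∧
      ∫ p, g p.2 ∂(jl w s) = Em w g := by
  have hg' : EG fun x => |g x| := by
    obtain ⟨m, C, a, hC, ha, h⟩ := hg
    exact ⟨m.abs, C, a, hC, ha, fun x => by rw [abs_abs]; exact h x⟩
  have hi : Integrable (fun p : E n × E n => |g p.2| * (1 : ℝ)) (jl w s) := by
    refine int_jl_of (g := fun x => |g x|) (K := fun _ => 1) hw hs hg' (fun x => abs_nonneg _)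
      measurable_const ?_
    simp only [mul_one]
    rw [lY, integrable_nm_iff (hw.noisy hs)]
    have h1 := hw.int_H_Lp hs (EG.const 1) hg'
    refine h1.congr (ae_of_all _ fun y => ?_)
    simp only
    rw [pE_mul_one hw hs, one_mul]
  have hi2 : Integrable (fun p : E n × E n => g p.2) (jl w s) := by
    refine (integrable_norm_iff (hg.1.comp measurable_snd).aestronglyMeasurable).1 ?_
    refine hi.congr (ae_of_all _ fun p => ?_)
    simp
  refine ⟨hi2, ?_⟩
  have h := (int_jl_mul (g := g) (K := fun _ => 1) hw hs hg (by simpa only [mul_one] using hi2)).2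
  simp only [mul_one] at h
  rw [h, lY, int_nm (hw.noisy hs), Em_pE hw hs hg]

end Crest.Agent.R201.Lps146
end

-- ▼ part R201/Lps3_146
section

/-!
# R201 (S0308), LSI half: labelled densities on the joint law of `(Y, X)` (owner: helper146)
-/

set_option autoImplicit false
set_option linter.unusedSectionVars false
open MeasureTheory ProbabilityTheory Matrix
open scoped BigOperators ENNReal RealInnerProductSpace

namespace Crest.Agent.R201.Lps146

open Crest.Agent.R201 Crest.Agent.R201.DVQ402 Crest.Agent.R201.An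

variable {n : ℕ} {w f F : E n → ℝ} {s : ℝ} {J : Type*} [MeasurableSpace J] {lam : Measure J}
  [SFinite lam] {P : J → E n → ℝ}

/-- label kernel read on the first coordinate -/
def lift1 (P : J → E n → ℝ) : J → E n × E n → ℝ := fun j p => P j p.1

omit [SFinite lam] in
theorem Lab.lift (h : Lab lam P) : Lab lam (lift1 P) where
  nonneg j p := h.nonneg j p.1
  meas := by
    have hP : Measurable fun p : J × E n => P p.1 p.2 := h.meas
    exact hP.comp (measurable_fst.prodMk (measurable_fst.comp measurable_snd))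
  one p := h.one p.1

/-- joint integrability transfers from `Y` to `(Y, X)` -/
theorem int_prod_jl {g : E n → ℝ} (hw : Ex w) (hs : 0 < s) (hg : EG g) (h0 : ∀ x, 0 ≤ g x)
    {K : J × E n → ℝ} (hK : Measurable K)
    (h : Integrable (fun q : J × E n => pE w s g q.2 * K q) (lam.prod (lY w s))) :
    Integrable (fun q : J × (E n × E n) => g q.2.2 * K (q.1, q.2.1)) (lam.prod (jl w s)) := by
  have hρ := hw.noisy hs
  have := nm_prob hρ
  have := jl_prob hw hs
  have mK : Measurable fun q : J × (E n × E n) => K (q.1, q.2.1) :=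
    hK.comp (measurable_fst.prodMk (measurable_fst.comp measurable_snd))
  have mg : Measurable fun q : J × (E n × E n) => g q.2.2 :=
    hg.1.comp (measurable_snd.comp measurable_snd)
  have mpE : Measurable (pE w s g) := (Lp_meas hw hs hg).div (Lp_meas hw hs (EG.const 1))
  refine ⟨(mg.mul mK).aestronglyMeasurable, ?_⟩
  have h1 := h.2
  have m1 : Measurable fun q : J × (E n × E n) => ‖g q.2.2 * K (q.1, q.2.1)‖ₑ :=
    (mg.mul mK).enorm
  have m2 : Measurable fun q : J × E n => ‖pE w s g q.2 * K q‖ₑ :=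
    ((mpE.comp measurable_snd).mul hK).enorm
  unfold HasFiniteIntegral at h1 ⊢
  rw [lintegral_prod _ m1.aemeasurable]
  rw [lintegral_prod _ m2.aemeasurable] at h1
  refine lt_of_eq_of_lt ?_ h1
  refine lintegral_congr fun j => ?_
  have e1 : ∀ p : E n × E n, ‖g p.2 * K (j, p.1)‖ₑ = ENNReal.ofReal (g p.2) * ‖K (j, p.1)‖ₑ := by
    intro p
    rw [enorm_mul, Real.enorm_of_nonneg (h0 _)]
  have e2 : ∀ y, ‖pE w s g y * K (j, y)‖ₑ = ENNReal.ofReal (pE w s g y) * ‖K (j, y)‖ₑ := by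
    intro y
    rw [enorm_mul, Real.enorm_of_nonneg (pE_nonneg hw hs h0 y)]
  simp only [e1, e2]
  exact lint_jl hw hs hg h0 (k := fun y => ‖K (j, y)‖ₑ) ((hK.comp measurable_prodMk_left).enorm)

theorem kmeas {μ : Measure (E n)} [SFinite μ] (hP : Lab lam P) (hF : Measurable F) :
    Measurable fun q : J × E n => P q.1 q.2 * Real.log (P q.1 q.2 / pJ μ F P q.1) := by
  have hP' : Measurable fun p : J × E n => P p.1 p.2 := hP.meas
  have h0 : StronglyMeasurable fun p : J × E n => F p.2 * P p.1 p.2 :=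
    ((hF.comp measurable_snd).mul hP').stronglyMeasurable
  have h1 : Measurable fun j => pJ μ F P j :=
    (StronglyMeasurable.integral_prod_right' (ν := μ) h0).measurable
  exact hP'.mul (Real.measurable_log.comp (hP'.div (h1.comp measurable_fst)))

/-- a labelled density of `Y`, seen on `(Y, X)` -/
theorem LD.toFst (hw : Ex w) (hs : 0 < s) (hF : Measurable F) (h : LD (lY w s) lam F P) :
    LD (jl w s) lam (fun p => F p.1) (lift1 P) ∧
    (∀ j, pJ (jl w s) (fun p => F p.1) (lift1 P) j = pJ (lY w s) F P j) ∧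
    ent (jl w s) (fun p => F p.1) = ent (lY w s) F ∧
    MI (jl w s) lam (fun p => F p.1) (lift1 P) = MI (lY w s) lam F P := by
  have := nm_prob (hw.noisy hs)
  have := jl_prob hw hs
  have hP' : Measurable fun p : J × E n => P p.1 p.2 := h.lab.meas
  have hPj : ∀ j, Measurable (P j) := fun j => hP'.comp measurable_prodMk_left
  have ep : ∀ j, pJ (jl w s) (fun p => F p.1) (lift1 P) j = pJ (lY w s) F P j := fun j =>
    (int_jl_fst hw hs (hF.mul (hPj j))).2
  have ek := kmeas (μ := lY w s) h.lab hF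
  have e1 : ∀ y, pE w s (fun _ => 1) y = 1 := fun y => pE_const hw hs 1 y
  refine ⟨⟨h.lab.lift, fun p => h.nonneg _, (int_jl_fst hw hs hF).1.2 h.int, ?_, ?_, ?_⟩, ep, ?_, ?_⟩
  · rw [(int_jl_fst hw hs hF).2]; exact h.one
  · exact (int_jl_fst hw hs (hF.mul hF.log)).1.2 h.ent_int
  · have hm : Measurable fun q : J × E n => F q.2 * (P q.1 q.2 *
        Real.log (P q.1 q.2 / pJ (lY w s) F P q.1)) := (hF.comp measurable_snd).mul ek
    have := int_prod_jl (g := fun _ => 1) hw hs (EG.const 1) (fun _ => zero_le_one) hm (by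
      refine h.mi_int.congr (ae_of_all _ fun q => ?_)
      simp only [e1, one_mul, mul_assoc])
    refine this.congr (ae_of_all _ fun q => ?_)
    simp only [ep, lift1, one_mul, mul_assoc]
  · exact (int_jl_fst hw hs (hF.mul hF.log)).2
  · unfold MI
    refine integral_congr_ae (ae_of_all _ fun j => ?_)
    simp only [ep]
    exact (int_jl_fst (K := fun y => F y * P j y * Real.log (P j y / pJ (lY w s) F P j)) hw hs
      ((hF.mul (hPj j)).mul (Real.measurable_log.comp ((hPj j).div_const _)))).2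

/-- entropy integrand of a density of exponential growth -/
lemma EG.ent (hf : EG f) (h0 : ∀ x, 0 ≤ f x) : EG fun x => f x * Real.log (f x) := by
  have h1 : EG fun x => f x * f x + 1 := (hf.mul hf).add (EG.const 1)
  obtain ⟨m, C, a, hC, ha, h⟩ := h1
  refine ⟨hf.1.mul hf.1.log, C, a, hC, ha, fun x => ?_⟩
  refine le_trans ?_ ((le_abs_self _).trans (h x))
  simp only
  rcases (h0 x).eq_or_lt with h2 | h2
  · rw [← h2]; simp
  rw [abs_le]
  have l1 := Real.log_le_sub_one_of_pos h2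
  have l2 := Real.log_le_sub_one_of_pos (inv_pos.2 h2)
  rw [Real.log_inv] at l2
  have l3 : f x * (f x)⁻¹ = 1 := mul_inv_cancel₀ h2.ne'
  constructor
  · nlinarith [mul_pos h2 h2]
  · nlinarith [mul_pos h2 h2]

/-- the density `f(X)` with a label of `Y` -/
theorem LD.toSnd (hw : Ex w) (hs : 0 < s) (hf : EG f) (h0 : ∀ x, 0 ≤ f x) (h1 : Em w f = 1)
    (h : LD (lY w s) lam (pE w s f) P) :
    LD (jl w s) lam (fun p => f p.2) (lift1 P) ∧
    (∀ j, pJ (jl w s) (fun p => f p.2) (lift1 P) j = pJ (lY w s) (pE w s f) P j) ∧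
    ent (jl w s) (fun p => f p.2) = Em w (fun x => f x * Real.log (f x)) ∧
    MI (jl w s) lam (fun p => f p.2) (lift1 P) = MI (lY w s) lam (pE w s f) P := by
  have := nm_prob (hw.noisy hs)
  have := jl_prob hw hs
  have hP' : Measurable fun p : J × E n => P p.1 p.2 := h.lab.meas
  have hPj : ∀ j, Measurable (P j) := fun j => hP'.comp measurable_prodMk_left
  have mF : Measurable (pE w s f) := (Lp_meas hw hs hf).div (Lp_meas hw hs (EG.const 1))
  have ep : ∀ j, pJ (jl w s) (fun p => f p.2) (lift1 P) j = pJ (lY w s) (pE w s f) P j := fun j =>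
    int_jl_eq hw hs hf h0 (hPj j)
  have ek := kmeas (μ := lY w s) h.lab mF
  have hfl := EG.ent hf h0
  obtain ⟨i1, i2⟩ := int_jl_snd hw hs hf
  obtain ⟨i3, i4⟩ := int_jl_snd hw hs hfl
  refine ⟨⟨h.lab.lift, fun p => h0 _, i1, i2.trans h1, i3, ?_⟩, ep, i4, ?_⟩
  · have := int_prod_jl hw hs hf h0 ek (by
      refine h.mi_int.congr (ae_of_all _ fun q => ?_)
      simp only [mul_assoc])
    refine this.congr (ae_of_all _ fun q => ?_)
    simp only [ep, lift1, mul_assoc]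
  · unfold MI
    refine integral_congr_ae (ae_of_all _ fun j => ?_)
    simp only [ep]
    have := int_jl_eq hw hs hf h0
      (K := fun y => P j y * Real.log (P j y / pJ (lY w s) (pE w s f) P j))
      ((hPj j).mul (Real.measurable_log.comp ((hPj j).div_const _)))
    simp only [lift1, mul_assoc] at this ⊢
    exact this

/-- centred `X` on the joint law -/
noncomputable def xh (m : E n) : E n × E n → E n := fun p => p.2 - m

lemma xh_meas (m : E n) : Measurable (xh m) := measurable_snd.sub_const m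

/-- centred sub-Gaussian law of `X` -/
def SGw (κ : ℝ) (w : E n → ℝ) (m : E n) : Prop :=
  ∀ t : E n, Em w (fun x => Real.exp ⟪t, x - m⟫) ≤ Real.exp (κ * ‖t‖ ^ 2)

lemma EG.exp_inner (t m : E n) : EG fun x : E n => Real.exp ⟪t, x - m⟫ := by
  refine ⟨by fun_prop, Real.exp (‖t‖ * ‖m‖), ‖t‖, (Real.exp_pos _).le, norm_nonneg _, fun x => ?_⟩
  rw [abs_of_pos (Real.exp_pos _), ← Real.exp_add]
  apply Real.exp_le_exp.2
  have h1 := real_inner_le_norm t (x - m)
  have h2 : ‖x - m‖ ≤ ‖x‖ + ‖m‖ := norm_sub_le _ _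
  nlinarith [norm_nonneg t]

theorem SGw.sgf {κ : ℝ} {m : E n} (hw : Ex w) (hs : 0 < s) (h : SGw κ w m) :
    SGf κ (jl w s) (xh m) := by
  intro t
  obtain ⟨h1, h2⟩ := int_jl_snd hw hs (EG.exp_inner t m)
  refine ⟨h1, ?_⟩
  have e : (fun z : E n × E n => Real.exp ⟪t, xh m z⟫) = fun p => Real.exp ⟪t, p.2 - m⟫ := rfl
  rw [e, h2]
  exact h t

end Crest.Agent.R201.Lps146
end

-- ▼ part R201/Lps4_146
section

/-!
# R201 (S0308), LSI half: posterior algebra for the labelled psi_2 inequalities (owner: helper146)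
-/

set_option autoImplicit false
set_option linter.unusedSectionVars false
open MeasureTheory ProbabilityTheory Matrix
open scoped BigOperators ENNReal RealInnerProductSpace

namespace Crest.Agent.R201.Lps146

open Crest.Agent.R201 Crest.Agent.R201.DVQ402 Crest.Agent.R201.An

variable {n : ℕ} {w f h F : E n → ℝ} {s : ℝ}

/-! ### quadratic forms -/

lemma qf_nonneg {R : Mt n} (h0 : LeQ 0 R) (x : E n) : 0 ≤ qf R x := by
  have := h0 (x : Fin n → ℝ)
  rw [← qf_eq R] at this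
  simpa using this




lemma EG.qf (R : Mt n) : EG (qf R) := by
  unfold DVQ402.qf
  refine EG.sum _ fun i _ => EG.sum _ fun j _ => ?_
  exact ((EG.coord i).smul (R i j)).mul (EG.coord j)

lemma EG.qf_sub (R : Mt n) (m : E n) : EG fun x => DVQ402.qf R (x - m) := by
  unfold DVQ402.qf
  refine EG.sum _ fun i _ => EG.sum _ fun j _ => ?_
  have h1 : ∀ i, EG fun x : E n => (x - m) i := fun i => by
    have := (EG.coord (n := n) i).sub (EG.const (m i))
    simpa using this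
  exact ((h1 i).smul (R i j)).mul (h1 j)

/-- posterior mean vector of `X - m` with extra density `h` -/
noncomputable def pM (w : E n → ℝ) (s : ℝ) (h : E n → ℝ) (m y : E n) : E n :=
  WithLp.toLp 2 fun k => pE w s (fun x => (x - m) k * h x) y

lemma EG.cen (m : E n) (k : Fin n) : EG fun x : E n => (x - m) k := by
  have := (EG.coord (n := n) k).sub (EG.const (m k))
  simpa using this


/-- posterior covariance against a symmetric matrix, second moments about `m` -/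
theorem tr_pC (hw : Ex w) (hs : 0 < s) {R : Mt n} (_hR : Rᵀ = R) (m y : E n) :
    (R * pC w s y).trace + qf R (pM w s (fun _ => 1) m y) =
      pE w s (fun x => qf R (x - m)) y := by
  have g2 : ∀ i, EG fun x : E n => (x - m) i := fun i => EG.cen m i
  have hM : ∀ i, pM w s (fun _ => 1) m y i = pE w s (fun x => x i) y - m i := by
    intro i
    have : pM w s (fun _ => 1) m y i = pE w s (fun x => (x - m) i * 1) y := rfl
    rw [this]
    have e : (fun x : E n => (x - m) i * 1) = fun x => x i - m i := by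
      funext x; simp
    rw [e, pE_sub hw hs (EG.coord i) (EG.const _), pE_const hw hs]
  have e1 : pE w s (fun x => qf R (x - m)) y =
      ∑ i, ∑ j, R i j * pE w s (fun x => (x - m) i * (x - m) j) y := by
    unfold DVQ402.qf
    rw [pE_sum _ hw hs fun i _ => EG.sum _ fun j _ => ((g2 i).smul (R i j)).mul (g2 j)]
    refine Finset.sum_congr rfl fun i _ => ?_
    rw [pE_sum _ hw hs fun j _ => ((g2 i).smul (R i j)).mul (g2 j)]
    refine Finset.sum_congr rfl fun j _ => ?_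
    rw [← pE_smul]
    congr 1
    funext x; ring
  have e2 : ∀ i j, pE w s (fun x => (x - m) i * (x - m) j) y =
      pC w s y i j + pM w s (fun _ => 1) m y i * pM w s (fun _ => 1) m y j := by
    intro i j
    rw [hM, hM]
    have e : (fun x : E n => (x - m) i * (x - m) j) = fun x =>
        ((x i * x j - m j * x i) - m i * x j) + m i * m j := by
      funext x
      simp only [PiLp.sub_apply]; ring
    rw [e, pE_add hw hs ((((EG.coord i).mul (EG.coord j)).sub ((EG.coord i).smul _)).sub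
      ((EG.coord j).smul _)) (EG.const _), pE_sub hw hs (((EG.coord i).mul (EG.coord j)).sub
      ((EG.coord i).smul _)) ((EG.coord j).smul _), pE_sub hw hs ((EG.coord i).mul (EG.coord j))
      ((EG.coord i).smul _), pE_smul, pE_smul, pE_const hw hs]
    simp only [pC, Matrix.of_apply]
    ring
  rw [e1]
  simp only [e2, mul_add, Finset.sum_add_distrib]
  congr 1
  · rw [Matrix.trace]
    refine Finset.sum_congr rfl fun i _ => ?_
    rw [Matrix.diag_apply, Matrix.mul_apply]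
    refine Finset.sum_congr rfl fun j _ => ?_
    have : pC w s y j i = pC w s y i j := by
      have := congrFun (congrFun (pC_symm w s y) i) j
      rw [← this]; rfl
    rw [this]
  · unfold DVQ402.qf
    refine Finset.sum_congr rfl fun i _ => Finset.sum_congr rfl fun j _ => ?_
    ring

theorem tr_pC_le (hw : Ex w) (hs : 0 < s) {R : Mt n} (hR : Rᵀ = R) (h0 : LeQ 0 R) (m y : E n) :
    (R * pC w s y).trace ≤ pE w s (fun x => qf R (x - m)) y := by
  have := tr_pC hw hs hR m y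
  have := qf_nonneg h0 (pM w s (fun _ => 1) m y)
  linarith

/-- `s D_k F = pE((x-m)_k f) - F pE (x-m)_k`, `F = pE f` -/
theorem pd_cen (hw : Ex w) (hs : 0 < s) (hf : EG f) (m y : E n) (k : Fin n) :
    s * pd k (pE w s f) y = pM w s f m y k - pE w s f y * pM w s (fun _ => 1) m y k := by
  have e1 : pM w s f m y k = pE w s (fun x => f x * x k) y - m k * pE w s f y := by
    have : pM w s f m y k = pE w s (fun x => (x - m) k * f x) y := rfl
    rw [this, ← pE_smul, ← pE_sub hw hs (hf.mul (EG.coord k)) (hf.smul _)]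
    congr 1
    funext x
    simp only [PiLp.sub_apply]; ring
  have e2 : pM w s (fun _ => 1) m y k = pE w s (fun x => x k) y - m k := by
    have : pM w s (fun _ => 1) m y k = pE w s (fun x => (x - m) k * 1) y := rfl
    rw [this]
    have e : (fun x : E n => (x - m) k * 1) = fun x => x k - m k := by
      funext x; simp
    rw [e, pE_sub hw hs (EG.coord k) (EG.const _), pE_const hw hs]
  rw [pd_pE hw hs hf, e1, e2]
  field_simp
  ring

end Crest.Agent.R201.Lps146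
end

-- ▼ part R201/Lps5_146
section

/-!
# R201 (S0308), LSI half: labelled psi_2 inequalities (owner: helper146)

`w` weight of `X` (class `Ex`), centred sub-Gaussian: `SGw κ w m`; `Y = X + √s G`,
`lY w s` the law of `Y`; `f` a density of `X`, `F = pE w s f` the density of `Y`;
`P j y` a label kernel on `Y`, `LD (lY w s) lam F P`.

* `P1L`  : `E tr (R_J Cov(X|Y)) ≤ 8 κ (H(F) + I(J;Y)) + 4 κ E tr R_J`, any density `F` of `Y`.
* `lab_mean` : `s² E |E[D log F(Y) | J]|² ≤ 8 κ (H(f) + H(F) + 2 I(J;Y))`.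
* `lab_quad` : `s² E ⟨R_J D log F, D log F⟩ ≤ 16 κ (H(f) + H(F) + 2 I) + 16 κ E tr R_J`.
-/

set_option autoImplicit false
set_option linter.unusedSectionVars false
open MeasureTheory ProbabilityTheory Matrix
open scoped BigOperators ENNReal RealInnerProductSpace

namespace Crest.Agent.R201.Lps146

open Crest.Agent.R201 Crest.Agent.R201.DVQ402 Crest.Agent.R201.An

variable {n : ℕ} {w f F : E n → ℝ} {s κ : ℝ} {m : E n} {J : Type*} [MeasurableSpace J]
  {lam : Measure J} [SFinite lam] {P : J → E n → ℝ} {R : J → Mt n}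

lemma pE_meas (hw : Ex w) (hs : 0 < s) {g : E n → ℝ} (hg : EG g) : Measurable (pE w s g) :=
  (Lp_meas hw hs hg).div (Lp_meas hw hs (EG.const 1))

lemma pC_meas (hw : Ex w) (hs : 0 < s) (i j : Fin n) : Measurable fun y => pC w s y i j := by
  simp only [pC, Matrix.of_apply]
  exact (pE_meas hw hs ((EG.coord i).mul (EG.coord j))).sub
    ((pE_meas hw hs (EG.coord i)).mul (pE_meas hw hs (EG.coord j)))

lemma psd_of {A : Mt n} (hA : Aᵀ = A) (h0 : LeQ 0 A) : A.PosSemidef := by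
  refine Matrix.PosSemidef.of_dotProduct_mulVec_nonneg ?_ fun x => ?_
  · rw [Matrix.IsHermitian, Matrix.conjTranspose]
    ext i j
    simpa using congrFun (congrFun hA i) j
  · have := h0 x
    simpa using this

lemma tr_mul_nonneg {A B : Mt n} (hA : Aᵀ = A) (h0 : LeQ 0 A) (hB : Bᵀ = B) (hB0 : LeQ 0 B) :
    0 ≤ (A * B).trace :=
  LA2446.trace_mul_nonneg (psd_of hA h0) (psd_of hB hB0)

/-! ### (P1L) -/

/-- for one label -/
theorem P1L_j (hw : Ex w) (hs : 0 < s) (hκ : 0 < κ) (hsg : SGw κ w m) (hF : Measurable F)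
    (h : LD (lY w s) lam F P) {A : Mt n} (hA : Aᵀ = A) (h0 : LeQ 0 A) (h1 : LeQ A 1) {j : J}
    (hj : Good (jl w s) (fun p => F p.1) (lift1 P) j) :
    Integrable (fun y => (A * pC w s y).trace * (F y * P j y)) (lY w s) ∧
    0 ≤ ∫ y, (A * pC w s y).trace * (F y * P j y) ∂(lY w s) ∧
    ∫ y, (A * pC w s y).trace * (F y * P j y) ∂(lY w s) ≤
      ∫ p, DVQ402.qf A (xh m p) * (F p.1 * lift1 P j p) ∂(jl w s) := by
  have := nm_prob (hw.noisy hs)
  have := jl_prob hw hs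
  obtain ⟨hl, ep, -, -⟩ := LD.toFst hw hs hF h
  have hP' : Measurable fun p : J × E n => P p.1 p.2 := h.lab.meas
  have hPj : Measurable (P j) := hP'.comp measurable_prodMk_left
  obtain ⟨k1, -⟩ := hl.quad_j (xh_meas m) (hsg.sgf hw hs) hκ hA h0 h1 hj
  obtain ⟨k2, k3⟩ := int_jl_mul (g := fun x => DVQ402.qf A (x - m)) (K := fun y => F y * P j y)
    hw hs (EG.qf_sub A m) k1
  have hnn : ∀ y, 0 ≤ (A * pC w s y).trace * (F y * P j y) := fun y =>
    mul_nonneg (tr_mul_nonneg hA h0 (pC_symm w s y) (pC_nonneg hw hs y))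
      (mul_nonneg (h.nonneg y) (h.lab.nonneg j y))
  have hle : ∀ y, (A * pC w s y).trace * (F y * P j y) ≤
      pE w s (fun x => DVQ402.qf A (x - m)) y * (F y * P j y) := fun y =>
    mul_le_mul_of_nonneg_right (tr_pC_le hw hs hA h0 m y)
      (mul_nonneg (h.nonneg y) (h.lab.nonneg j y))
  have hm : Measurable fun y => (A * pC w s y).trace * (F y * P j y) := by
    refine Measurable.mul ?_ (hF.mul hPj)
    simp only [Matrix.trace, Matrix.diag_apply, Matrix.mul_apply]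
    exact Finset.measurable_sum _ fun i _ => Finset.measurable_sum _ fun k _ =>
      (pC_meas hw hs k i).const_mul _
  have hi : Integrable (fun y => (A * pC w s y).trace * (F y * P j y)) (lY w s) := by
    refine k2.mono' hm.aestronglyMeasurable (ae_of_all _ fun y => ?_)
    rw [Real.norm_of_nonneg (hnn y)]
    exact hle y
  refine ⟨hi, integral_nonneg hnn, ?_⟩
  have e : ∫ p, DVQ402.qf A (xh m p) * (F p.1 * lift1 P j p) ∂(jl w s) =
      ∫ y, pE w s (fun x => DVQ402.qf A (x - m)) y * (F y * P j y) ∂(lY w s) := k3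
  rw [e]
  exact integral_mono hi k2 hle

/-- **(P1L)** : `E tr (R_J Cov(X|Y)) ≤ 8 κ (H(F) + I(J;Y)) + 4 κ E tr R_J` -/
theorem P1L (hw : Ex w) (hs : 0 < s) (hκ : 0 < κ) (hsg : SGw κ w m) (hF : Measurable F)
    (h : LD (lY w s) lam F P) (hRm : ∀ i k, Measurable fun j => R j i k)
    (hR : ∀ j, (R j)ᵀ = R j) (h0 : ∀ j, LeQ 0 (R j)) (h1 : ∀ j, LeQ (R j) 1) :
    Integrable (fun j => ∫ y, (R j * pC w s y).trace * (F y * P j y) ∂(lY w s)) lam ∧
    Integrable (fun j => (R j).trace * pJ (lY w s) F P j) lam ∧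
    ∫ j, ∫ y, (R j * pC w s y).trace * (F y * P j y) ∂(lY w s) ∂lam ≤
      8 * κ * (ent (lY w s) F + MI (lY w s) lam F P) +
        4 * κ * ∫ j, (R j).trace * pJ (lY w s) F P j ∂lam := by
  have := nm_prob (hw.noisy hs)
  have := jl_prob hw hs
  obtain ⟨hl, ep, ee, em⟩ := LD.toFst hw hs hF h
  have hP' : Measurable fun p : J × E n => P p.1 p.2 := h.lab.meas
  have hF1 : Measurable fun p : E n × E n => F p.1 := hF.comp measurable_fst
  obtain ⟨q1, q2, q3⟩ := hl.quad hF1 (xh_meas m) (hsg.sgf hw hs) hκ hRm hR h0 h1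
  simp only [ep] at q2 q3
  rw [ee, em] at q3
  have hae : ∀ᵐ j ∂lam, 0 ≤ ∫ y, (R j * pC w s y).trace * (F y * P j y) ∂(lY w s) ∧
      ∫ y, (R j * pC w s y).trace * (F y * P j y) ∂(lY w s) ≤
        ∫ p, DVQ402.qf (R j) (xh m p) * (F p.1 * lift1 P j p) ∂(jl w s) := by
    filter_upwards [hl.good] with j hj
    exact (P1L_j hw hs hκ hsg hF h (hR j) (h0 j) (h1 j) hj).2
  have hm : Measurable fun j => ∫ y, (R j * pC w s y).trace * (F y * P j y) ∂(lY w s) := by
    have hG : StronglyMeasurable fun q : J × E n =>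
        (R q.1 * pC w s q.2).trace * (F q.2 * P q.1 q.2) := by
      refine (Measurable.mul ?_ ((hF.comp measurable_snd).mul hP')).stronglyMeasurable
      simp only [Matrix.trace, Matrix.diag_apply, Matrix.mul_apply]
      exact Finset.measurable_sum _ fun i _ => Finset.measurable_sum _ fun k _ =>
        ((hRm i k).comp measurable_fst).mul ((pC_meas hw hs k i).comp measurable_snd)
    exact (StronglyMeasurable.integral_prod_right' (ν := lY w s) hG).measurable
  have hi : Integrable (fun j => ∫ y, (R j * pC w s y).trace * (F y * P j y) ∂(lY w s)) lam := by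
    refine q1.mono' hm.aestronglyMeasurable ?_
    filter_upwards [hae] with j hj
    rw [Real.norm_of_nonneg hj.1]
    exact hj.2
  refine ⟨hi, q2, ?_⟩
  refine le_trans ?_ q3
  refine integral_mono_ae hi q1 ?_
  filter_upwards [hae] with j hj
  exact hj.2

/-! ### Tweedie, labelled mean -/

/-- **labelled psi_2, linear** : `s² E |E[D log F | J]|² ≤ 8 κ (H(f) + H(F) + 2 I(J;Y))` -/
theorem lab_mean (hw : Ex w) (hs : 0 < s) (hκ : 0 < κ) (hsg : SGw κ w m) (hf : EG f)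
    (hf0 : ∀ x, 0 ≤ f x) (hf1 : Em w f = 1) (h : LD (lY w s) lam (pE w s f) P) :
    Integrable (fun j => (∑ k, (∫ y, pd k (pE w s f) y * P j y ∂(lY w s)) ^ 2) /
      pJ (lY w s) (pE w s f) P j) lam ∧
    s ^ 2 * ∫ j, (∑ k, (∫ y, pd k (pE w s f) y * P j y ∂(lY w s)) ^ 2) /
      pJ (lY w s) (pE w s f) P j ∂lam ≤
      8 * κ * (Em w (fun x => f x * Real.log (f x)) + ent (lY w s) (pE w s f) +
        2 * MI (lY w s) lam (pE w s f) P) := by
  have := nm_prob (hw.noisy hs)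
  have := jl_prob hw hs
  have mF : Measurable (pE w s f) := pE_meas hw hs hf
  obtain ⟨l1, p1, n1, m1⟩ := LD.toFst hw hs mF h
  obtain ⟨l2, p2, n2, m2⟩ := LD.toSnd hw hs hf hf0 hf1 h
  have hsf := hsg.sgf hw hs
  have hP' : Measurable fun p : J × E n => P p.1 p.2 := h.lab.meas
  have hPj : ∀ j, Measurable (P j) := fun j => hP'.comp measurable_prodMk_left
  obtain ⟨a1, a2⟩ := l1.lin (mF.comp measurable_fst) (xh_meas m) hsf hκ
  obtain ⟨b1, b2⟩ := l2.lin (hf.1.comp measurable_snd) (xh_meas m) hsf hκ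
  simp only [p1] at a1 a2
  simp only [p2] at b1 b2
  rw [n1, m1] at a2
  rw [n2, m2] at b2
  -- pointwise in the label
  have hae : ∀ᵐ j ∂lam, s ^ 2 * ((∑ k, (∫ y, pd k (pE w s f) y * P j y ∂(lY w s)) ^ 2) /
      pJ (lY w s) (pE w s f) P j) ≤
      2 * ((∑ k, (∫ z, xh m z k * (f z.2 * lift1 P j z) ∂(jl w s)) ^ 2) /
        pJ (lY w s) (pE w s f) P j) +
      2 * ((∑ k, (∫ z, xh m z k * (pE w s f z.1 * lift1 P j z) ∂(jl w s)) ^ 2) /
        pJ (lY w s) (pE w s f) P j) := by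
    filter_upwards [l1.good, l2.good] with j g1 g2
    have hk : ∀ k, s * ∫ y, pd k (pE w s f) y * P j y ∂(lY w s) =
        (∫ z, xh m z k * (f z.2 * lift1 P j z) ∂(jl w s)) -
        ∫ z, xh m z k * (pE w s f z.1 * lift1 P j z) ∂(jl w s) := by
      intro k
      have i1 : Integrable (fun z : E n × E n => ((z.2 - m) k * f z.2) * P j z.1) (jl w s) := by
        rcases (l2.pJ_nonneg j).eq_or_lt with hp | hp
        · have hz := l2.ae_zero g2 hp.symm
          refine (integrable_zero _ _ _).congr ?_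
          filter_upwards [hz] with z hz
          have : (z.2 - m) k * f z.2 * P j z.1 = (z.2 - m) k * (f z.2 * lift1 P j z) := by
            unfold lift1; ring
          rw [this, hz, mul_zero]
          rfl
        · obtain ⟨c1, c2, c3, c4, c5⟩ := l2.cond g2 hp
          have hc := (hsf.coord_int (xh_meas m) c1 c2 c4 k).mul_const
            (pJ (jl w s) (fun p => f p.2) (lift1 P) j)
          refine hc.congr (ae_of_all _ fun z => ?_)
          simp only [xh, lift1]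
          field_simp
      have i2 : Integrable (fun z : E n × E n => (z.2 - m) k * (pE w s f z.1 * P j z.1))
          (jl w s) := by
        rcases (l1.pJ_nonneg j).eq_or_lt with hp | hp
        · have hz := l1.ae_zero g1 hp.symm
          refine (integrable_zero _ _ _).congr ?_
          filter_upwards [hz] with z hz
          have : (z.2 - m) k * (pE w s f z.1 * P j z.1) =
              (z.2 - m) k * (pE w s f z.1 * lift1 P j z) := rfl
          rw [this, hz, mul_zero]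
          rfl
        · obtain ⟨c1, c2, c3, c4, c5⟩ := l1.cond g1 hp
          have hc := (hsf.coord_int (xh_meas m) c1 c2 c4 k).mul_const
            (pJ (jl w s) (fun p => pE w s f p.1) (lift1 P) j)
          refine hc.congr (ae_of_all _ fun z => ?_)
          simp only [xh, lift1]
          field_simp
      obtain ⟨u1, u2⟩ := int_jl_mul (g := fun x => (x - m) k * f x) (K := P j) hw hs
        ((EG.cen m k).mul hf) i1
      obtain ⟨v1, v2⟩ := int_jl_mul (g := fun x => (x - m) k) (K := fun y => pE w s f y * P j y)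
        hw hs (EG.cen m k) i2
      have e1 : ∫ z, xh m z k * (f z.2 * lift1 P j z) ∂(jl w s) =
          ∫ y, pE w s (fun x => (x - m) k * f x) y * P j y ∂(lY w s) := by
        rw [← u2]
        refine integral_congr_ae (ae_of_all _ fun z => ?_)
        simp only [xh, lift1]; ring
      have e2 : ∫ z, xh m z k * (pE w s f z.1 * lift1 P j z) ∂(jl w s) =
          ∫ y, pE w s (fun x => (x - m) k) y * (pE w s f y * P j y) ∂(lY w s) := v2
      rw [e1, e2, ← integral_sub u1 v1, ← integral_const_mul]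
      refine integral_congr_ae (ae_of_all _ fun y => ?_)
      have hh := pd_cen hw hs hf m y k
      have h1 : pM w s f m y k = pE w s (fun x => (x - m) k * f x) y := rfl
      have h2 : pM w s (fun _ => 1) m y k = pE w s (fun x => (x - m) k) y := by
        have : pM w s (fun _ => 1) m y k = pE w s (fun x => (x - m) k * 1) y := rfl
        rw [this]; simp only [mul_one]
      rw [h1, h2] at hh
      simp only
      calc s * (pd k (pE w s f) y * P j y) = (s * pd k (pE w s f) y) * P j y := by ring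
        _ = _ := by rw [hh]; ring
    have hs2 : s ^ 2 * (∑ k, (∫ y, pd k (pE w s f) y * P j y ∂(lY w s)) ^ 2) =
        ∑ k, ((∫ z, xh m z k * (f z.2 * lift1 P j z) ∂(jl w s)) -
          ∫ z, xh m z k * (pE w s f z.1 * lift1 P j z) ∂(jl w s)) ^ 2 := by
      rw [Finset.mul_sum]
      refine Finset.sum_congr rfl fun k _ => ?_
      rw [← hk, mul_pow]
    have hle : s ^ 2 * (∑ k, (∫ y, pd k (pE w s f) y * P j y ∂(lY w s)) ^ 2) ≤
        2 * (∑ k, (∫ z, xh m z k * (f z.2 * lift1 P j z) ∂(jl w s)) ^ 2) +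
        2 * (∑ k, (∫ z, xh m z k * (pE w s f z.1 * lift1 P j z) ∂(jl w s)) ^ 2) := by
      rw [hs2, Finset.mul_sum, Finset.mul_sum, ← Finset.sum_add_distrib]
      refine Finset.sum_le_sum fun k _ => ?_
      nlinarith [sq_nonneg ((∫ z, xh m z k * (f z.2 * lift1 P j z) ∂(jl w s)) +
          ∫ z, xh m z k * (pE w s f z.1 * lift1 P j z) ∂(jl w s))]
    have := div_le_div_of_nonneg_right hle (h.pJ_nonneg j)
    rw [add_div, mul_div_assoc, mul_div_assoc, mul_div_assoc] at this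
    exact this
  have hB := (b1.const_mul 2).add (a1.const_mul 2)
  have hm : Measurable fun j => (∑ k, (∫ y, pd k (pE w s f) y * P j y ∂(lY w s)) ^ 2) /
      pJ (lY w s) (pE w s f) P j := by
    have mk : ∀ k, Measurable (pd k (pE w s f)) := by
      intro k
      have := (contDiff_pE hw hs hf).continuous_fderiv (by simp)
      exact (this.clm_apply continuous_const).measurable
    have h1 : ∀ k, Measurable fun j => ∫ y, pd k (pE w s f) y * P j y ∂(lY w s) := fun k => by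
      have hG : StronglyMeasurable fun q : J × E n => pd k (pE w s f) q.2 * P q.1 q.2 :=
        (((mk k).comp measurable_snd).mul hP').stronglyMeasurable
      exact (StronglyMeasurable.integral_prod_right' (ν := lY w s) hG).measurable
    have h2 : Measurable fun j => pJ (lY w s) (pE w s f) P j := by
      have hG : StronglyMeasurable fun q : J × E n => pE w s f q.2 * P q.1 q.2 :=
        ((mF.comp measurable_snd).mul hP').stronglyMeasurable
      exact (StronglyMeasurable.integral_prod_right' (ν := lY w s) hG).measurable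
    exact (Finset.measurable_sum _ fun k _ => (h1 k).pow_const 2).div h2
  have hi' : Integrable (fun j => s ^ 2 * ((∑ k, (∫ y, pd k (pE w s f) y * P j y ∂(lY w s)) ^ 2) /
      pJ (lY w s) (pE w s f) P j)) lam := by
    refine hB.mono' (hm.const_mul _).aestronglyMeasurable ?_
    filter_upwards [hae] with j hj
    rw [Real.norm_of_nonneg (mul_nonneg (sq_nonneg _)
      (div_nonneg (Finset.sum_nonneg fun k _ => sq_nonneg _) (h.pJ_nonneg j)))]
    exact hj
  have hi : Integrable (fun j => (∑ k, (∫ y, pd k (pE w s f) y * P j y ∂(lY w s)) ^ 2) /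
      pJ (lY w s) (pE w s f) P j) lam := by
    refine (hi'.const_mul ((s ^ 2)⁻¹)).congr (ae_of_all _ fun j => ?_)
    simp only
    rw [← mul_assoc, inv_mul_cancel₀ (by positivity), one_mul]
  refine ⟨hi, ?_⟩
  rw [← integral_const_mul]
  have hfin := integral_mono_ae hi' hB hae
  refine hfin.trans ?_
  have e3 : ∫ j, ((fun j => 2 * ((∑ k, (∫ z, xh m z k * (f z.2 * lift1 P j z) ∂(jl w s)) ^ 2) /
        pJ (lY w s) (pE w s f) P j)) + fun j =>
      2 * ((∑ k, (∫ z, xh m z k * (pE w s f z.1 * lift1 P j z) ∂(jl w s)) ^ 2) /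
        pJ (lY w s) (pE w s f) P j)) j ∂lam = 2 * (∫ j, (∑ k, (∫ z, xh m z k *
        (f z.2 * lift1 P j z) ∂(jl w s)) ^ 2) / pJ (lY w s) (pE w s f) P j ∂lam) +
      2 * ∫ j, (∑ k, (∫ z, xh m z k * (pE w s f z.1 * lift1 P j z) ∂(jl w s)) ^ 2) /
        pJ (lY w s) (pE w s f) P j ∂lam := by
    simp only [Pi.add_apply]
    rw [integral_add (b1.const_mul 2) (a1.const_mul 2), integral_const_mul, integral_const_mul]
  rw [e3]
  linarith

end Crest.Agent.R201.Lps146
end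

-- ▼ part R201/Lps6_146
section

/-!
# R201 (S0308), LSI half: block LB, labelled psi_2 inequalities for 809's channels
(owner: helper146)

* `LB_mean` (S3) and `LB_P1L` (P1L), in the literals of `LL809`.
-/

set_option autoImplicit false
set_option linter.unusedSectionVars false
open MeasureTheory ProbabilityTheory Matrix
open scoped BigOperators ENNReal RealInnerProductSpace

namespace Crest.Agent.R201.Lps146

open Crest.Agent.R201 Crest.Agent.R201.DVQ402 Crest.Agent.R201.An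

variable {n : ℕ} {μ : Measure (E n)} {F : E n → ℝ} {L : Type*} [MeasurableSpace L]
  {l : Measure L} [SFinite l] {p : L → E n → ℝ} {G h : L → ℝ}

/-- a channel gives a label kernel -/
theorem lab_of (hp : LL809.Chan l p G h) : Lab l p where
  nonneg j x := hp.p_nonneg j x
  meas := hp.meas
  one := hp.one

theorem pJ_eq (μ : Measure (E n)) (F : E n → ℝ) (p : L → E n → ℝ) :
    pJ μ F p = LL809.pJ μ F p := rfl

/-- a channel and a `CBp` density give labelled data -/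
theorem LD.of [IsFiniteMeasure μ] (hp : LL809.Chan l p G h) (hF : LL809.CBp F)
    (h1 : ∫ x, F x ∂μ = 1) : LD μ l F p := by
  obtain ⟨B, hB0, hB⟩ := hF.bdd
  obtain ⟨B', hB0', hB'⟩ := hF.log_bdd
  have mF := hF.cont.measurable
  have hFi : Integrable F μ := (integrable_const B).mono' mF.aestronglyMeasurable
    (Filter.Eventually.of_forall fun x => (hB x).1)
  refine ⟨lab_of hp, fun x => (hF.pos x).le, hFi, h1, ?_, ?_⟩
  · refine (integrable_const (B * B')).mono' (mF.mul mF.log).aestronglyMeasurable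
      (Filter.Eventually.of_forall fun x => ?_)
    rw [Real.norm_eq_abs, abs_mul]
    exact mul_le_mul (hB x).1 (hB' x) (abs_nonneg _) hB0
  · have i1 := hp.int_prod (μ := μ) (q := fun j x => p j x * Real.log (p j x)) mF
      (fun x => (hB x).1) (hp.meas.mul hp.meas.log) hp.q2
    have mpJ : Measurable fun z : L × E n => pJ μ F p z.1 :=
      (LL809.pJ_meas (μ := μ) hp hF).comp measurable_fst
    have i2 : Integrable (fun z : L × E n => F z.2 * (p z.1 z.2 * Real.log (pJ μ F p z.1)))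
        (l.prod μ) := by
      refine hp.int_prod (μ := μ) (q := fun j x => p j x * Real.log (pJ μ F p j)) mF
        (fun x => (hB x).1) (hp.meas.mul mpJ.log) fun j x => ?_
      obtain ⟨h0, h2, h3⟩ := LL809.pJ_bd (μ := μ) hp hF h1 j
      rw [abs_mul, abs_of_nonneg (hp.p_nonneg j x)]
      have h4 : p j x * |Real.log (pJ μ F p j)| ≤ G j * h j :=
        mul_le_mul (hp.le j x) h3 (abs_nonneg _) (hp.G_pos j).le
      have h5 := hp.h_nonneg j
      have h6 := (hp.G_pos j).le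
      nlinarith [mul_nonneg h5 h6, mul_nonneg (mul_nonneg h5 h5) h6]
    refine (i1.sub i2).congr (Filter.Eventually.of_forall fun z => ?_)
    simp only [Pi.sub_apply, pJ_eq]
    rw [Real.log_div ((hp.cb z.1).pos z.2).ne' (LL809.pJ_bd (μ := μ) hp hF h1 z.1).1.ne']
    ring

theorem ent_eq [IsFiniteMeasure μ] (h1 : ∫ x, F x ∂μ = 1) : ent μ F = LL809.Ent μ F := by
  unfold ent LL809.Ent
  rw [h1, Real.log_one, mul_zero, sub_zero]

theorem MI_eq [IsFiniteMeasure μ] (hp : LL809.Chan l p G h) (hF : LL809.CBp F)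
    (h1 : ∫ x, F x ∂μ = 1) : MI μ l F p = LL809.MI μ F l p := by
  obtain ⟨B, hB0, hB⟩ := hF.bdd
  have mF := hF.cont.measurable
  unfold MI LL809.MI
  refine integral_congr_ae (Filter.Eventually.of_forall fun j => ?_)
  simp only
  have i1 := hp.int_right (μ := μ) (q := fun j x => p j x * Real.log (p j x)) mF
    (fun x => (hB x).1) (hp.meas.mul hp.meas.log) hp.q2 j
  have i2 := hp.int_right (μ := μ) (q := p) mF (fun x => (hB x).1) hp.meas hp.q1 j
  have e : pJ μ F p j * Real.log (pJ μ F p j) = ∫ x, F x * p j x * Real.log (pJ μ F p j) ∂μ := by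
    rw [integral_mul_const]; rfl
  rw [← pJ_eq, e, ← integral_sub i1 (i2.mul_const _)]
  refine integral_congr_ae (Filter.Eventually.of_forall fun x => ?_)
  simp only [pJ_eq]
  rw [Real.log_div ((hp.cb j).pos x).ne' (LL809.pJ_bd (μ := μ) hp hF h1 j).1.ne']
  ring

variable {w f : E n → ℝ} {s κ : ℝ} {m : E n}

/-- **block LB, (S3)** : `s² E |E[D log F | J]|² ≤ 8 κ (H(f) + H(F) + 2 I(J;Y))` -/
theorem LB_mean (hw : Ex w) (hs : 0 < s) (hκ : 0 < κ) (hsg : SGw κ w m) (hf : EG f)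
    (hf0 : ∀ x, 0 ≤ f x) (hf1 : Em w f = 1) (hF : LL809.CBp (pE w s f))
    (hF1 : ∫ x, pE w s f x ∂(lY w s) = 1) (hp : LL809.Chan l p G h) :
    Integrable (fun j => (∑ k, (∫ x, pE w s f x * (pd k (pE w s f) x / pE w s f x) * p j x
      ∂(lY w s)) ^ 2) / LL809.pJ (lY w s) (pE w s f) p j) l ∧
    s ^ 2 * ∫ j, (∑ k, (∫ x, pE w s f x * (pd k (pE w s f) x / pE w s f x) * p j x
      ∂(lY w s)) ^ 2) / LL809.pJ (lY w s) (pE w s f) p j ∂l ≤
      8 * κ * (Em w (fun x => f x * Real.log (f x)) + LL809.Ent (lY w s) (pE w s f) +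
        2 * LL809.MI (lY w s) (pE w s f) l p) := by
  have := nm_prob (hw.noisy hs)
  have h1 := lab_mean hw hs hκ hsg hf hf0 hf1 (LD.of hp hF hF1)
  rw [ent_eq hF1, MI_eq hp hF hF1, pJ_eq] at h1
  have e : ∀ k x, pE w s f x * (pd k (pE w s f) x / pE w s f x) = pd k (pE w s f) x := by
    intro k x
    have := (hF.pos x).ne'
    field_simp
  simp only [e]
  exact h1

/-- `1 - s V'' = Cov(X|Y)/s` -/
lemma one_sub_Vh (hs : 0 < s) (y : E n) :
    (1 : Mt n) - s • Vh w s y = (1 / s) • pC w s y := by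
  unfold Vh
  rw [smul_smul, mul_one_div_cancel hs.ne', one_smul, sub_sub_cancel]

/-- **block LB, (P1L)** : `E tr (R_J (1 - s V'')) ≤ (1/s) (8 κ (H(F) + I(J;Y)) + 4 κ E tr R_J)` -/
theorem LB_P1L (hw : Ex w) (hs : 0 < s) (hκ : 0 < κ) (hsg : SGw κ w m) (hF : LL809.CBp F)
    (hF1 : ∫ x, F x ∂(lY w s) = 1) (hp : LL809.Chan l p G h) {R : L → Mt n}
    (hRm : ∀ i k, Measurable fun j => R j i k)
    (hR : ∀ j, (R j)ᵀ = R j) (h0 : ∀ j, LeQ 0 (R j)) (h1 : ∀ j, LeQ (R j) 1) :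
    Integrable (fun j => ∫ x, F x * (R j * (1 - s • Vh w s x)).trace * p j x ∂(lY w s)) l ∧
    Integrable (fun j => (R j).trace * LL809.pJ (lY w s) F p j) l ∧
    s * ∫ j, ∫ x, F x * (R j * (1 - s • Vh w s x)).trace * p j x ∂(lY w s) ∂l ≤
      8 * κ * (LL809.Ent (lY w s) F + LL809.MI (lY w s) F l p) +
        4 * κ * ∫ j, (R j).trace * LL809.pJ (lY w s) F p j ∂l := by
  have := nm_prob (hw.noisy hs)
  obtain ⟨a1, a2, a3⟩ := P1L hw hs hκ hsg hF.cont.measurable (LD.of hp hF hF1) hRm hR h0 h1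
  rw [ent_eq hF1, MI_eq hp hF hF1, pJ_eq] at a3
  rw [pJ_eq] at a2
  have e : ∀ j x, F x * (R j * (1 - s • Vh w s x)).trace * p j x =
      (1 / s) * ((R j * pC w s x).trace * (F x * p j x)) := by
    intro j x
    rw [one_sub_Vh hs, Matrix.mul_smul, Matrix.trace_smul, smul_eq_mul]
    ring
  simp only [e, integral_const_mul]
  refine ⟨a1.const_mul _, a2, ?_⟩
  rw [← mul_assoc, mul_one_div_cancel hs.ne', one_mul]
  exact a3

/-- a sub-Gaussian law (402's `SG`, centre `0`) -/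
lemma SGw.of_SG (hw : Ex w) (h : SG κ (nm w)) : SGw κ w 0 := by
  intro t
  have h1 := (h t).2
  rw [int_nm hw] at h1
  simpa using h1

end Crest.Agent.R201.Lps146
end

-- ▼ part R201/Lps7_146
section

/-!
# R201 (S0308), LSI half: block LB in the literals of `L74` (owner: helper146)

* `MI_nonneg`
* `LB2` : block LB with the entropy of the start density `Ent (nm w) f₀` in the first conjunct
  (with `Hs` alone the first conjunct is false: Gaussian shifts).
* `LB3` : block LB under `Ent (nm w) f₀ ≤ 2 Hs`.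
-/

set_option autoImplicit false
set_option linter.unusedSectionVars false
open MeasureTheory ProbabilityTheory Matrix
open scoped BigOperators ENNReal RealInnerProductSpace

namespace Crest.Agent.R201.Lps146

open Crest.Agent.R201 Crest.Agent.R201.DVQ402 Crest.Agent.R201.An Crest.Agent.R201.L74

section MI

variable {n : ℕ} {μ : Measure (E n)} {F : E n → ℝ} {L : Type*} [MeasurableSpace L]
  {l : Measure L} [SFinite l] {p : L → E n → ℝ} {G h : L → ℝ}

/-- mutual information is nonnegative -/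
theorem MI_nonneg [IsFiniteMeasure μ] (hp : LL809.Chan l p G h) (hF : LL809.CBp F)
    (h1 : ∫ x, F x ∂μ = 1) : 0 ≤ LL809.MI μ F l p := by
  obtain ⟨B, hB0, hB⟩ := hF.bdd
  have mF := hF.cont.measurable
  have hFi : Integrable F μ := (integrable_const B).mono' mF.aestronglyMeasurable
    (Filter.Eventually.of_forall fun x => (hB x).1)
  unfold LL809.MI
  refine integral_nonneg fun j => ?_
  simp only [Pi.zero_apply]
  obtain ⟨hq, -, -⟩ := LL809.pJ_bd (μ := μ) hp hF h1 j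
  set q := LL809.pJ μ F p j with hqd
  have i1 := hp.int_right (μ := μ) (q := fun j x => p j x * Real.log (p j x)) mF
    (fun x => (hB x).1) (hp.meas.mul hp.meas.log) hp.q2 j
  have i2 := hp.int_right (μ := μ) (q := p) mF (fun x => (hB x).1) hp.meas hp.q1 j
  have key : ∀ x, F x * p j x * (1 + Real.log q) - q * F x ≤ F x * (p j x * Real.log (p j x)) := by
    intro x
    have hpj := (hp.cb j).pos x
    have hlog := Real.log_le_sub_one_of_pos (div_pos hq hpj)
    rw [Real.log_div hq.ne' hpj.ne'] at hlog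
    have h2 : p j x * (q / p j x) = q := by field_simp
    have h3 : p j x * (1 + Real.log q) - q ≤ p j x * Real.log (p j x) := by nlinarith
    calc F x * p j x * (1 + Real.log q) - q * F x = F x * (p j x * (1 + Real.log q) - q) := by ring
      _ ≤ F x * (p j x * Real.log (p j x)) := mul_le_mul_of_nonneg_left h3 (hF.pos x).le
  have hi := integral_mono ((i2.mul_const (1 + Real.log q)).sub (hFi.const_mul q)) i1 key
  simp only [Pi.sub_apply] at hi
  rw [integral_sub (i2.mul_const _) (hFi.const_mul q), integral_mul_const, integral_const_mul, h1]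
    at hi
  have e : ∫ x, F x * p j x ∂μ = q := rfl
  rw [e] at hi
  linarith

end MI

/-- (S3), raw form in the literals of `L74` -/
theorem S3_raw {n : ℕ} {c R κ : ℝ} {w f₀ : E n → ℝ} (hc : 0 < c) (hw : Wt c R w)
    (hf : LL809.CBp f₀) (hf1 : Em w f₀ = 1) (hκ : 0 < κ) (hsg : SG κ (nm w)) {s : ℝ} (hs : 0 < s)
    {p : E n → E n → ℝ} {G k : E n → ℝ} (hp : LL809.Chan (LL809.gam n) p G k) :
    s ^ 2 * ∫ j, (∑ i, (∫ x, fs w f₀ s x * (sc w f₀ s i x * p j x) ∂(ms w s)) ^ 2) /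
        LL809.pJ (ms w s) (fs w f₀ s) p j ∂(LL809.gam n) ≤
      8 * κ * (LL809.Ent (nm w) f₀ + Hs w f₀ s +
        2 * LL809.MI (ms w s) (fs w f₀ s) (LL809.gam n) p) := by
  have hw' := hw.ex
  have hF := Ends293.cbp_pE hw' hc.le hw.slc hs hf
  have hF1 : ∫ x, pE w s f₀ x ∂(lY w s) = 1 := by
    rw [lY, int_nm (hw'.noisy hs), Ends293.mass_pE hw' hs hf, hf1]
  have key := (LB_mean hw' hs hκ (SGw.of_SG hw' hsg) (CB.eg hf.1).1 (fun x => (hf.pos x).le) hf1
    hF hF1 hp).2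
  have e0 : LL809.Ent (nm w) f₀ = Em w (fun x => f₀ x * Real.log (f₀ x)) := by
    unfold LL809.Ent
    rw [int_nm hw', int_nm hw', hf1, Real.log_one, mul_zero, sub_zero]
  rw [e0]
  simp only [mul_assoc] at key ⊢
  exact key

/-- (P1L), raw form in the literals of `L74` -/
theorem P1L_raw {n : ℕ} {c R κ : ℝ} {w f₀ : E n → ℝ} (hc : 0 < c) (hw : Wt c R w)
    (hf : LL809.CBp f₀) (hf1 : Em w f₀ = 1) (hκ : 0 < κ) (hsg : SG κ (nm w)) {s : ℝ} (hs : 0 < s)
    {p : E n → E n → ℝ} {G k : E n → ℝ} (hp : LL809.Chan (LL809.gam n) p G k)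
    {Q : E n → Mt n} (hQm : ∀ i j, Measurable fun y => Q y i j) (hQ : ∀ y, (Q y)ᵀ = Q y)
    (h0 : ∀ y, LeQ 0 (Q y)) (h1 : ∀ y, LeQ (Q y) 1) :
    s * ∫ j, ∫ x, fs w f₀ s x * ((Q j * (1 - s • Vh w s x)).trace * p j x) ∂(ms w s)
          ∂(LL809.gam n) ≤
      8 * κ * (Hs w f₀ s + LL809.MI (ms w s) (fs w f₀ s) (LL809.gam n) p) +
        4 * κ * ∫ j, (Q j).trace * LL809.pJ (ms w s) (fs w f₀ s) p j ∂(LL809.gam n) := by
  have hw' := hw.ex
  have hF := Ends293.cbp_pE hw' hc.le hw.slc hs hf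
  have hF1 : ∫ x, pE w s f₀ x ∂(lY w s) = 1 := by
    rw [lY, int_nm (hw'.noisy hs), Ends293.mass_pE hw' hs hf, hf1]
  have key := (LB_P1L hw' hs hκ (SGw.of_SG hw' hsg) hF hF1 hp hQm hQ h0 h1).2.2
  simp only [mul_assoc] at key ⊢
  exact key

/-- Block LB, first conjunct with the start entropy -/
def LB2p : Prop := ∃ C : ℝ, 0 < C ∧ ∀ (n : ℕ) (c R κ : ℝ) (w f₀ : E n → ℝ), 0 < c → An.Wt c R w →
  LL809.CBp f₀ → An.Em w f₀ = 1 → 0 < κ → DVQ402.SG κ (An.nm w) → ∀ s : ℝ, 0 < s → s ≤ 1 →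
  ∀ (p : E n → E n → ℝ) (G k : E n → ℝ), LL809.Chan (LL809.gam n) p G k →
    (∫ j, (∑ i, (∫ x, fs w f₀ s x * (sc w f₀ s i x * p j x) ∂(ms w s)) ^ 2) /
        LL809.pJ (ms w s) (fs w f₀ s) p j ∂(LL809.gam n) ≤
      C * κ / s ^ 2 * (LL809.Ent (An.nm w) f₀ + Hs w f₀ s +
        LL809.MI (ms w s) (fs w f₀ s) (LL809.gam n) p)) ∧
    ∀ R : E n → Mt n, (∀ i j, Measurable fun y => R y i j) → (∀ y, (R y)ᵀ = R y) →
      (∀ y, LeQ 0 (R y)) → (∀ y, LeQ (R y) 1) →
      ∫ j, ∫ x, fs w f₀ s x * ((R j * (1 - s • An.Vh w s x)).trace * p j x) ∂(ms w s)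
          ∂(LL809.gam n) ≤
        C * κ / s * (Hs w f₀ s + LL809.MI (ms w s) (fs w f₀ s) (LL809.gam n) p +
          ∫ j, (R j).trace * LL809.pJ (ms w s) (fs w f₀ s) p j ∂(LL809.gam n))

/-- nonnegativity facts at level `s` -/
theorem facts {n : ℕ} {c R : ℝ} {w f₀ : E n → ℝ} (hc : 0 < c) (hw : Wt c R w)
    (hf : LL809.CBp f₀) (hf1 : Em w f₀ = 1) {s : ℝ} (hs : 0 < s)
    {p : E n → E n → ℝ} {G k : E n → ℝ} (hp : LL809.Chan (LL809.gam n) p G k) :
    0 ≤ LL809.MI (ms w s) (fs w f₀ s) (LL809.gam n) p ∧ 0 ≤ Hs w f₀ s ∧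
    0 ≤ LL809.Ent (nm w) f₀ := by
  have hw' := hw.ex
  have hF := Ends293.cbp_pE hw' hc.le hw.slc hs hf
  have hF1 : ∫ x, pE w s f₀ x ∂(lY w s) = 1 := by
    rw [lY, int_nm (hw'.noisy hs), Ends293.mass_pE hw' hs hf, hf1]
  have : IsProbabilityMeasure (ms w s) := nm_prob (hw'.noisy hs)
  refine ⟨MI_nonneg hp hF hF1, ?_, ?_⟩
  · unfold Hs
    rw [ms, Noi402.ent_nm (hw'.noisy hs)]
    exact Noi402.En_nonneg (hw'.noisy hs) hF
  · rw [Noi402.ent_nm hw']
    exact Noi402.En_nonneg hw' hf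

theorem tr_pJ_nonneg {n : ℕ} {c R : ℝ} {w f₀ : E n → ℝ} (hc : 0 < c) (hw : Wt c R w)
    (hf : LL809.CBp f₀) {s : ℝ} (hs : 0 < s)
    {p : E n → E n → ℝ} {G k : E n → ℝ} (hp : LL809.Chan (LL809.gam n) p G k)
    {Q : E n → Mt n} (h0 : ∀ y, LeQ 0 (Q y)) :
    0 ≤ ∫ j, (Q j).trace * LL809.pJ (ms w s) (fs w f₀ s) p j ∂(LL809.gam n) := by
  have hw' := hw.ex
  have hF := Ends293.cbp_pE hw' hc.le hw.slc hs hf
  refine integral_nonneg fun j => mul_nonneg ?_ (integral_nonneg fun x =>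
    mul_nonneg (hF.pos x).le (hp.p_nonneg j x))
  rw [Matrix.trace]
  refine Finset.sum_nonneg fun i _ => ?_
  have := h0 j (Pi.single i 1)
  simpa [Matrix.mulVec_single_one] using this

/-- the (P1L) conjunct of block LB, constant 8 -/
theorem LB_P {n : ℕ} {c R κ : ℝ} {w f₀ : E n → ℝ} (hc : 0 < c) (hw : Wt c R w)
    (hf : LL809.CBp f₀) (hf1 : Em w f₀ = 1) (hκ : 0 < κ) (hsg : SG κ (nm w)) {s : ℝ} (hs : 0 < s)
    {p : E n → E n → ℝ} {G k : E n → ℝ} (hp : LL809.Chan (LL809.gam n) p G k)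
    {Q : E n → Mt n} (hQm : ∀ i j, Measurable fun y => Q y i j) (hQ : ∀ y, (Q y)ᵀ = Q y)
    (h0 : ∀ y, LeQ 0 (Q y)) (h1 : ∀ y, LeQ (Q y) 1) :
    ∫ j, ∫ x, fs w f₀ s x * ((Q j * (1 - s • Vh w s x)).trace * p j x) ∂(ms w s)
          ∂(LL809.gam n) ≤
      8 * κ / s * (Hs w f₀ s + LL809.MI (ms w s) (fs w f₀ s) (LL809.gam n) p +
        ∫ j, (Q j).trace * LL809.pJ (ms w s) (fs w f₀ s) p j ∂(LL809.gam n)) := by
  have h := P1L_raw hc hw hf hf1 hκ hsg hs hp hQm hQ h0 h1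
  have h3 := tr_pJ_nonneg hc hw hf hs hp h0
  rw [div_mul_eq_mul_div, le_div_iff₀ hs, mul_comm]
  refine h.trans ?_
  nlinarith [mul_nonneg hκ.le h3]

/-- the (S3) conjunct of block LB, constant 16, start entropy included -/
theorem LB_S {n : ℕ} {c R κ : ℝ} {w f₀ : E n → ℝ} (hc : 0 < c) (hw : Wt c R w)
    (hf : LL809.CBp f₀) (hf1 : Em w f₀ = 1) (hκ : 0 < κ) (hsg : SG κ (nm w)) {s : ℝ} (hs : 0 < s)
    {p : E n → E n → ℝ} {G k : E n → ℝ} (hp : LL809.Chan (LL809.gam n) p G k) :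
    ∫ j, (∑ i, (∫ x, fs w f₀ s x * (sc w f₀ s i x * p j x) ∂(ms w s)) ^ 2) /
        LL809.pJ (ms w s) (fs w f₀ s) p j ∂(LL809.gam n) ≤
      16 * κ / s ^ 2 * (LL809.Ent (nm w) f₀ + Hs w f₀ s +
        LL809.MI (ms w s) (fs w f₀ s) (LL809.gam n) p) := by
  have h := S3_raw hc hw hf hf1 hκ hsg hs hp
  obtain ⟨f1, f2, f3⟩ := facts hc hw hf hf1 hs hp
  rw [div_mul_eq_mul_div, le_div_iff₀ (by positivity), mul_comm]
  refine h.trans ?_
  nlinarith [mul_nonneg hκ.le f1, mul_nonneg hκ.le f2, mul_nonneg hκ.le f3]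

/-- **block LB** (corrected first conjunct) -/
theorem LB2 : LB2p := by
  refine ⟨16, by norm_num, ?_⟩
  intro n c R κ w f₀ hc hw hf hf1 hκ hsg s hs _ p G k hp
  refine ⟨LB_S hc hw hf hf1 hκ hsg hs hp, ?_⟩
  intro Q hQm hQ h0 h1
  have h := LB_P hc hw hf hf1 hκ hsg hs hp hQm hQ h0 h1
  obtain ⟨f1, f2, f3⟩ := facts hc hw hf hf1 hs hp
  have h3 := tr_pJ_nonneg hc hw hf hs hp h0
  refine h.trans (mul_le_mul_of_nonneg_right ?_ (by positivity))
  gcongr
  norm_num


end Crest.Agent.R201.Lps146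
end

-- ▼ part R201/Lps8_146
section

/-!
# R201 (S0308): block LB, official literal (owner: helper146)
-/

set_option autoImplicit false

namespace Crest.Agent.R201.Lps146

/-- **block LB** -/
theorem lb_146 : L74.LB := LB2

end Crest.Agent.R201.Lps146
end

-- ▼ part R201/El6_593
section

/-!
# R201 (S0308): concrete states (helper593)

`stOf`: base weight `ρ` (`Pot`, `Ex`), ratio `f ≥ c > 0` smooth with bounded derivatives of order
`≤ 2`.  `stF`: forward leg, `ρ = Lp w q 1`, ratio `pE w q f`.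
-/

set_option autoImplicit false
open MeasureTheory Matrix Filter Topology
open scoped ContDiff NNReal

namespace Crest.Agent.R201.El593

open Crest.Agent.R201 Crest.Agent.R201.Tw807 Crest.Agent.R201.An

variable {n : ℕ} {ρ f F w : E n → ℝ} {Vg : Fin n → E n → ℝ} {L B c R s : ℝ}

/-- `f ≥ c > 0` smooth with bounded derivatives of order `≤ 2` -/
structure B2 (f : E n → ℝ) (c B : ℝ) : Prop where
  smooth : ContDiff ℝ ∞ f
  pos : 0 < c
  ge : ∀ x, c ≤ f x
  le : ∀ x, |f x| ≤ B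
  le1 : ∀ k x, |pd k f x| ≤ B
  le2 : ∀ k l x, |pd l (pd k f) x| ≤ B

/-- `D log f` -/
noncomputable def wd (f : E n → ℝ) (k : Fin n) (x : E n) : ℝ := pd k f x / f x

namespace B2

lemma fpos (h : B2 f c B) (x : E n) : 0 < f x := h.pos.trans_le (h.ge x)

lemma Bnn (h : B2 f c B) : 0 ≤ B := (abs_nonneg _).trans (h.le 0)

lemma wd_smooth (h : B2 f c B) (k : Fin n) : ContDiff ℝ ∞ (wd f k) :=
  (pd_smooth h.smooth k).div h.smooth fun x => (h.fpos x).ne'

lemma wd_eq (h : B2 f c B) (k : Fin n) (x : E n) : pd k f x = wd f k x * f x := by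
  unfold wd
  rw [div_mul_cancel₀ _ (h.fpos x).ne']

lemma wd_le (h : B2 f c B) (k : Fin n) (x : E n) : |wd f k x| ≤ B / c := by
  unfold wd
  rw [abs_div, abs_of_pos (h.fpos x)]
  exact div_le_div₀ h.Bnn (h.le1 k x) h.pos (h.ge x)

lemma pd_wd (h : B2 f c B) (k l : Fin n) (x : E n) :
    pd l (wd f k) x = pd l (pd k f) x / f x - wd f k x * wd f l x := by
  have d1 : DifferentiableAt ℝ (wd f k) x := (h.wd_smooth k).differentiable (by simp) x
  have d2 : DifferentiableAt ℝ f x := h.smooth.differentiable (by simp) x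
  have e : pd l (pd k f) x = wd f k x * pd l f x + pd l (wd f k) x * f x := by
    have e1 : pd k f = fun y => wd f k y * f y := funext fun y => h.wd_eq k y
    rw [e1, pd_mul l d1 d2]
  have h0 := (h.fpos x).ne'
  rw [e, h.wd_eq l x]
  field_simp
  ring

lemma pd_wd_le (h : B2 f c B) (k l : Fin n) (x : E n) :
    |pd l (wd f k) x| ≤ B / c + (B / c) * (B / c) := by
  rw [h.pd_wd]
  refine (abs_sub _ _).trans (add_le_add ?_ ?_)
  · rw [abs_div, abs_of_pos (h.fpos x)]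
    exact div_le_div₀ h.Bnn (h.le2 k l x) h.pos (h.ge x)
  · rw [abs_mul]
    exact mul_le_mul (h.wd_le k x) (h.wd_le l x) (abs_nonneg _)
      (div_nonneg h.Bnn h.pos.le)

end B2

lemma Ex_mul (hρ : Ex ρ) (h : B2 f c B) : Ex (fun x => f x * ρ x) where
  nonneg x := mul_nonneg (h.fpos x).le (hρ.nonneg x)
  meas := h.smooth.continuous.measurable.mul hρ.meas
  int a := by
    have h1 : EG fun x : E n => Real.exp (a * ‖x‖) * f x :=
      (EG.exp a).mul (EG.of_bdd h.smooth.continuous.measurable h.le)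
    have h2 := hρ.int_mul h1
    simpa [mul_assoc] using h2
  pos := by
    have i1 : Integrable fun x => f x * ρ x :=
      hρ.int_mul (EG.of_bdd h.smooth.continuous.measurable h.le)
    have h1 : ∫ x, c * ρ x ≤ ∫ x, f x * ρ x := integral_mono (hρ.integrable.const_mul c) i1
      fun x => mul_le_mul_of_nonneg_right (h.ge x) (hρ.nonneg x)
    rw [integral_const_mul] at h1
    exact (mul_pos h.pos hρ.pos).trans_le h1

/-- **state from a base weight and a ratio with bounded derivatives** -/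
noncomputable def stOf (P : Pot ρ Vg L) (hρ : Ex ρ) (h : B2 f c B) : St n :=
  mkSt (B := max (B / c) (B / c + (B / c) * (B / c))) P h.smooth h.fpos (wd f) h.wd_smooth h.wd_eq
    (fun k x => (h.wd_le k x).trans (le_max_left _ _))
    (fun k l x => (h.pd_wd_le k l x).trans (le_max_right _ _)) (Ex_mul hρ h)




/-! ### posterior means -/

lemma CB_pE_wt (hw : Wt c R w) (hs : 0 < s) (hF : EG F) : CB (pE w s F) := by
  refine cb_iff.2 ⟨(contDiff_pE hw.ex hs hF).of_le (by norm_cast), pE_bdd' hw hs hF, fun k => ?_⟩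
  obtain ⟨B1, h1⟩ := pE_bdd' hw hs (hF.mul (EG.coord k))
  obtain ⟨B2, h2⟩ := pE_bdd' hw hs hF
  obtain ⟨B3, h3⟩ := pE_bdd' hw hs (EG.coord (n := n) k)
  refine ⟨(B1 + B2 * B3) / s, fun y => ?_⟩
  rw [pd_pE hw.ex hs hF, abs_div, abs_of_pos hs]
  refine div_le_div_of_nonneg_right ?_ hs.le
  refine (abs_sub _ _).trans (add_le_add (h1 y) ?_)
  rw [abs_mul]
  exact mul_le_mul (h2 y) (h3 y) (abs_nonneg _) ((abs_nonneg _).trans (h2 y))

lemma CB_pd_pE (hw : Wt c R w) (hs : 0 < s) (hF : EG F) (k : Fin n) : CB (pd k (pE w s F)) := by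
  have e : pd k (pE w s F) = fun y => s⁻¹ *
      (pE w s (fun x => F x * x k) y - pE w s F y * pE w s (fun x => x k) y) := by
    funext y
    rw [pd_pE hw.ex hs hF, div_eq_inv_mul]
  rw [e]
  exact cb_const_mul _ (cb_sub (CB_pE_wt hw hs (hF.mul (EG.coord k)))
    (cb_mul (CB_pE_wt hw hs hF) (CB_pE_wt hw hs (EG.coord k))))

lemma B2_pE (hw : Wt c R w) (hs : 0 < s) (hF : EG F) {a : ℝ} (ha : 0 < a) (h : ∀ x, a ≤ F x) :
    ∃ B : ℝ, B2 (pE w s F) a B := by
  obtain ⟨_, B0, h0⟩ := CB_pE_wt hw hs hF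
  have h1 : ∀ k, ∃ B, ∀ x, |pd k (pE w s F) x| ≤ B ∧ ∀ l, |pd l (pd k (pE w s F)) x| ≤ B :=
    fun k => (CB_pd_pE hw hs hF k).2
  choose B1 h1 using h1
  refine ⟨|B0| + ∑ k, |B1 k|, contDiff_pE hw.ex hs hF, ha, fun x => ?_, fun x => ?_, fun k x => ?_,
    fun k l x => ?_⟩
  · have := pE_mono hw.ex hs (EG.const a) hF h x
    rwa [pE_const hw.ex hs] at this
  · exact ((h0 x).1.trans (le_abs_self _)).trans
      (le_add_of_nonneg_right (Finset.sum_nonneg fun _ _ => abs_nonneg _))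
  · have h2 : |B1 k| ≤ ∑ k, |B1 k| :=
      Finset.single_le_sum (f := fun k => |B1 k|) (fun _ _ => abs_nonneg _) (Finset.mem_univ k)
    have := (h1 k x).1
    have := le_abs_self (B1 k)
    have := abs_nonneg B0
    linarith
  · have h2 : |B1 k| ≤ ∑ k, |B1 k| :=
      Finset.single_le_sum (f := fun k => |B1 k|) (fun _ _ => abs_nonneg _) (Finset.mem_univ k)
    have := (h1 k x).2 l
    have := le_abs_self (B1 k)
    have := abs_nonneg B0
    linarith


/-- **base weight `Lp w s 1` (level `s`), any ratio with bounded derivatives** -/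
noncomputable def stN (hw : Wt c R w) (hs : 0 < s) {a : ℝ} (h : B2 f a B) : St n :=
  stOf (pot_noisy hw hs).choose_spec (hw.ex.noisy hs) h



lemma stN_V2 (hw : Wt c R w) (hs : 0 < s) {a : ℝ} (h : B2 f a B) (x : E n) :
    (stN hw hs h).V2 x = Vh w s x := by
  have : (stN hw hs h).V2 x = Matrix.of fun k l => pd l (An.Vg w s k) x := rfl
  rw [this]
  ext k l
  rw [Matrix.of_apply, pd_Vg hw.ex hs]
  have := congrFun (congrFun (Vh_symm w s x) k) l
  simpa [Matrix.transpose_apply] using this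

end Crest.Agent.R201.El593
end

-- ▼ part R201/El7_593
section

/-!
# R201 (S0308): functions with bounded derivatives; posterior means and Gaussian averages;
the state on the backward leg (helper593)
-/

set_option autoImplicit false
open MeasureTheory Matrix Filter Topology
open scoped ContDiff NNReal

namespace Crest.Agent.R201.El593

open Crest.Agent.R201 Crest.Agent.R201.Tw807 Crest.Agent.R201.An

variable {n : ℕ} {f g F w : E n → ℝ} {c R s t : ℝ}

/-- `C^{m+1}` with bounded derivatives of order `≤ m + 1` -/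
def BD : ℕ → (E n → ℝ) → Prop
  | 0, f => CB f
  | m + 1, f => CB f ∧ ∀ k, BD m (pd k f)

namespace BD

lemma cb {m : ℕ} (h : BD m f) : CB f := by
  cases m with
  | zero => exact h
  | succ m => exact h.1

lemma pred : ∀ {m : ℕ} {f : E n → ℝ}, BD (m + 1) f → BD m f
  | 0, _, h => h.1
  | _ + 1, _, h => ⟨h.1, fun k => pred (h.2 k)⟩

lemma const (a : ℝ) : ∀ m : ℕ, BD m (fun _ : E n => a)
  | 0 => cb_const a
  | m + 1 => ⟨cb_const a, fun k => by
      have : pd k (fun _ : E n => a) = fun _ => 0 := funext fun x => pd_const a k x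
      rw [this]
      exact const 0 m⟩

lemma add : ∀ {m : ℕ} {f g : E n → ℝ}, BD m f → BD m g → BD m fun x => f x + g x
  | 0, _, _, hf, hg => cb_add hf hg
  | m + 1, f, g, hf, hg => ⟨cb_add hf.1 hg.1, fun k => by
      have : pd k (fun x => f x + g x) = fun x => pd k f x + pd k g x :=
        funext fun x => pd_add k (cb_diff hf.1 x) (cb_diff hg.1 x)
      rw [this]
      exact add (hf.2 k) (hg.2 k)⟩

lemma mul : ∀ {m : ℕ} {f g : E n → ℝ}, BD m f → BD m g → BD m fun x => f x * g x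
  | 0, _, _, hf, hg => cb_mul hf hg
  | m + 1, f, g, hf, hg => ⟨cb_mul hf.1 hg.1, fun k => by
      have : pd k (fun x => f x * g x) = fun x => f x * pd k g x + pd k f x * g x :=
        funext fun x => pd_mul k (cb_diff hf.1 x) (cb_diff hg.1 x)
      rw [this]
      exact add (mul hf.pred (hg.2 k)) (mul (hf.2 k) hg.pred)⟩

lemma smul {m : ℕ} (a : ℝ) (hf : BD m f) : BD m fun x => a * f x := (const a m).mul hf

lemma neg {m : ℕ} (hf : BD m f) : BD m fun x => -f x := by simpa using hf.smul (-1)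

lemma sub {m : ℕ} (hf : BD m f) (hg : BD m g) : BD m fun x => f x - g x := by
  simpa [sub_eq_add_neg] using hf.add hg.neg

/-- posterior means -/
lemma pE (hw : Wt c R w) (hs : 0 < s) : ∀ (m : ℕ) {F : E n → ℝ}, EG F → BD m (An.pE w s F)
  | 0, _, hF => CB_pE_wt hw hs hF
  | m + 1, F, hF => ⟨CB_pE_wt hw hs hF, fun k => by
      have e : pd k (An.pE w s F) = fun y => s⁻¹ *
          (An.pE w s (fun x => F x * x k) y - An.pE w s F y * An.pE w s (fun x => x k) y) := by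
        funext y
        rw [pd_pE hw.ex hs hF, div_eq_inv_mul]
      rw [e]
      exact smul _ (sub (pE hw hs m (hF.mul (EG.coord k)))
        (mul (pE hw hs m hF) (pE hw hs m (EG.coord k))))⟩


lemma contDiff : ∀ {m : ℕ} {f : E n → ℝ}, BD m f → ContDiff ℝ (m + 1 : ℕ) f
  | 0, _, hf => by simpa using hf.1
  | m + 1, f, hf => by
      have h1 : ∀ k, ContDiff ℝ (m + 1 : ℕ) (pd k f) := fun k => contDiff (hf.2 k)
      have hd : Differentiable ℝ f := cb_diff hf.1
      have e : fderiv ℝ f = fun x => ∑ k, pd k f x • (EuclideanSpace.proj k : E n →L[ℝ] ℝ) := by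
        funext x
        ext v
        rw [fderiv_eq_sum]
        simp [mul_comm]
      have h2 : ContDiff ℝ (m + 1 : ℕ) (fderiv ℝ f) := by
        rw [e]
        exact ContDiff.sum fun k _ => (h1 k).smul contDiff_const
      have h3 : ContDiff ℝ ((m + 1 : ℕ) + 1) f := by
        rw [contDiff_succ_iff_fderiv]
        exact ⟨hd, by simp, h2⟩
      exact_mod_cast h3

lemma smooth (h : ∀ m, BD m f) : ContDiff ℝ ∞ f := by
  rw [contDiff_infty]
  intro m
  exact ((h m).contDiff).of_le (by exact_mod_cast Nat.le_succ m)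

/-- derivatives of order `≤ 2` -/
lemma b2 (h : ∀ m, BD m f) {a : ℝ} (ha : 0 < a) (hge : ∀ x, a ≤ f x) : ∃ B : ℝ, B2 f a B := by
  obtain ⟨_, B0, h0⟩ := (h 0).cb
  have h1 : ∀ k, ∃ B, ∀ x, |pd k f x| ≤ B ∧ ∀ l, |pd l (pd k f) x| ≤ B := fun k => ((h 1).2 k).2
  choose B1 h1 using h1
  refine ⟨|B0| + ∑ k, |B1 k|, smooth h, ha, hge, fun x => ?_, fun k x => ?_, fun k l x => ?_⟩
  · exact ((h0 x).1.trans (le_abs_self _)).trans
      (le_add_of_nonneg_right (Finset.sum_nonneg fun _ _ => abs_nonneg _))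
  · have h2 : |B1 k| ≤ ∑ k, |B1 k| :=
      Finset.single_le_sum (f := fun k => |B1 k|) (fun _ _ => abs_nonneg _) (Finset.mem_univ k)
    have := (h1 k x).1
    have := le_abs_self (B1 k)
    have := abs_nonneg B0
    linarith
  · have h2 : |B1 k| ≤ ∑ k, |B1 k| :=
      Finset.single_le_sum (f := fun k => |B1 k|) (fun _ _ => abs_nonneg _) (Finset.mem_univ k)
    have := (h1 k x).2 l
    have := le_abs_self (B1 k)
    have := abs_nonneg B0
    linarith

end BD



end Crest.Agent.R201.El593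
end

-- ▼ part R201/El8_593
section

/-!
# R201 (S0308): the measure `f μ` for `μ = nm ρ`, `Em ρ f = 1` (helper593)
-/

set_option autoImplicit false
open MeasureTheory Matrix Filter Topology
open scoped ContDiff NNReal ENNReal

namespace Crest.Agent.R201.El593

open Crest.Agent.R201 Crest.Agent.R201.Tw807 Crest.Agent.R201.An

variable {n : ℕ} {ρ f F w : E n → ℝ} {c B : ℝ}

/-- mass one -/
lemma mass_eq (hρ : Ex ρ) (h1 : Em ρ f = 1) : ∫ y, f y * ρ y = ∫ z, ρ z := by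
  unfold Em at h1
  rwa [div_eq_one_iff_eq hρ.pos.ne'] at h1


/-- `nm (fρ) = f · nm ρ` -/
lemma nm_mul (hρ : Ex ρ) (hf : Measurable f) (h1 : Em ρ f = 1) :
    nm (fun x => f x * ρ x) = (nm ρ).withDensity fun x => ENNReal.ofReal (f x) := by
  unfold nm
  rw [← withDensity_mul _ (nm_dens_meas hρ) hf.ennreal_ofReal, mass_eq hρ h1]
  congr 1
  funext x
  simp only [Pi.mul_apply]
  rw [← ENNReal.ofReal_mul (div_nonneg (hρ.nonneg x) hρ.pos.le)]
  congr 1
  ring

end Crest.Agent.R201.El593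
end

-- ▼ part R201/SB_839
section

/-!
# R201 (S0308), block SB: the state at level `s` (helper839, over helper593's El5–El8)
-/

set_option autoImplicit false
open MeasureTheory Matrix

namespace Crest.Agent.R201.SB839

open Crest.Agent.R201 Crest.Agent.R201.L74 Crest.Agent.R201.El593

variable {n : ℕ}

/-- a `CBp` function has at most exponential growth -/
lemma cbp_EG {f : E n → ℝ} (hf : LL809.CBp f) : An.EG f := by
  obtain ⟨B, -, hB⟩ := hf.bdd
  exact An.EG.of_bdd hf.cont.measurable fun x => (hB x).1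

/-- the score is bounded `C¹` with bounded derivative -/
lemma wd_cb {f : E n → ℝ} {c B : ℝ} (h : B2 f c B) (k : Fin n) : CB (wd f k) :=
  ⟨(h.wd_smooth k).of_le (by norm_cast), max (B / c) (B / c + (B / c) * (B / c)), fun x =>
    ⟨(h.wd_le k x).trans (le_max_left _ _), fun l => (h.pd_wd_le k l x).trans (le_max_right _ _)⟩⟩

/-- everything in `State` except `lsi`, `S1`, `S2`, `S3`, `P1L` -/
theorem pre {c R : ℝ} {w f₀ : E n → ℝ} (hw : An.Wt c R w) (hf : LL809.CBp f₀)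
    (h1 : An.Em w f₀ = 1) {s : ℝ} (hs : 0 < s) : Nonempty (Pre n w f₀ s) := by
  have hE := cbp_EG hf
  obtain ⟨a, ha, hle⟩ := hf.2
  obtain ⟨B, hB⟩ := B2_pE hw hs hE ha hle
  have hm : An.Em (An.Lp w s fun _ => 1) (An.pE w s f₀) = 1 := by
    rw [An.Em_pE hw.ex hs hE, h1]
  exact ⟨{
    toSt := stN hw hs hB
    ν_eq := nm_mul (hw.ex.noisy hs) hB.smooth.continuous.measurable hm
    w_eq := fun i x => rfl
    w_cb := fun i => wd_cb hB i
    V2_eq := fun x => stN_V2 hw hs hB x }⟩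

theorem fs_cbp {c R : ℝ} {w f₀ : E n → ℝ} (hw : An.Wt c R w) (hf : LL809.CBp f₀)
    {s : ℝ} (hs : 0 < s) : LL809.CBp (fs w f₀ s) := by
  obtain ⟨a, ha, hle⟩ := hf.2
  obtain ⟨B, hB⟩ := B2_pE hw hs (cbp_EG hf) ha hle
  exact ⟨CB_pE_wt hw hs (cbp_EG hf), a, ha, hB.ge⟩

theorem fs_one {c R : ℝ} {w f₀ : E n → ℝ} (hw : An.Wt c R w) (hf : LL809.CBp f₀)
    (h1 : An.Em w f₀ = 1) {s : ℝ} (hs : 0 < s) : ∫ x, fs w f₀ s x ∂(ms w s) = 1 := by
  unfold fs ms
  rw [An.int_nm (hw.ex.noisy hs), An.Em_pE hw.ex hs (cbp_EG hf), h1]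

theorem Vh_bdd' {c R : ℝ} {w : E n → ℝ} (hw : An.Wt c R w) {s : ℝ} (hs : 0 < s) :
    ∃ B : ℝ, ∀ x i j, |An.Vh w s x i j| ≤ B := by
  have h : ∀ i j : Fin n, ∃ B : ℝ, ∀ x, |An.Vh w s x i j| ≤ B := fun i j => An.Vh_bdd hw hs i j
  choose B hB using h
  refine ⟨∑ i, ∑ j, |B i j|, fun x i j => ?_⟩
  refine ((hB i j x).trans (le_abs_self _)).trans ?_
  refine (Finset.single_le_sum (f := fun j => |B i j|) (fun _ _ => abs_nonneg _)
    (Finset.mem_univ j)).trans ?_
  exact Finset.single_le_sum (f := fun i => ∑ j, |B i j|)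
    (fun _ _ => Finset.sum_nonneg fun _ _ => abs_nonneg _) (Finset.mem_univ i)

theorem Vh_nonneg {c R : ℝ} {w : E n → ℝ} (hc : 0 < c) (hw : An.Wt c R w) {s : ℝ} (hs : 0 < s)
    (x : E n) : LeQ 0 (An.Vh w s x) := by
  intro u
  have h := An.Vh_ge hw.ex hc.le hw.slc hs x u
  simp only [Matrix.smul_mulVec, Matrix.one_mulVec, dotProduct_smul, smul_eq_mul] at h
  simp only [Matrix.zero_mulVec, dotProduct_zero]
  refine le_trans (mul_nonneg (by positivity) ?_) h
  exact Finset.sum_nonneg fun i _ => mul_self_nonneg (u i)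

theorem Vh_le_one {c R : ℝ} {w : E n → ℝ} (hw : An.Wt c R w) {s : ℝ} (hs : 0 < s)
    (x : E n) : LeQ (s • An.Vh w s x) 1 := by
  intro u
  have h := An.Vh_le hw.ex hs x u
  simp only [Matrix.smul_mulVec, Matrix.one_mulVec, dotProduct_smul, smul_eq_mul] at h ⊢
  calc s * (u ⬝ᵥ (An.Vh w s x *ᵥ u)) ≤ s * (1 / s * (u ⬝ᵥ u)) := mul_le_mul_of_nonneg_left h hs.le
    _ = u ⬝ᵥ u := by field_simp

/-- **block SB** -/
theorem sb_839 : L74.SB := fun _ _ _ _ _ hc hw hf h1 _ hs =>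
  ⟨pre hw hf h1 hs, An.nm_prob (hw.ex.noisy hs), fs_cbp hw hf hs, fs_one hw hf h1 hs,
    Vh_bdd' hw hs, Vh_nonneg hc hw hs, Vh_le_one hw hs⟩

end Crest.Agent.R201.SB839
end

-- ▼ part R201/Wire_293
section

/-!
# R201 (S0308): wiring of the dynamic part and of the outer reduction (helper293)
-/

set_option autoImplicit false
open MeasureTheory
open scoped ContDiff ENNReal

namespace Crest.Agent.R201.Fin293

open Crest.Agent.R201

/-- `Key` from the static theorem -/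
theorem key_of_nostate (h : L74.NoState) : L74.Key :=
  L74.key_of h St352.sl_352 Hf391.fl_391 Lps146.lb_146 SB839.sb_839

/-- **S0308 from the static theorem** -/
theorem S0308_of_nostate (h : L74.NoState) :
    ∃ C : ℝ, ∀ (n : ℕ), 1 ≤ n →
      ∀ (ρ : EuclideanSpace ℝ (Fin n) → ℝ) (μ : Measure (EuclideanSpace ℝ (Fin n))) (a : ℝ),
        Measurable ρ → (∀ x, 0 ≤ ρ x) → Convex ℝ {x | 0 < ρ x} →
        ConcaveOn ℝ {x | 0 < ρ x} (fun x => Real.log (ρ x)) →
        μ = volume.withDensity (fun x => ENNReal.ofReal (ρ x)) → IsProbabilityMeasure μ →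
        ∫ x, x ∂μ = 0 → 0 < a →
        (∀ θ : EuclideanSpace ℝ (Fin n), ‖θ‖ = 1 →
          ∫⁻ x, ENNReal.ofReal (Real.exp (inner ℝ x θ ^ 2 / a ^ 2)) ∂μ ≤ 2) →
        ∀ f : EuclideanSpace ℝ (Fin n) → ℝ, ContDiff ℝ ∞ f → HasCompactSupport f →
          ∫ x, f x ^ 2 * Real.log (f x ^ 2) ∂μ - (∫ x, f x ^ 2 ∂μ) * Real.log (∫ x, f x ^ 2 ∂μ) ≤
            C * a ^ 2 * ∫ x, ‖fderiv ℝ f x‖ ^ 2 ∂μ :=
  S0308_of_key (key_of_nostate h)

end Crest.Agent.R201.Fin293
end

-- ▼ part R201/NsA_674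
section

/-!
# R201 (S0308), NoState assembly, part 1: matrix and integral lemmas (helper674)
-/

set_option autoImplicit false
open MeasureTheory Matrix
open scoped ContDiff

namespace Crest.Agent.R201.Top674

open Crest.Agent.R201 Crest.Agent.R201.El593 Crest.Agent.R201.Tw807

variable {n : ℕ}

/-! ### matrices -/

/-- symmetric part -/
noncomputable def sy (T : Mt n) : Mt n := (1 / 2 : ℝ) • (T + Tᵀ)

theorem sy_symm (T : Mt n) : (sy T)ᵀ = sy T := by
  rw [sy, transpose_smul, transpose_add, transpose_transpose, add_comm]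

theorem sy_apply (T : Mt n) (i j : Fin n) : sy T i j = 1 / 2 * (T i j + T j i) := by
  simp [sy]

theorem hs_swap (T : Mt n) : ∑ i, ∑ j, T j i ^ 2 = hs T := by
  rw [Finset.sum_comm]; rfl

theorem hs_sy (T : Mt n) : hs (sy T) = hs T - 1 / 4 * hs (T - Tᵀ) := by
  have h1 : hs (sy T) + 1 / 4 * hs (T - Tᵀ) = 1 / 2 * hs T + 1 / 2 * ∑ i, ∑ j, T j i ^ 2 := by
    simp only [hs, sy_apply, Matrix.sub_apply, transpose_apply, Finset.mul_sum,
      ← Finset.sum_add_distrib]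
    exact Finset.sum_congr rfl fun i _ => Finset.sum_congr rfl fun j _ => by ring
  rw [hs_swap] at h1
  linarith

theorem hs_sy_sub (T : Mt n) : hs (sy T - T) = 1 / 4 * hs (T - Tᵀ) := by
  simp only [hs, sy_apply, Matrix.sub_apply, transpose_apply, Finset.mul_sum]
  exact Finset.sum_congr rfl fun i _ => Finset.sum_congr rfl fun j _ => by ring

theorem tr_form (V X : Mt n) : (V * (Xᵀ * X)).trace = ∑ i, (X i) ⬝ᵥ (V *ᵥ (X i)) := by
  simp only [Matrix.trace, Matrix.diag_apply, Matrix.mul_apply, Matrix.transpose_apply,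
    dotProduct, Matrix.mulVec, Finset.mul_sum]
  have h : ∀ i : Fin n, ∑ k, ∑ j, V i k * (X j k * X j i) = ∑ j, ∑ k, V i k * (X j k * X j i) :=
    fun i => Finset.sum_comm
  simp only [h]
  rw [Finset.sum_comm]
  exact Finset.sum_congr rfl fun j _ => Finset.sum_congr rfl fun i _ =>
    Finset.sum_congr rfl fun k _ => by ring

theorem quad_two {V : Mt n} (h0 : LeQ 0 V) (h1 : LeQ V 1) (x y : Fin n → ℝ) :
    x ⬝ᵥ (V *ᵥ x) ≤ 2 * (y ⬝ᵥ (V *ᵥ y)) + 2 * ((x - y) ⬝ᵥ (x - y)) := by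
  have a1 := h0 (x - (2 : ℝ) • y)
  have a2 := h1 (x - y)
  simp only [zero_mulVec, dotProduct_zero, one_mulVec, Matrix.mulVec_sub, Matrix.mulVec_smul,
    sub_dotProduct, dotProduct_sub, smul_dotProduct, dotProduct_smul, smul_eq_mul] at a1 a2 ⊢
  linarith

/-- `tr V S² ≤ 2 tr V TᵀT + 2 |S - T|²` -/
theorem tr_VS {V S T : Mt n} (h0 : LeQ 0 V) (h1 : LeQ V 1) (hS : Sᵀ = S) :
    (V * (S * S)).trace ≤ 2 * (V * (Tᵀ * T)).trace + 2 * hs (S - T) := by
  have e : S * S = Sᵀ * S := by rw [hS]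
  rw [e, tr_form, tr_form, hs, Finset.mul_sum, Finset.mul_sum, ← Finset.sum_add_distrib]
  refine Finset.sum_le_sum fun i _ => ?_
  have := quad_two h0 h1 (S i) (T i)
  have e2 : (S i - T i) ⬝ᵥ (S i - T i) = ∑ j, (S - T) i j ^ 2 := by
    simp only [dotProduct, Pi.sub_apply, Matrix.sub_apply, sq]
  rw [e2] at this
  exact this

theorem tr_VT_nonneg {V : Mt n} (h0 : LeQ 0 V) (T : Mt n) : 0 ≤ (V * (Tᵀ * T)).trace := by
  rw [tr_form]
  refine Finset.sum_nonneg fun i _ => ?_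
  have := h0 (T i)
  simpa using this

theorem dot_mv (X : Mt n) (u : Fin n → ℝ) : u ⬝ᵥ ((Xᵀ * X) *ᵥ u) = (X *ᵥ u) ⬝ᵥ (X *ᵥ u) := by
  rw [← Matrix.mulVec_mulVec, Matrix.dotProduct_mulVec, Matrix.vecMul_transpose]

/-- `(sy T)² ≤ e²` -/
theorem sy_sq_le {e : ℝ} {T : Mt n} (h1 : LeQ (T * Tᵀ) (e ^ 2 • (1 : Mt n)))
    (h2 : LeQ (Tᵀ * T) (e ^ 2 • (1 : Mt n))) : LeQ (sy T * sy T) (e ^ 2 • (1 : Mt n)) := by
  intro u
  have a1 := h1 u
  have a2 := h2 u
  have e0 : u ⬝ᵥ ((sy T * sy T) *ᵥ u) = (sy T *ᵥ u) ⬝ᵥ (sy T *ᵥ u) := by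
    have := dot_mv (sy T) u
    rwa [sy_symm] at this
  have e1 : u ⬝ᵥ ((T * Tᵀ) *ᵥ u) = (Tᵀ *ᵥ u) ⬝ᵥ (Tᵀ *ᵥ u) := by
    have := dot_mv Tᵀ u
    rwa [transpose_transpose] at this
  have e2 : u ⬝ᵥ ((Tᵀ * T) *ᵥ u) = (T *ᵥ u) ⬝ᵥ (T *ᵥ u) := dot_mv T u
  rw [e0]
  rw [e1] at a1
  rw [e2] at a2
  have e3 : sy T *ᵥ u = (1 / 2 : ℝ) • (T *ᵥ u + Tᵀ *ᵥ u) := by
    rw [sy, smul_mulVec, Matrix.add_mulVec]
  rw [e3]
  have a3 : 0 ≤ (T *ᵥ u - Tᵀ *ᵥ u) ⬝ᵥ (T *ᵥ u - Tᵀ *ᵥ u) :=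
    Finset.sum_nonneg fun i _ => mul_self_nonneg _
  simp only [smul_dotProduct, dotProduct_smul, smul_eq_mul, add_dotProduct, dotProduct_add,
    sub_dotProduct, dotProduct_sub] at a3 ⊢
  linarith

theorem sy_four {e : ℝ} {T : Mt n} (h1 : LeQ (T * Tᵀ) (e ^ 2 • (1 : Mt n)))
    (h2 : LeQ (Tᵀ * T) (e ^ 2 • (1 : Mt n))) :
    (sy T * sy T * (sy T * sy T)).trace ≤ e ^ 2 * (sy T * sy T).trace := by
  have h := FA150.LeQ.trace_le (sy_sq_le h1 h2) (sy T)
  have e1 : ((sy T)ᵀ * (sy T * sy T) * sy T).trace = (sy T * sy T * (sy T * sy T)).trace := by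
    rw [sy_symm]; simp only [Matrix.mul_assoc]
  have e2 : ((sy T)ᵀ * (e ^ 2 • (1 : Mt n)) * sy T).trace = e ^ 2 * (sy T * sy T).trace := by
    rw [sy_symm, Matrix.mul_smul, Matrix.mul_one, Matrix.smul_mul, trace_smul, smul_eq_mul]
  rw [e1, e2] at h
  exact h

theorem hs_sym_diff_le (X : Mt n) : hs (X - Xᵀ) ≤ 4 * hs X := by
  have h : hs (X - Xᵀ) ≤ 2 * hs X + 2 * ∑ i, ∑ j, X j i ^ 2 := by
    simp only [hs, Matrix.sub_apply, transpose_apply, Finset.mul_sum, ← Finset.sum_add_distrib]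
    exact Finset.sum_le_sum fun i _ => Finset.sum_le_sum fun j _ => by
      nlinarith [sq_nonneg (X i j + X j i)]
  rw [hs_swap] at h
  linarith

/-! ### fields -/

/-- derivative of the symmetric part -/
theorem pdM_sy {T : E n → Mt n} (hT : ∀ i j, Differentiable ℝ fun x => T x i j) (k : Fin n)
    (x : E n) : pdM k (fun x => sy (T x)) x = sy (pdM k T x) := by
  ext i j
  have e : (fun y => sy (T y) i j) = fun y => (1 / 2 : ℝ) * (T y i j + T y j i) := by
    funext y; exact sy_apply _ _ _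
  rw [sy_apply]
  simp only [pdM, Matrix.of_apply]
  have d1 : DifferentiableAt ℝ (fun y => T y i j + T y j i) x := (hT i j x).add (hT j i x)
  rw [e, pd_const_mul (1 / 2) k d1, pd_add k (hT i j x) (hT j i x)]

theorem hs_pdM_sy_le {T : E n → Mt n} (hT : ∀ i j, Differentiable ℝ fun x => T x i j) (k : Fin n)
    (x : E n) : hs (pdM k (fun x => sy (T x)) x) ≤ hs (pdM k T x) := by
  rw [pdM_sy hT, hs_sy]
  have : 0 ≤ hs (pdM k T x - (pdM k T x)ᵀ) := NB152.hs_nonneg _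
  linarith

theorem cb_sy {T : E n → Mt n} (hT : ∀ p, CB (famM T p)) (p : Fin n × Fin n) :
    CB (famM (fun x => sy (T x)) p) := by
  have e : famM (fun x => sy (T x)) p =
      fun x => (1 / 2 : ℝ) * (famM T p x + famM T (p.2, p.1) x) := by
    funext x
    simp only [famM, sy_apply]
  rw [e]
  exact cb_const_mul _ (cb_add (hT _) (hT _))

/-- `C¹_c` entries are `CB` -/
theorem cb_cs {f : E n → ℝ} (hf : ContDiff ℝ 1 f) (hs : HasCompactSupport f) : CB f :=
  cb_iff.2 ⟨hf, bdd_of_cc hf.continuous hs, fun k => bdd_of_cc (pd_cont hf k) (pd_cs hs k)⟩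

end Crest.Agent.R201.Top674
end

-- ▼ part R201/NsB_674
section

/-!
# R201 (S0308), NoState assembly, part 2: fields (helper674)
-/

set_option autoImplicit false
open MeasureTheory Matrix
open scoped ContDiff

namespace Crest.Agent.R201.Top674

open Crest.Agent.R201 Crest.Agent.R201.El593 Crest.Agent.R201.Tw807 Crest.Agent.R201.L74

variable {n : ℕ}

/-! ### pointwise facts -/

theorem one_add_inv {A : Mt n} (hA : Aᵀ = A) (h0 : LeQ 0 A) : (1 + A) * (1 + A)⁻¹ = 1 := by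
  have h1 : (1 + A).PosDef := by
    refine Clip78.posDef_of_leQ (c := 1) one_pos ?_ fun u => ?_
    · rw [transpose_add, transpose_one, hA]
    · have := h0 u
      rw [one_smul, Matrix.add_mulVec, dotProduct_add]
      simp only [zero_mulVec, dotProduct_zero] at this
      linarith
  exact Matrix.mul_nonsing_inv _ h1.det_pos.ne'.isUnit

theorem dot_symm {A : Mt n} (hA : Aᵀ = A) (u v : Fin n → ℝ) : u ⬝ᵥ (A *ᵥ v) = v ⬝ᵥ (A *ᵥ u) := by
  rw [Matrix.dotProduct_mulVec, ← Matrix.mulVec_transpose, hA, dotProduct_comm]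

/-- `0 ≤ (1 + A)⁻¹ ≤ 1 - A/2` for `0 ≤ A ≤ 1` -/
theorem inv_facts {A : Mt n} (hA : Aᵀ = A) (h0 : LeQ 0 A) (h1 : LeQ A 1) (u : Fin n → ℝ) :
    0 ≤ u ⬝ᵥ ((1 + A)⁻¹ *ᵥ u) ∧
      u ⬝ᵥ ((1 + A)⁻¹ *ᵥ u) ≤ u ⬝ᵥ u - 1 / 2 * (u ⬝ᵥ (A *ᵥ u)) := by
  set v := (1 + A)⁻¹ *ᵥ u with hv
  have e1 : u = v + A *ᵥ v := by
    have : (1 + A) *ᵥ v = u := by
      rw [hv, Matrix.mulVec_mulVec, one_add_inv hA h0, Matrix.one_mulVec]
    rw [← this, Matrix.add_mulVec, Matrix.one_mulVec]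
  set p := A *ᵥ v with hp
  set q := A *ᵥ p with hq
  have c1 : v ⬝ᵥ q = p ⬝ᵥ p := by rw [hq, dot_symm hA v p]
  have k0 := h0 v
  have k1 := h1 p
  have k2 : p ⬝ᵥ p ≤ v ⬝ᵥ p := An.sq_le_self hA h0 h1 v
  simp only [zero_mulVec, dotProduct_zero, one_mulVec, ← hp, ← hq] at k0 k1
  have k3 : 0 ≤ v ⬝ᵥ v := Finset.sum_nonneg fun i _ => mul_self_nonneg _
  have e2 : A *ᵥ u = p + q := by rw [e1, Matrix.mulVec_add]
  have c2 : p ⬝ᵥ v = v ⬝ᵥ p := dotProduct_comm _ _
  rw [e2, e1]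
  simp only [add_dotProduct, dotProduct_add]
  constructor
  · linarith
  · linarith

/-- `x·Gx ≤ (1+θ) y·Gy + (1+1/θ) |x-y|²` -/
theorem quad_theta {G : Mt n} (h0 : ∀ u : Fin n → ℝ, 0 ≤ u ⬝ᵥ (G *ᵥ u))
    (h1 : ∀ u : Fin n → ℝ, u ⬝ᵥ (G *ᵥ u) ≤ u ⬝ᵥ u) {θ : ℝ} (hθ : 0 < θ) (x y : Fin n → ℝ) :
    x ⬝ᵥ (G *ᵥ x) ≤ (1 + θ) * (y ⬝ᵥ (G *ᵥ y)) + (1 + 1 / θ) * ((x - y) ⬝ᵥ (x - y)) := by
  set z := x - y with hz
  have ex : x = y + z := by rw [hz]; abel
  have a1 := h0 (θ • y - z)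
  have a2 := h1 z
  rw [ex]
  simp only [Matrix.mulVec_sub, Matrix.mulVec_smul, Matrix.mulVec_add, sub_dotProduct,
    dotProduct_sub, smul_dotProduct, dotProduct_smul, smul_eq_mul, add_dotProduct,
    dotProduct_add] at a1 ⊢
  have a3 : y ⬝ᵥ (G *ᵥ z) + z ⬝ᵥ (G *ᵥ y) ≤ θ * (y ⬝ᵥ (G *ᵥ y)) + 1 / θ * (z ⬝ᵥ (G *ᵥ z)) := by
    have a4 : 0 ≤ θ * (θ * (y ⬝ᵥ (G *ᵥ y)) + 1 / θ * (z ⬝ᵥ (G *ᵥ z)) -
        (y ⬝ᵥ (G *ᵥ z) + z ⬝ᵥ (G *ᵥ y))) := by
      have e : θ * (θ * (y ⬝ᵥ (G *ᵥ y)) + 1 / θ * (z ⬝ᵥ (G *ᵥ z)) -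
          (y ⬝ᵥ (G *ᵥ z) + z ⬝ᵥ (G *ᵥ y))) =
          θ * (θ * (y ⬝ᵥ (G *ᵥ y))) + (θ * (1 / θ)) * (z ⬝ᵥ (G *ᵥ z)) -
          θ * (y ⬝ᵥ (G *ᵥ z)) - θ * (z ⬝ᵥ (G *ᵥ y)) := by ring
      rw [e, mul_one_div_cancel hθ.ne']
      linarith
    have := nonneg_of_mul_nonneg_right a4 hθ
    linarith
  have a5 : (1 + 1 / θ) * (z ⬝ᵥ (G *ᵥ z)) ≤ (1 + 1 / θ) * (z ⬝ᵥ z) :=
    mul_le_mul_of_nonneg_left a2 (by positivity)
  linarith

theorem hs_cols (M : Mt n) : ∑ k, (fun i => M i k) ⬝ᵥ (fun i => M i k) = hs M := by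
  simp only [dotProduct, hs]
  rw [Finset.sum_comm]
  exact Finset.sum_congr rfl fun i _ => Finset.sum_congr rfl fun k _ => (sq _).symm

theorem tr_cols (M A : Mt n) :
    ∑ k, (fun i => M i k) ⬝ᵥ (A *ᵥ fun i => M i k) = (M * Mᵀ * A).trace := by
  simp only [dotProduct, Matrix.mulVec, Matrix.trace, Matrix.diag_apply, Matrix.mul_apply,
    Matrix.transpose_apply, Finset.mul_sum, Finset.sum_mul]
  have h1 : ∀ k : Fin n, ∑ i, ∑ j, M i k * (A i j * M j k) = ∑ j, ∑ i, M i k * (A i j * M j k) :=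
    fun k => Finset.sum_comm
  simp only [h1]
  rw [Finset.sum_comm]
  refine Finset.sum_congr rfl fun j _ => ?_
  rw [Finset.sum_comm]
  exact Finset.sum_congr rfl fun i _ => Finset.sum_congr rfl fun k _ => by ring

/-- the quadratic term of the rigidity channel -/
theorem rig_pt {e : ℝ} (he : 0 < e) {θ : ℝ} (hθ : 0 < θ) (H B : Mt n) :
    0 ≤ ∑ k, (fun i => H i k) ⬝ᵥ ((1 + Clip78.bF e B)⁻¹ *ᵥ fun i => H i k) ∧
    ∑ k, (fun i => H i k) ⬝ᵥ ((1 + Clip78.bF e B)⁻¹ *ᵥ fun i => H i k) ≤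
      (1 + θ) * (1 / 2 * (hs B + hs (Clip78.cF e B))) + (1 + 1 / θ) * hs (H - B) := by
  have hA := Clip78.bF_symm e B
  have h0 := Clip78.bF_nonneg e B
  have h1 := Clip78.bF_le_one he B
  have G0 : ∀ u : Fin n → ℝ, 0 ≤ u ⬝ᵥ ((1 + Clip78.bF e B)⁻¹ *ᵥ u) := fun u =>
    (inv_facts hA h0 h1 u).1
  have G1 : ∀ u : Fin n → ℝ, u ⬝ᵥ ((1 + Clip78.bF e B)⁻¹ *ᵥ u) ≤ u ⬝ᵥ u := fun u => by
    have := (inv_facts hA h0 h1 u).2
    have h3 := h0 u
    simp only [zero_mulVec, dotProduct_zero] at h3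
    linarith
  refine ⟨Finset.sum_nonneg fun k _ => G0 _, ?_⟩
  have s1 : ∀ k, (fun i => H i k) ⬝ᵥ ((1 + Clip78.bF e B)⁻¹ *ᵥ fun i => H i k) ≤
      (1 + θ) * ((fun i => B i k) ⬝ᵥ (fun i => B i k) -
        1 / 2 * ((fun i => B i k) ⬝ᵥ (Clip78.bF e B *ᵥ fun i => B i k))) +
      (1 + 1 / θ) * ((fun i => (H - B) i k) ⬝ᵥ (fun i => (H - B) i k)) := by
    intro k
    have a1 := quad_theta G0 G1 hθ (fun i => H i k) (fun i => B i k)
    have a2 := mul_le_mul_of_nonneg_left (inv_facts hA h0 h1 (fun i => B i k)).2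
      (by positivity : 0 ≤ 1 + θ)
    have e1 : ((fun i => H i k) - fun i => B i k) = fun i => (H - B) i k := by
      funext i; rfl
    rw [e1] at a1
    linarith
  refine (Finset.sum_le_sum fun k _ => s1 k).trans (le_of_eq ?_)
  rw [Finset.sum_add_distrib, ← Finset.mul_sum, ← Finset.mul_sum, Finset.sum_sub_distrib,
    ← Finset.mul_sum, hs_cols, hs_cols, tr_cols, ← Clip78.hs_sub_hs_bF he]
  ring

/-! ### integrals -/

section Int

variable {ν : Measure (E n)} [IsProbabilityMeasure ν]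

theorem hs_int {F : E n → Mt n} (hF : ∀ i j, MemLp (fun x => F x i j) 2 ν) :
    Integrable (fun x => hs (F x)) ν ∧ ∫ x, hs (F x) ∂ν = ∑ i, ∑ j, ∫ x, F x i j ^ 2 ∂ν := by
  have h : ∀ i j, Integrable (fun x => F x i j ^ 2) ν := fun i j => isq (hF i j)
  have h2 : ∀ i, Integrable (fun x => ∑ j, F x i j ^ 2) ν := fun i =>
    integrable_finsetSum _ fun j _ => h i j
  unfold hs
  refine ⟨integrable_finsetSum _ fun i _ => h2 i, ?_⟩
  rw [integral_finsetSum _ fun i _ => h2 i]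
  exact Finset.sum_congr rfl fun i _ => integral_finsetSum _ fun j _ => h i j

variable {φ : Fin n → E n → ℝ}

theorem Jac_C1 (hφ : ∀ i, ContDiff ℝ ∞ (φ i)) (i j : Fin n) :
    ContDiff ℝ 1 fun x => Jac φ x i j := (pd_smooth (hφ i) j).of_le (by norm_cast)

theorem Jac_cs (hφs : ∀ i, HasCompactSupport (φ i)) (i j : Fin n) :
    HasCompactSupport fun x => Jac φ x i j := pd_cs (hφs i) j

theorem Jac_mem (hφ : ∀ i, ContDiff ℝ ∞ (φ i)) (hφs : ∀ i, HasCompactSupport (φ i)) (i j : Fin n) :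
    MemLp (fun x => Jac φ x i j) 2 ν := mcc (Jac_C1 hφ i j).continuous (Jac_cs hφs i j)

theorem Tc_C1 (e1 : ℝ) (hφ : ∀ i, ContDiff ℝ ∞ (φ i)) (i j : Fin n) :
    ContDiff ℝ 1 fun x => Tc e1 φ x i j := Clip78.cF_field_C1 e1 (Jac_C1 hφ) i j

theorem Tc_cs (e1 : ℝ) (hφs : ∀ i, HasCompactSupport (φ i)) (i j : Fin n) :
    HasCompactSupport fun x => Tc e1 φ x i j := Clip78.cF_cs e1 (Jac_cs hφs) i j

theorem Tc_mem (e1 : ℝ) (hφ : ∀ i, ContDiff ℝ ∞ (φ i)) (hφs : ∀ i, HasCompactSupport (φ i))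
    (i j : Fin n) : MemLp (fun x => Tc e1 φ x i j) 2 ν :=
  mcc (Tc_C1 e1 hφ i j).continuous (Tc_cs e1 hφs i j)

/-- the rigidity field -/
noncomputable def Ac (e1 : ℝ) (φ : Fin n → E n → ℝ) (x : E n) : Mt n := Clip78.bF e1 (Jac φ x)

theorem Ac_apply (e1 : ℝ) (x : E n) (i j : Fin n) :
    Ac e1 φ x i j = (e1 ^ 2)⁻¹ * ∑ k, Tc e1 φ x i k * Tc e1 φ x j k := by
  simp only [Ac, Clip78.bF, Tc, Matrix.smul_apply, Matrix.mul_apply, transpose_apply, smul_eq_mul]

theorem Ac_C1 (e1 : ℝ) (hφ : ∀ i, ContDiff ℝ ∞ (φ i)) (i j : Fin n) :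
    ContDiff ℝ 1 fun x => Ac e1 φ x i j := by
  simp only [Ac_apply]
  exact contDiff_const.mul (ContDiff.sum fun k _ => (Tc_C1 e1 hφ i k).mul (Tc_C1 e1 hφ j k))

theorem Ac_cs (e1 : ℝ) (hφs : ∀ i, HasCompactSupport (φ i)) (i j : Fin n) :
    HasCompactSupport fun x => Ac e1 φ x i j := by
  simp only [Ac_apply]
  have h : HasCompactSupport fun x => ∑ k, Tc e1 φ x i k * Tc e1 φ x j k :=
    cs_sum _ fun k _ => (Tc_cs e1 hφs i k).mul_right (f' := fun x => Tc e1 φ x j k)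
  exact h.mul_left (f := fun _ => (e1 ^ 2)⁻¹)

theorem Ac_tr (e1 : ℝ) (x : E n) : (Ac e1 φ x).trace = (e1 ^ 2)⁻¹ * hs (Tc e1 φ x) := by
  rw [Ac, Clip78.bF, trace_smul, smul_eq_mul, Tc, ← MX354.hs_eq_trace]

/-- integrable derivative energy -/
theorem pdT_int (e1 : ℝ) (hφ : ∀ i, ContDiff ℝ ∞ (φ i)) (hφs : ∀ i, HasCompactSupport (φ i)) :
    Integrable (fun x => ∑ k, hs (pdM k (Tc e1 φ) x)) ν :=
  integrable_finsetSum _ fun k _ => (hs_int fun i j =>
    mcc (pd_cont (Tc_C1 e1 hφ i j) k) (pd_cs (Tc_cs e1 hφs i j) k)).1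

end Int

end Crest.Agent.R201.Top674
end

-- ▼ part R201/NsC_674
section

/-!
# R201 (S0308), NoState assembly, part 3: integrated facts over a state (helper674)
-/

set_option autoImplicit false
open MeasureTheory Matrix
open scoped ContDiff

namespace Crest.Agent.R201.Top674

open Crest.Agent.R201 Crest.Agent.R201.El593 Crest.Agent.R201.Tw807 Crest.Agent.R201.L74

variable {n : ℕ} {ε : ℝ} (S : State n ε) {φ : Fin n → E n → ℝ}

/-- `H_ik = D_k w_i` -/
noncomputable def Hm (x : E n) : Mt n := Matrix.of fun i k => pd k (S.w i) x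

theorem Hm_symm (x : E n) : (Hm S x)ᵀ = Hm S x := by
  ext i k
  exact (S.H_symm i k x).symm

theorem dist1_eq (hφ : ∀ i, ContDiff ℝ ∞ (φ i)) (hφs : ∀ i, HasCompactSupport (φ i)) :
    Integrable (fun x => hs (Hm S x - Jac φ x)) S.ν ∧
      ∫ x, hs (Hm S x - Jac φ x) ∂S.ν = S.dist1 φ := by
  have h : ∀ i j, MemLp (fun x => (Hm S x - Jac φ x) i j) 2 S.ν := fun i j =>
    (S.H_L2 i j).sub (Jac_mem hφ hφs i j)
  exact hs_int h

theorem hB_eq (hφ : ∀ i, ContDiff ℝ ∞ (φ i)) (hφs : ∀ i, HasCompactSupport (φ i)) :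
    Integrable (fun x => hs (Jac φ x)) S.ν ∧ ∫ x, hs (Jac φ x) ∂S.ν = dsq S.ν φ :=
  hs_int (Jac_mem hφ hφs)

theorem dsq_w_eq : Integrable (fun x => hs (Hm S x)) S.ν ∧
    ∫ x, hs (Hm S x) ∂S.ν = dsq S.ν S.w := hs_int fun i j => S.H_L2 i j

theorem hs_split {θ : ℝ} (hθ : 0 < θ) (X Y : Mt n) :
    hs Y ≤ (1 + θ) * hs X + (1 + 1 / θ) * hs (X - Y) := by
  have h : ∀ i j, Y i j ^ 2 ≤ (1 + θ) * X i j ^ 2 + (1 + 1 / θ) * (X - Y) i j ^ 2 := by
    intro i j
    have e : (1 + θ) * X i j ^ 2 + (1 + 1 / θ) * (X - Y) i j ^ 2 - Y i j ^ 2 =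
        (θ * X i j + (X i j - Y i j)) ^ 2 / θ := by
      rw [Matrix.sub_apply]
      field_simp
      ring
    have : 0 ≤ (θ * X i j + (X i j - Y i j)) ^ 2 / θ := by positivity
    linarith
  unfold hs
  rw [Finset.mul_sum, Finset.mul_sum, ← Finset.sum_add_distrib]
  refine Finset.sum_le_sum fun i _ => ?_
  rw [Finset.mul_sum, Finset.mul_sum, ← Finset.sum_add_distrib]
  exact Finset.sum_le_sum fun j _ => h i j

/-- `|B|² ≤ (1+θ) E|Dw|² + (1+1/θ) |Dw - Dφ|²` -/
theorem hB_le (hφ : ∀ i, ContDiff ℝ ∞ (φ i)) (hφs : ∀ i, HasCompactSupport (φ i)) {θ : ℝ}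
    (hθ : 0 < θ) : ∫ x, hs (Jac φ x) ∂S.ν ≤
      (1 + θ) * dsq S.ν S.w + (1 + 1 / θ) * S.dist1 φ := by
  obtain ⟨a1, a2⟩ := dist1_eq S hφ hφs
  obtain ⟨b1, b2⟩ := hB_eq S hφ hφs
  obtain ⟨c1, c2⟩ := dsq_w_eq S
  rw [← a2, ← c2, ← integral_const_mul, ← integral_const_mul,
    ← integral_add (c1.const_mul _) (a1.const_mul _)]
  exact integral_mono b1 ((c1.const_mul _).add (a1.const_mul _)) fun x => hs_split hθ _ _

/-- `|T|² ≤ |B|²` -/
theorem hT_le {e1 : ℝ} (he : 0 < e1) (hφ : ∀ i, ContDiff ℝ ∞ (φ i))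
    (hφs : ∀ i, HasCompactSupport (φ i)) :
    ∫ x, hs (Tc e1 φ x) ∂S.ν ≤ ∫ x, hs (Jac φ x) ∂S.ν :=
  integral_mono (hs_int (Tc_mem e1 hφ hφs)).1 (hB_eq S hφ hφs).1 fun x => Clip78.hs_cF_le he _

/-- **rigidity, integrated** -/
theorem rig_int {e1 : ℝ} (he : 0 < e1) (hφ : ∀ i, ContDiff ℝ ∞ (φ i))
    (hφs : ∀ i, HasCompactSupport (φ i)) {K δ e D κ θ : ℝ} (hK : 0 ≤ K) (hκ : 0 < κ) (hθ : 0 < θ)
    (hR : RIGp S.toSt K δ e D) :
    nsq S.ν S.w ≤
      K * ((1 + θ) * (1 / 2 * ((∫ x, hs (Jac φ x) ∂S.ν) + ∫ x, hs (Tc e1 φ x) ∂S.ν)) +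
        (1 + 1 / θ) * S.dist1 φ) +
      K * κ / 2 * (4 / e1 ^ 2 * ∫ x, ∑ k, hs (pdM k (Tc e1 φ) x) ∂S.ν) + 2 * κ * δ +
      2 * e * (D + nsq S.ν S.w / (2 * κ) + 1 / 2 * ((e1 ^ 2)⁻¹ * ∫ x, hs (Tc e1 φ x) ∂S.ν)) +
      2 * κ * ((e1 ^ 2)⁻¹ * ∫ x, hs (Tc e1 φ x) ∂S.ν) := by
  have h := hR (Ac e1 φ) κ hκ (fun i j => Ac_C1 e1 hφ i j) (fun i j => Ac_cs e1 hφs i j)
    (fun x => Clip78.bF_symm e1 _) (fun x => Clip78.bF_nonneg e1 _)
  obtain ⟨a1, a2⟩ := dist1_eq S hφ hφs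
  obtain ⟨b1, b2⟩ := hB_eq S hφ hφs
  obtain ⟨t1, -⟩ := hs_int (ν := S.ν) (Tc_mem e1 hφ hφs)
  have i1 : ∫ x, ∑ k, (fun i => pd k (S.w i) x) ⬝ᵥ
      ((1 + Ac e1 φ x)⁻¹ *ᵥ fun i => pd k (S.w i) x) ∂S.ν ≤
      (1 + θ) * (1 / 2 * ((∫ x, hs (Jac φ x) ∂S.ν) + ∫ x, hs (Tc e1 φ x) ∂S.ν)) +
        (1 + 1 / θ) * S.dist1 φ := by
    have bt : Integrable (fun x => (1 + θ) * (1 / 2 * (hs (Jac φ x) + hs (Tc e1 φ x)))) S.ν :=
      ((b1.add t1).const_mul (1 / 2)).const_mul (1 + θ)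
    have at' : Integrable (fun x => (1 + 1 / θ) * hs (Hm S x - Jac φ x)) S.ν :=
      a1.const_mul (1 + 1 / θ)
    rw [← a2, ← integral_add b1 t1, ← integral_const_mul (1 / 2), ← integral_const_mul (1 + θ),
      ← integral_const_mul (1 + 1 / θ), ← integral_add bt at']
    refine integral_mono_of_nonneg (Filter.Eventually.of_forall fun x => ?_)
      (bt.add at') (Filter.Eventually.of_forall fun x => ?_)
    · exact (rig_pt he hθ (Hm S x) (Jac φ x)).1
    · exact (rig_pt he hθ (Hm S x) (Jac φ x)).2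
  have i2 : ∫ x, ∑ k, hs (pdM k (fun x => Ac e1 φ x) x) ∂S.ν ≤
      4 / e1 ^ 2 * ∫ x, ∑ k, hs (pdM k (Tc e1 φ) x) ∂S.ν := by
    rw [← integral_const_mul]
    refine integral_mono_of_nonneg (Filter.Eventually.of_forall fun x =>
      Finset.sum_nonneg fun k _ => NB152.hs_nonneg _) ((pdT_int e1 hφ hφs).const_mul _)
      (Filter.Eventually.of_forall fun x => ?_)
    change ∑ k, hs (pdM k (fun x => Ac e1 φ x) x) ≤ 4 / e1 ^ 2 * ∑ k, hs (pdM k (Tc e1 φ) x)
    rw [Finset.mul_sum]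
    exact Finset.sum_le_sum fun k _ => Clip78.hs_pdM_bF_le he (Jac_C1 hφ) k x
  have i3 : ∫ x, (Ac e1 φ x).trace ∂S.ν = (e1 ^ 2)⁻¹ * ∫ x, hs (Tc e1 φ x) ∂S.ν := by
    simp only [Ac_tr]
    exact integral_const_mul _ _
  rw [i3] at h
  have j1 := mul_le_mul_of_nonneg_left i1 hK
  have j2 := mul_le_mul_of_nonneg_left i2 (by positivity : 0 ≤ K * κ / 2)
  linarith

/-! ### the symmetrised field -/

/-- the symmetrised field -/
noncomputable def Sc (e1 : ℝ) (φ : Fin n → E n → ℝ) (x : E n) : Mt n := sy (Tc e1 φ x)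

theorem Sc_cb (e1 : ℝ) (hφ : ∀ i, ContDiff ℝ ∞ (φ i)) (hφs : ∀ i, HasCompactSupport (φ i))
    (p : Fin n × Fin n) : CB (famM (Sc e1 φ) p) :=
  cb_sy (fun p => cb_cs (Tc_C1 e1 hφ p.1 p.2) (Tc_cs e1 hφs p.1 p.2)) p

theorem Sc_symm (e1 : ℝ) (x : E n) : (Sc e1 φ x)ᵀ = Sc e1 φ x := sy_symm _

theorem skew_int {e1 : ℝ} (he : 0 < e1) (hφ : ∀ i, ContDiff ℝ ∞ (φ i))
    (hφs : ∀ i, HasCompactSupport (φ i)) :
    Integrable (fun x => hs (Tc e1 φ x - (Tc e1 φ x)ᵀ)) S.ν ∧
      ∫ x, hs (Tc e1 φ x - (Tc e1 φ x)ᵀ) ∂S.ν ≤ 4 * S.dist1 φ := by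
  have t1 : Integrable (fun x => hs (Tc e1 φ x - (Tc e1 φ x)ᵀ)) S.ν :=
    (hs_int (F := fun x => Tc e1 φ x - (Tc e1 φ x)ᵀ) fun i j =>
      (Tc_mem e1 hφ hφs i j).sub (Tc_mem e1 hφ hφs j i)).1
  obtain ⟨a1, a2⟩ := dist1_eq S hφ hφs
  refine ⟨t1, ?_⟩
  rw [← a2, ← integral_const_mul]
  refine integral_mono t1 (a1.const_mul _) fun x => ?_
  change hs (Tc e1 φ x - (Tc e1 φ x)ᵀ) ≤ 4 * hs (Hm S x - Jac φ x)
  refine (Clip78.cF_sub_transpose he _).trans ?_
  have e : hs (Jac φ x - (Jac φ x)ᵀ) =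
      hs ((Hm S x - Jac φ x) - (Hm S x - Jac φ x)ᵀ) := by
    rw [transpose_sub, Hm_symm]
    have : Hm S x - Jac φ x - (Hm S x - (Jac φ x)ᵀ) = -(Jac φ x - (Jac φ x)ᵀ) := by abel
    rw [this]
    simp only [hs, Matrix.neg_apply, neg_sq]
  rw [e]
  exact hs_sym_diff_le _

theorem hS_ge {e1 : ℝ} (he : 0 < e1) (hφ : ∀ i, ContDiff ℝ ∞ (φ i))
    (hφs : ∀ i, HasCompactSupport (φ i)) :
    (∫ x, hs (Tc e1 φ x) ∂S.ν) - S.dist1 φ ≤ ∫ x, hs (Sc e1 φ x) ∂S.ν ∧
      ∫ x, hs (Sc e1 φ x) ∂S.ν ≤ ∫ x, hs (Tc e1 φ x) ∂S.ν := by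
  obtain ⟨s1, s2⟩ := skew_int S he hφ hφs
  obtain ⟨t1, -⟩ := hs_int (ν := S.ν) (Tc_mem e1 hφ hφs)
  have e : ∫ x, hs (Sc e1 φ x) ∂S.ν = (∫ x, hs (Tc e1 φ x) ∂S.ν) -
      1 / 4 * ∫ x, hs (Tc e1 φ x - (Tc e1 φ x)ᵀ) ∂S.ν := by
    rw [← integral_const_mul, ← integral_sub t1 (s1.const_mul _)]
    simp only [Sc, hs_sy]
  have s3 : 0 ≤ ∫ x, hs (Tc e1 φ x - (Tc e1 φ x)ᵀ) ∂S.ν :=
    integral_nonneg fun x => NB152.hs_nonneg _
  rw [e]
  constructor <;> linarith

theorem gS_le (e1 : ℝ) (hφ : ∀ i, ContDiff ℝ ∞ (φ i)) (hφs : ∀ i, HasCompactSupport (φ i)) :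
    ∫ x, ∑ k, hs (pdM k (Sc e1 φ) x) ∂S.ν ≤ ∫ x, ∑ k, hs (pdM k (Tc e1 φ) x) ∂S.ν := by
  refine integral_mono_of_nonneg (Filter.Eventually.of_forall fun x =>
    Finset.sum_nonneg fun k _ => NB152.hs_nonneg _) (pdT_int e1 hφ hφs)
    (Filter.Eventually.of_forall fun x => ?_)
  exact Finset.sum_le_sum fun k _ => hs_pdM_sy_le
    (fun i j => (Tc_C1 e1 hφ i j).differentiable (by simp)) k x

/-- `tr V2 TᵀT` is integrable and nonnegative -/
theorem VT_int (e1 : ℝ) (hφ : ∀ i, ContDiff ℝ ∞ (φ i)) (hφs : ∀ i, HasCompactSupport (φ i)) :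
    Integrable (fun x => (S.V2 x * ((Tc e1 φ x)ᵀ * Tc e1 φ x)).trace) S.ν := by
  simp only [Matrix.trace, Matrix.diag_apply, Matrix.mul_apply, Matrix.transpose_apply]
  refine integrable_finsetSum _ fun i _ => integrable_finsetSum _ fun j _ => ?_
  have h2 : HasCompactSupport fun x => ∑ k, Tc e1 φ x k j * Tc e1 φ x k i :=
    cs_sum _ fun k _ => (Tc_cs e1 hφs k j).mul_right (f' := fun x => Tc e1 φ x k i)
  exact cci (S := S.toSm) ((S.V2_cont i j).mul (continuous_finsetSum _ fun k _ =>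
    (Tc_C1 e1 hφ k j).continuous.mul (Tc_C1 e1 hφ k i).continuous))
    (h2.mul_left (f := fun x => S.V2 x i j))

theorem VS_le {e1 : ℝ} (he : 0 < e1) (hφ : ∀ i, ContDiff ℝ ∞ (φ i))
    (hφs : ∀ i, HasCompactSupport (φ i)) :
    ∫ x, ((1 - (1 - S.h • S.V2 x)) * (Sc e1 φ x * Sc e1 φ x)).trace ∂S.ν ≤
      2 * S.h * (∫ x, (S.V2 x * ((Tc e1 φ x)ᵀ * Tc e1 φ x)).trace ∂S.ν) + 2 * S.dist1 φ := by
  obtain ⟨s1, s2⟩ := skew_int S he hφ hφs
  have v1 := VT_int S e1 hφ hφs
  have h0 : ∀ x, LeQ 0 (S.h • S.V2 x) := fun x u => by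
    have := S.V2_nonneg x u
    simp only [zero_mulVec, dotProduct_zero, smul_mulVec, dotProduct_smul, smul_eq_mul] at this ⊢
    exact mul_nonneg S.h_pos.le this
  have hp : ∀ x, ((1 - (1 - S.h • S.V2 x)) * (Sc e1 φ x * Sc e1 φ x)).trace ≤
      2 * S.h * (S.V2 x * ((Tc e1 φ x)ᵀ * Tc e1 φ x)).trace +
        1 / 2 * hs (Tc e1 φ x - (Tc e1 φ x)ᵀ) := by
    intro x
    rw [sub_sub_cancel]
    have := tr_VS (T := Tc e1 φ x) (h0 x) (S.V2_le x) (Sc_symm (φ := φ) e1 x)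
    have e1' : (S.h • S.V2 x * ((Tc e1 φ x)ᵀ * Tc e1 φ x)).trace =
        S.h * (S.V2 x * ((Tc e1 φ x)ᵀ * Tc e1 φ x)).trace := by
      rw [Matrix.smul_mul, trace_smul, smul_eq_mul]
    have e2 : hs (Sc e1 φ x - Tc e1 φ x) = 1 / 4 * hs (Tc e1 φ x - (Tc e1 φ x)ᵀ) := hs_sy_sub _
    rw [e1', e2] at this
    linarith
  have hn : ∀ x, 0 ≤ ((1 - (1 - S.h • S.V2 x)) * (Sc e1 φ x * Sc e1 φ x)).trace := by
    intro x
    rw [sub_sub_cancel]
    have := tr_VT_nonneg (h0 x) (Sc e1 φ x)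
    rwa [Sc_symm] at this
  have i1 : ∫ x, ((1 - (1 - S.h • S.V2 x)) * (Sc e1 φ x * Sc e1 φ x)).trace ∂S.ν ≤
      2 * S.h * (∫ x, (S.V2 x * ((Tc e1 φ x)ᵀ * Tc e1 φ x)).trace ∂S.ν) +
        1 / 2 * ∫ x, hs (Tc e1 φ x - (Tc e1 φ x)ᵀ) ∂S.ν := by
    rw [← integral_const_mul, ← integral_const_mul,
      ← integral_add (v1.const_mul _) (s1.const_mul _)]
    exact integral_mono_of_nonneg (Filter.Eventually.of_forall hn)
      ((v1.const_mul _).add (s1.const_mul _)) (Filter.Eventually.of_forall hp)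
  linarith

theorem VT_nonneg (e1 : ℝ) :
    0 ≤ ∫ x, (S.V2 x * ((Tc e1 φ x)ᵀ * Tc e1 φ x)).trace ∂S.ν :=
  integral_nonneg fun x => tr_VT_nonneg (S.V2_nonneg x) _

theorem dist1_nonneg : 0 ≤ S.dist1 φ :=
  Finset.sum_nonneg fun i _ => Finset.sum_nonneg fun k _ => integral_nonneg fun x => sq_nonneg _

end Crest.Agent.R201.Top674
end

-- ▼ part R201/NoState_674
section

/-!
# R201 (S0308): the static theorem `NoState` from the blocks RG, NS, EL (helper674)
-/

set_option autoImplicit false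
open MeasureTheory Matrix
open scoped ContDiff

namespace Crest.Agent.R201.Top674

open Crest.Agent.R201 Crest.Agent.R201.El593 Crest.Agent.R201.Tw807 Crest.Agent.R201.L74

variable {n : ℕ}

/-- numbers of the rigidity step: `|T|² ≥ 0.99 I` -/
theorem num_rig {I hB hT g ε e1 κ d1 ds : ℝ} (hI : 0 < I) (hε0 : 0 < ε) (he0 : 0 < e1)
    (hκ : κ = e1 ^ 2 / 10 ^ 4) (hε : ε ≤ 1 / 10 ^ 13) (hεκ : ε ≤ κ / 10 ^ 4)
    (he1 : e1 ≤ 1 / 10 ^ 4) (hd0 : 0 ≤ d1) (hd1 : d1 ≤ 1 / 10 ^ 10 * I) (hds : ds ≤ (1 + ε) * I)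
    (hT0 : 0 ≤ hT) (hTB : hT ≤ hB) (hg : g ≤ 2 * I)
    (h1 : hB ≤ (1 + 1 / 1000) * ds + (1 + 1 / (1 / 1000)) * d1)
    (h2 : I ≤ (1 + ε) * ((1 + 1 / 1000) * (1 / 2 * (hB + hT)) + (1 + 1 / (1 / 1000)) * d1) +
      (1 + ε) * κ / 2 * (4 / e1 ^ 2 * g) + 2 * κ * (ε * I) +
      2 * ε * (I + I / (2 * κ) + 1 / 2 * ((e1 ^ 2)⁻¹ * hT)) + 2 * κ * ((e1 ^ 2)⁻¹ * hT)) :
    99 / 100 * I ≤ hT ∧ hT ≤ 101 / 100 * I := by
  have hκ0 : 0 < κ := by rw [hκ]; positivity
  have hκ1 : κ ≤ 1 / 10 ^ 12 := by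
    rw [hκ]
    have : e1 ^ 2 ≤ (1 / 10 ^ 4) ^ 2 := pow_le_pow_left₀ he0.le he1 2
    linarith
  have hB1 : hB ≤ 1002 / 1000 * I := by nlinarith
  have hT1 : hT ≤ 1002 / 1000 * I := hTB.trans hB1
  have q1 : (1 + ε) * κ / 2 * (4 / e1 ^ 2 * g) = (1 + ε) * (2 / 10 ^ 4) * g := by
    rw [hκ]; field_simp; ring
  have q2 : 2 * κ * ((e1 ^ 2)⁻¹ * hT) = 2 / 10 ^ 4 * hT := by
    rw [hκ]; field_simp
  have q3 : ε * (I / (2 * κ)) ≤ 1 / (2 * 10 ^ 4) * I := by
    have : ε * (I / (2 * κ)) = (ε / κ) * (I / 2) := by field_simp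
    rw [this]
    have h3 : ε / κ ≤ 1 / 10 ^ 4 := by
      rw [div_le_iff₀ hκ0]; linarith
    nlinarith
  have q4 : ε * ((e1 ^ 2)⁻¹ * hT) ≤ 1 / 10 ^ 8 * hT := by
    have : ε * (e1 ^ 2)⁻¹ ≤ 1 / 10 ^ 8 := by
      rw [← div_eq_mul_inv, div_le_iff₀ (by positivity)]
      rw [hκ] at hεκ
      linarith
    calc ε * ((e1 ^ 2)⁻¹ * hT) = (ε * (e1 ^ 2)⁻¹) * hT := by ring
      _ ≤ _ := mul_le_mul_of_nonneg_right this hT0
  have q5 : 2 * κ * (ε * I) ≤ 1 / 10 ^ 10 * I := by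
    have : 2 * κ * ε ≤ 1 / 10 ^ 10 := by nlinarith
    nlinarith
  have q6 : 2 * ε * (I + I / (2 * κ) + 1 / 2 * ((e1 ^ 2)⁻¹ * hT)) =
      2 * ε * I + 2 * (ε * (I / (2 * κ))) + ε * ((e1 ^ 2)⁻¹ * hT) := by ring
  rw [q1, q2, q6] at h2
  have q7 : 2 * ε * I ≤ 1 / 10 ^ 10 * I := by nlinarith
  have q8 : (1 + ε) * (2 / 10 ^ 4) * g ≤ 5 / 10 ^ 4 * I := by
    have : (1 + ε) * (2 / 10 ^ 4) * g ≤ (1 + ε) * (2 / 10 ^ 4) * (2 * I) :=
      mul_le_mul_of_nonneg_left hg (by positivity)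
    nlinarith
  have q9 : (1 + ε) * ((1 + 1 / 1000) * (1 / 2 * (hB + hT)) + (1 + 1 / (1 / 1000)) * d1) ≤
      (1 + 1 / 1000) * (1 / 2 * (hB + hT)) + (1 + 1 / (1 / 1000)) * d1 + 1 / 10 ^ 6 * I := by
    have h3 : (1 + 1 / 1000) * (1 / 2 * (hB + hT)) + (1 + 1 / (1 / 1000)) * d1 ≤ 2 * I := by
      norm_num at hd1 ⊢
      linarith
    have h4 : ε * ((1 + 1 / 1000) * (1 / 2 * (hB + hT)) + (1 + 1 / (1 / 1000)) * d1) ≤
        ε * (2 * I) := mul_le_mul_of_nonneg_left h3 hε0.le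
    have h5 : ε * (2 * I) ≤ 1 / 10 ^ 6 * I := by nlinarith
    linarith
  refine ⟨?_, by linarith⟩
  norm_num at q3 q4 q5 q7 q8 q9 h2 hB1 hT1 hd1 h1 ⊢
  linarith

/-- numbers of the end game -/
theorem num_end {I hT hS gS wS C ε e1 d1 r : ℝ} (hI : 0 < I) (hε0 : 0 < ε) (hε : ε ≤ 1 / 10 ^ 13)
    (he0 : 0 < e1) (he1 : e1 ≤ 1 / 10 ^ 4)
    (hC : C ≤ 1 / 10 ^ 3) (hd0 : 0 ≤ d1) (hd1 : d1 ≤ 1 / 10 ^ 10 * I)
    (hT1 : 99 / 100 * I ≤ hT) (hT2 : hT ≤ 101 / 100 * I) (hS1 : hT - d1 ≤ hS) (hS2 : hS ≤ hT)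
    (hgS : gS ≤ (1 + C) * I) (hg0 : 0 ≤ gS) (hw : wS ≤ 2 * ε * ((1 + C) * I) + 2 * d1)
    (hr : r ≤ I)
    (h : 2 * ((20 : ℝ) ^ 2 - Real.pi * 20 - 20 ^ 2 * 1 * e1 ^ 2) * hS ≤
      3 / 2 * 20 ^ 2 * (1 + ε) * gS + (4 * (ε * I) + 8 * 10 ^ 6 * 20 ^ 2 * ε * I) / 1 +
      (16 * 10 ^ 6 * 20 ^ 2 * ε + 4 * 20 ^ 2 / 10 ^ 6) * (20 ^ 2 * hS) +
      8 * 10 ^ 6 * (20 ^ 2 * wS) + r) : False := by
  have hS0 : 98 / 100 * I ≤ hS := by norm_num at hd1; linarith
  have hSp : 0 ≤ hS := le_trans (by positivity) hS0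
  have he2 : e1 ^ 2 ≤ 1 / 10 ^ 8 := by
    have : e1 ^ 2 ≤ (1 / 10 ^ 4) ^ 2 := pow_le_pow_left₀ he0.le he1 2
    norm_num at this ⊢
    linarith
  have hpi := Real.pi_lt_d2
  have l1 : 2 * ((20 : ℝ) ^ 2 - Real.pi * 20 - 20 ^ 2 * 1 * e1 ^ 2) ≥ 673 := by
    norm_num at he2 hpi ⊢
    linarith
  have l2 : 673 * hS ≤ 2 * ((20 : ℝ) ^ 2 - Real.pi * 20 - 20 ^ 2 * 1 * e1 ^ 2) * hS :=
    mul_le_mul_of_nonneg_right l1 hSp
  have r1 : 3 / 2 * 20 ^ 2 * (1 + ε) * gS ≤ 602 * I := by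
    have a1 : (1 + ε) * gS ≤ (1 + 1 / 10 ^ 13) * ((1 + 1 / 10 ^ 3) * I) := by
      refine mul_le_mul (by linarith) (hgS.trans ?_) hg0 (by positivity)
      exact mul_le_mul_of_nonneg_right (by linarith) hI.le
    norm_num at a1 ⊢
    linarith
  have εI : ε * I ≤ 1 / 10 ^ 13 * I := mul_le_mul_of_nonneg_right hε hI.le
  have εS : ε * hS ≤ 1 / 10 ^ 13 * (101 / 100 * I) :=
    mul_le_mul hε (hS2.trans hT2) hSp (by positivity)
  have r3 : (16 * 10 ^ 6 * 20 ^ 2 * ε + 4 * 20 ^ 2 / 10 ^ 6) * (20 ^ 2 * hS) =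
      2560000000000 * (ε * hS) + 64 / 100 * hS := by ring
  have r4 : wS ≤ 3 / 10 ^ 10 * I := by
    have a1 : 2 * ε * ((1 + C) * I) ≤ 2 * (1 / 10 ^ 13) * ((1 + 1 / 10 ^ 3) * I) := by
      have b1 : (1 + C) * I ≤ (1 + 1 / 10 ^ 3) * I := mul_le_mul_of_nonneg_right (by linarith) hI.le
      have b2 : 0 ≤ (1 + C) * I := hg0.trans hgS
      exact mul_le_mul (by linarith) b1 b2 (by positivity)
    norm_num at a1 hd1 ⊢
    linarith
  rw [r3] at h
  norm_num at h εI εS r4 r1 hT2 hS0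
  have e1' : 8 * 10 ^ 6 * (20 ^ 2 * wS) ≤ I := by norm_num; linarith
  norm_num at e1'
  nlinarith

/-- **the static theorem from its blocks** -/
theorem nostate (hRG : RG) (hNS : NS) (hEL : ELc) : NoState := by
  obtain ⟨C, hC, hEL⟩ := hEL
  set e1 : ℝ := 1 / (10 ^ 4 * (C + 1)) with he1
  have e1_pos : 0 < e1 := by positivity
  have e1_le : e1 ≤ 1 / 10 ^ 4 := by
    rw [he1]
    apply one_div_le_one_div_of_le (by norm_num)
    nlinarith
  have Ce1 : C * e1 ≤ 1 / 10 ^ 4 := by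
    rw [he1, mul_one_div, div_le_div_iff₀ (by positivity) (by norm_num)]
    nlinarith
  set ρ : ℝ := e1 ^ 2 / 10 ^ 10 with hρ
  have ρ_pos : 0 < ρ := by positivity
  have e12 : e1 ^ 2 ≤ 1 / 10 ^ 8 := by
    have : e1 ^ 2 ≤ (1 / 10 ^ 4) ^ 2 := pow_le_pow_left₀ e1_pos.le e1_le 2
    norm_num at this ⊢
    linarith
  have ρ_le : ρ ≤ 1 / 10 ^ 18 := by
    rw [hρ]; norm_num at e12 ⊢; linarith
  have ρe : ρ ≤ e1 / 10 ^ 14 := by
    rw [hρ]
    have : e1 ^ 2 ≤ e1 * (1 / 10 ^ 4) := by rw [sq]; exact mul_le_mul_of_nonneg_left e1_le e1_pos.le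
    norm_num at this ⊢
    linarith
  set ε : ℝ := ρ ^ 2 with hε
  have ε_pos : 0 < ε := by positivity
  have ε_le : ε ≤ 1 / 10 ^ 13 := by
    have : ρ ^ 2 ≤ (1 / 10 ^ 18) ^ 2 := pow_le_pow_left₀ ρ_pos.le ρ_le 2
    rw [hε]
    refine this.trans (by norm_num)
  have ε_one : ε ≤ 1 := ε_le.trans (by norm_num)
  have sqε : √ε = ρ := by rw [hε]; exact Real.sqrt_sq ρ_pos.le
  have Cρ : C * ρ ≤ 1 / 10 ^ 18 := by
    have : C * ρ ≤ C * (e1 / 10 ^ 14) := mul_le_mul_of_nonneg_left ρe hC.le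
    norm_num at this Ce1 ⊢
    linarith
  have Cε : C * ε ≤ 1 / 10 ^ 18 := by
    have : C * ε = C * ρ * ρ := by rw [hε]; ring
    rw [this]
    have h1 : C * ρ * ρ ≤ 1 / 10 ^ 18 * 1 :=
      mul_le_mul Cρ (ρ_le.trans (by norm_num)) ρ_pos.le (by positivity)
    linarith
  set κ : ℝ := e1 ^ 2 / 10 ^ 4 with hκ
  have κ_pos : 0 < κ := by positivity
  have εκ : ε ≤ κ / 10 ^ 4 := by
    have h1 : ε = (e1 ^ 2) * (e1 ^ 2) / 10 ^ 20 := by rw [hε, hρ]; ring
    have h2 : (e1 ^ 2) * (e1 ^ 2) ≤ (e1 ^ 2) * (1 / 10 ^ 8) :=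
      mul_le_mul_of_nonneg_left e12 (by positivity)
    rw [h1, hκ]
    have h3 : 0 ≤ e1 ^ 2 := by positivity
    norm_num at h2 ⊢
    linarith
  refine ⟨ε, ε_pos, fun n S hI => ?_⟩
  obtain ⟨φ, hφ, hφs, d0, d1, lev⟩ := hEL n ε S ε_one hI e1 e1_pos (e1_le.trans (by norm_num))
  set I := S.I with hIdef
  have hIn : nsq S.ν S.w = I := rfl
  have hd0 := dist1_nonneg S (φ := φ)
  have hd1 : S.dist1 φ ≤ 1 / 10 ^ 10 * I := by
    refine d1.trans (mul_le_mul_of_nonneg_right (Cε.trans (by norm_num)) hI.le)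
  rw [sqε] at lev
  have hC' : C * (ρ + e1) ≤ 1 / 10 ^ 3 := by
    have : C * (ρ + e1) = C * ρ + C * e1 := by ring
    rw [this]
    norm_num at Cρ Ce1 ⊢
    linarith
  have vt0 := VT_nonneg S e1 (φ := φ)
  set g := ∫ x, ∑ k, hs (pdM k (Tc e1 φ) x) ∂S.ν with hg
  set v := ∫ x, (S.V2 x * ((Tc e1 φ x)ᵀ * Tc e1 φ x)).trace ∂S.ν with hv
  have g0 : 0 ≤ g := integral_nonneg fun x => Finset.sum_nonneg fun k _ => NB152.hs_nonneg _
  have g2 : g ≤ 2 * I := by nlinarith
  -- rigidity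
  have r1 := rig_int S e1_pos hφ hφs (K := 1 + ε) (δ := ε * S.I) (e := ε) (D := S.I) (κ := κ)
    (θ := 1 / 1000) (by positivity) κ_pos (by norm_num) (hRG n ε S ε_one)
  have r2 := hB_le S hφ hφs (θ := 1 / 1000) (by norm_num)
  have r3 := hT_le S e1_pos hφ hφs
  have r4 : 0 ≤ ∫ x, hs (Tc e1 φ x) ∂S.ν := integral_nonneg fun x => NB152.hs_nonneg _
  rw [hIn] at r1
  obtain ⟨t1, t2⟩ := num_rig hI ε_pos e1_pos hκ ε_le εκ e1_le hd0 hd1 S.S2 r4 r3 g2 r2 r1
  -- end game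
  obtain ⟨s1, s2⟩ := hS_ge S e1_pos hφ hφs
  have s3 := gS_le S e1 hφ hφs
  have s4 := VS_le S e1_pos hφ hφs
  have s5 : 0 ≤ ∫ x, ∑ k, hs (pdM k (Sc e1 φ) x) ∂S.ν :=
    integral_nonneg fun x => Finset.sum_nonneg fun k _ => NB152.hs_nonneg _
  have s6 : 2 * S.h * v + 2 * S.dist1 φ ≤ 2 * ε * ((1 + C * (ρ + e1)) * I) + 2 * S.dist1 φ := by
    have h1 : v ≤ (1 + C * (ρ + e1)) * I := by linarith
    have h2 : S.h * v ≤ ε * ((1 + C * (ρ + e1)) * I) := mul_le_mul S.h_le h1 vt0 ε_pos.le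
    linarith
  obtain ⟨BV, hBV⟩ := S.V2_bdd
  have hPc : ∀ i j, Continuous fun x => (1 - S.h • S.V2 x) i j := fun i j => by
    simp only [Matrix.sub_apply, Matrix.smul_apply, smul_eq_mul]
    exact continuous_const.sub (continuous_const.mul (S.V2_cont i j))
  have hPb : ∀ x i j, |(1 - S.h • S.V2 x) i j| ≤ 1 + S.h * BV := fun x i j => by
    simp only [Matrix.sub_apply, Matrix.smul_apply, smul_eq_mul]
    refine (abs_sub _ _).trans (add_le_add ?_ ?_)
    · by_cases hij : i = j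
      · subst hij; simp
      · simp [Matrix.one_apply_ne hij]
    · rw [abs_mul, abs_of_pos S.h_pos]
      exact mul_le_mul_of_nonneg_left (hBV x i j) S.h_pos.le
  have hP1 : ∀ x, LeQ (1 - S.h • S.V2 x) 1 := fun x u => by
    have := S.V2_nonneg x u
    simp only [zero_mulVec, dotProduct_zero] at this
    rw [Matrix.sub_mulVec, dotProduct_sub, smul_mulVec, dotProduct_smul, smul_eq_mul]
    have := mul_nonneg S.h_pos.le this
    linarith
  have hA : ∀ x, (Sc e1 φ x * Sc e1 φ x * (Sc e1 φ x * Sc e1 φ x)).trace ≤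
      e1 ^ 2 * (Sc e1 φ x * Sc e1 φ x).trace := fun x =>
    sy_four (Clip78.cFt_le e1_pos _) (Clip78.cFt_le' e1_pos _)
  set l1 : ℝ := max 1 (800 * n / I) with hl1
  have l1_one : 1 ≤ l1 := le_max_left _ _
  have l1_pos : 0 < l1 := by linarith
  have hr : 2 * (n * (20 : ℝ) ^ 2 / l1) ≤ I := by
    have h1 : 800 * n / I ≤ l1 := le_max_right _ _
    rw [div_le_iff₀ hI] at h1
    have : 2 * (n * (20 : ℝ) ^ 2 / l1) = 800 * n / l1 := by ring
    rw [this, div_le_iff₀ l1_pos]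
    linarith
  have asm := Ch150.assembly S.ν (S := Sc e1 φ) (P := fun x => 1 - S.h • S.V2 x)
    (Sc_cb e1 hφ hφs) (Sc_symm e1) hPc hPb hP1 (K := 1 + ε) (D := S.I) (δ := ε * S.I) (e2 := ε)
    (N := 10 ^ 6) (a := 20) (l0 := 1) (l1 := l1) (A := e1) (by norm_num) one_pos l1_one
    (by positivity) hI.le (by positivity) ε_pos.le (by norm_num) hA (fun l hl => by
      have hl0 : 0 ≤ l := zero_le_one.trans hl.1
      have cb := Ch150.cb_Ql (Sc_cb e1 hφ hφs) (Sc_symm e1) (a := 20) (by norm_num) hl0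
      exact hNS n ε S ε_one (fun x => Ch150.Ql 20 l (Sc e1 φ x)) (fun i j => cb (i, j))
        (fun x => Ch150.Ql_symm (Sc_symm e1 x) hl0) 20 (by norm_num)
        (fun x => (Ch150.Ql_bounds (Sc_symm e1 x) (by norm_num) hl0).2.2.1) (10 ^ 6)
        (by norm_num))
  exact num_end hI ε_pos ε_le e1_pos e1_le hC' hd0 hd1 t1 t2 s1 s2 (s3.trans (by linarith)) s5
    (s4.trans s6) hr asm

end Crest.Agent.R201.Top674
end

-- ▼ part R201/CH_238

/-!
# R201, block CH (helper238): labelled LSI with `J | x ~ N(φ(x), 1)`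
-/

set_option autoImplicit false
set_option maxHeartbeats 400000
open MeasureTheory Matrix Filter Topology ProbabilityTheory
open scoped ContDiff RealInnerProductSpace

namespace Crest.Agent.R201.CH238

open Crest.Agent.R201 Crest.Agent.R201.LL809

variable {n : ℕ}

section Jens

variable {L : Type*} [MeasurableSpace L] {μ : Measure (E n)} [IsFiniteMeasure μ] {f : E n → ℝ}
  {l : Measure L} [SFinite l] {p : L → E n → ℝ} {G h : L → ℝ}

/-- the unnormalised conditional mean is measurable in the label -/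
theorem meas_cm (hp : Chan l p G h) (hf : CBp f) {u : E n → ℝ} (mu : Measurable u) :
    Measurable fun j => ∫ x, f x * (u x * p j x) ∂μ := by
  have : StronglyMeasurable fun z : L × E n => f z.2 * (u z.2 * p z.1 z.2) :=
    ((hf.cont.measurable.comp measurable_snd).mul
      ((mu.comp measurable_snd).mul hp.meas)).stronglyMeasurable
  exact this.integral_prod_right.measurable

/-- **Jensen for labels** -/
theorem jens (hp : Chan l p G h) (hf : CBp f) (h1 : ∫ x, f x ∂μ = 1) {u : E n → ℝ}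
    (mu : Measurable u) {B : ℝ} (hB : ∀ x, |u x| ≤ B) :
    Integrable (fun j => (∫ x, f x * (u x * p j x) ∂μ) ^ 2 / pJ μ f p j) l ∧
    ∫ j, (∫ x, f x * (u x * p j x) ∂μ) ^ 2 / pJ μ f p j ∂l ≤ ∫ x, f x * u x ^ 2 ∂μ := by
  obtain ⟨K, hK0, hK⟩ := hf.bdd
  have mf := hf.cont.measurable
  have hB0 : 0 ≤ B := (abs_nonneg _).trans (hB 0)
  have bK : ∀ x, |f x| ≤ K := fun x => (hK x).1
  have m2 : Measurable fun x => f x * u x ^ 2 := mf.mul (mu.pow_const 2)
  have b2 : ∀ x, |f x * u x ^ 2| ≤ K * B ^ 2 := fun x => by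
    rw [abs_mul, abs_pow]
    exact mul_le_mul (bK x) (pow_le_pow_left₀ (abs_nonneg _) (hB x) 2) (by positivity) hK0
  have m1 : Measurable fun x => f x * u x := mf.mul mu
  have b1 : ∀ x, |f x * u x| ≤ K * B := fun x => by
    rw [abs_mul]; exact mul_le_mul (bK x) (hB x) (abs_nonneg _) hK0
  obtain ⟨i2, s2⟩ := hp.swap (μ := μ) (q := p) m2 b2 hp.meas hp.q1
  have key : ∀ j, (∫ x, f x * (u x * p j x) ∂μ) ^ 2 / pJ μ f p j ≤
      ∫ x, f x * u x ^ 2 * p j x ∂μ := by
    intro j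
    have hC := (pJ_bd (μ := μ) hp hf h1 j).1
    set C := pJ μ f p j with hCd
    set b := ∫ x, f x * (u x * p j x) ∂μ with hbd
    have j0 : Integrable (fun x => f x * p j x) μ := hp.int_right (q := p) mf bK hp.meas hp.q1 j
    have j1 : Integrable (fun x => f x * u x * p j x) μ :=
      hp.int_right (q := p) m1 b1 hp.meas hp.q1 j
    have j2 : Integrable (fun x => f x * u x ^ 2 * p j x) μ :=
      hp.int_right (q := p) m2 b2 hp.meas hp.q1 j
    have e1 : ∫ x, f x * u x * p j x ∂μ = b := by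
      rw [hbd]; exact integral_congr_ae (Eventually.of_forall fun x => by ring)
    have h0 : 0 ≤ ∫ x, f x * ((u x - b / C) ^ 2 * p j x) ∂μ :=
      integral_nonneg fun x => mul_nonneg (hf.pos x).le
        (mul_nonneg (sq_nonneg _) ((hp.cb j).pos x).le)
    have e2 : ∫ x, f x * ((u x - b / C) ^ 2 * p j x) ∂μ =
        (∫ x, f x * u x ^ 2 * p j x ∂μ) - 2 * (b / C) * b + (b / C) ^ 2 * C := by
      have : ∀ x, f x * ((u x - b / C) ^ 2 * p j x) = f x * u x ^ 2 * p j x -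
          2 * (b / C) * (f x * u x * p j x) + (b / C) ^ 2 * (f x * p j x) := fun x => by ring
      simp only [this]
      have k1 : Integrable (fun x => f x * u x ^ 2 * p j x - 2 * (b / C) * (f x * u x * p j x)) μ :=
        j2.sub (j1.const_mul _)
      rw [integral_add k1 (j0.const_mul _), integral_sub j2 (j1.const_mul _), integral_const_mul,
        integral_const_mul, e1]
      rfl
    rw [e2] at h0
    have e3 : (b / C) ^ 2 * C = b ^ 2 / C := by field_simp
    have e4 : 2 * (b / C) * b = 2 * (b ^ 2 / C) := by ring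
    rw [e3, e4] at h0
    linarith
  have hnn : ∀ j, 0 ≤ (∫ x, f x * (u x * p j x) ∂μ) ^ 2 / pJ μ f p j := fun j =>
    div_nonneg (sq_nonneg _) (pJ_bd (μ := μ) hp hf h1 j).1.le
  have hint : Integrable (fun j => (∫ x, f x * (u x * p j x) ∂μ) ^ 2 / pJ μ f p j) l := by
    refine i2.mono' (((meas_cm hp hf mu).pow_const 2).div (pJ_meas hp hf)).aestronglyMeasurable
      (Eventually.of_forall fun j => ?_)
    rw [Real.norm_eq_abs, abs_of_nonneg (hnn j)]
    exact key j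
  refine ⟨hint, (integral_mono hint i2 key).trans_eq ?_⟩
  rw [s2]
  simp only [hp.one, mul_one]

/-- mass of the label density -/
theorem pJ_mass (hp : Chan l p G h) (hf : CBp f) (h1 : ∫ x, f x ∂μ = 1) :
    Integrable (pJ μ f p) l ∧ ∫ j, pJ μ f p j ∂l = 1 := by
  obtain ⟨K, hK0, hK⟩ := hf.bdd
  obtain ⟨i, s⟩ := hp.swap (μ := μ) (q := p) hf.cont.measurable (fun x => (hK x).1) hp.meas hp.q1
  refine ⟨i, ?_⟩
  have : ∫ j, pJ μ f p j ∂l = ∫ j, ∫ x, f x * p j x ∂μ ∂l := rfl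
  rw [this, s]
  simp only [hp.one, mul_one, h1]

/-- the label divergence is nonnegative -/
theorem dis_nonneg (hp : Chan l p G h) (hf : CBp f) (h1 : ∫ x, f x ∂μ = 1) [IsProbabilityMeasure l] :
    0 ≤ ∫ j, pJ μ f p j * Real.log (pJ μ f p j) ∂l := by
  obtain ⟨i, e⟩ := pJ_mass (μ := μ) hp hf h1
  have h2 : ∫ j, (pJ μ f p j - 1) ∂l ≤ ∫ j, pJ μ f p j * Real.log (pJ μ f p j) ∂l := by
    refine integral_mono (i.sub (integrable_const _)) (pJlog_int hp hf h1) fun j => ?_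
    have h3 := (pJ_bd (μ := μ) hp hf h1 j).1
    have h4 := Real.one_sub_inv_le_log_of_pos h3
    have h5 : pJ μ f p j * (1 - (pJ μ f p j)⁻¹) ≤ pJ μ f p j * Real.log (pJ μ f p j) :=
      mul_le_mul_of_nonneg_left h4 h3.le
    have h6 : pJ μ f p j * (1 - (pJ μ f p j)⁻¹) = pJ μ f p j - 1 := by field_simp
    linarith
  rw [integral_sub i (integrable_const _), e] at h2
  simpa using h2

end Jens

/-! ### the unit Gaussian channel -/

section Unit

variable {v : E n → Fin n → ℝ}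

/-- the constant field `1` -/
theorem MF_one : MF (fun _ : E n => (1 : Mt n)) where
  cb i j := Tw807.cb_const _
  symm x := Matrix.transpose_one
  ge := ⟨1, one_pos, fun x u => by simp⟩

/-- the label as a point of `E n` -/
noncomputable def ze (v : E n → Fin n → ℝ) (x : E n) : E n := WithLp.toLp 2 (v x)

theorem meas_ze (hv : ∀ i, CB fun x => v x i) : Measurable (ze v) := by
  have h1 : Measurable fun x => v x := measurable_pi_lambda _ fun i => (hv i).1.continuous.measurable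
  exact (WithLp.measurable_toLp 2 _).comp h1

theorem inner_ze (x y : E n) : (⟪ze v x, y⟫ : ℝ) = v x ⬝ᵥ y.ofLp := by
  rw [real_inner_comm]
  simp [ze, PiLp.inner_apply, dotProduct]

theorem gp_one (x y : E n) : gp v (fun _ => 1) y x = GC844.L 1 (ze v x) y := by
  unfold gp gd gl GC844.L
  congr 1
  have h1 : ‖ze v x‖ ^ 2 = v x ⬝ᵥ v x := norm_sq_dot _
  rw [inner_ze, h1, inv_one, one_mulVec, det_one, Real.log_one]
  have h2 : (y.ofLp - v x) ⬝ᵥ (y.ofLp - v x) =
      y.ofLp ⬝ᵥ y.ofLp - 2 * (v x ⬝ᵥ y.ofLp) + v x ⬝ᵥ v x := by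
    simp only [sub_dotProduct, dotProduct_sub]
    rw [dotProduct_comm y.ofLp (v x)]
    ring
  rw [h2]
  ring

end Unit

/-- a differentiable function with continuous partial derivatives is `C¹` -/
theorem c1_of_pd {g : E n → ℝ} (hd : Differentiable ℝ g) (hc : ∀ k, Continuous (pd k g)) :
    ContDiff ℝ 1 g := by
  rw [contDiff_one_iff_fderiv]
  refine ⟨hd, ?_⟩
  have e : fderiv ℝ g = fun z => ∑ k, pd k g z • (EuclideanSpace.proj k : E n →L[ℝ] ℝ) := by
    funext z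
    ext v
    rw [An.fderiv_eq_sum g z v]
    simp [mul_comm]
  rw [e]
  exact continuous_finset_sum _ fun k _ => (hc k).smul continuous_const

section Law

variable {μ : Measure (E n)} [IsProbabilityMeasure μ] {f : E n → ℝ} {v : E n → Fin n → ℝ}

/-- `ν = f μ` -/
noncomputable def nu (μ : Measure (E n)) (f : E n → ℝ) : Measure (E n) :=
  μ.withDensity fun x => ENNReal.ofReal (f x)

theorem int_nu (hf : CBp f) (F : E n → ℝ) : ∫ x, F x ∂(nu μ f) = ∫ x, f x * F x ∂μ := by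
  unfold nu
  rw [integral_withDensity_eq_integral_toReal_smul hf.cont.measurable.ennreal_ofReal
    (Eventually.of_forall fun x => ENNReal.ofReal_lt_top)]
  refine integral_congr_ae (Eventually.of_forall fun x => ?_)
  simp only [smul_eq_mul]
  rw [ENNReal.toReal_ofReal (hf.pos x).le]

theorem prob_nu (hf : CBp f) (h1 : ∫ x, f x ∂μ = 1) : IsProbabilityMeasure (nu μ f) := by
  constructor
  unfold nu
  obtain ⟨K, hK0, hK⟩ := hf.bdd
  have fi : Integrable f μ := (integrable_const K).mono' hf.cont.aestronglyMeasurable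
    (Eventually.of_forall fun x => (hK x).1)
  rw [withDensity_apply _ MeasurableSet.univ, Measure.restrict_univ,
    ← ofReal_integral_eq_lintegral_ofReal fi (Eventually.of_forall fun x => (hf.pos x).le), h1,
    ENNReal.ofReal_one]

theorem cm_eq (hf : CBp f) (u : E n → ℝ) (y : E n) :
    ∫ x, f x * (u x * gp v (fun _ => 1) y x) ∂μ = GC844.Z (nu μ f) (ze v) 1 u y := by
  unfold GC844.Z
  rw [int_nu hf]
  simp only [gp_one]

theorem pJ_eq (hf : CBp f) : pJ μ f (gp v fun _ => 1) = GC844.wt (nu μ f) (ze v) 1 := by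
  funext y
  have h := cm_eq (μ := μ) (v := v) hf (fun _ => 1) y
  simp only [one_mul] at h
  exact h

/-- **law part**: `D(p_J | γ) ≤ (1/2) E |E[v|J]|²` -/
theorem dis_le (hf : CBp f) (h1 : ∫ x, f x ∂μ = 1) (hv : ∀ i, CB fun x => v x i) :
    Dis μ f v (fun _ => 1) ≤ 1 / 2 * ∫ y, ∑ i, (∫ x, f x * (v x i * gp v (fun _ => 1) y x) ∂μ) ^ 2 /
      pJ μ f (gp v fun _ => 1) y ∂(gam n) := by
  obtain ⟨G, h, hp⟩ := gchan (MF_one (n := n)) hv
  have hz := meas_ze hv
  haveI := prob_nu hf h1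
  obtain ⟨i0, m0⟩ := pJ_mass (μ := μ) hp hf h1
  have hb : ∀ i, ∃ B : ℝ, ∀ x, |v x i| ≤ B := fun i => by
    obtain ⟨-, B, hB⟩ := hv i
    exact ⟨B, fun x => (hB x).1⟩
  have mv : ∀ i, Measurable fun x => v x i := fun i => (hv i).1.continuous.measurable
  choose B hB using hb
  have j := fun i => jens (μ := μ) hp hf h1 (mv i) (hB i)
  have iv : ∀ i, Integrable (fun x => v x i) (nu μ f) := fun i =>
    Integrable.of_bound (mv i).aestronglyMeasurable (B i) (Eventually.of_forall fun x => by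
      simpa using hB i x)
  have inorm : Integrable (fun x => ‖ze v x‖ * (1 : ℝ)) (nu μ f) := by
    simp only [mul_one]
    refine Integrable.of_bound hz.norm.aestronglyMeasurable (∑ i, B i)
      (Eventually.of_forall fun x => ?_)
    rw [norm_norm]
    refine (EuclideanSpace.norm_eq _).trans_le ?_
    have h0 : ∀ i, 0 ≤ B i := fun i => (abs_nonneg _).trans (hB i 0)
    refine Real.sqrt_le_iff.2 ⟨Finset.sum_nonneg fun i _ => h0 i, ?_⟩
    rw [sq (∑ i, B i), Finset.sum_mul]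
    refine Finset.sum_le_sum fun i _ => ?_
    rw [Real.norm_eq_abs, sq]
    exact mul_le_mul (hB i x) ((hB i x).trans (Finset.single_le_sum (fun k _ => h0 k)
      (Finset.mem_univ i))) (abs_nonneg _) (h0 i)
  set w := GC844.wt (nu μ f) (ze v) 1 with hw
  have hw' : pJ μ f (gp v fun _ => 1) = w := pJ_eq hf
  have wpos : ∀ y, 0 < w y := fun y => by
    rw [← hw']; exact (pJ_bd (μ := μ) hp hf h1 y).1
  have hpd : ∀ k y, pd k w y = GC844.Z (nu μ f) (ze v) 1 (fun x => v x k) y := fun k y => by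
    have := GC844.pd_Z (σ := 1) (ρ := nu μ f) hz (integrable_const (1 : ℝ)) inorm k y
    rw [hw]
    refine this.trans ?_
    simp only [mul_one, one_mul]
    rfl
  have hdiff : Differentiable ℝ w :=
    GC844.differentiable_Z hz (integrable_const (1 : ℝ)) inorm
  have hC1 : ContDiff ℝ 1 w := by
    refine c1_of_pd hdiff fun k => ?_
    have : pd k w = GC844.Z (nu μ f) (ze v) 1 (fun x => v x k) := funext fun y => hpd k y
    rw [this]
    exact GC844.continuous_Z hz (iv k)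
  have e2 : ∀ y, ‖fderiv ℝ w y‖ ^ 2 / w y =
      ∑ i, (∫ x, f x * (v x i * gp v (fun _ => 1) y x) ∂μ) ^ 2 / pJ μ f (gp v fun _ => 1) y := by
    intro y
    rw [An.norm_fderiv_sq, Finset.sum_div]
    refine Finset.sum_congr rfl fun i _ => ?_
    rw [hpd, cm_eq hf, hw']
  have isum : Integrable (fun y => ∑ i, (∫ x, f x * (v x i * gp v (fun _ => 1) y x) ∂μ) ^ 2 /
      pJ μ f (gp v fun _ => 1) y) (gam n) := integrable_finset_sum _ fun i _ => (j i).1
  have g1 : Integrable w (stdGaussian (E n)) := by rw [← gam_eq, ← hw']; exact i0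
  have g2 : Integrable (fun y => ‖fderiv ℝ w y‖ ^ 2 / w y) (stdGaussian (E n)) := by
    rw [← gam_eq]; simp only [e2]; exact isum
  obtain ⟨-, key⟩ := NSL674.gauss_lsi hC1 wpos g1 g2
  rw [← gam_eq] at key
  simp only [e2] at key
  have mm : ∫ y, w y ∂(gam n) = 1 := by rw [← hw']; exact m0
  rw [mm, Real.log_one, mul_zero, sub_zero] at key
  have hD : Dis μ f v (fun _ => 1) = ∫ y, w y * Real.log (w y) ∂(gam n) := by
    unfold Dis
    rw [hw']
  rw [hD]
  exact key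

end Law

/-! ### the block -/

section Final

variable {μ : Measure (E n)} [IsProbabilityMeasure μ] {f : E n → ℝ}

theorem nsq_nu (hf : CBp f) (g : Fin n → E n → ℝ) :
    nsq (nu μ f) g = ∑ i, ∫ x, f x * g i x ^ 2 ∂μ := by
  unfold nsq
  exact Finset.sum_congr rfl fun i _ => int_nu hf _

theorem fi_eq (hf : CBp f) (w : Fin n → E n → ℝ) (hw : ∀ i x, w i x = pd i f x / f x) :
    Fi μ f = nsq (nu μ f) w := by
  rw [nsq_nu hf]
  obtain ⟨B, hB0, hB⟩ := hf.bdd
  obtain ⟨-, c, hc, hcf⟩ := id hf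
  have i1 : ∀ i, Integrable (fun x => f x * w i x ^ 2) μ := fun i => by
    refine Integrable.of_bound (hf.cont.measurable.mul (?_ : Measurable (fun x => w i x ^ 2))).aestronglyMeasurable
      (B ^ 2 / c) (Eventually.of_forall fun x => ?_)
    · have : w i = fun x => pd i f x / f x := funext (hw i)
      rw [this]
      exact ((pd_meas hf.1 i).div hf.cont.measurable).pow_const 2
    · have h1 : f x * w i x ^ 2 = pd i f x ^ 2 / f x := by
        have := (hf.pos x).ne'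
        rw [hw]; field_simp
      rw [h1, Real.norm_eq_abs, abs_div, abs_of_pos (hf.pos x), abs_of_nonneg (sq_nonneg _),
        ← sq_abs]
      exact div_le_div₀ (sq_nonneg _) (pow_le_pow_left₀ (abs_nonneg _) ((hB x).2 i) 2) hc (hcf x)
  rw [← integral_finset_sum _ fun i _ => i1 i]
  unfold Fi
  refine integral_congr_ae (Eventually.of_forall fun x => ?_)
  simp only
  rw [Finset.sum_div]
  refine Finset.sum_congr rfl fun i _ => ?_
  have := (hf.pos x).ne'
  rw [hw]; field_simp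

theorem pdM_const (k : Fin n) (x : E n) : pdM k (fun _ : E n => (1 : Mt n)) x = 0 := by
  ext i j
  unfold pdM
  simp [pd]

end Final

theorem ch_238 : L74.CH := by
  intro n ε S hε φ hφ hs
  haveI := S.prob_μ
  have hε0 : 0 < ε := S.h_pos.trans_le S.h_le
  set μ := S.μ with hμ
  set f := S.f with hfd
  have hf : CBp f := S.f_cbp
  have h1 : ∫ x, f x ∂μ = 1 := S.f_one
  let v : E n → Fin n → ℝ := fun x i => φ i x
  have hv : ∀ i, CB fun x => v x i := fun i => Tw807.cb_cc (hφ i) (hs i)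
  have hν : S.ν = nu μ f := S.ν_eq
  obtain ⟨G, h, hp⟩ := gchan (MF_one (n := n)) hv
  set p := gp v (fun _ => (1 : Mt n)) with hpd
  have mf := hf.cont.measurable
  obtain ⟨K, hK0, hK⟩ := hf.bdd
  -- the functions `w`
  have mw : ∀ i, Measurable (S.w i) := fun i => (S.w_cb i).1.continuous.measurable
  have mφ : ∀ i, Measurable (φ i) := fun i => (hφ i).continuous.measurable
  have bw : ∀ i, ∃ B : ℝ, ∀ x, |S.w i x| ≤ B := fun i => by
    obtain ⟨-, B, hB⟩ := S.w_cb i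
    exact ⟨B, fun x => (hB x).1⟩
  have bφ : ∀ i, ∃ B : ℝ, ∀ x, |φ i x| ≤ B := fun i => by
    obtain ⟨-, B, hB⟩ := hv i
    exact ⟨B, fun x => (hB x).1⟩
  choose Bw hBw using bw
  choose Bφ hBφ using bφ
  have jw := fun i => jens (μ := μ) hp hf h1 (mw i) (hBw i)
  have jφ := fun i => jens (μ := μ) hp hf h1 (mφ i) (hBφ i)
  have bd : ∀ i x, |φ i x - S.w i x| ≤ Bφ i + Bw i := fun i x =>
    (abs_sub _ _).trans (add_le_add (hBφ i x) (hBw i x))
  have jd := fun i => jens (μ := μ) hp hf h1 (u := fun x => φ i x - S.w i x) ((mφ i).sub (mw i)) (bd i)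
  -- the labelled LSI
  have hL := lab (μ := μ) S.lsi hf h1 hp
  have hFi : Fi μ f = nsq S.ν S.w := by rw [hν]; exact fi_eq hf S.w S.w_eq
  have hS1 := S.S1
  -- Fisher information of the channel
  have hLF : LF μ f (gam n) p = dsq S.ν φ := by
    rw [hpd, LF_gp MF_one hv hf, hν]
    unfold dsq
    simp only [int_nu hf]
    have ik : ∀ i k, Integrable (fun x => f x * pd k (φ i) x ^ 2) μ := fun i k => by
      obtain ⟨-, B, hB⟩ := hv i
      have hB0 : 0 ≤ B := (abs_nonneg _).trans ((hB 0).2 k)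
      refine Integrable.of_bound (mf.mul ((pd_meas (hv i) k).pow_const 2)).aestronglyMeasurable
        (K * B ^ 2) (Eventually.of_forall fun x => ?_)
      rw [Real.norm_eq_abs, abs_mul, abs_pow]
      exact mul_le_mul (hK x).1 (pow_le_pow_left₀ (abs_nonneg _) ((hB x).2 k) 2) (by positivity) hK0
    have e : ∀ i, ∑ k, ∫ x, f x * pd k (φ i) x ^ 2 ∂μ = ∫ x, ∑ k, f x * pd k (φ i) x ^ 2 ∂μ :=
      fun i => (integral_finset_sum _ fun k _ => ik i k).symm
    simp only [e]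
    rw [← integral_finset_sum _ fun i _ => integrable_finset_sum _ fun k _ => ik i k]
    refine integral_congr_ae (Eventually.of_forall fun x => ?_)
    simp only [pdM_const, mul_zero, zero_mul, trace_zero, add_zero, inv_one, one_mulVec]
    rw [Finset.sum_comm, Finset.mul_sum]
    refine Finset.sum_congr rfl fun k _ => ?_
    rw [← Finset.mul_sum]
    congr 1
    exact Finset.sum_congr rfl fun i _ => by simp only [pdv, sq]; rfl
  -- mutual information
  have hMI : MI μ f (gam n) p = 1 / 2 * nsq S.ν φ - Dis μ f v (fun _ => 1) := by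
    rw [hpd, MI_gp MF_one hv hf h1, hν, nsq_nu hf]
    congr 2
    have ik : ∀ i, Integrable (fun x => f x * φ i x ^ 2) μ := fun i => by
      have hB0 : 0 ≤ Bφ i := (abs_nonneg _).trans (hBφ i 0)
      refine Integrable.of_bound (mf.mul ((mφ i).pow_const 2)).aestronglyMeasurable
        (K * Bφ i ^ 2) (Eventually.of_forall fun x => ?_)
      rw [Real.norm_eq_abs, abs_mul, abs_pow]
      exact mul_le_mul (hK x).1 (pow_le_pow_left₀ (abs_nonneg _) (hBφ i x) 2) (by positivity) hK0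
    rw [← integral_finset_sum _ fun i _ => ik i]
    refine integral_congr_ae (Eventually.of_forall fun x => ?_)
    simp only [trace_one, Fintype.card_fin, det_one, Real.log_one, sub_zero, add_sub_cancel_right]
    rw [← Finset.mul_sum]
    congr 1
    exact Finset.sum_congr rfl fun i _ => by rw [sq]
  -- the divergence of the label
  have hD0 : 0 ≤ Dis μ f v (fun _ => 1) := dis_nonneg hp hf h1
  have hD1 := dis_le (μ := μ) hf h1 hv
  have hS3 := S.S3 p G h hp
  have idd : ∀ i, Integrable (fun j => (∫ x, f x * ((φ i x - S.w i x) * p j x) ∂μ) ^ 2 /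
      pJ μ f p j) (gam n) := fun i => (jd i).1
  have hA : ∫ y, ∑ i, (∫ x, f x * (v x i * p y x) ∂μ) ^ 2 / pJ μ f p y ∂(gam n) ≤
      2 * (∫ j, (∑ i, (∫ x, f x * (S.w i x * p j x) ∂μ) ^ 2) / pJ μ f p j ∂(gam n)) +
      2 * ∑ i, ∫ j, (∫ x, f x * ((φ i x - S.w i x) * p j x) ∂μ) ^ 2 / pJ μ f p j ∂(gam n) := by
    rw [← integral_finset_sum _ fun i _ => idd i, ← integral_const_mul, ← integral_const_mul]
    have iw : Integrable (fun j => (∑ i, (∫ x, f x * (S.w i x * p j x) ∂μ) ^ 2) / pJ μ f p j)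
        (gam n) := by
      simp only [Finset.sum_div]
      exact integrable_finset_sum _ fun i _ => (jw i).1
    rw [← integral_add (iw.const_mul _) ((integrable_finset_sum _ fun i _ => idd i).const_mul _)]
    refine integral_mono (integrable_finset_sum _ fun i _ => (jφ i).1)
      ((iw.const_mul _).add ((integrable_finset_sum _ fun i _ => idd i).const_mul _)) fun j => ?_
    simp only
    rw [Finset.sum_div, Finset.mul_sum, Finset.mul_sum, ← Finset.sum_add_distrib]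
    refine Finset.sum_le_sum fun i _ => ?_
    have hC := (pJ_bd (μ := μ) hp hf h1 j).1
    have j1 : Integrable (fun x => f x * S.w i x * p j x) μ :=
      hp.int_right (q := p) (u := fun x => f x * S.w i x) (mf.mul (mw i)) (B := K * Bw i)
        (fun x => by
          rw [abs_mul]; exact mul_le_mul (hK x).1 (hBw i x) (abs_nonneg _) hK0) hp.meas hp.q1 j
    have j2 : Integrable (fun x => f x * (φ i x - S.w i x) * p j x) μ :=
      hp.int_right (q := p) (u := fun x => f x * (φ i x - S.w i x)) (mf.mul ((mφ i).sub (mw i)))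
        (B := K * (Bφ i + Bw i)) (fun x => by
          rw [abs_mul]; exact mul_le_mul (hK x).1 (bd i x) (abs_nonneg _) hK0) hp.meas hp.q1 j
    have e : ∫ x, f x * (v x i * p j x) ∂μ = (∫ x, f x * (S.w i x * p j x) ∂μ) +
        ∫ x, f x * ((φ i x - S.w i x) * p j x) ∂μ := by
      have e1 : ∀ x, f x * (S.w i x * p j x) = f x * S.w i x * p j x := fun x => by ring
      have e2 : ∀ x, f x * ((φ i x - S.w i x) * p j x) = f x * (φ i x - S.w i x) * p j x :=
        fun x => by ring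
      simp only [e1, e2]
      rw [← integral_add j1 j2]
      refine integral_congr_ae (Eventually.of_forall fun x => ?_)
      simp only [v]
      ring
    rw [e]
    set a := ∫ x, f x * (S.w i x * p j x) ∂μ
    set b := ∫ x, f x * ((φ i x - S.w i x) * p j x) ∂μ
    have h2 : (a + b) ^ 2 ≤ 2 * a ^ 2 + 2 * b ^ 2 := by nlinarith [sq_nonneg (a - b)]
    have h3 := div_le_div_of_nonneg_right h2 hC.le
    have h4 : (2 * a ^ 2 + 2 * b ^ 2) / pJ μ f p j = 2 * (a ^ 2 / pJ μ f p j) +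
      2 * (b ^ 2 / pJ μ f p j) := by ring
    linarith
  have hd : ∑ i, ∫ j, (∫ x, f x * ((φ i x - S.w i x) * p j x) ∂μ) ^ 2 / pJ μ f p j ∂(gam n) ≤
      ∑ i, ∫ x, (S.w i x - φ i x) ^ 2 ∂S.ν := by
    refine Finset.sum_le_sum fun i _ => (jd i).2.trans_eq ?_
    rw [hν, int_nu hf]
    refine integral_congr_ae (Eventually.of_forall fun x => ?_)
    simp only
    ring
  have hMI' : MI μ f (gam n) p ≤ 1 / 2 * nsq S.ν φ := by linarith
  have hεM : ε * MI μ f (gam n) p ≤ ε * (1 / 2 * nsq S.ν φ) :=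
    mul_le_mul_of_nonneg_left hMI' hε0.le
  have hI : S.I = nsq S.ν S.w := rfl
  rw [hI]
  rw [hLF, hFi] at hL
  change ∫ j, (∑ i, (∫ x, f x * (S.w i x * p j x) ∂μ) ^ 2) / pJ μ f p j ∂(gam n) ≤
    ε * (nsq S.ν S.w + MI μ f (gam n) p) at hS3
  change (1 + ε) / 2 * nsq S.ν S.w - Ent μ f ≤ ε * nsq S.ν S.w at hS1
  change nsq S.ν φ ≤ (1 + ε) * dsq S.ν φ + 2 * (ε * nsq S.ν S.w) +
    2 * ∑ i, ∫ x, (S.w i x - φ i x) ^ 2 ∂S.ν + 2 * ε * (nsq S.ν S.w + 1 / 2 * nsq S.ν φ)
  nlinarith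

end Crest.Agent.R201.CH238
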