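import Crest.Agent.R201.Tw1_807
import Crest.Agent.R201.An9_293

-- ▼ part R201/El1_593
section

/-!
# R201 (S0308), level 2, static block: measures with smooth log-gradient (helper593)

`ν` a probability measure with density `exp (-W)`, `Wg = ∇W`, `W2 = D²W`;
`AW φ = -Δφ + ∇W·∇φ`; divergence of a matrix field; the matrix Bochner identity.
-/

set_option autoImplicit false
open MeasureTheory Matrix
open scoped ContDiff

namespace Crest.Agent.R201.El593

open Crest.Agent.R201 Crest.Agent.R201.Tw807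

variable {n : ℕ}

/-- a probability measure with smooth log-gradient -/
structure Sm (n : ℕ) where
  ν : Measure (E n)
  prob : IsProbabilityMeasure ν
  Wg : Fin n → E n → ℝ
  W2 : E n → Mt n
  Wg_smooth : ∀ k, ContDiff ℝ ∞ (Wg k)
  W2_eq : ∀ k l x, W2 x k l = pd l (Wg k) x
  W2_symm : ∀ k l x, W2 x k l = W2 x l k
  ibp : ∀ k (f : E n → ℝ), ContDiff ℝ 1 f → HasCompactSupport f →
    ∫ x, Wg k x * f x ∂ν = ∫ x, pd k f x ∂ν

variable (S : Sm n)

instance : IsProbabilityMeasure S.ν := S.prob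

/-- `A φ = -Δφ + W'·Dφ` -/
noncomputable def AW (φ : E n → ℝ) (x : E n) : ℝ :=
  ∑ k, (S.Wg k x * pd k φ x - pd k (pd k φ) x)

variable {S}

theorem cci {f : E n → ℝ} (hc : Continuous f) (hs : HasCompactSupport f) : Integrable f S.ν := by
  obtain ⟨B, hB⟩ := bdd_of_cc hc hs
  exact Integrable.of_bound hc.aestronglyMeasurable B
    (Filter.Eventually.of_forall fun x => by simpa using hB x)

theorem Wg_cont (k : Fin n) : Continuous (S.Wg k) := (S.Wg_smooth k).continuous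

theorem W2_cont (k l : Fin n) : Continuous fun x => S.W2 x k l := by
  have : (fun x => S.W2 x k l) = pd l (S.Wg k) := funext fun x => S.W2_eq k l x
  rw [this]
  exact (pd_smooth (S.Wg_smooth k) l).continuous

theorem cs_sum {ι : Type*} (s : Finset ι) {f : ι → E n → ℝ}
    (hf : ∀ i ∈ s, HasCompactSupport (f i)) : HasCompactSupport (fun x => ∑ i ∈ s, f i x) := by
  classical
  induction s using Finset.induction_on with
  | empty =>
    simp only [Finset.sum_empty]
    exact HasCompactSupport.zero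
  | insert a s ha ih =>
    have h1 := hf a (Finset.mem_insert_self a s)
    have h2 := ih fun i hi => hf i (Finset.mem_insert_of_mem hi)
    have e : (fun x => ∑ i ∈ insert a s, f i x) = f a + fun x => ∑ i ∈ s, f i x := by
      funext x
      rw [Finset.sum_insert ha]
      rfl
    rw [e]
    exact h1.add h2

theorem cs_sub {f g : E n → ℝ} (hf : HasCompactSupport f) (hg : HasCompactSupport g) :
    HasCompactSupport (fun x => f x - g x) := by
  have e : (fun x => f x - g x) = f + -g := by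
    funext x; simp [sub_eq_add_neg]
  rw [e]
  exact hf.add hg.neg

theorem AW_cs {φ : E n → ℝ} (hs : HasCompactSupport φ) : HasCompactSupport (AW S φ) := by
  unfold AW
  exact cs_sum _ fun k _ => cs_sub ((pd_cs hs k).mul_left (f := S.Wg k)) (pd_cs (pd_cs hs k) k)

theorem AW_smooth {φ : E n → ℝ} (hφ : ContDiff ℝ ∞ φ) : ContDiff ℝ ∞ (AW S φ) := by
  unfold AW
  exact ContDiff.sum fun k _ => ((S.Wg_smooth k).mul (pd_smooth hφ k)).sub
    (pd_smooth (pd_smooth hφ k) k)

/-- integration by parts with a product, the compact support being on the first factor -/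
theorem ibp2 (k : Fin n) {a f : E n → ℝ} (ha : ContDiff ℝ 1 a) (hs : HasCompactSupport a)
    (hf : ContDiff ℝ 1 f) :
    ∫ x, (S.Wg k x * a x - pd k a x) * f x ∂S.ν = ∫ x, a x * pd k f x ∂S.ν := by
  have hp : ContDiff ℝ 1 (fun x => a x * f x) := ha.mul hf
  have hps : HasCompactSupport (fun x => a x * f x) := hs.mul_right (f' := f)
  have h0 := S.ibp k _ hp hps
  have e1 : ∀ x, pd k (fun x => a x * f x) x = a x * pd k f x + pd k a x * f x := fun x =>
    pd_mul k (ha.differentiable (by simp) x) (hf.differentiable (by simp) x)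
  simp only [e1] at h0
  have i1 : Integrable (fun x => a x * pd k f x) S.ν :=
    cci (ha.continuous.mul (pd_cont hf k)) (hs.mul_right (f' := pd k f))
  have i2 : Integrable (fun x => pd k a x * f x) S.ν :=
    cci ((pd_cont ha k).mul hf.continuous) ((pd_cs hs k).mul_right (f' := f))
  have i3 : Integrable (fun x => S.Wg k x * (a x * f x)) S.ν :=
    cci ((Wg_cont k).mul hp.continuous) (hps.mul_left (f := S.Wg k))
  rw [integral_add i1 i2] at h0
  have e2 : ∀ x, (S.Wg k x * a x - pd k a x) * f x = S.Wg k x * (a x * f x) - pd k a x * f x :=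
    fun x => by ring
  simp only [e2]
  rw [integral_sub i3 i2, h0]
  ring

/-- `∫ (Aφ) f = ∑ ∫ D_kφ D_k f` -/
theorem ibp_A {φ f : E n → ℝ} (hφ : ContDiff ℝ ∞ φ) (hs : HasCompactSupport φ)
    (hf : ContDiff ℝ 1 f) :
    ∫ x, AW S φ x * f x ∂S.ν = ∑ k, ∫ x, pd k φ x * pd k f x ∂S.ν := by
  unfold AW
  simp only [Finset.sum_mul]
  rw [integral_finsetSum]
  · exact Finset.sum_congr rfl fun k _ =>
      ibp2 k ((pd_smooth hφ k).of_le (by norm_cast)) (pd_cs hs k) hf
  · intro k _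
    refine cci ((((Wg_cont k).mul (pd_smooth hφ k).continuous).sub
      (pd_smooth (pd_smooth hφ k) k).continuous).mul hf.continuous) ?_
    exact (cs_sub ((pd_cs hs k).mul_left (f := S.Wg k)) (pd_cs (pd_cs hs k) k)).mul_right
      (f' := f)

/-- `D_k (A φ) = A (D_k φ) + (W'' Dφ)_k` -/
theorem pd_AW {φ : E n → ℝ} (hφ : ContDiff ℝ ∞ φ) (k : Fin n) (x : E n) :
    pd k (AW S φ) x = AW S (pd k φ) x + ∑ l, S.W2 x k l * pd l φ x := by
  have d1 : ∀ l, Differentiable ℝ (S.Wg l) := fun l => (S.Wg_smooth l).differentiable (by simp)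
  have d2 : ∀ l, Differentiable ℝ (pd l φ) := fun l =>
    (pd_smooth hφ l).differentiable (by simp)
  have d3 : ∀ l, Differentiable ℝ (pd l (pd l φ)) := fun l =>
    (pd_smooth (pd_smooth hφ l) l).differentiable (by simp)
  have h1 : pd k (AW S φ) x =
      ∑ l, pd k (fun y => S.Wg l y * pd l φ y - pd l (pd l φ) y) x := by
    unfold AW
    exact pd_sum Finset.univ k fun l _ => ((d1 l x).mul (d2 l x)).sub (d3 l x)
  have h2 : ∀ l, pd k (fun y => S.Wg l y * pd l φ y - pd l (pd l φ) y) x =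
      (S.Wg l x * pd l (pd k φ) x - pd l (pd l (pd k φ)) x) + S.W2 x k l * pd l φ x := by
    intro l
    have dm : DifferentiableAt ℝ (fun y => S.Wg l y * pd l φ y) x := (d1 l x).mul (d2 l x)
    rw [pd_sub k dm (d3 l x), pd_mul k (d1 l x) (d2 l x), pd_comm hφ k l x]
    have e1 : pd k (pd l (pd l φ)) x = pd l (pd l (pd k φ)) x := by
      rw [pd_comm (pd_smooth hφ l) k l x]
      have : pd k (pd l φ) = pd l (pd k φ) := funext fun y => pd_comm hφ k l y
      rw [this]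
    rw [e1, S.W2_symm k l x, S.W2_eq l k x]
    ring
  rw [h1]
  unfold AW
  rw [← Finset.sum_add_distrib]
  exact Finset.sum_congr rfl fun l _ => h2 l

/-! ### matrix fields -/

variable (S)

/-- divergence (adjoint of `D`) of a matrix field -/
noncomputable def dv (T : Fin n → Fin n → E n → ℝ) (i : Fin n) (x : E n) : ℝ :=
  ∑ k, (S.Wg k x * T i k x - pd k (T i k) x)

variable {S}

theorem dv_cs {T : Fin n → Fin n → E n → ℝ} (hs : ∀ i k, HasCompactSupport (T i k)) (i : Fin n) :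
    HasCompactSupport (dv S T i) := by
  unfold dv
  exact cs_sum _ fun k _ => cs_sub ((hs i k).mul_left (f := S.Wg k)) (pd_cs (hs i k) k)

theorem dv_cont {T : Fin n → Fin n → E n → ℝ} (hT : ∀ i k, ContDiff ℝ 1 (T i k)) (i : Fin n) :
    Continuous (dv S T i) := by
  unfold dv
  exact continuous_finsetSum _ fun k _ => ((Wg_cont k).mul (hT i k).continuous).sub
    (pd_cont (hT i k) k)

/-- `∫ (δT)_i f = ∑_k ∫ T_ik D_k f` -/
theorem ibp_dv {T : Fin n → Fin n → E n → ℝ} (hT : ∀ i k, ContDiff ℝ 1 (T i k))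
    (hs : ∀ i k, HasCompactSupport (T i k)) (i : Fin n) {f : E n → ℝ} (hf : ContDiff ℝ 1 f) :
    ∫ x, dv S T i x * f x ∂S.ν = ∑ k, ∫ x, T i k x * pd k f x ∂S.ν := by
  unfold dv
  simp only [Finset.sum_mul]
  rw [integral_finsetSum]
  · exact Finset.sum_congr rfl fun k _ => ibp2 k (hT i k) (hs i k) hf
  · intro k _
    refine cci ((((Wg_cont k).mul (hT i k).continuous).sub
      (pd_cont (hT i k) k)).mul hf.continuous) ?_
    exact (cs_sub ((hs i k).mul_left (f := S.Wg k)) (pd_cs (hs i k) k)).mul_right (f' := f)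

/-- matrix Bochner identity -/
theorem boch {T : Fin n → Fin n → E n → ℝ} (hT : ∀ i k, ContDiff ℝ 1 (T i k))
    (hs : ∀ i k, HasCompactSupport (T i k)) {φ : Fin n → E n → ℝ} (hφ : ∀ i, ContDiff ℝ ∞ (φ i))
    (hφs : ∀ i, HasCompactSupport (φ i)) (i : Fin n) :
    (∑ k, ∑ l, ∫ x, pd l (T i k) x * pd l (pd k (φ i)) x ∂S.ν) +
      (∑ k, ∑ l, ∫ x, S.W2 x k l * (T i k x * pd l (φ i) x) ∂S.ν) =
      ∫ x, dv S T i x * AW S (φ i) x ∂S.ν := by
  rw [ibp_dv hT hs i ((AW_smooth (hφ i)).of_le (by norm_cast)), ← Finset.sum_add_distrib]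
  refine Finset.sum_congr rfl fun k _ => ?_
  have e1 : ∀ x, T i k x * pd k (AW S (φ i)) x = AW S (pd k (φ i)) x * T i k x +
      ∑ l, S.W2 x k l * (T i k x * pd l (φ i) x) := by
    intro x
    rw [pd_AW (hφ i) k x, mul_add, Finset.mul_sum]
    congr 1
    · ring
    · exact Finset.sum_congr rfl fun l _ => by ring
  simp only [e1]
  have iV : ∀ l, Integrable (fun x => S.W2 x k l * (T i k x * pd l (φ i) x)) S.ν := fun l =>
    cci ((W2_cont k l).mul ((hT i k).continuous.mul (pd_smooth (hφ i) l).continuous))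
      (((hs i k).mul_right (f' := pd l (φ i))).mul_left (f := fun x => S.W2 x k l))
  have iA : Integrable (fun x => AW S (pd k (φ i)) x * T i k x) S.ν :=
    cci ((AW_smooth (pd_smooth (hφ i) k)).continuous.mul (hT i k).continuous)
      ((hs i k).mul_left (f := AW S (pd k (φ i))))
  rw [integral_add iA (integrable_finsetSum _ fun l _ => iV l),
    integral_finsetSum _ fun l _ => iV l, ibp_A (pd_smooth (hφ i) k) (pd_cs (hφs i) k) (hT i k)]
  congr 1
  exact Finset.sum_congr rfl fun l _ => integral_congr_ae (Filter.Eventually.of_forall fun x => by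
    simp only; ring)

/-- second moment of the divergence of a smooth matrix field -/
theorem dv_sq {T : Fin n → Fin n → E n → ℝ} (hT : ∀ i k, ContDiff ℝ ∞ (T i k))
    (hs : ∀ i k, HasCompactSupport (T i k)) (i : Fin n) :
    ∫ x, dv S T i x ^ 2 ∂S.ν = (∑ k, ∑ l, ∫ x, pd l (T i k) x * pd k (T i l) x ∂S.ν) +
      ∑ k, ∑ l, ∫ x, S.W2 x k l * (T i k x * T i l x) ∂S.ν := by
  have hT1 : ∀ i k, ContDiff ℝ 1 (T i k) := fun i k => (hT i k).of_le (by norm_cast)
  have hdv : ContDiff ℝ ∞ (dv S T i) := by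
    unfold dv
    exact ContDiff.sum fun k _ => ((S.Wg_smooth k).mul (hT i k)).sub (pd_smooth (hT i k) k)
  have h0 := ibp_dv (S := S) hT1 hs i (hdv.of_le (by norm_cast) : ContDiff ℝ 1 _)
  have e0 : ∫ x, dv S T i x ^ 2 ∂S.ν = ∫ x, dv S T i x * dv S T i x ∂S.ν := by simp only [sq]
  rw [e0, h0, ← Finset.sum_add_distrib]
  refine Finset.sum_congr rfl fun k _ => ?_
  -- `D_k (δT)_i = ∑_l (W2_{lk} T_il + Wg_l D_k T_il - D_l D_k T_il)`
  have e1 : ∀ x, pd k (dv S T i) x = ∑ l, (S.W2 x k l * T i l x +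
      (S.Wg l x * pd k (T i l) x - pd l (pd k (T i l)) x)) := by
    intro x
    have d1 : ∀ l, Differentiable ℝ (S.Wg l) := fun l => (S.Wg_smooth l).differentiable (by simp)
    have d2 : ∀ l, Differentiable ℝ (T i l) := fun l => (hT i l).differentiable (by simp)
    have d3 : ∀ l, Differentiable ℝ (pd l (T i l)) := fun l =>
      (pd_smooth (hT i l) l).differentiable (by simp)
    have h1 : pd k (dv S T i) x = ∑ l, pd k (fun y => S.Wg l y * T i l y - pd l (T i l) y) x := by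
      unfold dv
      exact pd_sum Finset.univ k fun l _ => ((d1 l x).mul (d2 l x)).sub (d3 l x)
    rw [h1]
    refine Finset.sum_congr rfl fun l _ => ?_
    have dm : DifferentiableAt ℝ (fun y => S.Wg l y * T i l y) x := (d1 l x).mul (d2 l x)
    rw [pd_sub k dm (d3 l x), pd_mul k (d1 l x) (d2 l x), pd_comm (hT i l) k l x,
      S.W2_symm k l x, S.W2_eq l k x]
    ring
  have e2 : ∀ x, T i k x * pd k (dv S T i) x = ∑ l, (S.W2 x k l * (T i k x * T i l x) +
      (S.Wg l x * pd k (T i l) x - pd l (pd k (T i l)) x) * T i k x) := by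
    intro x
    rw [e1, Finset.mul_sum]
    exact Finset.sum_congr rfl fun l _ => by ring
  simp only [e2]
  have i1 : ∀ l, Integrable (fun x => S.W2 x k l * (T i k x * T i l x)) S.ν := fun l =>
    cci ((W2_cont k l).mul ((hT i k).continuous.mul (hT i l).continuous))
      (((hs i k).mul_right (f' := T i l)).mul_left (f := fun x => S.W2 x k l))
  have i2 : ∀ l, Integrable (fun x => (S.Wg l x * pd k (T i l) x - pd l (pd k (T i l)) x) *
      T i k x) S.ν := fun l =>
    cci ((((Wg_cont l).mul (pd_smooth (hT i l) k).continuous).sub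
      (pd_smooth (pd_smooth (hT i l) k) l).continuous).mul (hT i k).continuous)
      ((hs i k).mul_left (f := fun x => S.Wg l x * pd k (T i l) x - pd l (pd k (T i l)) x))
  have i3 : ∀ l, Integrable (fun x => S.W2 x k l * (T i k x * T i l x) +
      (S.Wg l x * pd k (T i l) x - pd l (pd k (T i l)) x) * T i k x) S.ν := fun l =>
    (i1 l).add (i2 l)
  rw [integral_finsetSum _ fun l _ => i3 l, ← Finset.sum_add_distrib]
  refine Finset.sum_congr rfl fun l _ => ?_
  rw [integral_add (i1 l) (i2 l),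
    ibp2 l ((pd_smooth (hT i l) k).of_le (by norm_cast)) (pd_cs (hs i l) k) (hT1 i k), add_comm]
  congr 1
  exact integral_congr_ae (Filter.Eventually.of_forall fun x => by simp only; ring)

end Crest.Agent.R201.El593
end

-- ▼ part R201/El2_593
section

/-!
# R201 (S0308), level 2, static block: the resolvent field `φ ≈ 2 (1+A)⁻¹ w` is close to `w`
(helper593; identity of helpers 406 / 676)
-/

set_option autoImplicit false
open MeasureTheory Matrix
open scoped ContDiff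

namespace Crest.Agent.R201.El593

open Crest.Agent.R201 Crest.Agent.R201.Tw807

variable {n : ℕ}

/-- a state: `w = D log (dν/dm)`, `V2` the Hessian of the potential of `m` -/
structure St (n : ℕ) extends Sm n where
  V2 : E n → Mt n
  V2_cont : ∀ i j, Continuous fun x => V2 x i j
  V2_symm : ∀ i j x, V2 x i j = V2 x j i
  w : Fin n → E n → ℝ
  w_C1 : ∀ i, ContDiff ℝ 1 (w i)
  w_L2 : ∀ i, MemLp (w i) 2 ν
  H_L2 : ∀ i k, MemLp (pd k (w i)) 2 ν
  H_symm : ∀ i k x, pd k (w i) x = pd i (w k) x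
  W2_V : ∀ k l x, W2 x k l = V2 x k l - pd l (w k) x
  dens : ∀ F : E n → ℝ, MemLp F 2 ν → ∀ δ : ℝ, 0 < δ → ∃ φ : E n → ℝ,
    ContDiff ℝ ∞ φ ∧ HasCompactSupport φ ∧ ∫ x, (φ x + AW toSm φ x - F x) ^ 2 ∂ν ≤ δ

section L2

variable {ν : Measure (E n)} [IsProbabilityMeasure ν]

theorem mcc {f : E n → ℝ} (hc : Continuous f) (hs : HasCompactSupport f) : MemLp f 2 ν := by
  obtain ⟨B, hB⟩ := bdd_of_cc hc hs
  exact MemLp.of_bound hc.aestronglyMeasurable B
    (Filter.Eventually.of_forall fun x => by simpa using hB x)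

omit [IsProbabilityMeasure ν] in
theorem im {f g : E n → ℝ} (hf : MemLp f 2 ν) (hg : MemLp g 2 ν) :
    Integrable (fun x => f x * g x) ν := hf.integrable_mul hg

omit [IsProbabilityMeasure ν] in
theorem isq {f : E n → ℝ} (hf : MemLp f 2 ν) : Integrable (fun x => f x ^ 2) ν := by
  simpa [sq] using im hf hf

omit [IsProbabilityMeasure ν] in
theorem sq_sub_int {f g : E n → ℝ} (hf : MemLp f 2 ν) (hg : MemLp g 2 ν) :
    ∫ x, (f x - g x) ^ 2 ∂ν = ∫ x, f x ^ 2 ∂ν - 2 * ∫ x, f x * g x ∂ν + ∫ x, g x ^ 2 ∂ν := by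
  have e : ∀ x, (f x - g x) ^ 2 = f x ^ 2 - 2 * (f x * g x) + g x ^ 2 := fun x => by ring
  simp only [e]
  have i1 : Integrable (fun x => 2 * (f x * g x)) ν := (im hf hg).const_mul 2
  have i2 : Integrable (fun x => f x ^ 2 - 2 * (f x * g x)) ν := (isq hf).sub i1
  rw [integral_add i2 (isq hg), integral_sub (isq hf) i1, integral_const_mul]

omit [IsProbabilityMeasure ν] in
/-- weighted Cauchy–Schwarz for families -/
theorem cs_fam {ι : Type*} [Fintype ι] {f g : ι → E n → ℝ} (hf : ∀ i, MemLp (f i) 2 ν)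
    (hg : ∀ i, MemLp (g i) 2 ν) :
    |∑ i, ∫ x, f i x * g i x ∂ν| ≤ √(∑ i, ∫ x, f i x ^ 2 ∂ν) * √(∑ i, ∫ x, g i x ^ 2 ∂ν) := by
  set a := ∑ i, ∫ x, f i x ^ 2 ∂ν with ha
  set b := ∑ i, ∫ x, g i x ^ 2 ∂ν with hb
  set c := ∑ i, ∫ x, f i x * g i x ∂ν with hc
  have ha0 : 0 ≤ a := Finset.sum_nonneg fun i _ => integral_nonneg fun x => sq_nonneg _
  have hb0 : 0 ≤ b := Finset.sum_nonneg fun i _ => integral_nonneg fun x => sq_nonneg _
  have key : ∀ s : ℝ, 0 ≤ b * (s * s) + (2 * c) * s + a := by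
    intro s
    have h0 : 0 ≤ ∑ i, ∫ x, (f i x - (-s) * g i x) ^ 2 ∂ν :=
      Finset.sum_nonneg fun i _ => integral_nonneg fun x => sq_nonneg _
    have e : ∀ i, ∫ x, (f i x - (-s) * g i x) ^ 2 ∂ν = ∫ x, f i x ^ 2 ∂ν +
        2 * s * ∫ x, f i x * g i x ∂ν + s ^ 2 * ∫ x, g i x ^ 2 ∂ν := by
      intro i
      rw [sq_sub_int (hf i) ((hg i).const_mul (-s))]
      have e1 : ∀ x, f i x * (-s * g i x) = -s * (f i x * g i x) := fun x => by ring
      have e2 : ∀ x, (-s * g i x) ^ 2 = s ^ 2 * g i x ^ 2 := fun x => by ring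
      simp only [e1, e2, integral_const_mul]
      ring
    simp only [e] at h0
    rw [Finset.sum_add_distrib, Finset.sum_add_distrib, ← Finset.mul_sum, ← Finset.mul_sum,
      ← ha, ← hb, ← hc] at h0
    linarith
  have hd := discrim_le_zero key
  unfold discrim at hd
  have h2 : c ^ 2 ≤ a * b := by nlinarith
  rw [← Real.sqrt_mul ha0]
  exact Real.abs_le_sqrt h2

end L2

variable (S : St n)

instance : IsProbabilityMeasure S.toSm.ν := S.prob

/-- `φ ≈ 2 (1+A)⁻¹ w` is close to `w` in `H¹(ν)` -/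
theorem close {φ : Fin n → E n → ℝ} (hφ : ∀ i, ContDiff ℝ ∞ (φ i))
    (hφs : ∀ i, HasCompactSupport (φ i)) {d κ e : ℝ}
    (he : ∑ i, ∫ x, (φ i x + AW S.toSm (φ i) x - 2 * S.w i x) ^ 2 ∂S.ν ≤ e)
    (hS2 : dsq S.ν S.w ≤ nsq S.ν S.w + d)
    (CH : nsq S.ν φ - dsq S.ν φ ≤ κ + 2 * ∑ i, ∫ x, (S.w i x - φ i x) ^ 2 ∂S.ν) :
    (∑ i, ∑ k, ∫ x, (pd k (S.w i) x - pd k (φ i) x) ^ 2 ∂S.ν) +
      (1 / 2) * ∑ i, ∫ x, (S.w i x - φ i x) ^ 2 ∂S.ν ≤ d + κ + 2 * e := by
  have mw := S.w_L2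
  have mφ : ∀ i, MemLp (φ i) 2 S.ν := fun i => mcc (hφ i).continuous (hφs i)
  have mH := S.H_L2
  have mD : ∀ i k, MemLp (pd k (φ i)) 2 S.ν := fun i k =>
    mcc (pd_smooth (hφ i) k).continuous (pd_cs (hφs i) k)
  have mA : ∀ i, MemLp (AW S.toSm (φ i)) 2 S.ν := fun i =>
    mcc (AW_smooth (hφ i)).continuous (AW_cs (hφs i))
  have me : ∀ i, MemLp (fun x => φ i x + AW S.toSm (φ i) x - 2 * S.w i x) 2 S.ν := fun i =>
    ((mφ i).add (mA i)).sub ((mw i).const_mul 2)
  -- expansions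
  have X : ∀ i, ∑ k, ∫ x, (pd k (S.w i) x - pd k (φ i) x) ^ 2 ∂S.ν =
      (∑ k, ∫ x, pd k (S.w i) x ^ 2 ∂S.ν) - 2 * (∑ k, ∫ x, pd k (φ i) x * pd k (S.w i) x ∂S.ν) +
      ∑ k, ∫ x, pd k (φ i) x ^ 2 ∂S.ν := by
    intro i
    rw [Finset.mul_sum, ← Finset.sum_sub_distrib, ← Finset.sum_add_distrib]
    refine Finset.sum_congr rfl fun k _ => ?_
    rw [sq_sub_int (mH i k) (mD i k)]
    simp only [mul_comm]
  have Y : ∀ i, ∫ x, (S.w i x - φ i x) ^ 2 ∂S.ν = ∫ x, S.w i x ^ 2 ∂S.ν -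
      2 * ∫ x, S.w i x * φ i x ∂S.ν + ∫ x, φ i x ^ 2 ∂S.ν := fun i => sq_sub_int (mw i) (mφ i)
  have bw : ∀ i, ∫ x, AW S.toSm (φ i) x * S.w i x ∂S.ν =
      ∑ k, ∫ x, pd k (φ i) x * pd k (S.w i) x ∂S.ν := fun i => ibp_A (hφ i) (hφs i) (S.w_C1 i)
  have bφ : ∀ i, ∫ x, AW S.toSm (φ i) x * φ i x ∂S.ν = ∑ k, ∫ x, pd k (φ i) x ^ 2 ∂S.ν := by
    intro i
    rw [ibp_A (hφ i) (hφs i) ((hφ i).of_le (by norm_cast))]
    simp only [sq]
  have E1 : ∀ i, ∫ x, (φ i x + AW S.toSm (φ i) x - 2 * S.w i x) * (S.w i x - φ i x) ∂S.ν =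
      3 * (∫ x, S.w i x * φ i x ∂S.ν) + (∑ k, ∫ x, pd k (φ i) x * pd k (S.w i) x ∂S.ν)
      - 2 * (∫ x, S.w i x ^ 2 ∂S.ν) - (∫ x, φ i x ^ 2 ∂S.ν) -
        ∑ k, ∫ x, pd k (φ i) x ^ 2 ∂S.ν := by
    intro i
    rw [← bw, ← bφ]
    have e : ∀ x, (φ i x + AW S.toSm (φ i) x - 2 * S.w i x) * (S.w i x - φ i x) =
        3 * (S.w i x * φ i x) + AW S.toSm (φ i) x * S.w i x - 2 * S.w i x ^ 2 - φ i x ^ 2 -
        AW S.toSm (φ i) x * φ i x := fun x => by ring
    simp only [e]
    have i1 := (im (mw i) (mφ i)).const_mul 3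
    have i2 := im (mA i) (mw i)
    have i3 := (isq (mw i)).const_mul 2
    have i4 := isq (mφ i)
    have i5 := im (mA i) (mφ i)
    have j1 : Integrable (fun x => 3 * (S.w i x * φ i x) + AW S.toSm (φ i) x * S.w i x) S.ν :=
      i1.add i2
    have j2 : Integrable (fun x => 3 * (S.w i x * φ i x) + AW S.toSm (φ i) x * S.w i x -
        2 * S.w i x ^ 2) S.ν := j1.sub i3
    have j3 : Integrable (fun x => 3 * (S.w i x * φ i x) + AW S.toSm (φ i) x * S.w i x -
        2 * S.w i x ^ 2 - φ i x ^ 2) S.ν := j2.sub i4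
    rw [integral_sub j3 i5, integral_sub j2 i4, integral_sub j1 i3, integral_add i1 i2,
      integral_const_mul, integral_const_mul]
  set y := ∑ i, ∫ x, (S.w i x - φ i x) ^ 2 ∂S.ν with hy
  set ee := ∑ i, ∫ x, (φ i x + AW S.toSm (φ i) x - 2 * S.w i x) ^ 2 ∂S.ν with hee
  have hcs := cs_fam (ν := S.ν) me (fun i => (mw i).sub (mφ i))
  simp only [Pi.sub_apply] at hcs
  have hy0 : 0 ≤ y := Finset.sum_nonneg fun i _ => integral_nonneg fun x => sq_nonneg _
  have hee0 : 0 ≤ ee := Finset.sum_nonneg fun i _ => integral_nonneg fun x => sq_nonneg _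
  have h1 : -(2 * ∑ i, ∫ x, (φ i x + AW S.toSm (φ i) x - 2 * S.w i x) * (S.w i x - φ i x) ∂S.ν)
      ≤ y / 2 + 2 * ee := by
    have h2 := (neg_le_abs _).trans hcs
    have h3 := Real.sq_sqrt hy0
    have h4 := Real.sq_sqrt hee0
    nlinarith [sq_nonneg (√y - 2 * √ee)]
  simp only [E1] at h1
  have hX : ∑ i, ∑ k, ∫ x, (pd k (S.w i) x - pd k (φ i) x) ^ 2 ∂S.ν =
      dsq S.ν S.w - 2 * (∑ i, ∑ k, ∫ x, pd k (φ i) x * pd k (S.w i) x ∂S.ν) + dsq S.ν φ := by
    simp only [X]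
    rw [Finset.sum_add_distrib, Finset.sum_sub_distrib, ← Finset.mul_sum]
    rfl
  have hY : y = nsq S.ν S.w - 2 * (∑ i, ∫ x, S.w i x * φ i x ∂S.ν) + nsq S.ν φ := by
    rw [hy]
    simp only [Y]
    rw [Finset.sum_add_distrib, Finset.sum_sub_distrib, ← Finset.mul_sum]
    rfl
  have hE : ∑ i, (3 * (∫ x, S.w i x * φ i x ∂S.ν) +
      (∑ k, ∫ x, pd k (φ i) x * pd k (S.w i) x ∂S.ν)
      - 2 * (∫ x, S.w i x ^ 2 ∂S.ν) - (∫ x, φ i x ^ 2 ∂S.ν) -
        ∑ k, ∫ x, pd k (φ i) x ^ 2 ∂S.ν) =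
      3 * (∑ i, ∫ x, S.w i x * φ i x ∂S.ν) +
      (∑ i, ∑ k, ∫ x, pd k (φ i) x * pd k (S.w i) x ∂S.ν) - 2 * nsq S.ν S.w - nsq S.ν φ -
      dsq S.ν φ := by
    rw [Finset.sum_sub_distrib, Finset.sum_sub_distrib, Finset.sum_sub_distrib,
      Finset.sum_add_distrib, ← Finset.mul_sum, ← Finset.mul_sum]
    rfl
  rw [hE] at h1
  rw [hX]
  linarith

/-- existence of `φ` -/
theorem exists_phi {e : ℝ} (he : 0 < e) : ∃ φ : Fin n → E n → ℝ, (∀ i, ContDiff ℝ ∞ (φ i)) ∧
    (∀ i, HasCompactSupport (φ i)) ∧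
    ∑ i, ∫ x, (φ i x + AW S.toSm (φ i) x - 2 * S.w i x) ^ 2 ∂S.ν ≤ e := by
  have h : ∀ i, ∃ φ : E n → ℝ, ContDiff ℝ ∞ φ ∧ HasCompactSupport φ ∧
      ∫ x, (φ x + AW S.toSm φ x - 2 * S.w i x) ^ 2 ∂S.ν ≤ e / (n + 1) := fun i =>
    S.dens (fun x => 2 * S.w i x) ((S.w_L2 i).const_mul 2) _ (by positivity)
  choose φ h1 h2 h3 using h
  refine ⟨φ, h1, h2, (Finset.sum_le_sum fun i _ => h3 i).trans ?_⟩
  rw [Finset.sum_const, Finset.card_univ, Fintype.card_fin, nsmul_eq_mul, mul_div_assoc',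
    div_le_iff₀ (by positivity)]
  nlinarith

end Crest.Agent.R201.El593
end

-- ▼ part R201/El3_593
section

/-!
# R201 (S0308), level 2, static block: second moment of the divergence of a `C¹_c` matrix field
(helper593)
-/

set_option autoImplicit false
open MeasureTheory Matrix Filter Topology Metric
open scoped ContDiff

namespace Crest.Agent.R201.El593

open Crest.Agent.R201 Crest.Agent.R201.Tw807 Crest.Agent.R201.An

variable {n : ℕ} {η θ : E n → ℝ} {ε : ℝ}

lemma cv_bd (M : Mol η ε) {B : ℝ} (hB : ∀ x, |θ x| ≤ B) (x : E n) : |cv η θ x| ≤ B := by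
  have hB0 : 0 ≤ B := (abs_nonneg _).trans (hB 0)
  have h1 : ∀ y, ‖η (x - y) * θ y‖ ≤ B * η (x - y) := fun y => by
    rw [Real.norm_eq_abs, abs_mul, abs_of_nonneg (M.nonneg _), mul_comm]
    exact mul_le_mul_of_nonneg_right (hB y) (M.nonneg _)
  have h2 := norm_integral_le_of_norm_le ((M.int_eta_at x).const_mul B)
    (Eventually.of_forall h1)
  rw [integral_const_mul, M.int_one_at, mul_one] at h2
  exact h2

lemma cv_near (M : Mol η ε) (hθ : Integrable θ) {δ : ℝ} {x : E n}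
    (h : ∀ y, ‖x - y‖ < ε → |θ y - θ x| ≤ δ) : |cv η θ x - θ x| ≤ δ := by
  have e : cv η θ x - θ x = ∫ y, η (x - y) * (θ y - θ x) := by
    have e1 : ∀ y, η (x - y) * (θ y - θ x) = η (x - y) * θ y - θ x * η (x - y) := fun y => by ring
    simp only [e1]
    rw [integral_sub (M.int_at hθ x) ((M.int_eta_at x).const_mul _), integral_const_mul,
      M.int_one_at, mul_one]
    rfl
  rw [e]
  have h1 : ∀ y, ‖η (x - y) * (θ y - θ x)‖ ≤ δ * η (x - y) := fun y => by
    rw [Real.norm_eq_abs, abs_mul, abs_of_nonneg (M.nonneg _), mul_comm]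
    rcases lt_or_ge ‖x - y‖ ε with h2 | h2
    · exact mul_le_mul_of_nonneg_right (h y h2) (M.nonneg _)
    · rw [M.supp _ h2]; simp
  have h2 := norm_integral_le_of_norm_le ((M.int_eta_at x).const_mul δ)
    (Eventually.of_forall h1)
  rw [integral_const_mul, M.int_one_at, mul_one] at h2
  exact h2

lemma cv_zero (M : Mol η ε) {R : ℝ} (h : ∀ y, R ≤ ‖y‖ → θ y = 0) {x : E n}
    (hx : R + ε ≤ ‖x‖) : cv η θ x = 0 := by
  unfold cv
  have : ∀ y, η (x - y) * θ y = 0 := fun y => by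
    rcases lt_or_ge ‖x - y‖ ε with h2 | h2
    · have h3 : ‖x‖ ≤ ‖x - y‖ + ‖y‖ := by simpa using norm_add_le (x - y) y
      rw [h y (by linarith), mul_zero]
    · rw [M.supp _ h2, zero_mul]
  simp [this]

/-- bump of radius `1/(m+1)` -/
noncomputable def bm (n m : ℕ) : ContDiffBump (0 : E n) :=
  ⟨1 / (2 * (m + 1 : ℝ)), 1 / (m + 1 : ℝ), by positivity, by
    apply one_div_lt_one_div_of_lt <;> [positivity; skip]
    have : (0 : ℝ) < m + 1 := by positivity
    linarith⟩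

noncomputable def et (n m : ℕ) : E n → ℝ := (bm n m).normed volume

lemma et_mol (n m : ℕ) : Mol (et n m) (1 / (m + 1 : ℝ)) := mol_of_bump (bm n m)

lemma cv_tendsto (hθ : Continuous θ) (hs : HasCompactSupport θ) (x : E n) :
    Tendsto (fun m => cv (et n m) θ x) atTop (𝓝 (θ x)) := by
  rw [Metric.tendsto_atTop]
  intro δ hδ
  obtain ⟨r, hr, h⟩ := Metric.continuousAt_iff.1 hθ.continuousAt (δ / 2) (half_pos hδ)
  obtain ⟨N, hN⟩ := exists_nat_one_div_lt hr
  refine ⟨N, fun m hm => ?_⟩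
  rw [Real.dist_eq]
  refine lt_of_le_of_lt (cv_near (et_mol n m) (hθ.integrable_of_hasCompactSupport hs)
    fun y hy => ?_) (half_lt_self hδ)
  have h1 : (1 : ℝ) / (m + 1) ≤ 1 / (N + 1) := by
    apply one_div_le_one_div_of_le (by positivity)
    have : (N : ℝ) ≤ m := by exact_mod_cast hm
    linarith
  have h2 : dist y x < r := by
    rw [dist_comm, dist_eq_norm]
    linarith
  have h3 := h h2
  rw [Real.dist_eq] at h3
  exact h3.le

lemma zero_out {f : E n → ℝ} (hs : HasCompactSupport f) : ∃ R : ℝ, ∀ x, R ≤ ‖x‖ → f x = 0 := by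
  obtain ⟨R, hR⟩ := hs.isCompact.isBounded.subset_closedBall (0 : E n)
  refine ⟨R + 1, fun x hx => ?_⟩
  by_contra h
  have h1 : x ∈ tsupport f := subset_tsupport f h
  have h2 := hR h1
  rw [mem_closedBall_zero_iff] at h2
  linarith

variable (S : Sm n)

/-- the integrand -/
noncomputable def GG (p : E n × (Fin n → Fin n → ℝ) × (Fin n → Fin n → Fin n → ℝ)) : ℝ :=
  (∑ i, (∑ k, (S.Wg k p.1 * p.2.1 i k - p.2.2 i k k)) ^ 2) - (∑ i, ∑ k, ∑ l, p.2.2 i k l ^ 2) -
    ∑ i, ∑ k, ∑ l, S.W2 p.1 k l * (p.2.1 i k * p.2.1 i l)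

lemma GG_cont : Continuous (GG S) := by
  have h1 : ∀ k, Continuous fun p : E n × (Fin n → Fin n → ℝ) × (Fin n → Fin n → Fin n → ℝ) =>
      S.Wg k p.1 := fun k => (Wg_cont k).comp continuous_fst
  have h2 : ∀ k l, Continuous fun p : E n × (Fin n → Fin n → ℝ) × (Fin n → Fin n → Fin n → ℝ) =>
      S.W2 p.1 k l := fun k l => (W2_cont k l).comp continuous_fst
  have h3 : ∀ i k, Continuous fun p : E n × (Fin n → Fin n → ℝ) × (Fin n → Fin n → Fin n → ℝ) =>
      p.2.1 i k := fun i k => by fun_prop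
  have h4 : ∀ i k l, Continuous fun p : E n × (Fin n → Fin n → ℝ) ×
      (Fin n → Fin n → Fin n → ℝ) => p.2.2 i k l := fun i k l => by fun_prop
  unfold GG
  refine ((continuous_finsetSum _ fun i _ => (continuous_finsetSum _ fun k _ =>
    ((h1 k).mul (h3 i k)).sub (h4 i k k)).pow 2).sub
    (continuous_finsetSum _ fun i _ => continuous_finsetSum _ fun k _ =>
      continuous_finsetSum _ fun l _ => (h4 i k l).pow 2)).sub
    (continuous_finsetSum _ fun i _ => continuous_finsetSum _ fun k _ =>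
      continuous_finsetSum _ fun l _ => (h2 k l).mul ((h3 i k).mul (h3 i l)))

variable {S}

lemma GG_eq (T : Fin n → Fin n → E n → ℝ) (hT : ∀ i k, ContDiff ℝ 1 (T i k))
    (hs : ∀ i k, HasCompactSupport (T i k)) :
    ∫ x, GG S (x, (fun i k => T i k x), fun i k l => pd l (T i k) x) ∂S.ν =
      (∑ i, ∫ x, dv S T i x ^ 2 ∂S.ν) - (∑ i, ∑ k, ∑ l, ∫ x, pd l (T i k) x ^ 2 ∂S.ν) -
      ∑ i, ∑ k, ∑ l, ∫ x, S.W2 x k l * (T i k x * T i l x) ∂S.ν := by
  have i1 : ∀ i, Integrable (fun x => dv S T i x ^ 2) S.ν := fun i =>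
    isq (mcc (dv_cont hT i) (dv_cs hs i))
  have i2 : ∀ i k l, Integrable (fun x => pd l (T i k) x ^ 2) S.ν := fun i k l =>
    isq (mcc (pd_cont (hT i k) l) (pd_cs (hs i k) l))
  have i3 : ∀ i k l, Integrable (fun x => S.W2 x k l * (T i k x * T i l x)) S.ν := fun i k l =>
    cci ((W2_cont k l).mul ((hT i k).continuous.mul (hT i l).continuous))
      (((hs i k).mul_right (f' := T i l)).mul_left (f := fun x => S.W2 x k l))
  have j1 : Integrable (fun x => ∑ i, dv S T i x ^ 2) S.ν := integrable_finsetSum _ fun i _ => i1 i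
  have j2 : Integrable (fun x => ∑ i, ∑ k, ∑ l, pd l (T i k) x ^ 2) S.ν :=
    integrable_finsetSum _ fun i _ => integrable_finsetSum _ fun k _ =>
      integrable_finsetSum _ fun l _ => i2 i k l
  have j3 : Integrable (fun x => ∑ i, ∑ k, ∑ l, S.W2 x k l * (T i k x * T i l x)) S.ν :=
    integrable_finsetSum _ fun i _ => integrable_finsetSum _ fun k _ =>
      integrable_finsetSum _ fun l _ => i3 i k l
  have j4 : Integrable (fun x => (∑ i, dv S T i x ^ 2) - ∑ i, ∑ k, ∑ l, pd l (T i k) x ^ 2) S.ν :=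
    j1.sub j2
  have e : ∀ x, GG S (x, (fun i k => T i k x), fun i k l => pd l (T i k) x) =
      (∑ i, dv S T i x ^ 2) - (∑ i, ∑ k, ∑ l, pd l (T i k) x ^ 2) -
      ∑ i, ∑ k, ∑ l, S.W2 x k l * (T i k x * T i l x) := fun x => rfl
  simp only [e]
  rw [integral_sub j4 j3, integral_sub j1 j2, integral_finsetSum _ fun i _ => i1 i,
    integral_finsetSum _ fun i _ => integrable_finsetSum _ fun k _ =>
      integrable_finsetSum _ fun l _ => i2 i k l,
    integral_finsetSum _ fun i _ => integrable_finsetSum _ fun k _ =>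
      integrable_finsetSum _ fun l _ => i3 i k l]
  congr 1
  · congr 1
    refine Finset.sum_congr rfl fun i _ => ?_
    rw [integral_finsetSum _ fun k _ => integrable_finsetSum _ fun l _ => i2 i k l]
    exact Finset.sum_congr rfl fun k _ => integral_finsetSum _ fun l _ => i2 i k l
  · refine Finset.sum_congr rfl fun i _ => ?_
    rw [integral_finsetSum _ fun k _ => integrable_finsetSum _ fun l _ => i3 i k l]
    exact Finset.sum_congr rfl fun k _ => integral_finsetSum _ fun l _ => i3 i k l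

/-- smooth case -/
lemma GG_smooth (T : Fin n → Fin n → E n → ℝ) (hT : ∀ i k, ContDiff ℝ ∞ (T i k))
    (hs : ∀ i k, HasCompactSupport (T i k)) :
    ∫ x, GG S (x, (fun i k => T i k x), fun i k l => pd l (T i k) x) ∂S.ν ≤ 0 := by
  have hT1 : ∀ i k, ContDiff ℝ 1 (T i k) := fun i k => (hT i k).of_le (by norm_cast)
  rw [GG_eq T hT1 hs]
  have i2 : ∀ i k l, Integrable (fun x => pd l (T i k) x ^ 2) S.ν := fun i k l =>
    isq (mcc (pd_cont (hT1 i k) l) (pd_cs (hs i k) l))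
  have h1 : ∀ i, ∑ k, ∑ l, ∫ x, pd l (T i k) x * pd k (T i l) x ∂S.ν ≤
      ∑ k, ∑ l, ∫ x, pd l (T i k) x ^ 2 ∂S.ν := by
    intro i
    have h2 : ∀ k l, ∫ x, pd l (T i k) x * pd k (T i l) x ∂S.ν ≤
        (1 / 2) * (∫ x, pd l (T i k) x ^ 2 ∂S.ν) + (1 / 2) * ∫ x, pd k (T i l) x ^ 2 ∂S.ν := by
      intro k l
      have j1 : Integrable (fun x => pd l (T i k) x * pd k (T i l) x) S.ν :=
        cci (S := S) ((pd_cont (hT1 i k) l).mul (pd_cont (hT1 i l) k))
          ((pd_cs (hs i l) k).mul_left (f := pd l (T i k)))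
      have j2 : Integrable (fun x => (1 / 2) * pd l (T i k) x ^ 2) S.ν := (i2 i k l).const_mul _
      have j3 : Integrable (fun x => (1 / 2) * pd k (T i l) x ^ 2) S.ν := (i2 i l k).const_mul _
      rw [← integral_const_mul, ← integral_const_mul, ← integral_add j2 j3]
      refine integral_mono j1 (j2.add j3) fun x => ?_
      have := sq_nonneg (pd l (T i k) x - pd k (T i l) x)
      nlinarith
    refine (Finset.sum_le_sum fun k _ => Finset.sum_le_sum fun l _ => h2 k l).trans (le_of_eq ?_)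
    simp only [Finset.sum_add_distrib, ← Finset.mul_sum]
    rw [Finset.sum_comm (f := fun k l => ∫ x, pd k (T i l) x ^ 2 ∂S.ν)]
    ring
  have h3 := Finset.sum_le_sum (s := Finset.univ) fun i _ => h1 i
  have h4 : ∑ i, ∫ x, dv S T i x ^ 2 ∂S.ν = (∑ i, ∑ k, ∑ l, ∫ x, pd l (T i k) x *
      pd k (T i l) x ∂S.ν) + ∑ i, ∑ k, ∑ l, ∫ x, S.W2 x k l * (T i k x * T i l x) ∂S.ν := by
    rw [← Finset.sum_add_distrib]
    exact Finset.sum_congr rfl fun i _ => dv_sq hT hs i
  linarith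

/-- second moment of the divergence of a `C¹_c` matrix field -/
theorem dv_sq_le {T : Fin n → Fin n → E n → ℝ} (hT : ∀ i k, ContDiff ℝ 1 (T i k))
    (hs : ∀ i k, HasCompactSupport (T i k)) :
    ∑ i, ∫ x, dv S T i x ^ 2 ∂S.ν ≤ (∑ i, ∑ k, ∑ l, ∫ x, pd l (T i k) x ^ 2 ∂S.ν) +
      ∑ i, ∑ k, ∑ l, ∫ x, S.W2 x k l * (T i k x * T i l x) ∂S.ν := by
  have h0 := GG_eq (S := S) T hT hs
  suffices h : ∫ x, GG S (x, (fun i k => T i k x), fun i k l => pd l (T i k) x) ∂S.ν ≤ 0 by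
    linarith
  set Tm : ℕ → Fin n → Fin n → E n → ℝ := fun m i k => cv (et n m) (T i k) with hTm
  have sm : ∀ m i k, ContDiff ℝ ∞ (Tm m i k) := fun m i k =>
    (et_mol n m).cv_smooth' (hT i k).continuous (hs i k)
  have cm : ∀ m i k, HasCompactSupport (Tm m i k) := fun m i k => (et_mol n m).cv_cs (hs i k)
  have pm : ∀ m i k l, pd l (Tm m i k) = cv (et n m) (pd l (T i k)) := fun m i k l =>
    (et_mol n m).pd_cv (hT i k) (hs i k) l
  have hneg := fun m => GG_smooth (S := S) (Tm m) (sm m) (cm m)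
  -- bounds
  have hR : ∀ i k, ∃ R : ℝ, ∀ x, R ≤ ‖x‖ → T i k x = 0 := fun i k => zero_out (hs i k)
  choose R0 hR0 using hR
  set R := ∑ i, ∑ k, |R0 i k| with hRdef
  have hRR : ∀ i k x, R ≤ ‖x‖ → T i k x = 0 := fun i k x hx => hR0 i k x <| by
    have h1 : |R0 i k| ≤ ∑ k, |R0 i k| :=
      Finset.single_le_sum (f := fun k => |R0 i k|) (fun _ _ => abs_nonneg _) (Finset.mem_univ k)
    have h2 : ∑ k, |R0 i k| ≤ R :=
      Finset.single_le_sum (f := fun i => ∑ k, |R0 i k|)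
        (fun _ _ => Finset.sum_nonneg fun _ _ => abs_nonneg _) (Finset.mem_univ i)
    exact (le_abs_self _).trans (h1.trans (h2.trans hx))
  have hRp : ∀ i k l x, R + 1 ≤ ‖x‖ → pd l (T i k) x = 0 := by
    intro i k l x hx
    have h1 : (T i k) =ᶠ[𝓝 x] fun _ => 0 := by
      have h2 : ∀ᶠ y in 𝓝 x, R < ‖y‖ :=
        continuous_norm.continuousAt.eventually (lt_mem_nhds (by linarith))
      filter_upwards [h2] with y hy
      exact hRR i k y hy.le
    unfold pd
    rw [h1.fderiv_eq]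
    simp
  have hB1 : ∀ i k, ∃ B : ℝ, ∀ x, |T i k x| ≤ B := fun i k => bdd_of_cc (hT i k).continuous (hs i k)
  have hB2 : ∀ i k l, ∃ B : ℝ, ∀ x, |pd l (T i k) x| ≤ B := fun i k l =>
    bdd_of_cc (pd_cont (hT i k) l) (pd_cs (hs i k) l)
  choose B1 hB1 using hB1
  choose B2 hB2 using hB2
  set C1 := ∑ i, ∑ k, |B1 i k| with hC1
  set C2 := ∑ i, ∑ k, ∑ l, |B2 i k l| with hC2
  have hC1' : ∀ i k, |B1 i k| ≤ C1 := fun i k =>
    (Finset.single_le_sum (f := fun k => |B1 i k|) (fun _ _ => abs_nonneg _)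
      (Finset.mem_univ k)).trans
    (Finset.single_le_sum (f := fun i => ∑ k, |B1 i k|)
        (fun _ _ => Finset.sum_nonneg fun _ _ => abs_nonneg _) (Finset.mem_univ i))
  have hC2' : ∀ i k l, |B2 i k l| ≤ C2 := fun i k l =>
    ((Finset.single_le_sum (f := fun l => |B2 i k l|) (fun _ _ => abs_nonneg _)
      (Finset.mem_univ l)).trans
    (Finset.single_le_sum (f := fun k => ∑ l, |B2 i k l|)
        (fun _ _ => Finset.sum_nonneg fun _ _ => abs_nonneg _) (Finset.mem_univ k))).trans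
    (Finset.single_le_sum (f := fun i => ∑ k, ∑ l, |B2 i k l|)
        (fun _ _ => Finset.sum_nonneg fun _ _ => Finset.sum_nonneg fun _ _ => abs_nonneg _)
        (Finset.mem_univ i))
  have hC1n : 0 ≤ C1 := Finset.sum_nonneg fun _ _ => Finset.sum_nonneg fun _ _ => abs_nonneg _
  have hC2n : 0 ≤ C2 := Finset.sum_nonneg fun _ _ => Finset.sum_nonneg fun _ _ =>
    Finset.sum_nonneg fun _ _ => abs_nonneg _
  -- compact set
  set K : Set (E n × (Fin n → Fin n → ℝ) × (Fin n → Fin n → Fin n → ℝ)) :=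
    closedBall 0 (R + 2) ×ˢ (closedBall 0 C1 ×ˢ closedBall 0 C2) with hK
  have cK : IsCompact K := (isCompact_closedBall _ _).prod
    ((isCompact_closedBall _ _).prod (isCompact_closedBall _ _))
  obtain ⟨C, hC⟩ := cK.exists_bound_of_continuousOn (GG_cont S).continuousOn
  have memK : ∀ m x, ‖x‖ ≤ R + 2 →
      (x, (fun i k => Tm m i k x), fun i k l => pd l (Tm m i k) x) ∈ K := by
    intro m x hx
    refine ⟨mem_closedBall_zero_iff.2 hx, mem_closedBall_zero_iff.2 ?_,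
      mem_closedBall_zero_iff.2 ?_⟩
    · refine (pi_norm_le_iff_of_nonneg hC1n).2 fun i => (pi_norm_le_iff_of_nonneg hC1n).2 fun k => ?_
      rw [Real.norm_eq_abs]
      exact cv_bd (et_mol n m) (fun y => (hB1 i k y).trans ((le_abs_self _).trans (hC1' i k))) x
    · refine (pi_norm_le_iff_of_nonneg hC2n).2 fun i => (pi_norm_le_iff_of_nonneg hC2n).2 fun k =>
        (pi_norm_le_iff_of_nonneg hC2n).2 fun l => ?_
      rw [Real.norm_eq_abs]
      change |pd l (Tm m i k) x| ≤ C2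
      rw [pm]
      exact cv_bd (et_mol n m) (fun y => (hB2 i k l y).trans ((le_abs_self _).trans (hC2' i k l))) x
  have hout : ∀ m x, R + 2 < ‖x‖ →
      GG S (x, (fun i k => Tm m i k x), fun i k l => pd l (Tm m i k) x) = 0 := by
    intro m x hx
    have hm : (1 : ℝ) / (m + 1) ≤ 1 := by
      rw [div_le_one (by positivity)]
      have : (0 : ℝ) ≤ m := Nat.cast_nonneg m
      linarith
    have h1 : ∀ i k, Tm m i k x = 0 := fun i k =>
      cv_zero (et_mol n m) (hRR i k) (by linarith)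
    have h2 : ∀ i k l, pd l (Tm m i k) x = 0 := fun i k l => by
      rw [pm]
      exact cv_zero (et_mol n m) (hRp i k l) (by linarith)
    unfold GG
    simp [h1, h2]
  have hC0 : 0 ≤ |C| := abs_nonneg _
  have hlim : Tendsto (fun m => ∫ x, GG S (x, (fun i k => Tm m i k x),
      fun i k l => pd l (Tm m i k) x) ∂S.ν) atTop
      (𝓝 (∫ x, GG S (x, (fun i k => T i k x), fun i k l => pd l (T i k) x) ∂S.ν)) := by
    refine tendsto_integral_of_dominated_convergence (fun _ => |C|) (fun m => ?_)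
      (integrable_const _) (fun m => Eventually.of_forall fun x => ?_)
      (Eventually.of_forall fun x => ?_)
    · refine Continuous.aestronglyMeasurable ((GG_cont S).comp (continuous_id.prodMk
        (Continuous.prodMk (continuous_pi fun i => continuous_pi fun k => (sm m i k).continuous)
        (continuous_pi fun i => continuous_pi fun k => continuous_pi fun l =>
          (pd_smooth (sm m i k) l).continuous))))
    · rcases le_or_gt ‖x‖ (R + 2) with hx | hx
      · exact (hC _ (memK m x hx)).trans (le_abs_self _)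
      · rw [hout m x hx]; simp
    · refine ((GG_cont S).tendsto _).comp (tendsto_const_nhds.prodMk_nhds
        (Tendsto.prodMk_nhds ?_ ?_))
      · exact tendsto_pi_nhds.2 fun i => tendsto_pi_nhds.2 fun k =>
          cv_tendsto (hT i k).continuous (hs i k) x
      · refine tendsto_pi_nhds.2 fun i => tendsto_pi_nhds.2 fun k => tendsto_pi_nhds.2 fun l => ?_
        simp only [pm]
        exact cv_tendsto (pd_cont (hT i k) l) (pd_cs (hs i k) l) x
  exact le_of_tendsto hlim (Eventually.of_forall hneg)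

end Crest.Agent.R201.El593
end

-- ▼ part R201/El4_593

/-!
# R201 (S0308), level 2, static block: the level-2 inequality for a clipped field (helper593)

`M_ik = D_k φ_i`, `T` a `C¹_c` (non-symmetric) matrix field, a "clip" of `M`.
-/

set_option autoImplicit false
open MeasureTheory Matrix
open scoped ContDiff

namespace Crest.Agent.R201.El593

open Crest.Agent.R201 Crest.Agent.R201.Tw807

variable {n : ℕ} (S : St n)

/-- `E ⟨DT, DM⟩` -/
noncomputable def XX (φ : Fin n → E n → ℝ) (T : Fin n → Fin n → E n → ℝ) : ℝ :=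
  ∑ i, ∑ k, ∑ l, ∫ x, pd l (T i k) x * pd l (pd k (φ i)) x ∂S.ν

/-- `E tr (V'' Mᵀ T)` -/
noncomputable def YY (φ : Fin n → E n → ℝ) (T : Fin n → Fin n → E n → ℝ) : ℝ :=
  ∑ i, ∑ k, ∑ l, ∫ x, S.V2 x k l * (T i k x * pd l (φ i) x) ∂S.ν

/-- `E ⟨T, M⟩` -/
noncomputable def TM (φ : Fin n → E n → ℝ) (T : Fin n → Fin n → E n → ℝ) : ℝ :=
  ∑ i, ∑ k, ∫ x, T i k x * pd k (φ i) x ∂S.ν

/-- `E |T|²` -/
noncomputable def tt (T : Fin n → Fin n → E n → ℝ) : ℝ := ∑ i, ∑ k, ∫ x, T i k x ^ 2 ∂S.ν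

/-- `E |Aφ - φ|²` -/
noncomputable def r2 (φ : Fin n → E n → ℝ) : ℝ :=
  ∑ i, ∫ x, (AW S.toSm (φ i) x - φ i x) ^ 2 ∂S.ν

variable {S}

theorem pdw_cont (k l : Fin n) : Continuous (pd l (S.w k)) := pd_cont (S.w_C1 k) l

section

variable {φ : Fin n → E n → ℝ} {T : Fin n → Fin n → E n → ℝ} {e1 : ℝ}

/-- `E ⟨T H, G⟩ ≤ e1 |H| |G|` for a bounded matrix field `T` -/
theorem op_bound (hT : ∀ i k, ContDiff ℝ 1 (T i k)) (hs : ∀ i k, HasCompactSupport (T i k))
    (he1 : 0 ≤ e1)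
    (ha : ∀ x (u : Fin n → ℝ), ∑ i, (∑ k, T i k x * u k) ^ 2 ≤ e1 ^ 2 * ∑ k, u k ^ 2)
    {G : Fin n → Fin n → E n → ℝ} (hG : ∀ i k, Continuous (G i k))
    (hGs : ∀ i k, HasCompactSupport (G i k)) :
    |∑ i, ∑ k, ∑ l, ∫ x, pd l (S.w k) x * (T i k x * G i l x) ∂S.ν| ≤
      e1 * √(dsq S.ν S.w) * √(∑ i, ∑ l, ∫ x, G i l x ^ 2 ∂S.ν) := by
  have cT : ∀ i l, Continuous fun x => ∑ k, T i k x * pd l (S.w k) x := fun i l =>
    continuous_finsetSum _ fun k _ => (hT i k).continuous.mul (pdw_cont k l)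
  have sT : ∀ i l, HasCompactSupport fun x => ∑ k, T i k x * pd l (S.w k) x := fun i l =>
    cs_sum _ fun k _ => (hs i k).mul_right (f' := pd l (S.w k))
  have mT : ∀ i l, MemLp (fun x => ∑ k, T i k x * pd l (S.w k) x) 2 S.ν := fun i l =>
    mcc (cT i l) (sT i l)
  have mG : ∀ i l, MemLp (G i l) 2 S.ν := fun i l => mcc (hG i l) (hGs i l)
  have e0 : ∑ i, ∑ k, ∑ l, ∫ x, pd l (S.w k) x * (T i k x * G i l x) ∂S.ν =
      ∑ p : Fin n × Fin n, ∫ x, (∑ k, T p.1 k x * pd p.2 (S.w k) x) * G p.1 p.2 x ∂S.ν := by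
    rw [Fintype.sum_prod_type]
    refine Finset.sum_congr rfl fun i _ => ?_
    rw [Finset.sum_comm]
    refine Finset.sum_congr rfl fun l _ => ?_
    simp only [Finset.sum_mul]
    rw [integral_finsetSum]
    · exact Finset.sum_congr rfl fun k _ => integral_congr_ae (Filter.Eventually.of_forall fun x =>
        by simp only; ring)
    · intro k _
      exact cci (((hT i k).continuous.mul (pdw_cont k l)).mul (hG i l))
        ((hGs i l).mul_left (f := fun x => T i k x * pd l (S.w k) x))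
  rw [e0]
  refine (cs_fam (ν := S.ν) (ι := Fin n × Fin n)
    (f := fun p x => ∑ k, T p.1 k x * pd p.2 (S.w k) x) (g := fun p => G p.1 p.2)
    (fun p => mT p.1 p.2) (fun p => mG p.1 p.2)).trans ?_
  rw [Fintype.sum_prod_type, Fintype.sum_prod_type]
  refine mul_le_mul_of_nonneg_right ?_ (Real.sqrt_nonneg _)
  rw [show e1 * √(dsq S.ν S.w) = √(e1 ^ 2 * dsq S.ν S.w) by
    rw [Real.sqrt_mul (sq_nonneg _), Real.sqrt_sq he1]]
  apply Real.sqrt_le_sqrt
  -- `∑_il ∫ (∑_k T_ik H_kl)² ≤ e1² ∑_kl ∫ H_kl²`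
  have h1 : ∀ l, ∑ i, ∫ x, (∑ k, T i k x * pd l (S.w k) x) ^ 2 ∂S.ν ≤
      e1 ^ 2 * ∑ k, ∫ x, pd l (S.w k) x ^ 2 ∂S.ν := by
    intro l
    rw [← integral_finsetSum _ fun i _ => isq (mT i l),
      ← integral_finsetSum _ fun k _ => isq (S.H_L2 k l), ← integral_const_mul]
    exact integral_mono (integrable_finsetSum _ fun i _ => isq (mT i l))
      ((integrable_finsetSum _ fun k _ => isq (S.H_L2 k l)).const_mul _)
      fun x => ha x fun k => pd l (S.w k) x
  have h2 := Finset.sum_le_sum (s := (Finset.univ : Finset (Fin n))) fun l _ => h1 l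
  rw [← Finset.mul_sum] at h2
  rw [Finset.sum_comm]
  refine h2.trans (le_of_eq ?_)
  unfold dsq
  rw [Finset.sum_comm]

/-- **the level-2 inequality** -/
theorem lev2 (hφ : ∀ i, ContDiff ℝ ∞ (φ i)) (hφs : ∀ i, HasCompactSupport (φ i))
    (hT : ∀ i k, ContDiff ℝ 1 (T i k)) (hs : ∀ i k, HasCompactSupport (T i k))
    (he1 : 0 ≤ e1) {t : ℝ} (ht : 0 < t)
    (ha : ∀ x (u : Fin n → ℝ), ∑ i, (∑ k, T i k x * u k) ^ 2 ≤ e1 ^ 2 * ∑ k, u k ^ 2)
    (hb : ∀ x, ∑ i, ∑ k, ∑ l, pd l (T i k) x ^ 2 ≤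
      ∑ i, ∑ k, ∑ l, pd l (T i k) x * pd l (pd k (φ i)) x)
    (hc : ∀ x, ∑ i, ∑ k, ∑ l, S.V2 x k l * (T i k x * T i l x) ≤
      ∑ i, ∑ k, ∑ l, S.V2 x k l * (T i k x * pd l (φ i) x))
    (hd : ∀ x, ∑ i, ∑ k, T i k x ^ 2 ≤ ∑ i, ∑ k, T i k x * pd k (φ i) x) :
    (1 - t / 2) * (XX S φ T + YY S φ T) ≤
      TM S φ T + (1 + t / 2) * (e1 * √(dsq S.ν S.w) * √(dsq S.ν φ)) + r2 S φ / (2 * t) := by
  have cM : ∀ i k, Continuous (pd k (φ i)) := fun i k => (pd_smooth (hφ i) k).continuous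
  have sM : ∀ i k, HasCompactSupport (pd k (φ i)) := fun i k => pd_cs (hφs i) k
  have cT : ∀ i k, Continuous (T i k) := fun i k => (hT i k).continuous
  have mT : ∀ i k, MemLp (T i k) 2 S.ν := fun i k => mcc (cT i k) (hs i k)
  have mM : ∀ i k, MemLp (pd k (φ i)) 2 S.ν := fun i k => mcc (cM i k) (sM i k)
  -- integrability
  have iV : ∀ {G : Fin n → Fin n → E n → ℝ}, (∀ i k, Continuous (G i k)) → ∀ i k l,
      Integrable (fun x => S.V2 x k l * (T i k x * G i l x)) S.ν := fun hG i k l =>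
    cci ((S.V2_cont k l).mul ((cT i k).mul (hG i l)))
      (((hs i k).mul_right (f' := _)).mul_left (f := fun x => S.V2 x k l))
  have iH : ∀ {G : Fin n → Fin n → E n → ℝ}, (∀ i k, Continuous (G i k)) → ∀ i k l,
      Integrable (fun x => pd l (S.w k) x * (T i k x * G i l x)) S.ν := fun hG i k l =>
    cci ((pdw_cont k l).mul ((cT i k).mul (hG i l)))
      (((hs i k).mul_right (f' := _)).mul_left (f := pd l (S.w k)))
  have W : ∀ {G : Fin n → Fin n → E n → ℝ}, (∀ i k, Continuous (G i k)) →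
      ∑ i, ∑ k, ∑ l, ∫ x, S.W2 x k l * (T i k x * G i l x) ∂S.ν =
      (∑ i, ∑ k, ∑ l, ∫ x, S.V2 x k l * (T i k x * G i l x) ∂S.ν) -
      ∑ i, ∑ k, ∑ l, ∫ x, pd l (S.w k) x * (T i k x * G i l x) ∂S.ν := by
    intro G hG
    rw [← Finset.sum_sub_distrib]
    refine Finset.sum_congr rfl fun i _ => ?_
    rw [← Finset.sum_sub_distrib]
    refine Finset.sum_congr rfl fun k _ => ?_
    rw [← Finset.sum_sub_distrib]
    refine Finset.sum_congr rfl fun l _ => ?_
    rw [← integral_sub (iV hG i k l) (iH hG i k l)]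
    refine integral_congr_ae (Filter.Eventually.of_forall fun x => ?_)
    simp only [S.W2_V]
    ring
  -- Bochner, summed
  have hB := Finset.sum_congr rfl fun i (_ : i ∈ Finset.univ) => boch (S := S.toSm) hT hs hφ hφs i
  rw [Finset.sum_add_distrib, W (G := fun i k => pd k (φ i)) cM] at hB
  -- the right-hand side
  have mdv : ∀ i, MemLp (dv S.toSm T i) 2 S.ν := fun i => mcc (dv_cont hT i) (dv_cs hs i)
  have mr : ∀ i, MemLp (fun x => AW S.toSm (φ i) x - φ i x) 2 S.ν := fun i =>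
    (mcc (AW_smooth (hφ i)).continuous (AW_cs (hφs i))).sub (mcc (hφ i).continuous (hφs i))
  have hR : ∑ i, ∫ x, dv S.toSm T i x * AW S.toSm (φ i) x ∂S.ν =
      TM S φ T + ∑ i, ∫ x, dv S.toSm T i x * (AW S.toSm (φ i) x - φ i x) ∂S.ν := by
    unfold TM
    rw [← Finset.sum_add_distrib]
    refine Finset.sum_congr rfl fun i _ => ?_
    rw [← ibp_dv (S := S.toSm) hT hs i ((hφ i).of_le (by norm_cast) : ContDiff ℝ 1 (φ i)),
      ← integral_add (im (mdv i) (mcc (hφ i).continuous (hφs i))) (im (mdv i) (mr i))]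
    exact integral_congr_ae (Filter.Eventually.of_forall fun x => by simp only; ring)
  have hcs := (le_abs_self _).trans (cs_fam (ν := S.ν) mdv mr)
  -- Weitzenböck
  have hW := dv_sq_le (S := S.toSm) hT hs
  rw [W (G := T) cT] at hW
  have h1 : ∑ i, ∑ k, ∑ l, ∫ x, pd l (T i k) x ^ 2 ∂S.ν ≤ XX S φ T := by
    have j1 : ∀ i k l, Integrable (fun x => pd l (T i k) x ^ 2) S.ν := fun i k l =>
      isq (mcc (pd_cont (hT i k) l) (pd_cs (hs i k) l))
    have j2 : ∀ i k l, Integrable (fun x => pd l (T i k) x * pd l (pd k (φ i)) x) S.ν :=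
      fun i k l => cci ((pd_cont (hT i k) l).mul (pd_smooth (pd_smooth (hφ i) k) l).continuous)
        ((pd_cs (hs i k) l).mul_right (f' := pd l (pd k (φ i))))
    have e1' : ∑ i, ∑ k, ∑ l, ∫ x, pd l (T i k) x ^ 2 ∂S.ν =
        ∫ x, ∑ i, ∑ k, ∑ l, pd l (T i k) x ^ 2 ∂S.ν := by
      rw [integral_finsetSum _ fun i _ => integrable_finsetSum _ fun k _ =>
        integrable_finsetSum _ fun l _ => j1 i k l]
      refine Finset.sum_congr rfl fun i _ => ?_
      rw [integral_finsetSum _ fun k _ => integrable_finsetSum _ fun l _ => j1 i k l]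
      exact Finset.sum_congr rfl fun k _ => (integral_finsetSum _ fun l _ => j1 i k l).symm
    have e2' : XX S φ T = ∫ x, ∑ i, ∑ k, ∑ l, pd l (T i k) x * pd l (pd k (φ i)) x ∂S.ν := by
      unfold XX
      rw [integral_finsetSum _ fun i _ => integrable_finsetSum _ fun k _ =>
        integrable_finsetSum _ fun l _ => j2 i k l]
      refine Finset.sum_congr rfl fun i _ => ?_
      rw [integral_finsetSum _ fun k _ => integrable_finsetSum _ fun l _ => j2 i k l]
      exact Finset.sum_congr rfl fun k _ => (integral_finsetSum _ fun l _ => j2 i k l).symm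
    rw [e1', e2']
    exact integral_mono
      (integrable_finsetSum _ fun i _ => integrable_finsetSum _ fun k _ =>
        integrable_finsetSum _ fun l _ => j1 i k l)
      (integrable_finsetSum _ fun i _ => integrable_finsetSum _ fun k _ =>
        integrable_finsetSum _ fun l _ => j2 i k l) hb
  have h2 : ∑ i, ∑ k, ∑ l, ∫ x, S.V2 x k l * (T i k x * T i l x) ∂S.ν ≤ YY S φ T := by
    have j1 := iV (G := T) cT
    have j2 := iV (G := fun i k => pd k (φ i)) cM
    have e1' : ∑ i, ∑ k, ∑ l, ∫ x, S.V2 x k l * (T i k x * T i l x) ∂S.ν =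
        ∫ x, ∑ i, ∑ k, ∑ l, S.V2 x k l * (T i k x * T i l x) ∂S.ν := by
      rw [integral_finsetSum _ fun i _ => integrable_finsetSum _ fun k _ =>
        integrable_finsetSum _ fun l _ => j1 i k l]
      refine Finset.sum_congr rfl fun i _ => ?_
      rw [integral_finsetSum _ fun k _ => integrable_finsetSum _ fun l _ => j1 i k l]
      exact Finset.sum_congr rfl fun k _ => (integral_finsetSum _ fun l _ => j1 i k l).symm
    have e2' : YY S φ T = ∫ x, ∑ i, ∑ k, ∑ l, S.V2 x k l * (T i k x * pd l (φ i) x) ∂S.ν := by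
      unfold YY
      rw [integral_finsetSum _ fun i _ => integrable_finsetSum _ fun k _ =>
        integrable_finsetSum _ fun l _ => j2 i k l]
      refine Finset.sum_congr rfl fun i _ => ?_
      rw [integral_finsetSum _ fun k _ => integrable_finsetSum _ fun l _ => j2 i k l]
      exact Finset.sum_congr rfl fun k _ => (integral_finsetSum _ fun l _ => j2 i k l).symm
    rw [e1', e2']
    exact integral_mono
      (integrable_finsetSum _ fun i _ => integrable_finsetSum _ fun k _ =>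
        integrable_finsetSum _ fun l _ => j1 i k l)
      (integrable_finsetSum _ fun i _ => integrable_finsetSum _ fun k _ =>
        integrable_finsetSum _ fun l _ => j2 i k l) hc
  -- `|T| ≤ |M|`
  have h3 : tt S T ≤ TM S φ T := by
    have j1 : ∀ i k, Integrable (fun x => T i k x ^ 2) S.ν := fun i k => isq (mT i k)
    have j2 : ∀ i k, Integrable (fun x => T i k x * pd k (φ i) x) S.ν := fun i k =>
      im (mT i k) (mM i k)
    have e1' : tt S T = ∫ x, ∑ i, ∑ k, T i k x ^ 2 ∂S.ν := by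
      unfold tt
      rw [integral_finsetSum _ fun i _ => integrable_finsetSum _ fun k _ => j1 i k]
      exact Finset.sum_congr rfl fun i _ => (integral_finsetSum _ fun k _ => j1 i k).symm
    have e2' : TM S φ T = ∫ x, ∑ i, ∑ k, T i k x * pd k (φ i) x ∂S.ν := by
      unfold TM
      rw [integral_finsetSum _ fun i _ => integrable_finsetSum _ fun k _ => j2 i k]
      exact Finset.sum_congr rfl fun i _ => (integral_finsetSum _ fun k _ => j2 i k).symm
    rw [e1', e2']
    exact integral_mono (integrable_finsetSum _ fun i _ => integrable_finsetSum _ fun k _ => j1 i k)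
      (integrable_finsetSum _ fun i _ => integrable_finsetSum _ fun k _ => j2 i k) hd
  have htt0 : 0 ≤ tt S T := Finset.sum_nonneg fun i _ => Finset.sum_nonneg fun k _ =>
    integral_nonneg fun x => sq_nonneg _
  have hmm0 : 0 ≤ dsq S.ν φ := Finset.sum_nonneg fun i _ => Finset.sum_nonneg fun k _ =>
    integral_nonneg fun x => sq_nonneg _
  have h4 : √(tt S T) ≤ √(dsq S.ν φ) := by
    have h5 := (le_abs_self _).trans (cs_fam (ν := S.ν) (ι := Fin n × Fin n)
      (fun p => mT p.1 p.2) (fun p => mM p.1 p.2))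
    rw [Fintype.sum_prod_type, Fintype.sum_prod_type, Fintype.sum_prod_type] at h5
    have h6 : tt S T ≤ √(tt S T) * √(dsq S.ν φ) := h3.trans h5
    by_contra hcon
    push Not at hcon
    have h7 : 0 < √(tt S T) := (Real.sqrt_nonneg _).trans_lt hcon
    have h8 := Real.mul_self_sqrt htt0
    nlinarith
  have hZ := op_bound (S := S) hT hs he1 ha (G := fun i k => pd k (φ i)) cM sM
  have hZ' := op_bound (S := S) hT hs he1 ha (G := T) cT hs
  have hZ1 := (le_abs_self _).trans hZ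
  have hZ2 := (neg_le_abs _).trans hZ'
  have hh0 : 0 ≤ e1 * √(dsq S.ν S.w) := mul_nonneg he1 (Real.sqrt_nonneg _)
  have hZ3 : e1 * √(dsq S.ν S.w) * √(∑ i, ∑ l, ∫ x, T i l x ^ 2 ∂S.ν) ≤
      e1 * √(dsq S.ν S.w) * √(dsq S.ν φ) := mul_le_mul_of_nonneg_left h4 hh0
  change _ ≤ e1 * √(dsq S.ν S.w) * √(dsq S.ν φ) at hZ1
  change XX S φ T + (YY S φ T - _) = _ at hB
  rw [hR] at hB
  set D2 := ∑ i, ∫ x, dv S.toSm T i x ^ 2 ∂S.ν with hD2
  have hD0 : 0 ≤ D2 := Finset.sum_nonneg fun i _ => integral_nonneg fun x => sq_nonneg _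
  have hr0 : 0 ≤ r2 S φ := Finset.sum_nonneg fun i _ => integral_nonneg fun x => sq_nonneg _
  have h9 : √D2 * √(r2 S φ) ≤ t / 2 * D2 + r2 S φ / (2 * t) := by
    have h10 := Real.mul_self_sqrt hD0
    have h11 := Real.mul_self_sqrt hr0
    have h12 : 0 ≤ (t * √D2 - √(r2 S φ)) ^ 2 / (2 * t) := by positivity
    have h13 : (t * √D2 - √(r2 S φ)) ^ 2 / (2 * t) = t / 2 * (√D2 * √D2) +
        (√(r2 S φ) * √(r2 S φ)) / (2 * t) - √D2 * √(r2 S φ) := by
      field_simp
      ring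
    rw [h13, h10, h11] at h12
    linarith
  have hcs' : ∑ i, ∫ x, dv S.toSm T i x * (AW S.toSm (φ i) x - φ i x) ∂S.ν ≤
      √D2 * √(r2 S φ) := hcs
  have h14 : D2 ≤ XX S φ T + YY S φ T + e1 * √(dsq S.ν S.w) * √(dsq S.ν φ) := by linarith
  have h15 : t / 2 * D2 ≤ t / 2 * (XX S φ T + YY S φ T + e1 * √(dsq S.ν S.w) * √(dsq S.ν φ)) :=
    mul_le_mul_of_nonneg_left h14 (by positivity)
  linarith

/-- the error term -/
theorem r2_le (hφ : ∀ i, ContDiff ℝ ∞ (φ i)) (hφs : ∀ i, HasCompactSupport (φ i)) :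
    r2 S φ ≤ 2 * (∑ i, ∫ x, (φ i x + AW S.toSm (φ i) x - 2 * S.w i x) ^ 2 ∂S.ν) +
      8 * ∑ i, ∫ x, (S.w i x - φ i x) ^ 2 ∂S.ν := by
  unfold r2
  rw [Finset.mul_sum, Finset.mul_sum, ← Finset.sum_add_distrib]
  refine Finset.sum_le_sum fun i _ => ?_
  have mφ : MemLp (φ i) 2 S.ν := mcc (hφ i).continuous (hφs i)
  have mA : MemLp (AW S.toSm (φ i)) 2 S.ν := mcc (AW_smooth (hφ i)).continuous (AW_cs (hφs i))
  have j1 : Integrable (fun x => (φ i x + AW S.toSm (φ i) x - 2 * S.w i x) ^ 2) S.ν :=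
    isq ((mφ.add mA).sub ((S.w_L2 i).const_mul 2))
  have j2 : Integrable (fun x => (S.w i x - φ i x) ^ 2) S.ν := isq ((S.w_L2 i).sub mφ)
  have j3 : Integrable (fun x => (AW S.toSm (φ i) x - φ i x) ^ 2) S.ν := isq (mA.sub mφ)
  rw [← integral_const_mul, ← integral_const_mul, ← integral_add (j1.const_mul 2) (j2.const_mul 8)]
  refine integral_mono j3 ((j1.const_mul 2).add (j2.const_mul 8)) fun x => ?_
  simp only
  nlinarith [sq_nonneg ((φ i x + AW S.toSm (φ i) x - 2 * S.w i x) - 2 * (S.w i x - φ i x))]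

end

end Crest.Agent.R201.El593
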