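import Crest.Agent.R201.Clip5_78
import Crest.Agent.R201.El4_593

-- ▼ part R201/Clip6_78
section

/-!
# R201, LSI half, CLIP block (helper78), part 6: the clip `T = cF e (D φ)` plugged into `lev2` (593)
-/

set_option autoImplicit false
set_option linter.unusedSectionVars false
open MeasureTheory Matrix
open scoped ContDiff

namespace Crest.Agent.R201.Clip78

open Crest.Agent.R201 Crest.Agent.R201.Tw807 Crest.Agent.R201.El593

variable {n : ℕ}

/-- Jacobian `B_ik = D_k φ_i` -/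
noncomputable def Bm (φ : Fin n → E n → ℝ) (x : E n) : Mt n := Matrix.of fun i k => pd k (φ i) x

/-- the clipped Jacobian, as a matrix field -/
noncomputable def Tc (e : ℝ) (φ : Fin n → E n → ℝ) (x : E n) : Mt n := cF e (Bm φ x)

/-- the clipped Jacobian, as a family of functions -/
noncomputable def Tf (e : ℝ) (φ : Fin n → E n → ℝ) (i k : Fin n) (x : E n) : ℝ := Tc e φ x i k

variable {φ : Fin n → E n → ℝ}

section

variable (hφ : ∀ i, ContDiff ℝ ∞ (φ i)) (hφs : ∀ i, HasCompactSupport (φ i))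

include hφ in
theorem Bm_smooth (i k : Fin n) : ContDiff ℝ ∞ (fun y => Bm φ y i k) := pd_smooth (hφ i) k

include hφs in
theorem Bm_cs (i k : Fin n) : HasCompactSupport (fun y => Bm φ y i k) := pd_cs (hφs i) k

include hφ in
theorem Tf_smooth (e : ℝ) (i k : Fin n) : ContDiff ℝ ∞ (Tf e φ i k) :=
  cF_field_contDiff e (fun i k => Bm_smooth hφ i k) i k

include hφ in
theorem Tf_C1 (e : ℝ) (i k : Fin n) : ContDiff ℝ 1 (Tf e φ i k) :=
  (Tf_smooth hφ e i k).of_le (by norm_cast)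

include hφs in
theorem Tf_cs (e : ℝ) (i k : Fin n) : HasCompactSupport (Tf e φ i k) :=
  cF_cs e (fun i k => Bm_cs hφs i k) i k

/-- (a) operator bound -/
theorem Tf_a {e : ℝ} (he : 0 < e) (x : E n) (u : Fin n → ℝ) :
    ∑ i, (∑ k, Tf e φ i k x * u k) ^ 2 ≤ e ^ 2 * ∑ k, u k ^ 2 := by
  have h := cFt_le' he (Bm φ x) u
  rw [form_sq] at h
  have e1 : (cF e (Bm φ x) *ᵥ u) ⬝ᵥ (cF e (Bm φ x) *ᵥ u) = ∑ i, (∑ k, Tf e φ i k x * u k) ^ 2 := by
    simp only [dotProduct, mulVec, sq]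
    rfl
  have e2 : u ⬝ᵥ ((e ^ 2 • (1 : Mt n)) *ᵥ u) = e ^ 2 * ∑ k, u k ^ 2 := by
    rw [smul_mulVec, one_mulVec, dotProduct_smul, smul_eq_mul]
    simp only [dotProduct, sq]
  rw [e1, e2] at h
  exact h


include hφ in
theorem Bm_diff (i k : Fin n) : Differentiable ℝ (fun y => Bm φ y i k) :=
  (Bm_smooth hφ i k).differentiable (by simp)


/-- (b) the comparison of derivatives -/
theorem Tf_b (hφ : ∀ i, ContDiff ℝ ∞ (φ i)) {e : ℝ} (he : 0 < e) (x : E n) :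
    ∑ i, ∑ k, ∑ l, pd l (Tf e φ i k) x ^ 2 ≤
      ∑ i, ∑ k, ∑ l, pd l (Tf e φ i k) x * pd l (pd k (φ i)) x := by
  have h : ∀ l, ∑ i, ∑ k, pd l (Tf e φ i k) x ^ 2 ≤
      ∑ i, ∑ k, pd l (Tf e φ i k) x * pd l (pd k (φ i)) x := by
    intro l
    have h1 := (pdM_cF_le he (fun i j => Bm_diff hφ i j) l x).1
    simp only [hs, Matrix.trace, Matrix.diag_apply, Matrix.mul_apply, transpose_apply, pdM,
      Matrix.of_apply] at h1
    exact h1
  have e1 : ∀ g : Fin n → Fin n → Fin n → ℝ,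
      ∑ i, ∑ k, ∑ l, g i k l = ∑ l, ∑ i, ∑ k, g i k l := by
    intro g
    have : ∀ i, ∑ k, ∑ l, g i k l = ∑ l, ∑ k, g i k l := fun i => Finset.sum_comm
    simp only [this]
    exact Finset.sum_comm
  rw [e1 (fun i k l => pd l (Tf e φ i k) x ^ 2),
    e1 (fun i k l => pd l (Tf e φ i k) x * pd l (pd k (φ i)) x)]
  exact Finset.sum_le_sum fun l _ => h l

/-- (c) the curvature term -/
theorem Tf_c {V : Mt n} (hV : LeQ 0 V) {e : ℝ} (he : 0 < e) (x : E n) :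
    ∑ i, ∑ k, ∑ l, V k l * (Tf e φ i k x * Tf e φ i l x) ≤
      ∑ i, ∑ k, ∑ l, V k l * (Tf e φ i k x * pd l (φ i) x) := by
  set F := cF e (Bm φ x) with hF
  set M := Bm φ x with hM
  have h := trace_mul_mono hV (FtF_tr F) (MtF_tr he M) (cFt_le_MFt' he M)
  have e1 : (V * (Fᵀ * F)).trace = ∑ i, ∑ k, ∑ l, V k l * (Tf e φ i k x * Tf e φ i l x) := by
    simp only [Matrix.trace, Matrix.diag_apply, Matrix.mul_apply, transpose_apply, Finset.mul_sum]
    have : ∀ k : Fin n, ∑ l, ∑ i, V k l * (F i l * F i k) = ∑ i, ∑ l, V k l * (F i l * F i k) :=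
      fun k => Finset.sum_comm
    simp only [this]
    rw [Finset.sum_comm]
    refine Finset.sum_congr rfl fun i _ => Finset.sum_congr rfl fun k _ =>
      Finset.sum_congr rfl fun l _ => ?_
    simp only [Tf, Tc, ← hM, ← hF]
    ring
  have e2 : (V * (Mᵀ * F)).trace = ∑ i, ∑ k, ∑ l, V k l * (Tf e φ i k x * pd l (φ i) x) := by
    simp only [Matrix.trace, Matrix.diag_apply, Matrix.mul_apply, transpose_apply, Finset.mul_sum]
    have : ∀ k : Fin n, ∑ l, ∑ i, V k l * (M i l * F i k) = ∑ i, ∑ l, V k l * (M i l * F i k) :=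
      fun k => Finset.sum_comm
    simp only [this]
    rw [Finset.sum_comm]
    refine Finset.sum_congr rfl fun i _ => Finset.sum_congr rfl fun k _ =>
      Finset.sum_congr rfl fun l _ => ?_
    simp only [Tf, Tc, ← hM, ← hF]
    have : M i l = pd l (φ i) x := rfl
    rw [this]
    ring
  rw [e1, e2] at h
  exact h

/-- (d) `|T|² ≤ ⟨T, M⟩` -/
theorem Tf_d {e : ℝ} (he : 0 < e) (x : E n) :
    ∑ i, ∑ k, Tf e φ i k x ^ 2 ≤ ∑ i, ∑ k, Tf e φ i k x * pd k (φ i) x := by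
  have h := (hs_cF_le_trace he (Bm φ x)).1
  simp only [hs, Matrix.trace, Matrix.diag_apply, Matrix.mul_apply, transpose_apply] at h
  refine h.trans (le_of_eq ?_)
  refine Finset.sum_congr rfl fun i _ => Finset.sum_congr rfl fun k _ => ?_
  simp only [Tf, Tc]
  have : Bm φ x i k = pd k (φ i) x := rfl
  rw [this]
  ring

end

/-- **593's level-2 inequality for the clip** -/
theorem lev2_clip {S : St n} (hV : ∀ x, LeQ 0 (S.V2 x)) (hφ : ∀ i, ContDiff ℝ ∞ (φ i))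
    (hφs : ∀ i, HasCompactSupport (φ i)) {e : ℝ} (he : 0 < e) {t : ℝ} (ht : 0 < t) :
    (1 - t / 2) * (XX S φ (Tf e φ) + YY S φ (Tf e φ)) ≤
      TM S φ (Tf e φ) + (1 + t / 2) * (e * √(dsq S.ν S.w) * √(dsq S.ν φ)) + r2 S φ / (2 * t) :=
  lev2 hφ hφs (Tf_C1 hφ e) (Tf_cs hφs e) he.le ht (fun x u => Tf_a he x u)
    (fun x => Tf_b hφ he x) (fun x => Tf_c (hV x) he x) (fun x => Tf_d he x)

/-! ### the pointwise facts of EL, in the vocabulary of `Tc`, `Bm` -/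





/-- `∑_l |D_l T|²` as `hs` -/
theorem sum_hs_pdM (e : ℝ) (x : E n) :
    ∑ l, hs (pdM l (Tc e φ) x) = ∑ i, ∑ k, ∑ l, pd l (Tf e φ i k) x ^ 2 := by
  have e1 : ∀ g : Fin n → Fin n → Fin n → ℝ,
      ∑ i, ∑ k, ∑ l, g i k l = ∑ l, ∑ i, ∑ k, g i k l := by
    intro g
    have : ∀ i, ∑ k, ∑ l, g i k l = ∑ l, ∑ k, g i k l := fun i => Finset.sum_comm
    simp only [this]
    exact Finset.sum_comm
  rw [e1]
  rfl

/-- `Tr V TᵀT` in coordinates -/
theorem trace_V_Tc (V : Mt n) (e : ℝ) (x : E n) :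
    (V * ((Tc e φ x)ᵀ * Tc e φ x)).trace
      = ∑ i, ∑ k, ∑ l, V k l * (Tf e φ i k x * Tf e φ i l x) := by
  simp only [Matrix.trace, Matrix.diag_apply, Matrix.mul_apply, transpose_apply, Finset.mul_sum]
  have : ∀ k : Fin n, ∑ l, ∑ i, V k l * (Tc e φ x i l * Tc e φ x i k)
      = ∑ i, ∑ l, V k l * (Tc e φ x i l * Tc e φ x i k) :=
    fun k => Finset.sum_comm
  simp only [this]
  rw [Finset.sum_comm]
  refine Finset.sum_congr rfl fun i _ => Finset.sum_congr rfl fun k _ =>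
    Finset.sum_congr rfl fun l _ => ?_
  simp only [Tf]
  ring










end Crest.Agent.R201.Clip78
end

-- ▼ part R201/EL1_676
section

/-!
# R201 (S0308), level 2, block EL, part 1: integrated facts of 78's non-symmetric clip
of the Jacobian (helper676)
-/

set_option autoImplicit false
open MeasureTheory Matrix
open scoped ContDiff

namespace Crest.Agent.R201.EL676

open Crest.Agent.R201 Crest.Agent.R201.Tw807 Crest.Agent.R201.El593 Crest.Agent.R201.Clip78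

variable {n : ℕ} {φ : Fin n → E n → ℝ} {e1 : ℝ} {S : St n}

/-- `⟨T, M⟩ ≤ |M|²` -/
theorem Tf_d' (he : 0 < e1) (x : E n) :
    ∑ i, ∑ k, Tf e1 φ i k x * pd k (φ i) x ≤ ∑ i, ∑ k, pd k (φ i) x ^ 2 := by
  have h := (hs_cF_le_trace he (Bm φ x)).2
  simp only [hs, Matrix.trace, Matrix.diag_apply, Matrix.mul_apply, transpose_apply] at h
  refine le_trans (le_of_eq ?_) h
  refine Finset.sum_congr rfl fun i _ => Finset.sum_congr rfl fun k _ => ?_
  simp only [Tf, Tc]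
  have : Bm φ x i k = pd k (φ i) x := rfl
  rw [this]
  ring

theorem mTf (hφ : ∀ i, ContDiff ℝ ∞ (φ i)) (hφs : ∀ i, HasCompactSupport (φ i)) (i k : Fin n) :
    MemLp (Tf e1 φ i k) 2 S.ν := mcc (Tf_C1 hφ e1 i k).continuous (Tf_cs hφs e1 i k)

theorem mBm (hφ : ∀ i, ContDiff ℝ ∞ (φ i)) (hφs : ∀ i, HasCompactSupport (φ i)) (i k : Fin n) :
    MemLp (pd k (φ i)) 2 S.ν := mcc (pd_smooth (hφ i) k).continuous (pd_cs (hφs i) k)

theorem TM_le (he : 0 < e1) (hφ : ∀ i, ContDiff ℝ ∞ (φ i)) (hφs : ∀ i, HasCompactSupport (φ i)) :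
    TM S φ (Tf e1 φ) ≤ dsq S.ν φ := by
  have mT : ∀ i k, MemLp (Tf e1 φ i k) 2 S.ν := mTf hφ hφs
  have mM : ∀ i k, MemLp (pd k (φ i)) 2 S.ν := mBm hφ hφs
  have e1' : TM S φ (Tf e1 φ) = ∫ x, ∑ i, ∑ k, Tf e1 φ i k x * pd k (φ i) x ∂S.ν := by
    unfold TM
    rw [integral_finsetSum _ fun i _ => integrable_finsetSum _ fun k _ => im (mT i k) (mM i k)]
    exact Finset.sum_congr rfl fun i _ =>
      (integral_finsetSum _ fun k _ => im (mT i k) (mM i k)).symm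
  have e2' : dsq S.ν φ = ∫ x, ∑ i, ∑ k, pd k (φ i) x ^ 2 ∂S.ν := by
    unfold dsq
    rw [integral_finsetSum _ fun i _ => integrable_finsetSum _ fun k _ => isq (mM i k)]
    exact Finset.sum_congr rfl fun i _ =>
      (integral_finsetSum _ fun k _ => isq (mM i k)).symm
  rw [e1', e2']
  exact integral_mono
    (integrable_finsetSum _ fun i _ => integrable_finsetSum _ fun k _ => im (mT i k) (mM i k))
    (integrable_finsetSum _ fun i _ => integrable_finsetSum _ fun k _ => isq (mM i k))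
    fun x => Tf_d' he x

/-- level-2 inequality for the clip -/
theorem lev2_T (he : 0 < e1) (hV : ∀ x, LeQ 0 (S.V2 x)) (hφ : ∀ i, ContDiff ℝ ∞ (φ i))
    (hφs : ∀ i, HasCompactSupport (φ i)) {t : ℝ} (ht : 0 < t) :
    (1 - t / 2) * (XX S φ (Tf e1 φ) + YY S φ (Tf e1 φ)) ≤
      dsq S.ν φ + (1 + t / 2) * (e1 * √(dsq S.ν S.w) * √(dsq S.ν φ)) + r2 S φ / (2 * t) := by
  have h := lev2_clip (S := S) hV hφ hφs he ht
  have h2 := TM_le (S := S) he hφ hφs
  linarith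

/-- `E ∑_k |D_k T|² ≤ X` -/
theorem hs_le_XX (he : 0 < e1) (hφ : ∀ i, ContDiff ℝ ∞ (φ i))
    (hφs : ∀ i, HasCompactSupport (φ i)) :
    ∫ x, ∑ k, hs (pdM k (Tc e1 φ) x) ∂S.ν ≤ XX S φ (Tf e1 φ) := by
  have cD : ∀ i k l, Continuous (pd l (Tf e1 φ i k)) := fun i k l => pd_cont (Tf_C1 hφ e1 i k) l
  have sD : ∀ i k l, HasCompactSupport (pd l (Tf e1 φ i k)) := fun i k l =>
    pd_cs (Tf_cs hφs e1 i k) l
  have j1 : ∀ i k l, Integrable (fun x => pd l (Tf e1 φ i k) x ^ 2) S.ν :=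
    fun i k l => isq (mcc (cD i k l) (sD i k l))
  have j2 : ∀ i k l, Integrable (fun x => pd l (Tf e1 φ i k) x * pd l (pd k (φ i)) x) S.ν :=
    fun i k l => cci ((cD i k l).mul (pd_smooth (pd_smooth (hφ i) k) l).continuous)
      ((sD i k l).mul_right (f' := pd l (pd k (φ i))))
  have e2' : XX S φ (Tf e1 φ) =
      ∫ x, ∑ i, ∑ k, ∑ l, pd l (Tf e1 φ i k) x * pd l (pd k (φ i)) x ∂S.ν := by
    unfold XX
    rw [integral_finsetSum _ fun i _ => integrable_finsetSum _ fun k _ =>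
      integrable_finsetSum _ fun l _ => j2 i k l]
    refine Finset.sum_congr rfl fun i _ => ?_
    rw [integral_finsetSum _ fun k _ => integrable_finsetSum _ fun l _ => j2 i k l]
    exact Finset.sum_congr rfl fun k _ => (integral_finsetSum _ fun l _ => j2 i k l).symm
  simp only [sum_hs_pdM]
  rw [e2']
  exact integral_mono
    (integrable_finsetSum _ fun i _ => integrable_finsetSum _ fun k _ =>
      integrable_finsetSum _ fun l _ => j1 i k l)
    (integrable_finsetSum _ fun i _ => integrable_finsetSum _ fun k _ =>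
      integrable_finsetSum _ fun l _ => j2 i k l) (fun x => Tf_b hφ he x)

/-- `E Tr V'' TᵀT ≤ Y` -/
theorem tr_le_YY (he : 0 < e1) (hV : ∀ x, LeQ 0 (S.V2 x)) (hφ : ∀ i, ContDiff ℝ ∞ (φ i))
    (hφs : ∀ i, HasCompactSupport (φ i)) :
    ∫ x, (S.V2 x * ((Tc e1 φ x)ᵀ * Tc e1 φ x)).trace ∂S.ν ≤ YY S φ (Tf e1 φ) := by
  have cT : ∀ i k, Continuous (Tf e1 φ i k) := fun i k => (Tf_C1 hφ e1 i k).continuous
  have iV : ∀ {G : Fin n → Fin n → E n → ℝ}, (∀ i k, Continuous (G i k)) → ∀ i k l,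
      Integrable (fun x => S.V2 x k l * (Tf e1 φ i k x * G i l x)) S.ν := fun hG i k l =>
    cci ((S.V2_cont k l).mul ((cT i k).mul (hG i l)))
      (((Tf_cs hφs e1 i k).mul_right (f' := _)).mul_left (f := fun x => S.V2 x k l))
  have j1 := iV (G := Tf e1 φ) cT
  have j2 := iV (G := fun i k => pd k (φ i)) (fun i k => (pd_smooth (hφ i) k).continuous)
  have e2' : YY S φ (Tf e1 φ) =
      ∫ x, ∑ i, ∑ k, ∑ l, S.V2 x k l * (Tf e1 φ i k x * pd l (φ i) x) ∂S.ν := by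
    unfold YY
    rw [integral_finsetSum _ fun i _ => integrable_finsetSum _ fun k _ =>
      integrable_finsetSum _ fun l _ => j2 i k l]
    refine Finset.sum_congr rfl fun i _ => ?_
    rw [integral_finsetSum _ fun k _ => integrable_finsetSum _ fun l _ => j2 i k l]
    exact Finset.sum_congr rfl fun k _ => (integral_finsetSum _ fun l _ => j2 i k l).symm
  simp only [trace_V_Tc]
  rw [e2']
  exact integral_mono
    (integrable_finsetSum _ fun i _ => integrable_finsetSum _ fun k _ =>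
      integrable_finsetSum _ fun l _ => j1 i k l)
    (integrable_finsetSum _ fun i _ => integrable_finsetSum _ fun k _ =>
      integrable_finsetSum _ fun l _ => j2 i k l) (fun x => Tf_c (hV x) he x)


end Crest.Agent.R201.EL676
end

-- ▼ part R201/EL2_676

/-!
# R201 (S0308), level 2, block EL, part 2: closeness and the final inequality (helper676)
-/

set_option autoImplicit false
open MeasureTheory Matrix
open scoped ContDiff

namespace Crest.Agent.R201.EL676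

open Crest.Agent.R201 Crest.Agent.R201.Tw807 Crest.Agent.R201.El593 Crest.Agent.R201.Clip78

variable {n : ℕ} {S : St n} {φ : Fin n → E n → ℝ} {ε e1 e : ℝ}

theorem nsq_nn {ι : Type*} [Fintype ι] (ν : Measure (E n)) (f : ι → E n → ℝ) : 0 ≤ nsq ν f :=
  Finset.sum_nonneg fun _ _ => integral_nonneg fun _ => sq_nonneg _

theorem dsq_nn {ι : Type*} [Fintype ι] (ν : Measure (E n)) (f : ι → E n → ℝ) : 0 ≤ dsq ν f :=
  Finset.sum_nonneg fun _ _ => Finset.sum_nonneg fun _ _ => integral_nonneg fun _ => sq_nonneg _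

/-- `|a + b|² ≤ 2|a|² + 2|b|²` -/
theorem two_two {f g h : E n → ℝ} (hf : MemLp f 2 S.ν) (hg : MemLp g 2 S.ν)
    (hh : MemLp h 2 S.ν) {a b : ℝ} (h0 : ∀ x, h x ^ 2 ≤ a * f x ^ 2 + b * g x ^ 2) :
    ∫ x, h x ^ 2 ∂S.ν ≤ a * (∫ x, f x ^ 2 ∂S.ν) + b * ∫ x, g x ^ 2 ∂S.ν := by
  rw [← integral_const_mul, ← integral_const_mul,
    ← integral_add ((isq hf).const_mul a) ((isq hg).const_mul b)]
  exact integral_mono (isq hh) (((isq hf).const_mul a).add ((isq hg).const_mul b)) h0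

/-- a priori bound -/
theorem apriori (hφ : ∀ i, ContDiff ℝ ∞ (φ i)) (hφs : ∀ i, HasCompactSupport (φ i))
    (he : ∑ i, ∫ x, (φ i x + AW S.toSm (φ i) x - 2 * S.w i x) ^ 2 ∂S.ν ≤ e) :
    nsq S.ν φ + dsq S.ν φ ≤ 8 * nsq S.ν S.w + 2 * e := by
  have mw := S.w_L2
  have mφ : ∀ i, MemLp (φ i) 2 S.ν := fun i => mcc (hφ i).continuous (hφs i)
  have mA : ∀ i, MemLp (AW S.toSm (φ i)) 2 S.ν := fun i =>
    mcc (AW_smooth (hφ i)).continuous (AW_cs (hφs i))
  have mg : ∀ i, MemLp (fun x => φ i x + AW S.toSm (φ i) x) 2 S.ν := fun i => (mφ i).add (mA i)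
  have me : ∀ i, MemLp (fun x => φ i x + AW S.toSm (φ i) x - 2 * S.w i x) 2 S.ν := fun i =>
    ((mφ i).add (mA i)).sub ((mw i).const_mul 2)
  have h1 : ∑ i, ∫ x, (φ i x + AW S.toSm (φ i) x) * φ i x ∂S.ν = nsq S.ν φ + dsq S.ν φ := by
    unfold nsq dsq
    rw [← Finset.sum_add_distrib]
    refine Finset.sum_congr rfl fun i _ => ?_
    have e0 : ∀ x, (φ i x + AW S.toSm (φ i) x) * φ i x = φ i x ^ 2 +
        AW S.toSm (φ i) x * φ i x := fun x => by ring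
    simp only [e0]
    rw [integral_add (isq (mφ i)) (im (mA i) (mφ i)),
      ibp_A (hφ i) (hφs i) ((hφ i).of_le (by norm_cast))]
    simp only [sq]
  have h2 : ∑ i, ∫ x, (φ i x + AW S.toSm (φ i) x) ^ 2 ∂S.ν ≤ 8 * nsq S.ν S.w + 2 * e := by
    have h3 : ∀ i, ∫ x, (φ i x + AW S.toSm (φ i) x) ^ 2 ∂S.ν ≤ 8 * (∫ x, S.w i x ^ 2 ∂S.ν) +
        2 * ∫ x, (φ i x + AW S.toSm (φ i) x - 2 * S.w i x) ^ 2 ∂S.ν := fun i =>
      two_two (mw i) (me i) (mg i) fun x => by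
        nlinarith [sq_nonneg ((φ i x + AW S.toSm (φ i) x - 2 * S.w i x) - 2 * S.w i x)]
    have h4 := Finset.sum_le_sum (s := (Finset.univ : Finset (Fin n))) fun i _ => h3 i
    rw [Finset.sum_add_distrib, ← Finset.mul_sum, ← Finset.mul_sum] at h4
    have h5 : ∑ i, ∫ x, S.w i x ^ 2 ∂S.ν = nsq S.ν S.w := rfl
    rw [h5] at h4
    linarith
  have h3 := (le_abs_self _).trans (cs_fam (ν := S.ν) mg mφ)
  rw [h1] at h3
  have h5 : ∑ i, ∫ x, φ i x ^ 2 ∂S.ν = nsq S.ν φ := rfl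
  rw [h5] at h3
  set G := ∑ i, ∫ x, (φ i x + AW S.toSm (φ i) x) ^ 2 ∂S.ν with hG
  have hG0 : 0 ≤ G := Finset.sum_nonneg fun i _ => integral_nonneg fun x => sq_nonneg _
  have hn0 := nsq_nn S.ν φ
  have hd0 := dsq_nn S.ν φ
  have h6 := Real.sq_sqrt hG0
  have h7 := Real.sq_sqrt hn0
  have h8 : nsq S.ν φ + dsq S.ν φ ≤ (G + nsq S.ν φ) / 2 := by
    nlinarith [sq_nonneg (√G - √(nsq S.ν φ))]
  have h9 : nsq S.ν φ + dsq S.ν φ ≤ G := by linarith
  linarith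

/-- `|Dφ|² ≤ (1+s)|Dw|² + (1+1/s)|Dw-Dφ|²` -/
theorem dsq_le (hφ : ∀ i, ContDiff ℝ ∞ (φ i)) (hφs : ∀ i, HasCompactSupport (φ i)) {s : ℝ}
    (hs : 0 < s) : dsq S.ν φ ≤ (1 + s) * dsq S.ν S.w +
      (1 + 1 / s) * ∑ i, ∑ k, ∫ x, (pd k (S.w i) x - pd k (φ i) x) ^ 2 ∂S.ν := by
  unfold dsq
  rw [Finset.mul_sum, Finset.mul_sum, ← Finset.sum_add_distrib]
  refine Finset.sum_le_sum fun i _ => ?_
  rw [Finset.mul_sum, Finset.mul_sum, ← Finset.sum_add_distrib]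
  refine Finset.sum_le_sum fun k _ => ?_
  have mH := S.H_L2 i k
  have mD : MemLp (pd k (φ i)) 2 S.ν := mcc (pd_smooth (hφ i) k).continuous (pd_cs (hφs i) k)
  refine two_two mH (mH.sub mD) mD fun x => ?_
  simp only [Pi.sub_apply]
  set a := pd k (S.w i) x
  set b := pd k (φ i) x
  have h1 : 0 ≤ (s * a + (a - b)) ^ 2 / s := by positivity
  have h2 : (s * a + (a - b)) ^ 2 / s = s * a ^ 2 + 2 * a * (a - b) + 1 / s * (a - b) ^ 2 := by
    field_simp
    ring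
  rw [h2] at h1
  nlinarith

/-- **block EL, general form** -/
theorem EL_gen (hε : 0 < ε) (hε1 : ε ≤ 1) (he1 : 0 < e1) (he1' : e1 ≤ 1 / 10)
    (hI : 0 < nsq S.ν S.w) (hS2 : dsq S.ν S.w ≤ (1 + ε) * nsq S.ν S.w)
    (hV : ∀ x, LeQ 0 (S.V2 x))
    (CH : ∀ φ : Fin n → E n → ℝ, (∀ i, ContDiff ℝ ∞ (φ i)) → (∀ i, HasCompactSupport (φ i)) →
      nsq S.ν φ - dsq S.ν φ ≤ ε * (dsq S.ν φ + nsq S.ν φ + 4 * nsq S.ν S.w) +
        2 * ∑ i, ∫ x, (S.w i x - φ i x) ^ 2 ∂S.ν) :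
    ∃ φ : Fin n → E n → ℝ, (∀ i, ContDiff ℝ ∞ (φ i)) ∧ (∀ i, HasCompactSupport (φ i)) ∧
      nsq S.ν φ + dsq S.ν φ ≤ 9 * nsq S.ν S.w ∧
      (∑ i, ∑ k, ∫ x, (pd k (S.w i) x - pd k (φ i) x) ^ 2 ∂S.ν) +
        (∑ i, ∫ x, (S.w i x - φ i x) ^ 2 ∂S.ν) ≤ 30 * ε * nsq S.ν S.w ∧
      (∫ x, ∑ k, hs (pdM k (Tc e1 φ) x) ∂S.ν) +
        (∫ x, (S.V2 x * ((Tc e1 φ x)ᵀ * Tc e1 φ x)).trace ∂S.ν) ≤
        (1 + 310 * (√ε + e1)) * nsq S.ν S.w := by
  set I := nsq S.ν S.w with hIdef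
  obtain ⟨φ, h1, h2, h3⟩ := exists_phi S (e := ε * I / 2) (by positivity)
  have h4 := apriori h1 h2 h3
  rw [← hIdef] at h4
  have hεI : ε * I ≤ I := by nlinarith
  have h5 : nsq S.ν φ + dsq S.ν φ ≤ 9 * I := by linarith
  have h6 : ε * (dsq S.ν φ + nsq S.ν φ + 4 * I) ≤ 13 * (ε * I) := by nlinarith
  have h7 := close S (d := ε * I) (κ := 13 * (ε * I)) h1 h2 h3 (by rw [← hIdef]; linarith)
    (by have := CH φ h1 h2; linarith)
  set X := ∑ i, ∑ k, ∫ x, (pd k (S.w i) x - pd k (φ i) x) ^ 2 ∂S.ν with hX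
  set Y := ∑ i, ∫ x, (S.w i x - φ i x) ^ 2 ∂S.ν with hY
  have hX0 : 0 ≤ X := Finset.sum_nonneg fun _ _ => Finset.sum_nonneg fun _ _ =>
    integral_nonneg fun _ => sq_nonneg _
  have hY0 : 0 ≤ Y := Finset.sum_nonneg fun _ _ => integral_nonneg fun _ => sq_nonneg _
  have h8 : X + Y / 2 ≤ 15 * (ε * I) := by linarith
  refine ⟨φ, h1, h2, h5, by linarith, ?_⟩
  -- level 2
  set s := √ε with hs
  have hs0 : 0 < s := Real.sqrt_pos.2 hε
  have hss : s ^ 2 = ε := Real.sq_sqrt hε.le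
  have hs1 : s ≤ 1 := by
    rw [hs]; exact Real.sqrt_le_one.2 hε1
  have h9 := lev2_T (S := S) he1 hV h1 h2 hs0
  have h10 := hs_le_XX (S := S) he1 h1 h2
  have h11 := tr_le_YY (S := S) he1 hV h1 h2
  have h12 := r2_le (S := S) h1 h2
  rw [← hY] at h12
  have h13 := dsq_le (S := S) h1 h2 hs0
  rw [← hX] at h13
  set XY := XX S φ (Tf e1 φ) + YY S φ (Tf e1 φ) with hXY
  have hdw0 := dsq_nn S.ν S.w
  have hdf0 := dsq_nn S.ν φ
  have hnf0 := nsq_nn S.ν φ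
  have h14 : dsq S.ν φ ≤ (1 + 33 * s) * I := by
    have a1 : (1 + s) * dsq S.ν S.w ≤ (1 + 3 * s) * I := by
      have b1 : (1 + s) * dsq S.ν S.w ≤ (1 + s) * ((1 + ε) * I) :=
        mul_le_mul_of_nonneg_left hS2 (by linarith)
      have b2 : (1 + s) * (1 + ε) ≤ 1 + 3 * s := by rw [← hss]; nlinarith
      have b3 : (1 + s) * (1 + ε) * I ≤ (1 + 3 * s) * I := mul_le_mul_of_nonneg_right b2 hI.le
      linarith
    have a2 : (1 + 1 / s) * X ≤ 30 * s * I := by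
      have b1 : (1 + 1 / s) * X ≤ (1 + 1 / s) * (15 * (ε * I)) :=
        mul_le_mul_of_nonneg_left (by linarith) (by positivity)
      have b2 : (1 + 1 / s) * (15 * (ε * I)) = 15 * (s ^ 2 + s) * I := by
        rw [← hss]; field_simp
      have b3 : 15 * (s ^ 2 + s) * I ≤ 30 * s * I :=
        mul_le_mul_of_nonneg_right (by nlinarith) hI.le
      linarith
    linarith
  have h15 : √(dsq S.ν S.w) * √(dsq S.ν φ) ≤ 11 / 2 * I := by
    have a1 := Real.sq_sqrt hdw0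
    have a2 := Real.sq_sqrt hdf0
    have a3 : dsq S.ν S.w ≤ 2 * I := by nlinarith
    have a4 := sq_nonneg (√(dsq S.ν S.w) - √(dsq S.ν φ))
    have a5 : (√(dsq S.ν S.w) - √(dsq S.ν φ)) ^ 2 = √(dsq S.ν S.w) ^ 2 -
        2 * (√(dsq S.ν S.w) * √(dsq S.ν φ)) + √(dsq S.ν φ) ^ 2 := by ring
    rw [a5, a1, a2] at a4
    linarith
  have h16 : (1 + s / 2) * (e1 * √(dsq S.ν S.w) * √(dsq S.ν φ)) ≤ 9 * e1 * I := by
    have a1 : e1 * √(dsq S.ν S.w) * √(dsq S.ν φ) ≤ e1 * (11 / 2 * I) := by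
      rw [mul_assoc]; exact mul_le_mul_of_nonneg_left h15 he1.le
    have a2 : 0 ≤ e1 * √(dsq S.ν S.w) * √(dsq S.ν φ) := by positivity
    have a3 : 0 < e1 * I := by positivity
    have a4 : (1 + s / 2) * (e1 * √(dsq S.ν S.w) * √(dsq S.ν φ)) ≤
        (1 + 1 / 2) * (e1 * √(dsq S.ν S.w) * √(dsq S.ν φ)) :=
      mul_le_mul_of_nonneg_right (by linarith) a2
    linarith
  have h17 : r2 S φ / (2 * s) ≤ 121 * s * I := by
    rw [div_le_iff₀ (by positivity)]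
    have a1 : Y ≤ 30 * (ε * I) := by linarith
    have a2 : r2 S φ ≤ 241 * (ε * I) := by linarith
    have a3 : 121 * s * I * (2 * s) = 242 * (ε * I) := by rw [← hss]; ring
    rw [a3]
    have : 0 ≤ ε * I := by positivity
    linarith
  have h18 : (1 - s / 2) * XY ≤ (1 + 154 * s + 9 * e1) * I := by linarith
  have h19 : XY ≤ (1 + s) * ((1 + 154 * s + 9 * e1) * I) := by
    have a1 : 0 ≤ (1 + 154 * s + 9 * e1) * I := by positivity
    by_contra hcon
    push Not at hcon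
    have a2 : (1 - s / 2) * ((1 + s) * ((1 + 154 * s + 9 * e1) * I)) < (1 - s / 2) * XY :=
      mul_lt_mul_of_pos_left hcon (by linarith)
    have a3 : (1 : ℝ) ≤ (1 - s / 2) * (1 + s) := by nlinarith [mul_nonneg hs0.le (sub_nonneg.2 hs1)]
    have a4 : (1 + 154 * s + 9 * e1) * I ≤ (1 - s / 2) * (1 + s) * ((1 + 154 * s + 9 * e1) * I) :=
      le_mul_of_one_le_left a1 a3
    linarith
  have h20 : (1 + s) * ((1 + 154 * s + 9 * e1) * I) ≤ (1 + 310 * (s + e1)) * I := by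
    have b1 : s * s ≤ s := by nlinarith
    have b2 : s * e1 ≤ e1 := mul_le_of_le_one_left he1.le hs1
    have a1 : (1 + s) * (1 + 154 * s + 9 * e1) ≤ 1 + 310 * (s + e1) := by linarith
    have a2 := mul_le_mul_of_nonneg_right a1 hI.le
    linarith
  linarith

end Crest.Agent.R201.EL676
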