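import Crest.Agent.R201.NsDefs_674
import Crest.Agent.R201.EL2_676
import Crest.Agent.R201.GS1_844
import Crest.Agent.R201.LabG3_809
import Crest.Agent.R201.NSL4_674
import Crest.Agent.R201.GC4_844
import Crest.Agent.R201.Ch6_150
import Crest.Agent.R201.LabLSI_809
import Crest.Agent.R201.An7_293
import Crest.Agent.R201.LDefs_74

-- ▼ part R201/EL3_676
section

/-!
# R201 (S0308), level 2, block EL, part 3: the literal statement `ELc` (helper676)
-/

set_option autoImplicit false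
open MeasureTheory Matrix
open scoped ContDiff

namespace Crest.Agent.R201.EL676

open Crest.Agent.R201 Crest.Agent.R201.L74

variable {n : ℕ} {ε e1 : ℝ}

theorem eps_pos (S : State n ε) : 0 < ε := S.h_pos.trans_le S.h_le

/-- `EL_gen` for a `State` -/
theorem EL_state (hCH : CH) (S : State n ε) (hε : ε ≤ 1) (hI : 0 < S.I) (he : 0 < e1)
    (he' : e1 ≤ 1 / 10) : ∃ φ : Fin n → E n → ℝ, (∀ i, ContDiff ℝ ∞ (φ i)) ∧
    (∀ i, HasCompactSupport (φ i)) ∧ nsq S.ν φ + dsq S.ν φ ≤ 9 * S.I ∧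
    S.dist1 φ + S.dist0 φ ≤ 30 * ε * S.I ∧
    (∫ x, ∑ k, hs (pdM k (Top674.Tc e1 φ) x) ∂S.ν) +
      (∫ x, (S.V2 x * ((Top674.Tc e1 φ x)ᵀ * Top674.Tc e1 φ x)).trace ∂S.ν) ≤
      (1 + 310 * (√ε + e1)) * S.I :=
  EL_gen (S := S.toSt) (eps_pos S) hε he he' hI S.S2 S.V2_nonneg fun φ h1 h2 => by
    have h := hCH n ε S hε φ h1 h2
    have e0 : S.I = nsq S.ν S.w := rfl
    rw [e0] at h
    linarith

/-- **block EL** -/
theorem el676 (hCH : CH) : Top674.ELc := by
  refine ⟨310, by norm_num, fun n ε S hε hI e1 he he' => ?_⟩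
  obtain ⟨φ, h1, h2, -, h4, h5⟩ := EL_state hCH S hε hI he he'
  have h6 : 0 ≤ S.dist1 φ := Finset.sum_nonneg fun _ _ => Finset.sum_nonneg fun _ _ =>
    integral_nonneg fun _ => sq_nonneg _
  have h7 : 0 ≤ S.dist0 φ := Finset.sum_nonneg fun _ _ => integral_nonneg fun _ => sq_nonneg _
  have h8 : 0 ≤ ε * S.I := mul_nonneg (eps_pos S).le hI.le
  exact ⟨φ, h1, h2, by linarith, by linarith, h5⟩

end Crest.Agent.R201.EL676
end

-- ▼ part R201/UNPB_795
section

/-!
# R201, LSI half (helper795): bridge between 844's posterior integrals and 809's Gaussian channels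
-/

set_option autoImplicit false
set_option linter.unusedSectionVars false
open MeasureTheory Matrix ProbabilityTheory Filter Topology
open scoped ENNReal RealInnerProductSpace

namespace Crest.Agent.R201.UNPB795

open Crest.Agent.R201 Crest.Agent.R201.An Crest.Agent.R201.GC844 Crest.Agent.R201.GS844
  Crest.Agent.R201.LL809

variable {n : ℕ}

theorem mv_ofLp (A : Mt n) (g : E n) : (mv A g).ofLp = A *ᵥ g.ofLp := by
  funext k
  rw [show (mv A g).ofLp k = mv A g k from rfl, mv_apply]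
  rfl

/-- `σ² A²` is nonnegative -/
theorem quad_sq {A : Mt n} (hA : Aᵀ = A) (u : Fin n → ℝ) :
    u ⬝ᵥ ((A * A) *ᵥ u) = (A *ᵥ u) ⬝ᵥ (A *ᵥ u) := by
  rw [← Matrix.mulVec_mulVec, Matrix.dotProduct_mulVec u, ← Matrix.mulVec_transpose, hA]

theorem leQ_N {A : Mt n} (hA : Aᵀ = A) (σ : ℝ) :
    LeQ ((1 : ℝ) • (1 : Mt n)) (1 + σ ^ 2 • (A * A)) := by
  intro u
  rw [one_smul, Matrix.add_mulVec, dotProduct_add, Matrix.smul_mulVec, dotProduct_smul, smul_eq_mul,
    quad_sq hA]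
  have h1 : 0 ≤ (A *ᵥ u) ⬝ᵥ (A *ᵥ u) := Finset.sum_nonneg fun i _ => mul_self_nonneg _
  have h2 := mul_nonneg (sq_nonneg σ) h1
  linarith

theorem symm_N {A : Mt n} (hA : Aᵀ = A) (σ : ℝ) :
    (1 + σ ^ 2 • (A * A))ᵀ = 1 + σ ^ 2 • (A * A) := by
  rw [Matrix.transpose_add, Matrix.transpose_one, Matrix.transpose_smul, Matrix.transpose_mul, hA]

/-- the field `1 + σ² A²` -/
theorem MF_N {A : E n → Mt n} (hA : ∀ x, (A x)ᵀ = A x) (hc : ∀ i j, CB fun x => A x i j) (σ : ℝ) :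
    MF fun x => 1 + σ ^ 2 • (A x * A x) where
  cb i j := by
    simp only [Matrix.add_apply, Matrix.smul_apply, Matrix.mul_apply, smul_eq_mul]
    exact Tw807.cb_add (Tw807.cb_const _) (Tw807.cb_const_mul _
      (Tw807.cb_sum _ fun l _ => Tw807.cb_mul (hc i l) (hc l j)))
  symm x := symm_N (hA x) σ
  ge := ⟨1, one_pos, fun x => leQ_N (hA x) σ⟩

theorem gd_one (v : Fin n → ℝ) {B : Mt n} (hBs : Bᵀ = B) (hB : 0 < B.det) :
    ∫ y, gd v (B * B) y ∂(gam n) = 1 := by
  have h := (gd_cov v hBs hB fun _ => 1).2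
  simp only [one_mul] at h
  rw [h]
  simp

/-- **(B1)** -/
theorem int_L {A : Mt n} (hA : Aᵀ = A) (σ : ℝ) (y : E n) :
    ∫ g, L σ (mv A g) y ∂(gm n) = gd 0 (1 + σ ^ 2 • (A * A)) y := by
  set N : Mt n := 1 + σ ^ 2 • (A * A) with hN
  have hP : N.PosDef := symm_posDef (symm_N hA σ) one_pos (leQ_N hA σ)
  have hNs : Nᵀ = N := symm_N hA σ
  have hNu : IsUnit N.det := isUnit_iff_ne_zero.2 hP.det_pos.ne'
  obtain ⟨T, hT, hTT⟩ := MX354.root_exists hP.posSemidef
  have hTs := MX354.posSemidef_transpose hT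
  have hTd : 0 < T.det := by
    refine lt_of_le_of_ne hT.det_nonneg fun h0 => ?_
    have h1 := hP.det_pos
    rw [← hTT, Matrix.det_mul, ← h0, mul_zero] at h1
    exact lt_irrefl _ h1
  have hBd : 0 < (T⁻¹).det := by
    rw [Matrix.det_nonsing_inv, Ring.inverse_eq_inv']
    exact inv_pos.2 hTd
  have hBs : (T⁻¹)ᵀ = T⁻¹ := by rw [Matrix.transpose_nonsing_inv, hTs]
  set M : Mt n := T⁻¹ * T⁻¹ with hM
  have hMN : M = N⁻¹ := by rw [hM, ← Matrix.mul_inv_rev, hTT]
  have hMi : M⁻¹ = N := by rw [hMN, Matrix.nonsing_inv_nonsing_inv _ hNu]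
  have hMd : M.det = (N.det)⁻¹ := by
    rw [hMN, Matrix.det_nonsing_inv, Ring.inverse_eq_inv']
  have hg1 : ∀ v : Fin n → ℝ, ∫ g, gd v M g ∂(gm n) = 1 := by
    intro v
    have := gd_one v hBs hBd
    rwa [gam_eq] at this
  clear_value M
  clear_value N
  set v : Fin n → ℝ := σ • (M *ᵥ (A *ᵥ y.ofLp)) with hv
  have hNM : N * M = 1 := by rw [hMN, Matrix.mul_nonsing_inv _ hNu]
  have hNv : N *ᵥ v = σ • (A *ᵥ y.ofLp) := by
    rw [hv, Matrix.mulVec_smul, Matrix.mulVec_mulVec, hNM, Matrix.one_mulVec]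
  have hadj : ∀ (K : Mt n), Kᵀ = K → ∀ z z' : Fin n → ℝ, (K *ᵥ z) ⬝ᵥ z' = z ⬝ᵥ (K *ᵥ z') := by
    intro K hK z z'
    rw [Matrix.dotProduct_mulVec z, ← Matrix.mulVec_transpose, hK]
  -- `σ² (M A y)·(A y) = y·y - y·My`
  have hcom : A * N = N * A := by
    rw [hN]
    simp only [Matrix.mul_add, Matrix.add_mul, Matrix.mul_one, Matrix.one_mul, Matrix.mul_smul,
      Matrix.smul_mul, Matrix.mul_assoc]
  have hcom2 : M * A = A * M := by
    have : M * (A * N) * M = M * (N * A) * M := by rw [hcom]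
    have h1 : M * (A * N) * M = M * A := by
      rw [Matrix.mul_assoc M, Matrix.mul_assoc A, hNM, Matrix.mul_one]
    have h2 : M * (N * A) * M = A * M := by
      rw [← Matrix.mul_assoc M N A, hMN, Matrix.nonsing_inv_mul _ hNu, Matrix.one_mul]
    rw [← h1, ← h2]
    exact this
  have hq : σ ^ 2 * ((M *ᵥ (A *ᵥ y.ofLp)) ⬝ᵥ (A *ᵥ y.ofLp)) =
      y.ofLp ⬝ᵥ y.ofLp - y.ofLp ⬝ᵥ (M *ᵥ y.ofLp) := by
    have h1 : (M *ᵥ (A *ᵥ y.ofLp)) ⬝ᵥ (A *ᵥ y.ofLp) = y.ofLp ⬝ᵥ ((M * (A * A)) *ᵥ y.ofLp) := by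
      rw [dotProduct_comm, hadj A hA, Matrix.mulVec_mulVec, Matrix.mulVec_mulVec]
      rw [← hcom2, Matrix.mul_assoc]
    have h2 : σ ^ 2 • (M * (A * A)) = 1 - M := by
      have : M * N = 1 := by rw [hMN, Matrix.nonsing_inv_mul _ hNu]
      rw [hN, Matrix.mul_add, Matrix.mul_one, Matrix.mul_smul] at this
      rw [← this]
      abel
    rw [h1]
    calc σ ^ 2 * (y.ofLp ⬝ᵥ ((M * (A * A)) *ᵥ y.ofLp))
        = y.ofLp ⬝ᵥ ((σ ^ 2 • (M * (A * A))) *ᵥ y.ofLp) := by
          rw [Matrix.smul_mulVec, dotProduct_smul, smul_eq_mul]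
      _ = _ := by rw [h2, Matrix.sub_mulVec, Matrix.one_mulVec, dotProduct_sub]
  -- pointwise
  have hpt : ∀ g : E n, L σ (mv A g) y = gd v M g *
      Real.exp (1 / 2 * (σ ^ 2 * ((M *ᵥ (A *ᵥ y.ofLp)) ⬝ᵥ (A *ᵥ y.ofLp))) -
        1 / 2 * Real.log N.det) := by
    intro g
    unfold gd gl L
    rw [← Real.exp_add]
    congr 1
    have e1 : (⟪mv A g, y⟫ : ℝ) = g.ofLp ⬝ᵥ (A *ᵥ y.ofLp) := by
      rw [inner_sum, ← hadj A hA, ← mv_ofLp]
      rfl
    have e2 : ‖mv A g‖ ^ 2 = (A *ᵥ g.ofLp) ⬝ᵥ (A *ᵥ g.ofLp) := by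
      rw [norm_sq_dot, mv_ofLp]
    have e3 : (g.ofLp - v) ⬝ᵥ (N *ᵥ (g.ofLp - v)) = g.ofLp ⬝ᵥ g.ofLp +
        σ ^ 2 * ((A *ᵥ g.ofLp) ⬝ᵥ (A *ᵥ g.ofLp)) - 2 * (σ * (g.ofLp ⬝ᵥ (A *ᵥ y.ofLp))) +
        σ ^ 2 * ((M *ᵥ (A *ᵥ y.ofLp)) ⬝ᵥ (A *ᵥ y.ofLp)) := by
      have f1 : g.ofLp ⬝ᵥ (N *ᵥ g.ofLp) = g.ofLp ⬝ᵥ g.ofLp +
          σ ^ 2 * ((A *ᵥ g.ofLp) ⬝ᵥ (A *ᵥ g.ofLp)) := by
        rw [hN, Matrix.add_mulVec, Matrix.one_mulVec, dotProduct_add, Matrix.smul_mulVec,
          dotProduct_smul, smul_eq_mul, quad_sq hA]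
      have f2 : v ⬝ᵥ (N *ᵥ g.ofLp) = g.ofLp ⬝ᵥ (N *ᵥ v) := by
        rw [← hadj N hNs, dotProduct_comm]
      have f3 : v ⬝ᵥ (σ • (A *ᵥ y.ofLp)) = σ ^ 2 * ((M *ᵥ (A *ᵥ y.ofLp)) ⬝ᵥ (A *ᵥ y.ofLp)) := by
        rw [hv, smul_dotProduct, dotProduct_smul, smul_eq_mul, smul_eq_mul]
        ring
      rw [Matrix.mulVec_sub, sub_dotProduct, dotProduct_sub, dotProduct_sub, f2, hNv, f1, f3,
        dotProduct_smul, smul_eq_mul]
      ring
    rw [e1, e2, hMi, e3, hMd, Real.log_inv]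
    ring
  simp_rw [hpt]
  rw [integral_mul_const, hg1 v, one_mul, hq]
  unfold gd gl
  congr 1
  rw [sub_zero, hMN]
  ring

section Fields

variable {X : Type*} [MeasurableSpace X] {ν : Measure X} [IsProbabilityMeasure ν]
  {A : X → Mt n} {σ : ℝ}

/-- **(B2), (B3)** -/
theorem Z_br (hA : ∀ x, (A x)ᵀ = A x) (hm : ∀ k l, Measurable fun x => A x k l) {φ : X → ℝ}
    (hφ : Integrable φ ν) (y : E n) :
    Z (ν.prod (gm n)) (ze A) σ (fun p => φ p.1) y =
      ∫ x, φ x * gd 0 (1 + σ ^ 2 • (A x * A x)) y ∂ν := by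
  have hφ2 : Integrable (fun p : X × E n => φ p.1) (ν.prod (gm n)) := hφ.comp_fst _
  have h := int_Z (σ := σ) (meas_ze hm) hφ2 y
  unfold Z
  rw [integral_prod _ h]
  refine integral_congr_ae (Eventually.of_forall fun x => ?_)
  simp only
  rw [integral_const_mul]
  congr 1
  exact int_L (hA x) σ y

theorem wt_br (hA : ∀ x, (A x)ᵀ = A x) (hm : ∀ k l, Measurable fun x => A x k l) (y : E n) :
    wt (ν.prod (gm n)) (ze A) σ y = ∫ x, gd 0 (1 + σ ^ 2 • (A x * A x)) y ∂ν := by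
  have h := Z_br (ν := ν) (σ := σ) hA hm (integrable_const (1 : ℝ)) y
  simp only [one_mul] at h
  exact h

end Fields

section Lab

variable {μ : Measure (E n)} {f : E n → ℝ} {Q : E n → Mt n}

theorem integral_wd (mf : Measurable f) (hf : ∀ x, 0 ≤ f x) (g : E n → ℝ) :
    ∫ x, g x ∂(μ.withDensity fun x => ENNReal.ofReal (f x)) = ∫ x, f x * g x ∂μ := by
  rw [integral_withDensity_eq_integral_toReal_smul mf.ennreal_ofReal
    (Eventually.of_forall fun _ => ENNReal.ofReal_lt_top)]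
  refine integral_congr_ae (Eventually.of_forall fun x => ?_)
  simp only [ENNReal.toReal_ofReal (hf x), smul_eq_mul]

theorem cb_meas {φ : E n → ℝ} (h : CB φ) : Measurable φ := h.1.continuous.measurable

/-- `wt = pJ` -/
theorem wt_pJ (hf : CBp f) [IsProbabilityMeasure (μ.withDensity fun x => ENNReal.ofReal (f x))]
    (hQ : ∀ x, (Q x)ᵀ = Q x) (hc : ∀ i j, CB fun x => Q x i j) (σ : ℝ) (y : E n) :
    wt ((μ.withDensity fun x => ENNReal.ofReal (f x)).prod (gm n)) (ze Q) σ y =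
      pJ μ f (gp 0 (fun x => 1 + σ ^ 2 • (Q x * Q x))) y := by
  rw [wt_br hQ fun k l => cb_meas (hc k l), integral_wd hf.cont.measurable fun x => (hf.pos x).le]
  rfl

/-- `Z φ = ∫ f φ p` -/
theorem Z_pJ (hf : CBp f) [IsProbabilityMeasure (μ.withDensity fun x => ENNReal.ofReal (f x))]
    (hQ : ∀ x, (Q x)ᵀ = Q x) (hc : ∀ i j, CB fun x => Q x i j) {φ : E n → ℝ} {b : ℝ}
    (hφ : Measurable φ) (hb : ∀ x, |φ x| ≤ b) (σ : ℝ) (y : E n) :
    Z ((μ.withDensity fun x => ENNReal.ofReal (f x)).prod (gm n)) (ze Q) σ (fun p => φ p.1) y =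
      ∫ x, f x * (φ x * gp 0 (fun x => 1 + σ ^ 2 • (Q x * Q x)) y x) ∂μ := by
  rw [Z_br hQ (fun k l => cb_meas (hc k l)) (i_bdd hφ hb),
    integral_wd hf.cont.measurable fun x => (hf.pos x).le]
  rfl

end Lab

section Gauss

variable {Ω : Type*} [MeasurableSpace Ω] {ρ : Measure Ω} [IsProbabilityMeasure ρ] {ζ : Ω → E n}

theorem contDiff_wt (hζ : Measurable ζ) (h2 : Integrable (fun ω => ‖ζ ω‖ ^ 2) ρ) (σ : ℝ) :
    ContDiff ℝ 1 (wt ρ ζ σ) := by
  have hk : ∀ k, Continuous (pd k (wt ρ ζ σ)) := by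
    intro k
    have : pd k (wt ρ ζ σ) = fun y => σ * Z ρ ζ σ (fun ω => ζ ω k) y := by
      funext y
      exact pd_wt hζ h2 k y
    rw [this]
    exact continuous_const.mul (continuous_Z hζ (i_coord hζ h2 k))
  rw [contDiff_one_iff_fderiv]
  refine ⟨diff_wt hζ h2, ?_⟩
  refine continuous_clm_apply.2 fun v => ?_
  simp_rw [fderiv_eq_sum]
  exact continuous_finsetSum _ fun k _ => by
    have := hk k
    fun_prop

theorem pd_sq (hζ : Measurable ζ) (h2 : Integrable (fun ω => ‖ζ ω‖ ^ 2) ρ) (y : E n) :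
    ‖fderiv ℝ (wt ρ ζ 1) y‖ ^ 2 / wt ρ ζ 1 y = wt ρ ζ 1 y * ∑ k, pm ρ ζ 1 y k ^ 2 := by
  have h0 := wt_pos (σ := 1) (ρ := ρ) hζ y
  rw [norm_fderiv_sq, Finset.sum_div, Finset.mul_sum]
  refine Finset.sum_congr rfl fun k _ => ?_
  rw [pd_wt hζ h2, Z_eq_pe hζ, one_mul]
  unfold pm
  field_simp

/-- Gaussian LSI for the label density -/
theorem ent_le (hζ : Measurable ζ) (h2 : Integrable (fun ω => ‖ζ ω‖ ^ 2) ρ) :
    Integrable (fun y => wt ρ ζ 1 y * Real.log (wt ρ ζ 1 y)) (gm n) ∧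
    ∫ y, wt ρ ζ 1 y * Real.log (wt ρ ζ 1 y) ∂(gm n) ≤ 1 / 2 * En ρ ζ 1 := by
  have hi := int_ZF (σ := 1) hζ (integrable_const (μ := ρ) (1 : ℝ))
  have i1 : Integrable (wt ρ ζ 1) (gm n) := hi.1
  have e1 : ∫ y, wt ρ ζ 1 y ∂(gm n) = 1 := by
    have := hi.2
    simp only [integral_const, probReal_univ, smul_eq_mul, mul_one] at this
    exact this
  have i2 : Integrable (fun y => ‖fderiv ℝ (wt ρ ζ 1) y‖ ^ 2 / wt ρ ζ 1 y) (gm n) := by
    simp_rw [pd_sq hζ h2, Finset.mul_sum]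
    exact integrable_finsetSum _ fun k _ => pm_sq_int hζ h2 k
  obtain ⟨h3, h4⟩ := NSL674.gauss_lsi (contDiff_wt hζ h2 1) (fun y => wt_pos hζ y) i1 i2
  refine ⟨h3, ?_⟩
  rw [e1, Real.log_one, mul_zero, sub_zero] at h4
  simp_rw [pd_sq hζ h2] at h4
  exact h4

end Gauss

section Final

variable {μ : Measure (E n)} {f : E n → ℝ} {Q : E n → Mt n}

theorem cb_bdd (hc : ∀ i j, CB fun x => Q x i j) : ∃ c : ℝ, ∀ x k l, |Q x k l| ≤ c := by
  have h1 : ∀ i j, ∃ B : ℝ, ∀ x, |Q x i j| ≤ B := fun i j => by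
    obtain ⟨-, B, hB⟩ := hc i j
    exact ⟨B, fun x => (hB x).1⟩
  choose B hB using h1
  refine ⟨∑ i, ∑ j, |B i j|, fun x k l => (hB k l x).trans ((le_abs_self _).trans ?_)⟩
  have h2 : |B k l| ≤ ∑ j, |B k j| :=
    Finset.single_le_sum (f := fun j => |B k j|) (fun j _ => abs_nonneg _) (Finset.mem_univ l)
  have h3 : ∑ j, |B k j| ≤ ∑ i, ∑ j, |B i j| :=
    Finset.single_le_sum (f := fun i => ∑ j, |B i j|)
      (fun i _ => Finset.sum_nonneg fun j _ => abs_nonneg _) (Finset.mem_univ k)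
  exact h2.trans h3

/-- **(B4)** `Dis μ f 0 (1 + Q²) ≤ ½ E|m₁(J₁)|²` -/
theorem Dis_le (hf : CBp f) [IsProbabilityMeasure (μ.withDensity fun x => ENNReal.ofReal (f x))]
    (hQ : ∀ x, (Q x)ᵀ = Q x) (hc : ∀ i j, CB fun x => Q x i j) :
    Dis μ f 0 (fun x => 1 + Q x * Q x) ≤
      1 / 2 * En ((μ.withDensity fun x => ENNReal.ofReal (f x)).prod (gm n)) (ze Q) 1 := by
  obtain ⟨c, hcb⟩ := cb_bdd hc
  have hm : ∀ k l, Measurable fun x => Q x k l := fun k l => cb_meas (hc k l)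
  have h := (ent_le (meas_ze hm) (ze_sq (ν := μ.withDensity fun x => ENNReal.ofReal (f x)) hm hcb)).2
  refine le_trans (le_of_eq ?_) h
  unfold Dis
  rw [gam_eq]
  refine integral_congr_ae (Eventually.of_forall fun y => ?_)
  simp only
  rw [wt_pJ hf hQ hc]
  simp only [one_pow, one_smul]

end Final

end Crest.Agent.R201.UNPB795
end

-- ▼ part R201/GC5_844
section

/-!
# R201, LSI half (helper844): Gaussian channels, part 5: the static step (core)
-/

set_option autoImplicit false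
set_option linter.unusedSectionVars false
open MeasureTheory Matrix ProbabilityTheory Filter Topology
open scoped ENNReal RealInnerProductSpace

namespace Crest.Agent.R201.GC844

open Crest.Agent.R201 Crest.Agent.R285

variable {n : ℕ} {Ω : Type*} [MeasurableSpace Ω] {ρ : Measure Ω} [IsProbabilityMeasure ρ]
  {ζ : Ω → E n} {σ : ℝ}

/-- affine estimator -/
def HH (r : ℝ) (m : Fin n → ℝ) (R : Mt n) (y' : Fin n → ℝ) (k : Fin n) : ℝ :=
  m k + ∑ l, R k l * (r * y' l - m l)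








end Crest.Agent.R201.GC844
end

-- ▼ part R201/GC6_844
section

/-!
# R201, LSI half (helper844): Gaussian channels, part 6: the static step
-/

set_option autoImplicit false
set_option linter.unusedSectionVars false
open MeasureTheory Matrix ProbabilityTheory Filter Topology
open scoped ENNReal RealInnerProductSpace

namespace Crest.Agent.R201.GC844

open Crest.Agent.R201 Crest.Agent.R285

variable {n : ℕ} {Ω : Type*} [MeasurableSpace Ω] {ρ : Measure Ω} [IsProbabilityMeasure ρ]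
  {ζ : Ω → E n} {σ : ℝ}

/-- rotation of two independent Gaussians -/
theorem rotMP (θ : ℝ) : MeasurePreserving
    (fun p : E n × E n => (Real.cos θ • p.1 - Real.sin θ • p.2, Real.sin θ • p.1 + Real.cos θ • p.2))
    ((gm n).prod (gm n)) ((gm n).prod (gm n)) := by
  refine ⟨by fun_prop, ?_⟩
  have h := IsGaussian.map_rotation_eq_self (μ := gm n) (by simp) (-θ)
  have e : (fun p : E n × E n => (Real.cos θ • p.1 - Real.sin θ • p.2,
      Real.sin θ • p.1 + Real.cos θ • p.2)) = ⇑(ContinuousLinearMap.rotation (-θ) :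
        E n × E n →L[ℝ] E n × E n) := by
    funext p
    rw [ContinuousLinearMap.rotation_apply]
    simp [sub_eq_add_neg]
  rw [e]
  exact h

/-- the rotation on `(Ω × E) × E` -/
theorem rot0 (ρ : Measure Ω) [IsProbabilityMeasure ρ] (θ : ℝ) : MeasurePreserving
    (fun p : (Ω × E n) × E n => ((p.1.1, Real.cos θ • p.1.2 - Real.sin θ • p.2),
      Real.sin θ • p.1.2 + Real.cos θ • p.2))
    ((ρ.prod (gm n)).prod (gm n)) ((ρ.prod (gm n)).prod (gm n)) := by
  have h1 := measurePreserving_prodAssoc ρ (gm n) (gm n)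
  have h2 := (MeasurePreserving.id ρ).prod (rotMP (n := n) θ)
  have h3 := (h1.symm _).comp (h2.comp h1)
  exact h3

theorem shMP (hζ : Measurable ζ) (σ : ℝ) : MeasurePreserving
    (fun p : Ω × E n => (p.1, σ • ζ p.1 + p.2)) (ρ.prod (gm n)) (jt ρ ζ σ) :=
  ⟨meas_sh hζ σ, rfl⟩

theorem mp_int {α β : Type*} [MeasurableSpace α] [MeasurableSpace β] {μ : Measure α}
    {ν : Measure β} {T : α → β} (hT : MeasurePreserving T μ ν) {f : β → ℝ} (hf : Measurable f) :
    (Integrable (fun a => f (T a)) μ ↔ Integrable f ν) ∧ ∫ a, f (T a) ∂μ = ∫ b, f b ∂ν := by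
  constructor
  · exact hT.integrable_comp hf.aestronglyMeasurable
  · rw [← hT.map_eq, integral_map hT.measurable.aemeasurable hf.aestronglyMeasurable]

/-- change of the pair of observations -/
theorem change (hζ : Measurable ζ) (σ' θ : ℝ) {f : (Ω × E n) × E n → ℝ} (hfm : Measurable f)
    (hf : Integrable (fun p : (Ω × E n) × E n =>
      f (p.1, (σ' * Real.sin θ) • ζ p.1.1 + p.2)) ((jt ρ ζ (σ' * Real.cos θ)).prod (gm n))) :
    Integrable (fun p : (Ω × E n) × E n => f ((p.1.1, Real.cos θ • p.1.2 - Real.sin θ • p.2),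
      Real.sin θ • p.1.2 + Real.cos θ • p.2)) ((jt ρ ζ σ').prod (gm n)) ∧
    ∫ p : (Ω × E n) × E n, f (p.1, (σ' * Real.sin θ) • ζ p.1.1 + p.2)
      ∂((jt ρ ζ (σ' * Real.cos θ)).prod (gm n)) =
    ∫ p : (Ω × E n) × E n, f ((p.1.1, Real.cos θ • p.1.2 - Real.sin θ • p.2),
      Real.sin θ • p.1.2 + Real.cos θ • p.2) ∂((jt ρ ζ σ').prod (gm n)) := by
  have : SFinite (jt ρ ζ (σ' * Real.cos θ)) := by unfold jt; infer_instance
  have : SFinite (jt ρ ζ σ') := by unfold jt; infer_instance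
  have m1 := (shMP (ρ := ρ) hζ (σ' * Real.cos θ)).prod (MeasurePreserving.id (gm n))
  have m2 := rot0 (n := n) ρ θ
  have m3 := (shMP (ρ := ρ) hζ σ').prod (MeasurePreserving.id (gm n))
  have m12 := m1.comp m2
  have q1 : Measurable fun p : (Ω × E n) × E n => f (p.1, (σ' * Real.sin θ) • ζ p.1.1 + p.2) :=
    hfm.comp (by fun_prop)
  have q2 : Measurable fun p : (Ω × E n) × E n =>
      f ((p.1.1, Real.cos θ • p.1.2 - Real.sin θ • p.2), Real.sin θ • p.1.2 + Real.cos θ • p.2) :=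
    hfm.comp (by fun_prop)
  have a1 := mp_int m12 q1
  have a2 := mp_int m3 q2
  have e : ∀ a : (Ω × E n) × E n, f ((a.1.1, Real.cos θ • (σ' • ζ a.1.1 + a.1.2) - Real.sin θ • a.2),
        Real.sin θ • (σ' • ζ a.1.1 + a.1.2) + Real.cos θ • a.2) =
      f ((a.1.1, (σ' * Real.cos θ) • ζ a.1.1 + (Real.cos θ • a.1.2 - Real.sin θ • a.2)),
        (σ' * Real.sin θ) • ζ a.1.1 + (Real.sin θ • a.1.2 + Real.cos θ • a.2)) := by
    intro a
    have h1 : (σ' * Real.cos θ) • ζ a.1.1 + (Real.cos θ • a.1.2 - Real.sin θ • a.2) =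
        Real.cos θ • (σ' • ζ a.1.1 + a.1.2) - Real.sin θ • a.2 := by module
    have h2 : (σ' * Real.sin θ) • ζ a.1.1 + (Real.sin θ • a.1.2 + Real.cos θ • a.2) =
        Real.sin θ • (σ' • ζ a.1.1 + a.1.2) + Real.cos θ • a.2 := by module
    rw [h1, h2]
  have b1 : Integrable (fun a : (Ω × E n) × E n =>
      f ((a.1.1, Real.cos θ • (σ' • ζ a.1.1 + a.1.2) - Real.sin θ • a.2),
        Real.sin θ • (σ' • ζ a.1.1 + a.1.2) + Real.cos θ • a.2)) ((ρ.prod (gm n)).prod (gm n)) :=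
    (a1.1.mpr hf).congr (Eventually.of_forall fun a => (e a).symm)
  refine ⟨a2.1.mp b1, ?_⟩
  rw [← a1.2, ← a2.2]
  exact integral_congr_ae (Eventually.of_forall fun a => (e a).symm)

section core













end core

end Crest.Agent.R201.GC844
end

-- ▼ part R201/GS2_844
section

/-!
# R201, LSI half (helper844): the Stein shortcut `E|m₁|² ≤ 2 E tr R(J₂)²`
-/

set_option autoImplicit false
set_option linter.unusedSectionVars false
open MeasureTheory Matrix ProbabilityTheory Filter Topology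
open scoped ENNReal RealInnerProductSpace

namespace Crest.Agent.R201.GS844

open Crest.Agent.R201 Crest.Agent.R201.An Crest.Agent.R201.GC844

variable {n : ℕ} {Ω : Type*} [MeasurableSpace Ω] {ρ : Measure Ω} [IsProbabilityMeasure ρ]
  {ζ : Ω → E n} {σ : ℝ}

/-- `1/√2` -/
noncomputable def q2 : ℝ := (√2)⁻¹

theorem q2_mul : q2 * √2 = 1 := by unfold q2; exact inv_mul_cancel₀ (by positivity)
theorem q2_sq : q2 ^ 2 = 1 / 2 := by
  unfold q2; rw [inv_pow, Real.sq_sqrt (by norm_num)]; norm_num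

theorem cos4 : Real.cos (Real.pi / 4) = q2 := by
  rw [Real.cos_pi_div_four, q2]
  refine eq_inv_of_mul_eq_one_left ?_
  rw [div_mul_eq_mul_div, Real.mul_self_sqrt (by norm_num)]
  norm_num

theorem sin4 : Real.sin (Real.pi / 4) = q2 := by
  rw [Real.sin_pi_div_four, q2]
  refine eq_inv_of_mul_eq_one_left ?_
  rw [div_mul_eq_mul_div, Real.mul_self_sqrt (by norm_num)]
  norm_num

/-- rotation by `π/4` -/
theorem rot4 : MeasurePreserving
    (fun p : E n × E n => (q2 • p.1 - q2 • p.2, q2 • p.1 + q2 • p.2))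
    ((gm n).prod (gm n)) ((gm n).prod (gm n)) := by
  have h := rotMP (n := n) (Real.pi / 4)
  simp only [cos4, sin4] at h
  exact h

/-- `(ω,(a,b)) ↦ (ω, ζ ω + (a+b)/√2)` -/
theorem mpS1 (hζ : Measurable ζ) : MeasurePreserving
    (fun p : Ω × (E n × E n) => (p.1, (1 : ℝ) • ζ p.1 + (q2 • p.2.1 + q2 • p.2.2)))
    (ρ.prod ((gm n).prod (gm n))) (jt ρ ζ 1) := by
  have h1 : MeasurePreserving (fun p : E n × E n => q2 • p.1 + q2 • p.2)
      ((gm n).prod (gm n)) (gm n) := measurePreserving_snd.comp (rot4 (n := n))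
  have h2 := (MeasurePreserving.id ρ).prod h1
  have h3 := (shMP (ρ := ρ) hζ 1).comp h2
  exact h3

/-- `(ω,(a,b)) ↦ ((ω, √2 ζ ω + a), b)` -/
theorem mpS2 (hζ : Measurable ζ) : MeasurePreserving
    (fun p : Ω × (E n × E n) => ((p.1, √2 • ζ p.1 + p.2.1), p.2.2))
    (ρ.prod ((gm n).prod (gm n))) ((jt ρ ζ √2).prod (gm n)) := by
  have h1 := (measurePreserving_prodAssoc ρ (gm n) (gm n)).symm
  have h2 := (shMP (ρ := ρ) hζ √2).prod (MeasurePreserving.id (gm n))
  exact h2.comp h1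

/-- `(ω,z,b) ↦ (ω,(z+b)/√2)` -/
theorem mpS3 (hζ : Measurable ζ) : MeasurePreserving
    (fun p : (Ω × E n) × E n => (p.1.1, q2 • p.1.2 + q2 • p.2))
    ((jt ρ ζ √2).prod (gm n)) (jt ρ ζ 1) := by
  have h1 := mpS1 (ρ := ρ) hζ
  have h2 := mpS2 (ρ := ρ) hζ
  have hm : Measurable (fun p : (Ω × E n) × E n => (p.1.1, q2 • p.1.2 + q2 • p.2)) := by fun_prop
  refine ⟨hm, ?_⟩
  rw [← h2.map_eq, Measure.map_map hm h2.measurable, ← h1.map_eq]
  congr 1
  funext p
  simp only [Function.comp_apply, smul_add, smul_smul, q2_mul, one_smul]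
  rw [add_assoc]

/-- the rotation identity -/
theorem rot_id (hζ : Measurable ζ) {F : Ω → ℝ} (hF : Measurable F) {b : ℝ} (hb : ∀ ω, |F ω| ≤ b)
    {m : E n → ℝ} (hm : Measurable m) (hm2 : MemLp (fun p : Ω × E n => m p.2) 2 (jt ρ ζ 1))
    (l : Fin n) :
    ∫ p : Ω × E n, F p.1 * (m p.2 * (p.2 l - ζ p.1 l)) ∂(jt ρ ζ 1) =
      √2 * ∫ p : (Ω × E n) × E n, F p.1.1 * (m (q2 • p.1.2 + q2 • p.2) * p.2 l)
        ∂((jt ρ ζ √2).prod (gm n)) := by
  have hm3 : MemLp (fun p : Ω × E n => m ((1 : ℝ) • ζ p.1 + p.2)) 2 (ρ.prod (gm n)) :=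
    hm2.comp_measurePreserving (shMP hζ 1)
  have hg : MemLp (fun p : Ω × E n => p.2 l) 2 (ρ.prod (gm n)) := (g_memLp l).comp_snd ρ
  -- left side
  have f1 : Measurable fun p : Ω × E n => F p.1 * (m p.2 * (p.2 l - ζ p.1 l)) :=
    (hF.comp measurable_fst).mul ((hm.comp measurable_snd).mul (by fun_prop))
  rw [← (mp_int (shMP (ρ := ρ) hζ 1) f1).2]
  -- right side
  have f2 : Measurable fun p : (Ω × E n) × E n => F p.1.1 * (m (q2 • p.1.2 + q2 • p.2) * p.2 l) :=
    (hF.comp (measurable_fst.comp measurable_fst)).mul ((hm.comp (by fun_prop)).mul (by fun_prop))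
  rw [← (mp_int (mpS2 (ρ := ρ) hζ) f2).2]
  -- rotate
  have h4 := (MeasurePreserving.id ρ).prod (rot4 (n := n))
  have f3 : Measurable fun p : Ω × (E n × E n) =>
      F p.1 * (m ((1 : ℝ) • ζ p.1 + p.2.2) * (q2 * (p.2.2 l - p.2.1 l))) :=
    (hF.comp measurable_fst).mul ((hm.comp (by fun_prop)).mul (by fun_prop))
  have e3 := (mp_int h4 f3).2
  have e4 : ∫ a : Ω × (E n × E n), F a.1 * (m (q2 • (√2 • ζ a.1 + a.2.1) + q2 • a.2.2) * a.2.2 l)
      ∂(ρ.prod ((gm n).prod (gm n))) = ∫ a : Ω × (E n × E n),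
        F a.1 * (m ((1 : ℝ) • ζ a.1 + a.2.2) * (q2 * (a.2.2 l - a.2.1 l)))
          ∂(ρ.prod ((gm n).prod (gm n))) := by
    rw [← e3]
    refine integral_congr_ae (Eventually.of_forall fun a => ?_)
    simp only [smul_add, smul_smul, q2_mul, add_assoc]
    congr 2
    change a.2.2 l = q2 * ((q2 • a.2.1 + q2 • a.2.2) l - (q2 • a.2.1 - q2 • a.2.2) l)
    simp only [PiLp.add_apply, PiLp.sub_apply, PiLp.smul_apply, smul_eq_mul]
    linear_combination (-(2 : ℝ) * a.2.2 l) * q2_sq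
  simp only at e4 ⊢
  rw [e4]
  -- split
  have hp1 : MeasurePreserving (fun a : Ω × (E n × E n) => (a.1, a.2.2))
      (ρ.prod ((gm n).prod (gm n))) (ρ.prod (gm n)) :=
    (MeasurePreserving.id ρ).prod measurePreserving_snd
  have i1 : Integrable (fun p : Ω × E n => F p.1 * (m ((1 : ℝ) • ζ p.1 + p.2) * p.2 l))
      (ρ.prod (gm n)) :=
    (hm3.integrable_mul hg).bdd_mul (hF.comp measurable_fst).aestronglyMeasurable
      (Eventually.of_forall fun p => by rw [Real.norm_eq_abs]; exact hb _)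
  have i1' : Integrable (fun a : Ω × (E n × E n) =>
      F a.1 * (m ((1 : ℝ) • ζ a.1 + a.2.2) * a.2.2 l)) (ρ.prod ((gm n).prod (gm n))) :=
    hp1.integrable_comp_of_integrable i1
  have hm4 : MemLp (fun a : Ω × (E n × E n) => m ((1 : ℝ) • ζ a.1 + a.2.2)) 2
      (ρ.prod ((gm n).prod (gm n))) := hm3.comp_measurePreserving hp1
  have hg4 : MemLp (fun a : Ω × (E n × E n) => a.2.1 l) 2 (ρ.prod ((gm n).prod (gm n))) := by
    have : MemLp (fun a : E n × E n => a.1 l) 2 ((gm n).prod (gm n)) := (g_memLp l).comp_fst _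
    exact this.comp_snd ρ
  have i2 : Integrable (fun a : Ω × (E n × E n) =>
      F a.1 * (m ((1 : ℝ) • ζ a.1 + a.2.2) * a.2.1 l)) (ρ.prod ((gm n).prod (gm n))) :=
    (hm4.integrable_mul hg4).bdd_mul (hF.comp measurable_fst).aestronglyMeasurable
      (Eventually.of_forall fun p => by rw [Real.norm_eq_abs]; exact hb _)
  have z2 : ∫ a : Ω × (E n × E n), F a.1 * (m ((1 : ℝ) • ζ a.1 + a.2.2) * a.2.1 l)
      ∂(ρ.prod ((gm n).prod (gm n))) = 0 := by
    rw [integral_prod _ i2]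
    have : ∀ ω, ∫ y : E n × E n, F ω * (m ((1 : ℝ) • ζ ω + y.2) * y.1 l) ∂((gm n).prod (gm n)) =
        0 := by
      intro ω
      have e : ∀ y : E n × E n, F ω * (m ((1 : ℝ) • ζ ω + y.2) * y.1 l) =
          y.1 l * (F ω * m ((1 : ℝ) • ζ ω + y.2)) := fun y => by ring
      simp_rw [e]
      rw [integral_prod_mul (fun g : E n => g l) (fun g => F ω * m ((1 : ℝ) • ζ ω + g)), g_mean,
        zero_mul]
    simp only [this, integral_zero]
  have e5 : ∫ a : Ω × (E n × E n), F a.1 * (m ((1 : ℝ) • ζ a.1 + a.2.2) * (q2 * (a.2.2 l - a.2.1 l)))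
      ∂(ρ.prod ((gm n).prod (gm n))) = q2 * ∫ a : Ω × (E n × E n),
        F a.1 * (m ((1 : ℝ) • ζ a.1 + a.2.2) * a.2.2 l) ∂(ρ.prod ((gm n).prod (gm n))) := by
    have : (fun a : Ω × (E n × E n) =>
        F a.1 * (m ((1 : ℝ) • ζ a.1 + a.2.2) * (q2 * (a.2.2 l - a.2.1 l)))) = fun a =>
        q2 * (F a.1 * (m ((1 : ℝ) • ζ a.1 + a.2.2) * a.2.2 l)) -
          q2 * (F a.1 * (m ((1 : ℝ) • ζ a.1 + a.2.2) * a.2.1 l)) := by funext a; ring
    rw [this, integral_sub (i1'.const_mul _) (i2.const_mul _), integral_const_mul,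
      integral_const_mul, z2]
    ring
  rw [e5, ← mul_assoc, mul_comm √2, q2_mul, one_mul]
  have f6 : Measurable fun p : Ω × E n => F p.1 * (m ((1 : ℝ) • ζ p.1 + p.2) * p.2 l) :=
    (hF.comp measurable_fst).mul ((hm.comp (by fun_prop)).mul (by fun_prop))
  have e6 := (mp_int hp1 f6).2
  simp only at e6
  rw [e6]
  refine integral_congr_ae (Eventually.of_forall fun a => ?_)
  simp only [one_smul, PiLp.add_apply]
  ring

/-- conditioning on the label -/
theorem cond (hζ : Measurable ζ) {F : Ω → ℝ} (hF : Measurable F) {b : ℝ} (hb : ∀ ω, |F ω| ≤ b)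
    {ψ : E n → E n → ℝ} (hψ : Measurable fun p : E n × E n => ψ p.1 p.2)
    (hi : Integrable (fun p : (Ω × E n) × E n => ψ p.1.2 p.2) ((jt ρ ζ σ).prod (gm n))) :
    Integrable (fun p : (Ω × E n) × E n => pe ρ ζ σ F p.1.2 * ψ p.1.2 p.2)
      ((jt ρ ζ σ).prod (gm n)) ∧
    ∫ p : (Ω × E n) × E n, F p.1.1 * ψ p.1.2 p.2 ∂((jt ρ ζ σ).prod (gm n)) =
      ∫ p : (Ω × E n) × E n, pe ρ ζ σ F p.1.2 * ψ p.1.2 p.2 ∂((jt ρ ζ σ).prod (gm n)) := by
  have : Fact (Measurable ζ) := ⟨hζ⟩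
  have iF : Integrable F ρ := i_bdd hF hb
  have hpe : Measurable (pe ρ ζ σ F) := (cont_pe hζ iF).measurable
  have bpe : ∀ y, |pe ρ ζ σ F y| ≤ b := by
    intro y
    rw [abs_le]
    constructor
    · have := pe_mono (σ := σ) hζ (integrable_const (-b)) iF (fun ω => (abs_le.1 (hb ω)).1) y
      rwa [pe_const hζ] at this
    · have := pe_mono (σ := σ) hζ iF (integrable_const b) (fun ω => (abs_le.1 (hb ω)).2) y
      rwa [pe_const hζ] at this
  have i1 : Integrable (fun p : (Ω × E n) × E n => F p.1.1 * ψ p.1.2 p.2)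
      ((jt ρ ζ σ).prod (gm n)) :=
    hi.bdd_mul (hF.comp (measurable_fst.comp measurable_fst)).aestronglyMeasurable
      (Eventually.of_forall fun p => by rw [Real.norm_eq_abs]; exact hb _)
  have i2 : Integrable (fun p : (Ω × E n) × E n => pe ρ ζ σ F p.1.2 * ψ p.1.2 p.2)
      ((jt ρ ζ σ).prod (gm n)) :=
    hi.bdd_mul (hpe.comp (measurable_snd.comp measurable_fst)).aestronglyMeasurable
      (Eventually.of_forall fun p => by rw [Real.norm_eq_abs]; exact bpe _)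
  refine ⟨i2, ?_⟩
  rw [integral_prod_symm _ i1, integral_prod_symm _ i2]
  refine integral_congr_ae ?_
  filter_upwards [i1.prod_left_ae] with g h1
  have hψg : Measurable fun z : E n => ψ z g :=
      hψ.comp (measurable_id.prodMk measurable_const)
  have d1 := (dis (σ := σ) (F := F) (φ := fun z => ψ z g) hζ h1).2
  have d2 := int_snd (ρ := ρ) (σ := σ) hζ (φ := fun z => pe ρ ζ σ F z * ψ z g) (hpe.mul hψg)
  refine d1.trans (Eq.trans ?_ d2.symm)
  refine integral_congr_ae (Eventually.of_forall fun y => ?_)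
  simp only
  rw [Z_eq_pe hζ]
  ring

end Crest.Agent.R201.GS844
end

-- ▼ part R201/GS3_844
section

/-!
# R201, LSI half (helper844): the Stein shortcut, main inequality `E|m₁|² ≤ 2 E |R(J₂)|²`
-/

set_option autoImplicit false
set_option linter.unusedSectionVars false
open MeasureTheory Matrix ProbabilityTheory Filter Topology
open scoped ENNReal RealInnerProductSpace

namespace Crest.Agent.R201.GS844

open Crest.Agent.R201 Crest.Agent.R201.An Crest.Agent.R201.GC844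

variable {n : ℕ}

section gen

variable {Ω : Type*} [MeasurableSpace Ω] {ρ : Measure Ω} [IsProbabilityMeasure ρ]
  {ζ : Ω → E n} {σ : ℝ}

theorem noise_memLp (hζ : Measurable ζ) (l : Fin n) :
    MemLp (fun p : Ω × E n => p.2 l - ζ p.1 l) 2 (jt ρ ζ 1) := by
  unfold jt
  have hm : Measurable fun p : Ω × E n => p.2 l - ζ p.1 l := by fun_prop
  rw [memLp_map_measure_iff hm.aestronglyMeasurable (meas_sh hζ 1).aemeasurable]
  have e : (fun p : Ω × E n => p.2 l - ζ p.1 l) ∘ (fun p : Ω × E n => (p.1, (1 : ℝ) • ζ p.1 + p.2))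
      = fun p : Ω × E n => p.2 l := by
    funext p
    simp only [Function.comp_apply, one_smul, PiLp.add_apply]
    ring
  rw [e]
  exact (g_memLp l).comp_snd ρ

end gen

section main

variable {X : Type*} [MeasurableSpace X] {ν : Measure X} [IsProbabilityMeasure ν]
  {A : X → Mt n} {c σ : ℝ}

/-- conditional expectation of `A Aᵀ` given the label -/
noncomputable def Rm (ν : Measure X) (A : X → Mt n) (σ : ℝ) (y : E n) : Mt n :=
  Matrix.of fun k l => pe (ν.prod (gm n)) (ze A) σ (BB A k l) y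



theorem step1 (hA : ∀ k l, Measurable fun x => A x k l) (hc : ∀ x k l, |A x k l| ≤ c)
    (k : Fin n) :
    ∫ y, wt (ν.prod (gm n)) (ze A) 1 y * pm (ν.prod (gm n)) (ze A) 1 y k ^ 2 ∂(gm n) =
      ∑ l, ∫ p : (X × E n) × E n, BB A k l p.1 *
        (pm (ν.prod (gm n)) (ze A) 1 p.2 k * (p.2 l - ze A p.1 l))
        ∂(jt (ν.prod (gm n)) (ze A) 1) := by
  have hζ := meas_ze hA
  have h2 := ze_sq (ν := ν) hA hc
  set ρ := ν.prod (gm n) with hρ
  set m := fun y => pm ρ (ze A) 1 y k with hm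
  have i0 : ∀ l, Integrable (fun p : (X × E n) × E n => BB A k l p.1 *
      (m p.2 * (p.2 l - ze A p.1 l))) (jt ρ (ze A) 1) := fun l =>
    ((pm_memLp (σ := 1) hζ h2 k).integrable_mul (noise_memLp hζ l)).bdd_mul
      ((meas_BB hA k l).comp measurable_fst).aestronglyMeasurable
      (Eventually.of_forall fun p => by rw [Real.norm_eq_abs]; exact BB_le hc k l _)
  have iB : ∀ l, Integrable (BB A k l) ρ := fun l => i_bdd (meas_BB hA k l) (BB_le hc k l)
  have iBz : ∀ l, Integrable (fun p => BB A k l p * ze A p l) ρ := fun l =>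
    i_bdd_mul (meas_BB hA k l) (BB_le hc k l) (i_coord hζ h2 l)
  have e1 : ∀ l y, wt ρ (ze A) 1 y * pe ρ (ze A) 1 (fun ω => BB A k l ω *
      (m y * (y l - ze A ω l))) y =
      m y * (y l * Z ρ (ze A) 1 (BB A k l) y - Z ρ (ze A) 1 (fun p => BB A k l p * ze A p l) y) := by
    intro l y
    rw [mul_comm, ← Z_eq_pe hζ]
    have : (fun ω => BB A k l ω * (m y * (y l - ze A ω l))) =
        fun ω => m y * (y l * BB A k l ω - BB A k l ω * ze A ω l) := by funext ω; ring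
    rw [this, Z_const_mul, Z_sub hζ ((iB l).const_mul _) (iBz l), Z_const_mul]
  have e2 : ∀ l, ∫ p : (X × E n) × E n, BB A k l p.1 * (m p.2 * (p.2 l - ze A p.1 l))
      ∂(jt ρ (ze A) 1) = ∫ y, m y * (y l * Z ρ (ze A) 1 (BB A k l) y -
        Z ρ (ze A) 1 (fun p => BB A k l p * ze A p l) y) ∂(gm n) := by
    intro l
    rw [(dis_gen hζ (i0 l)).2]
    exact integral_congr_ae (Eventually.of_forall fun y => e1 l y)
  have i3 : ∀ l, Integrable (fun y => m y * (y l * Z ρ (ze A) 1 (BB A k l) y -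
        Z ρ (ze A) 1 (fun p => BB A k l p * ze A p l) y)) (gm n) := fun l =>
    (dis_gen hζ (i0 l)).1.congr (Eventually.of_forall fun y => e1 l y)
  change _ = ∑ l, ∫ p : (X × E n) × E n, BB A k l p.1 * (m p.2 * (p.2 l - ze A p.1 l))
      ∂(jt ρ (ze A) 1)
  simp_rw [e2]
  rw [← integral_finsetSum _ fun l _ => i3 l]
  refine integral_congr_ae (Eventually.of_forall fun y => ?_)
  simp only
  have h5 := Z_stein (ν := ν) (σ := 1) hA hc k y
  simp only [one_mul] at h5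
  rw [← Finset.mul_sum, ← h5, Z_eq_pe hζ]
  change wt ρ (ze A) 1 y * pm ρ (ze A) 1 y k ^ 2 = m y * (m y * wt ρ (ze A) 1 y)
  simp only [hm]
  ring

end main

section core

variable {Ω : Type*} [MeasurableSpace Ω] {ρ : Measure Ω} [IsProbabilityMeasure ρ]
  {ζ : Ω → E n} {σ : ℝ} {B : Fin n → Fin n → Ω → ℝ} {b : ℝ}

/-- second moments of a linear form in the noise -/
theorem lin_noise (u : Fin n → ℝ) : ∫ g : E n, (∑ l, u l * g l) ^ 2 ∂(gm n) = ∑ l, u l ^ 2 := by
  have e : (fun g : E n => (∑ l, u l * g l) ^ 2) =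
      fun g => ∑ l, ∑ l', (u l * u l') * (g l * g l') := by
    funext g
    rw [sq, Finset.sum_mul_sum]
    exact Finset.sum_congr rfl fun k _ => Finset.sum_congr rfl fun l _ => by ring
  have i : ∀ l l', Integrable (fun g : E n => (u l * u l') * (g l * g l')) (gm n) := fun l l' =>
    ((g_memLp l).integrable_mul (g_memLp l')).const_mul _
  rw [e, integral_finsetSum _ fun l _ => integrable_finsetSum _ fun l' _ => i l l']
  refine Finset.sum_congr rfl fun l _ => ?_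
  rw [integral_finsetSum _ fun l' _ => i l l']
  simp only [integral_const_mul, g_cov]
  simp [sq]

theorem pe_abs_le (hζ : Measurable ζ) {F : Ω → ℝ} (hF : Measurable F) (hb : ∀ ω, |F ω| ≤ b)
    (y : E n) : |pe ρ ζ σ F y| ≤ b := by
  have iF : Integrable F ρ := i_bdd hF hb
  rw [abs_le]
  constructor
  · have := pe_mono (σ := σ) hζ (integrable_const (-b)) iF (fun ω => (abs_le.1 (hb ω)).1) y
    rwa [pe_const hζ] at this
  · have := pe_mono (σ := σ) hζ iF (integrable_const b) (fun ω => (abs_le.1 (hb ω)).2) y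
    rwa [pe_const hζ] at this

/-- the fields under the pair law -/
theorem mP (hζ : Measurable ζ) (h2 : Integrable (fun ω => ‖ζ ω‖ ^ 2) ρ) (k : Fin n) :
    MemLp (fun p : (Ω × E n) × E n => pm ρ ζ 1 (q2 • p.1.2 + q2 • p.2) k) 2
      ((jt ρ ζ √2).prod (gm n)) := by
  have h1 := pm_memLp (σ := 1) hζ h2 k
  have h3 := h1.comp_measurePreserving (mpS3 (ρ := ρ) hζ)
  simp only [Function.comp_def] at h3
  exact h3

theorem bP [Fact (Measurable ζ)] (l : Fin n) : MemLp (fun p : (Ω × E n) × E n => p.2 l) 2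
    ((jt ρ ζ √2).prod (gm n)) := (g_memLp l).comp_snd _

theorem term (hζ : Measurable ζ) (h2 : Integrable (fun ω => ‖ζ ω‖ ^ 2) ρ) {F : Ω → ℝ}
    (hF : Measurable F) (hb : ∀ ω, |F ω| ≤ b) (k l : Fin n) :
    Integrable (fun p : (Ω × E n) × E n => pe ρ ζ √2 F p.1.2 *
      (pm ρ ζ 1 (q2 • p.1.2 + q2 • p.2) k * p.2 l)) ((jt ρ ζ √2).prod (gm n)) ∧
    ∫ p : Ω × E n, F p.1 * (pm ρ ζ 1 p.2 k * (p.2 l - ζ p.1 l)) ∂(jt ρ ζ 1) =
      √2 * ∫ p : (Ω × E n) × E n, pe ρ ζ √2 F p.1.2 *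
      (pm ρ ζ 1 (q2 • p.1.2 + q2 • p.2) k * p.2 l) ∂((jt ρ ζ √2).prod (gm n)) := by
  have : Fact (Measurable ζ) := ⟨hζ⟩
  have mm : Measurable fun y => pm ρ ζ 1 y k := (cont_pm hζ h2 k).measurable
  have c1 := cond (ρ := ρ) (σ := √2) hζ hF hb
    (ψ := fun z b => pm ρ ζ 1 (q2 • z + q2 • b) k * b l)
    ((mm.comp (by fun_prop : Measurable fun p : E n × E n => q2 • p.1 + q2 • p.2)).mul
      (by fun_prop)) ((mP hζ h2 k).integrable_mul (bP l))
  refine ⟨c1.1, ?_⟩
  rw [rot_id hζ hF hb mm (pm_memLp (σ := 1) hζ h2 k) l, c1.2]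

theorem Rb (hζ : Measurable ζ) {F : Ω → ℝ} (hF : Measurable F) (hb : ∀ ω, |F ω| ≤ b) (l : Fin n) :
    MemLp (fun p : (Ω × E n) × E n => pe ρ ζ √2 F p.1.2 * p.2 l) 2
      ((jt ρ ζ √2).prod (gm n)) := by
  have : Fact (Measurable ζ) := ⟨hζ⟩
  have mR : Measurable fun y => pe ρ ζ √2 F y := (cont_pe hζ (i_bdd hF hb)).measurable
  refine ((bP (ρ := ρ) (ζ := ζ) l).const_mul b).of_le ?_ (Eventually.of_forall fun p => ?_)
  · exact ((mR.comp (measurable_snd.comp measurable_fst)).mul (by fun_prop)).aestronglyMeasurable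
  · rw [norm_mul, norm_mul, Real.norm_eq_abs, Real.norm_eq_abs, Real.norm_eq_abs]
    exact mul_le_mul_of_nonneg_right ((pe_abs_le hζ hF hb _).trans (le_abs_self _)) (abs_nonneg _)

theorem en_sum (hζ : Measurable ζ) (h2 : Integrable (fun ω => ‖ζ ω‖ ^ 2) ρ) :
    En ρ ζ 1 = ∑ k, ∫ y, wt ρ ζ 1 y * pm ρ ζ 1 y k ^ 2 ∂(gm n) := by
  unfold En
  rw [← integral_finsetSum _ fun k _ => pm_sq_int hζ h2 k]
  refine integral_congr_ae (Eventually.of_forall fun y => ?_)
  simp only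
  rw [Finset.mul_sum]

theorem en_P (hζ : Measurable ζ) (h2 : Integrable (fun ω => ‖ζ ω‖ ^ 2) ρ) (k : Fin n) :
    ∫ p : (Ω × E n) × E n, pm ρ ζ 1 (q2 • p.1.2 + q2 • p.2) k ^ 2 ∂((jt ρ ζ √2).prod (gm n)) =
      ∫ y, wt ρ ζ 1 y * pm ρ ζ 1 y k ^ 2 ∂(gm n) := by
  have mm : Measurable fun y => pm ρ ζ 1 y k := (cont_pm hζ h2 k).measurable
  have f1 : Measurable fun p : Ω × E n => pm ρ ζ 1 p.2 k ^ 2 :=
    (mm.comp measurable_snd).pow_const 2
  have := (mp_int (mpS3 (ρ := ρ) hζ) f1).2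
  simp only at this
  rw [this]
  exact int_snd (ρ := ρ) (σ := 1) hζ (φ := fun y => pm ρ ζ 1 y k ^ 2) (mm.pow_const 2)

theorem en_R (hζ : Measurable ζ) (hB : ∀ k l, Measurable (B k l)) (bB : ∀ k l ω, |B k l ω| ≤ b)
    (k : Fin n) :
    ∫ p : (Ω × E n) × E n, (∑ l, pe ρ ζ √2 (B k l) p.1.2 * p.2 l) ^ 2 ∂((jt ρ ζ √2).prod (gm n)) =
      ∫ y, wt ρ ζ √2 y * ∑ l, pe ρ ζ √2 (B k l) y ^ 2 ∂(gm n) := by
  have : Fact (Measurable ζ) := ⟨hζ⟩
  have hRs : MemLp (fun p : (Ω × E n) × E n => ∑ l, pe ρ ζ √2 (B k l) p.1.2 * p.2 l) 2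
      ((jt ρ ζ √2).prod (gm n)) := memLp_finsetSum _ fun l _ => Rb hζ (hB k l) (bB k l) l
  rw [integral_prod _ hRs.integrable_sq]
  have mS : Measurable fun y => ∑ l, pe ρ ζ √2 (B k l) y ^ 2 :=
    Finset.measurable_fun_sum _ fun l _ =>
      ((cont_pe hζ (i_bdd (hB k l) (bB k l))).measurable).pow_const 2
  rw [← int_snd (ρ := ρ) (σ := √2) hζ (φ := fun y => ∑ l, pe ρ ζ √2 (B k l) y ^ 2) mS]
  exact integral_congr_ae (Eventually.of_forall fun p =>
    lin_noise fun l => pe ρ ζ √2 (B k l) p.2)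

theorem iR (hζ : Measurable ζ) (hB : ∀ k l, Measurable (B k l)) (bB : ∀ k l ω, |B k l ω| ≤ b)
    (k : Fin n) :
    Integrable (fun y => wt ρ ζ √2 y * ∑ l, pe ρ ζ √2 (B k l) y ^ 2) (gm n) := by
  have : Fact (Measurable ζ) := ⟨hζ⟩
  have mS : Measurable fun y => ∑ l, pe ρ ζ √2 (B k l) y ^ 2 :=
    Finset.measurable_fun_sum _ fun l _ =>
      ((cont_pe hζ (i_bdd (hB k l) (bB k l))).measurable).pow_const 2
  refine (int_snd_iff (ρ := ρ) (σ := √2) hζ (φ := fun y => ∑ l, pe ρ ζ √2 (B k l) y ^ 2) mS).mp ?_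
  refine Integrable.of_bound (C := ∑ _l : Fin n, b ^ 2)
    (mS.comp measurable_snd).aestronglyMeasurable (Eventually.of_forall fun p => ?_)
  rw [Real.norm_eq_abs, abs_of_nonneg (Finset.sum_nonneg fun l _ => sq_nonneg _)]
  refine Finset.sum_le_sum fun l _ => ?_
  rw [← sq_abs]
  exact pow_le_pow_left₀ (abs_nonneg _) (pe_abs_le hζ (hB k l) (bB k l) _) 2

theorem amgm (x y : ℝ) : √2 * (x * y) ≤ 1 / 2 * x ^ 2 + y ^ 2 := by
  have h0 : √2 * √2 = 2 := Real.mul_self_sqrt (by norm_num)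
  nlinarith [sq_nonneg (x - √2 * y)]

theorem core (hζ : Measurable ζ) (h2 : Integrable (fun ω => ‖ζ ω‖ ^ 2) ρ)
    (hB : ∀ k l, Measurable (B k l)) (bB : ∀ k l ω, |B k l ω| ≤ b)
    (hS : ∀ k, ∫ y, wt ρ ζ 1 y * pm ρ ζ 1 y k ^ 2 ∂(gm n) =
      ∑ l, ∫ p : Ω × E n, B k l p.1 * (pm ρ ζ 1 p.2 k * (p.2 l - ζ p.1 l)) ∂(jt ρ ζ 1)) :
    En ρ ζ 1 ≤ 2 * ∫ y, wt ρ ζ √2 y * ∑ k, ∑ l, pe ρ ζ √2 (B k l) y ^ 2 ∂(gm n) := by
  have hk : ∀ k, ∫ y, wt ρ ζ 1 y * pm ρ ζ 1 y k ^ 2 ∂(gm n) ≤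
      1 / 2 * (∫ y, wt ρ ζ 1 y * pm ρ ζ 1 y k ^ 2 ∂(gm n)) +
        ∫ y, wt ρ ζ √2 y * ∑ l, pe ρ ζ √2 (B k l) y ^ 2 ∂(gm n) := by
    intro k
    have i2 := fun l => (term (ρ := ρ) hζ h2 (hB k l) (bB k l) k l).1
    have hRs : MemLp (fun p : (Ω × E n) × E n => ∑ l, pe ρ ζ √2 (B k l) p.1.2 * p.2 l) 2
      ((jt ρ ζ √2).prod (gm n)) := memLp_finsetSum _ fun l _ => Rb hζ (hB k l) (bB k l) l
    have i8 := ((mP (ρ := ρ) hζ h2 k).integrable_sq.const_mul (1 / 2)).add hRs.integrable_sq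
    have i9 := ((mP (ρ := ρ) hζ h2 k).integrable_mul hRs).const_mul √2
    have e1 : ∫ y, wt ρ ζ 1 y * pm ρ ζ 1 y k ^ 2 ∂(gm n) =
        ∫ p : (Ω × E n) × E n, √2 * (pm ρ ζ 1 (q2 • p.1.2 + q2 • p.2) k *
          ∑ l, pe ρ ζ √2 (B k l) p.1.2 * p.2 l) ∂((jt ρ ζ √2).prod (gm n)) := by
      rw [hS k, integral_const_mul]
      have e7 : ∀ p : (Ω × E n) × E n, pm ρ ζ 1 (q2 • p.1.2 + q2 • p.2) k *
          ∑ l, pe ρ ζ √2 (B k l) p.1.2 * p.2 l =
          ∑ l, pe ρ ζ √2 (B k l) p.1.2 * (pm ρ ζ 1 (q2 • p.1.2 + q2 • p.2) k * p.2 l) := by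
        intro p
        rw [Finset.mul_sum]
        exact Finset.sum_congr rfl fun l _ => by ring
      simp_rw [e7]
      rw [integral_finsetSum _ fun l _ => i2 l, Finset.mul_sum]
      exact Finset.sum_congr rfl fun l _ => (term (ρ := ρ) hζ h2 (hB k l) (bB k l) k l).2
    have e2 : ∫ p : (Ω × E n) × E n, (1 / 2 * pm ρ ζ 1 (q2 • p.1.2 + q2 • p.2) k ^ 2 +
        (∑ l, pe ρ ζ √2 (B k l) p.1.2 * p.2 l) ^ 2) ∂((jt ρ ζ √2).prod (gm n)) =
        1 / 2 * (∫ y, wt ρ ζ 1 y * pm ρ ζ 1 y k ^ 2 ∂(gm n)) +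
        ∫ y, wt ρ ζ √2 y * ∑ l, pe ρ ζ √2 (B k l) y ^ 2 ∂(gm n) := by
      rw [integral_add ((mP hζ h2 k).integrable_sq.const_mul _) hRs.integrable_sq,
        integral_const_mul, en_P hζ h2 k, en_R hζ hB bB k]
    calc ∫ y, wt ρ ζ 1 y * pm ρ ζ 1 y k ^ 2 ∂(gm n) = _ := e1
      _ ≤ _ := integral_mono i9 i8 fun p => amgm _ _
      _ = _ := e2
  have h3 := Finset.sum_le_sum fun k (_ : k ∈ (Finset.univ : Finset (Fin n))) => hk k
  rw [Finset.sum_add_distrib, ← Finset.mul_sum, ← en_sum hζ h2,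
    ← integral_finsetSum _ fun k _ => iR (ρ := ρ) hζ hB bB k] at h3
  simp_rw [← Finset.mul_sum] at h3
  linarith

end core

section fin

variable {X : Type*} [MeasurableSpace X] {ν : Measure X} [IsProbabilityMeasure ν]
  {A : X → Mt n} {c σ : ℝ}

/-- **the Stein shortcut** -/
theorem stein_main (hA : ∀ k l, Measurable fun x => A x k l) (hc : ∀ x k l, |A x k l| ≤ c) :
    En (ν.prod (gm n)) (ze A) 1 ≤
      2 * ∫ y, wt (ν.prod (gm n)) (ze A) √2 y * hs (Rm ν A √2 y) ∂(gm n) :=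
  core (meas_ze hA) (ze_sq hA hc) (fun k l => meas_BB hA k l) (fun k l ω => BB_le hc k l ω)
    (step1 hA hc)

end fin

end Crest.Agent.R201.GS844
end

-- ▼ part R201/Ch7_150
section

/-!
# R201, LSI half (helper150): `LevB` from the labelled inequalities (label-averaging part)

`μ` base, `ν = f μ`, label channel `p : L → E n → ℝ` (809's class `Chan`).
-/

set_option autoImplicit false
set_option linter.unusedSectionVars false
open MeasureTheory Matrix Set

namespace Crest.Agent.R201.Ch150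

open Crest.Agent.R201 Crest.Agent.R201.NB152 Crest.Agent.R201.FA150 Crest.Agent.R201.LL809

variable {n : ℕ}

/-- the probability `f μ` -/
noncomputable def fm (μ : Measure (E n)) (f : E n → ℝ) : Measure (E n) :=
  μ.withDensity fun x => ENNReal.ofReal (f x)

theorem int_fm {μ : Measure (E n)} {f : E n → ℝ} (mf : Measurable f) (hf : ∀ x, 0 ≤ f x)
    (g : E n → ℝ) : ∫ x, g x ∂(fm μ f) = ∫ x, f x * g x ∂μ := by
  unfold fm
  rw [integral_withDensity_eq_integral_toReal_smul mf.ennreal_ofReal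
    (Filter.Eventually.of_forall fun _ => ENNReal.ofReal_lt_top)]
  refine integral_congr_ae (Filter.Eventually.of_forall fun x => ?_)
  simp only [ENNReal.toReal_ofReal (hf x), smul_eq_mul]

theorem prob_fm {μ : Measure (E n)} [IsFiniteMeasure μ] {f : E n → ℝ} (hf : CBp f)
    (h1 : ∫ x, f x ∂μ = 1) : IsProbabilityMeasure (fm μ f) := by
  constructor
  unfold fm
  rw [withDensity_apply _ MeasurableSet.univ, Measure.restrict_univ]
  obtain ⟨B, hB0, hB⟩ := hf.bdd
  have fi : Integrable f μ := (integrable_const B).mono' hf.cont.aestronglyMeasurable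
    (Filter.Eventually.of_forall fun x => (hB x).1)
  rw [← ofReal_integral_eq_lintegral_ofReal fi (Filter.Eventually.of_forall fun x => (hf.pos x).le),
    h1, ENNReal.ofReal_one]


section Label

variable {μ : Measure (E n)} [IsFiniteMeasure μ] {f : E n → ℝ} {L : Type*} [MeasurableSpace L]
  {l : Measure L} [SFinite l] {p : L → E n → ℝ} {G h : L → ℝ}

/-- `E tr (A(x) R(J))` -/
noncomputable def ET (μ : Measure (E n)) (f : E n → ℝ) (l : Measure L) (p : L → E n → ℝ)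
    (A : E n → Mt n) (R : L → Mt n) : ℝ :=
  ∫ j, ∫ x, f x * ((A x * R j).trace * p j x) ∂μ ∂l

theorem lab_int (hp : Chan l p G h) (hf : CBp f) {b : L × E n → ℝ} (mb : Measurable b) {B : ℝ}
    (hb : ∀ z, |b z| ≤ B) :
    Integrable (fun z : L × E n => f z.2 * (b z * p z.1 z.2)) (l.prod μ) := by
  obtain ⟨C, hC0, hC⟩ := hf.bdd
  have h1 : Integrable (fun z : L × E n => ((1 + h z.1) ^ 2 * G z.1) * (fun _ : E n => C * B) z.2)
      (l.prod μ) := hp.int.mul_prod (integrable_const (C * B))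
  refine h1.mono' ((hf.cont.measurable.comp measurable_snd).mul (mb.mul hp.meas)).aestronglyMeasurable
    (Filter.Eventually.of_forall fun z => ?_)
  rw [Real.norm_eq_abs, abs_mul, abs_mul]
  have e : (1 + h z.1) ^ 2 * G z.1 * (C * B) = C * (B * ((1 + h z.1) ^ 2 * G z.1)) := by ring
  rw [e]
  have hB0 : 0 ≤ B := (abs_nonneg _).trans (hb z)
  exact mul_le_mul (hC z.2).1 (mul_le_mul (hb z) (hp.q1 z.1 z.2) (abs_nonneg _) hB0)
    (mul_nonneg (abs_nonneg _) (abs_nonneg _)) hC0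

/-- label-free observable -/
theorem lab_free (hp : Chan l p G h) (hf : CBp f) {c : E n → ℝ} (mc : Measurable c) {B : ℝ}
    (hc : ∀ x, |c x| ≤ B) :
    ∫ j, ∫ x, f x * (c x * p j x) ∂μ ∂l = ∫ x, f x * c x ∂μ := by
  have hi := lab_int (μ := μ) hp hf (b := fun z => c z.2) (mc.comp measurable_snd) (B := B)
    fun z => hc z.2
  rw [integral_integral_swap (f := fun j x => f x * (c x * p j x)) hi]
  refine integral_congr_ae (Filter.Eventually.of_forall fun x => ?_)
  simp only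
  have : ∀ j, f x * (c x * p j x) = (f x * c x) * p j x := fun j => by ring
  simp only [this]
  rw [integral_const_mul, hp.one, mul_one]

theorem meas_tr {A : E n → Mt n} {R : L → Mt n} (mA : ∀ i j, Measurable fun x => A x i j)
    (mR : ∀ i j, Measurable fun y => R y i j) :
    Measurable fun z : L × E n => (A z.2 * R z.1).trace := by
  simp only [Matrix.trace, Matrix.diag_apply, Matrix.mul_apply]
  exact Finset.measurable_sum _ fun i _ => Finset.measurable_sum _ fun j _ =>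
    ((mA i j).comp measurable_snd).mul ((mR j i).comp measurable_fst)

theorem abs_tr_le {A R : Mt n} {a r : ℝ} (hA : ∀ i j, |A i j| ≤ a) (hR : ∀ i j, |R i j| ≤ r)
    (ha : 0 ≤ a) : |(A * R).trace| ≤ n * (n * (a * r)) := by
  simp only [Matrix.trace, Matrix.diag_apply, Matrix.mul_apply]
  refine (Finset.abs_sum_le_sum_abs _ _).trans ?_
  have : ∀ i ∈ (Finset.univ : Finset (Fin n)), |∑ j, A i j * R j i| ≤ n * (a * r) := by
    intro i _
    refine (Finset.abs_sum_le_sum_abs _ _).trans ?_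
    refine (Finset.sum_le_sum fun j _ => (?_ : |A i j * R j i| ≤ a * r)).trans ?_
    · rw [abs_mul]
      exact mul_le_mul (hA i j) (hR j i) (abs_nonneg _) ha
    · simp
  refine (Finset.sum_le_sum this).trans ?_
  simp

theorem hs_le_n {R : Mt n} (hR : Rᵀ = R) (h0 : LeQ 0 R) (h1 : LeQ R 1) : hs R ≤ (n : ℝ) := by
  have e1 : hs R = (Rᵀ * 1 * R).trace := by rw [hs_eq_trace', Matrix.mul_one]
  have e2 : (Rᵀ * 1 * R).trace = ((1 : Mt n)ᵀ * (R * R) * 1).trace := by
    rw [hR, Matrix.mul_one, transpose_one, Matrix.one_mul, Matrix.mul_one]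
  have e3 := LeQ.trace_le (sq_le_self hR h0 h1) (1 : Mt n)
  have e4 := LeQ.trace_le h1 (1 : Mt n)
  have e5 : ((1 : Mt n)ᵀ * 1 * 1).trace = (n : ℝ) := by
    rw [transpose_one, Matrix.one_mul, Matrix.one_mul, trace_one, Fintype.card_fin]
  rw [e1, e2]
  linarith

theorem entry_le {R : Mt n} (hR : Rᵀ = R) (h0 : LeQ 0 R) (h1 : LeQ R 1) (i j : Fin n) :
    |R i j| ≤ 1 + n := abs_le_of_hs (hs_le_n hR h0 h1) i j

/-- integrability of `tr (A(x) R(J))` -/
theorem ET_int (hp : Chan l p G h) (hf : CBp f) {A : E n → Mt n} {R : L → Mt n}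
    (mA : ∀ i j, Measurable fun x => A x i j) {a : ℝ} (hA : ∀ x i j, |A x i j| ≤ a)
    (mR : ∀ i j, Measurable fun y => R y i j) {r : ℝ} (hR : ∀ y i j, |R y i j| ≤ r) :
    Integrable (fun z : L × E n => f z.2 * ((A z.2 * R z.1).trace * p z.1 z.2)) (l.prod μ) := by
  refine lab_int hp hf (b := fun z : L × E n => (A z.2 * R z.1).trace) (meas_tr mA mR)
    (B := n * (n * (max a 0 * r))) fun z => ?_
  exact abs_tr_le (fun i j => (hA z.2 i j).trans (le_max_left _ _)) (hR z.1) (le_max_right _ _)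

/-- **unresolvedness, averaged**: `E tr (Q² R) ≤ 2 a² E tr (P R) + 2 E tr ((1 - P) Q²)` -/
theorem unres (hp : Chan l p G h) (hf : CBp f) {Q P : E n → Mt n} {R : L → Mt n} {a B : ℝ}
    (mQ : ∀ i j, Measurable fun x => Q x i j) (bQ : ∀ x i j, |Q x i j| ≤ B)
    (hQ : ∀ x, (Q x)ᵀ = Q x) (hQa : ∀ x, LeQ (Q x * Q x) (a ^ 2 • (1 : Mt n)))
    (mP : ∀ i j, Measurable fun x => P x i j)
    (hP : ∀ x, (P x)ᵀ = P x) (hP0 : ∀ x, LeQ 0 (P x)) (hP1 : ∀ x, LeQ (P x) 1)
    (mR : ∀ i j, Measurable fun y => R y i j)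
    (hR : ∀ y, (R y)ᵀ = R y) (hR0 : ∀ y, LeQ 0 (R y)) (hR1 : ∀ y, LeQ (R y) 1) :
    ET μ f l p (fun x => Q x * Q x) R ≤ 2 * a ^ 2 * ET μ f l p P R +
      2 * ∫ x, f x * ((1 - P x) * (Q x * Q x)).trace ∂μ := by
  have mQQ : ∀ i j, Measurable fun x => (Q x * Q x) i j := fun i j => by
    simp only [Matrix.mul_apply]
    exact Finset.measurable_sum _ fun k _ => (mQ i k).mul (mQ k j)
  have bQQ : ∀ x i j, |(Q x * Q x) i j| ≤ n * (B * B) := fun x i j => by
    simp only [Matrix.mul_apply]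
    refine (Finset.abs_sum_le_sum_abs _ _).trans ?_
    refine (Finset.sum_le_sum fun k _ => (?_ : |Q x i k * Q x k j| ≤ B * B)).trans ?_
    · rw [abs_mul]
      exact mul_le_mul (bQ x i k) (bQ x k j) (abs_nonneg _) ((abs_nonneg _).trans (bQ x i k))
    · simp
  have bP : ∀ x i j, |P x i j| ≤ 1 + n := fun x => entry_le (hP x) (hP0 x) (hP1 x)
  have bR : ∀ y i j, |R y i j| ≤ 1 + n := fun y => entry_le (hR y) (hR0 y) (hR1 y)
  have mP1 : ∀ i j, Measurable fun x => (1 - P x) i j := fun i j => by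
    simp only [Matrix.sub_apply]
    exact measurable_const.sub (mP i j)
  have bP1 : ∀ x i j, |(1 - P x) i j| ≤ 1 + (1 + n) := fun x i j => by
    rw [Matrix.sub_apply]
    refine (abs_sub _ _).trans (add_le_add ?_ (bP x i j))
    by_cases hij : i = j
    · subst hij; simp
    · simp [Matrix.one_apply_ne hij]
  have i1 := ET_int (μ := μ) hp hf mQQ bQQ mR bR
  have i2 := ET_int (μ := μ) hp hf mP bP mR bR
  have mW : Measurable fun x => ((1 - P x) * (Q x * Q x)).trace := by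
    simp only [Matrix.trace, Matrix.diag_apply, Matrix.mul_apply (M := 1 - P _)]
    exact Finset.measurable_sum _ fun i _ => Finset.measurable_sum _ fun j _ =>
      (mP1 i j).mul (mQQ j i)
  have bW : ∀ x, |((1 - P x) * (Q x * Q x)).trace| ≤ n * (n * ((1 + (1 + n)) * (n * (B * B)))) :=
    fun x => abs_tr_le (bP1 x) (bQQ x) (by positivity)
  have e := lab_free (μ := μ) hp hf mW bW
  have i3 := lab_int (μ := μ) hp hf (b := fun z : L × E n => ((1 - P z.2) * (Q z.2 * Q z.2)).trace)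
    (mW.comp measurable_snd) fun z => bW z.2
  unfold ET
  rw [← e, ← integral_const_mul, ← integral_const_mul, ← integral_add
    (i2.integral_prod_left.const_mul _) (i3.integral_prod_left.const_mul _)]
  refine integral_mono_ae i1.integral_prod_left
    ((i2.integral_prod_left.const_mul _).add (i3.integral_prod_left.const_mul _)) ?_
  filter_upwards [i1.prod_right_ae, i2.prod_right_ae, i3.prod_right_ae] with j k1 k2 k3
  rw [← integral_const_mul, ← integral_const_mul, ← integral_add (k2.const_mul _) (k3.const_mul _)]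
  refine integral_mono k1 ((k2.const_mul _).add (k3.const_mul _)) fun x => ?_
  simp only
  have h1 := tr_QR (hQ x) (hQa x) (hP x) (hP0 x) (hP1 x) (hR j) (hR0 j) (hR1 j)
  have h2 := hp.p_nonneg j x
  have h3 := (hf.pos x).le
  have h4 := mul_le_mul_of_nonneg_left (mul_le_mul_of_nonneg_right h1 h2) h3
  refine h4.trans (le_of_eq ?_)
  ring

end Label

end Crest.Agent.R201.Ch150
end

-- ▼ part R201/Ch8_150
section

/-!
# R201, LSI half (helper150): the Gaussian label `J | x ~ N(0, 1 + s Q(x)²)`: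
Fisher information and mutual information, first inequality of `LevB`
-/

set_option autoImplicit false
set_option linter.unusedSectionVars false
open MeasureTheory Matrix Set

namespace Crest.Agent.R201.Ch150

open Crest.Agent.R201 Crest.Agent.R201.NB152 Crest.Agent.R201.FA150 Crest.Agent.R201.LL809

variable {n : ℕ} {μ : Measure (E n)} [IsFiniteMeasure μ] {f : E n → ℝ} {Q : E n → Mt n}

/-- covariance `1 + s Q²` -/
noncomputable def Ms (s : ℝ) (Q : E n → Mt n) (x : E n) : Mt n := 1 + s • (Q x * Q x)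

/-- the label density (with respect to `gam n`) of `N(0, 1 + s Q²)` -/
noncomputable def lp (s : ℝ) (Q : E n → Mt n) : E n → E n → ℝ := gp 0 (Ms s Q)

theorem leQ_sq {Q : Mt n} (hQ : Qᵀ = Q) : LeQ 0 (Q * Q) := fun u => by
  simp only [zero_mulVec, dotProduct_zero]
  rw [← mulVec_mulVec, dotProduct_mulVec, ← mulVec_transpose, hQ]
  exact Finset.sum_nonneg fun i _ => mul_self_nonneg _

theorem MF_Ms (hQ : ∀ i, CB (famM Q i)) (hQs : ∀ x, (Q x)ᵀ = Q x) {s : ℝ} (hs : 0 ≤ s) :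
    MF (Ms s Q) where
  cb i j := cb_one_add hQ s (i, j)
  symm x := by
    unfold Ms
    rw [transpose_add, transpose_one, transpose_smul, transpose_mul, hQs]
  ge := ⟨1, one_pos, fun x u => by
    unfold Ms
    rw [one_smul, add_mulVec, dotProduct_add, smul_mulVec, dotProduct_smul, smul_eq_mul]
    have h := leQ_sq (hQs x) u
    simp only [zero_mulVec, dotProduct_zero] at h
    have := mul_nonneg hs h
    linarith⟩

theorem cb_zero : ∀ i, CB fun x => (0 : E n → Fin n → ℝ) x i := fun _ => Tw807.cb_const 0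

theorem pdv_zero (k : Fin n) (x : E n) : pdv k (0 : E n → Fin n → ℝ) x = 0 := by
  funext i
  exact Tw807.pd_const 0 k x

theorem chan_lp (hQ : ∀ i, CB (famM Q i)) (hQs : ∀ x, (Q x)ᵀ = Q x) {s : ℝ} (hs : 0 ≤ s) :
    ∃ G h : E n → ℝ, Chan (gam n) (lp s Q) G h := gchan (MF_Ms hQ hQs hs) cb_zero

theorem pdM_symm {Q : E n → Mt n} (hQs : ∀ x, (Q x)ᵀ = Q x) (k : Fin n) (x : E n) :
    (pdM k Q x)ᵀ = pdM k Q x := by
  ext i j
  simp only [transpose_apply, pdM, Matrix.of_apply]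
  congr 1
  funext y
  have := congrFun (congrFun (hQs y) i) j
  simpa using this

/-- Fisher information of the label is at most `1/2 E |DQ|²` -/
theorem LF_le (hQ : ∀ i, CB (famM Q i)) (hQs : ∀ x, (Q x)ᵀ = Q x) (hf : CBp f) :
    LF μ f (gam n) (lp 1 Q) ≤ 1 / 2 * ∫ x, f x * ∑ k, hs (pdM k Q x) ∂μ := by
  have hM := MF_Ms hQ hQs zero_le_one
  obtain ⟨B, hB0, hB⟩ := hf.bdd
  unfold lp
  rw [LF_gp hM cb_zero hf, ← integral_const_mul]
  have hh : ∀ k, Continuous fun x => hs (pdM k Q x) := fun k => by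
    unfold hs pdM
    exact continuous_finsetSum _ fun i _ => continuous_finsetSum _ fun j _ =>
      (Tw807.pd_cont (hQ (i, j)).1 k).pow 2
  have hb : ∀ k, ∃ C : ℝ, ∀ x, |hs (pdM k Q x)| ≤ C := fun k => by
    have : ∀ i j, ∃ b : ℝ, ∀ x, |pd k (fun y => Q y i j) x| ≤ b := fun i j => by
      obtain ⟨-, b, hb⟩ := hQ (i, j)
      exact ⟨b, fun x => (hb x).2 k⟩
    choose b hb using this
    refine ⟨∑ i, ∑ j, b i j ^ 2, fun x => ?_⟩
    rw [abs_of_nonneg (NB152.hs_nonneg _)]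
    unfold hs pdM
    refine Finset.sum_le_sum fun i _ => Finset.sum_le_sum fun j _ => ?_
    simp only [Matrix.of_apply]
    rw [← sq_abs]
    exact pow_le_pow_left₀ (abs_nonneg _) (hb i j x) 2
  choose C hC using hb
  have i2 : Integrable (fun x => 1 / 2 * (f x * ∑ k, hs (pdM k Q x))) μ := by
    refine Integrable.const_mul ?_ _
    refine (integrable_const (B * ∑ k, C k)).mono'
      (hf.cont.mul (continuous_finsetSum _ fun k _ => hh k)).aestronglyMeasurable
      (Filter.Eventually.of_forall fun x => ?_)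
    rw [Real.norm_eq_abs, abs_mul]
    refine mul_le_mul (hB x).1 ?_ (abs_nonneg _) hB0
    exact (Finset.abs_sum_le_sum_abs _ _).trans (Finset.sum_le_sum fun k _ => hC k x)
  have hpt : ∀ x, 0 ≤ ∑ k, (pdv k (0 : E n → Fin n → ℝ) x ⬝ᵥ
      ((Ms 1 Q x)⁻¹ *ᵥ pdv k (0 : E n → Fin n → ℝ) x) +
      (1 / 2) * ((Ms 1 Q x)⁻¹ * pdM k (Ms 1 Q) x * (Ms 1 Q x)⁻¹ * pdM k (Ms 1 Q) x).trace) ∧
      ∑ k, (pdv k (0 : E n → Fin n → ℝ) x ⬝ᵥ
      ((Ms 1 Q x)⁻¹ *ᵥ pdv k (0 : E n → Fin n → ℝ) x) +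
      (1 / 2) * ((Ms 1 Q x)⁻¹ * pdM k (Ms 1 Q) x * (Ms 1 Q x)⁻¹ * pdM k (Ms 1 Q) x).trace) ≤
      1 / 2 * ∑ k, hs (pdM k Q x) := by
    intro x
    have e : ∀ k, pdM k (Ms 1 Q) x = Q x * pdM k Q x + pdM k Q x * Q x := fun k => by
      have := pdM_one_add hQ 1 k x
      rw [one_smul] at this
      exact this
    have e2 : Ms 1 Q x = 1 + Q x * Q x := by unfold Ms; rw [one_smul]
    constructor
    · refine Finset.sum_nonneg fun k _ => ?_
      rw [← (gp_moments hM cb_zero x).2.2.1 k]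
      exact integral_nonneg fun y => mul_nonneg (sq_nonneg _) (Real.exp_pos _).le
    · simp only [pdv_zero, zero_dotProduct, zero_add, e, e2]
      rw [Finset.mul_sum]
      refine Finset.sum_le_sum fun k _ => mul_le_mul_of_nonneg_left ?_ (by norm_num)
      exact chan_cost (hQs x) (pdM_symm hQs k x)
  refine integral_mono_of_nonneg (Filter.Eventually.of_forall fun x =>
    mul_nonneg (hf.pos x).le (hpt x).1) i2 (Filter.Eventually.of_forall fun x => ?_)
  simp only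
  have := mul_le_mul_of_nonneg_left (hpt x).2 (hf.pos x).le
  linarith

theorem tr_Ms (s : ℝ) (x : E n) : (Ms s Q x).trace = n + s * (Q x * Q x).trace := by
  unfold Ms
  rw [trace_add, trace_one, trace_smul, smul_eq_mul, Fintype.card_fin]

theorem hs_symm {A : Mt n} (hA : Aᵀ = A) : hs A = (A * A).trace := by
  rw [hs_eq_trace, hA]

/-- mutual information of the label -/
theorem MI_eq (hQ : ∀ i, CB (famM Q i)) (hQs : ∀ x, (Q x)ᵀ = Q x) {s : ℝ} (hs0 : 0 ≤ s)
    (hf : CBp f) (h1 : ∫ x, f x ∂μ = 1) :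
    MI μ f (gam n) (lp s Q) = 1 / 2 * (∫ x, f x * (s * hs (Q x) - Real.log (Ms s Q x).det) ∂μ) -
      Dis μ f 0 (Ms s Q) := by
  unfold lp
  rw [MI_gp (MF_Ms hQ hQs hs0) cb_zero hf h1]
  congr 2
  refine integral_congr_ae (Filter.Eventually.of_forall fun x => ?_)
  simp only [Pi.zero_apply, dotProduct_zero, tr_Ms]
  rw [hs_symm (hQs x)]
  ring

theorem Dis_nonneg (hQ : ∀ i, CB (famM Q i)) (hQs : ∀ x, (Q x)ᵀ = Q x) {s : ℝ} (hs0 : 0 ≤ s)
    (hf : CBp f) (h1 : ∫ x, f x ∂μ = 1) : 0 ≤ Dis μ f 0 (Ms s Q) := by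
  obtain ⟨G, h, hp⟩ := chan_lp hQ hQs hs0
  have e0 : ∫ y, pJ μ f (lp s Q) y ∂(gam n) = 1 := by
    have := lab_free (μ := μ) hp hf (c := fun _ => 1) measurable_const (B := 1) (by simp)
    simp only [one_mul, mul_one] at this
    rw [h1] at this
    exact this
  have i0 : Integrable (fun y => pJ μ f (lp s Q) y) (gam n) := by
    by_contra hc
    rw [integral_undef hc] at e0
    exact zero_ne_one e0
  have i1 := pJlog_int (μ := μ) hp hf h1
  have h2 : ∫ y, (pJ μ f (lp s Q) y - 1) ∂(gam n) ≤ Dis μ f 0 (Ms s Q) := by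
    unfold Dis
    refine integral_mono (i0.sub (integrable_const 1)) i1 fun y => ?_
    have hy := (pJ_bd hp hf h1 y).1
    have h3 := Real.one_sub_inv_le_log_of_pos hy
    have h4 := mul_le_mul_of_nonneg_left h3 hy.le
    have h5 : pJ μ f (lp s Q) y * (1 - (pJ μ f (lp s Q) y)⁻¹) = pJ μ f (lp s Q) y - 1 := by
      field_simp
    rw [h5] at h4
    exact h4
  rw [integral_sub i0 (integrable_const 1), e0] at h2
  simpa using h2

theorem log_det_nonneg (hQs : ∀ x, (Q x)ᵀ = Q x) {s : ℝ} (hs0 : 0 ≤ s) (x : E n) :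
    0 ≤ Real.log (Ms s Q x).det := by
  obtain ⟨U, q, h1, h2, hq⟩ := exists_spec (hQs x)
  unfold Ms
  rw [hq, one_add_eq_spec h1 h2, det_spec h1]
  refine Real.log_nonneg (Finset.one_le_prod fun i _ => ?_)
  have := mul_nonneg hs0 (sq_nonneg (q i))
  linarith

theorem hs_cont (hQ : ∀ i, CB (famM Q i)) : Continuous fun x => hs (Q x) := by
  unfold hs
  exact continuous_finsetSum _ fun i _ => continuous_finsetSum _ fun j _ =>
    (hQ (i, j)).1.continuous.pow 2

theorem hs_bd (hQ : ∀ i, CB (famM Q i)) : ∃ C : ℝ, ∀ x, |hs (Q x)| ≤ C := by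
  have : ∀ i j, ∃ b : ℝ, ∀ x, |Q x i j| ≤ b := fun i j => by
    obtain ⟨-, b, hb⟩ := hQ (i, j)
    exact ⟨b, fun x => (hb x).1⟩
  choose b hb using this
  refine ⟨∑ i, ∑ j, b i j ^ 2, fun x => ?_⟩
  rw [abs_of_nonneg (NB152.hs_nonneg _)]
  unfold hs
  refine Finset.sum_le_sum fun i _ => Finset.sum_le_sum fun j _ => ?_
  rw [← sq_abs]
  exact pow_le_pow_left₀ (abs_nonneg _) (hb i j x) 2

theorem int_f {g : E n → ℝ} (hf : CBp f) (mg : Measurable g) (hg : ∃ C : ℝ, ∀ x, |g x| ≤ C) :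
    Integrable (fun x => f x * g x) μ := by
  obtain ⟨B, hB0, hB⟩ := hf.bdd
  obtain ⟨C, hC⟩ := hg
  refine (integrable_const (B * C)).mono' (hf.cont.measurable.mul mg).aestronglyMeasurable
    (Filter.Eventually.of_forall fun x => ?_)
  rw [Real.norm_eq_abs, abs_mul]
  exact mul_le_mul (hB x).1 (hC x) (abs_nonneg _) hB0

theorem int_logdet (hQ : ∀ i, CB (famM Q i)) (hQs : ∀ x, (Q x)ᵀ = Q x) {s : ℝ} (hs0 : 0 ≤ s)
    (hf : CBp f) : Integrable (fun x => f x * Real.log (Ms s Q x).det) μ := by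
  have h := cbp_log (MF_Ms hQ hQs hs0).det_cbp
  obtain ⟨h1, B, hB⟩ := h
  exact int_f hf h1.continuous.measurable ⟨B, fun x => (hB x).1⟩

/-- `I(J_s; x) ≤ (s/2) E |Q|²` -/
theorem MI_le (hQ : ∀ i, CB (famM Q i)) (hQs : ∀ x, (Q x)ᵀ = Q x) {s : ℝ} (hs0 : 0 ≤ s)
    (hf : CBp f) (h1 : ∫ x, f x ∂μ = 1) :
    MI μ f (gam n) (lp s Q) ≤ s / 2 * ∫ x, f x * hs (Q x) ∂μ := by
  rw [MI_eq hQ hQs hs0 hf h1]
  have hD := Dis_nonneg (μ := μ) hQ hQs hs0 hf h1
  have i1 : Integrable (fun x => f x * hs (Q x)) μ := int_f hf (hs_cont hQ).measurable (hs_bd hQ)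
  have i2 := int_logdet (μ := μ) hQ hQs hs0 hf
  have e : ∫ x, f x * (s * hs (Q x) - Real.log (Ms s Q x).det) ∂μ =
      s * (∫ x, f x * hs (Q x) ∂μ) - ∫ x, f x * Real.log (Ms s Q x).det ∂μ := by
    rw [← integral_const_mul, ← integral_sub (i1.const_mul s) i2]
    refine integral_congr_ae (Filter.Eventually.of_forall fun x => ?_)
    simp only
    ring
  have h3 : 0 ≤ ∫ x, f x * Real.log (Ms s Q x).det ∂μ :=
    integral_nonneg fun x => mul_nonneg (hf.pos x).le (log_det_nonneg hQs hs0 x)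
  rw [e]
  linarith

/-- first inequality of `LevB` -/
theorem first {C : ℝ} (hC : 0 ≤ C) (H : LSI C μ) (hQ : ∀ i, CB (famM Q i))
    (hQs : ∀ x, (Q x)ᵀ = Q x) (hf : CBp f) (h1 : ∫ x, f x ∂μ = 1) :
    1 / 2 * ∫ x, f x * ben (Q x) ∂μ ≤ C / 4 * (∫ x, f x * ∑ k, hs (pdM k Q x) ∂μ) +
      (C / 2 * Fi μ f - Ent μ f) + Dis μ f 0 (Ms 1 Q) := by
  obtain ⟨G, h, hp⟩ := chan_lp hQ hQs zero_le_one
  have h2 := lab H hf h1 hp
  have h3 := LF_le (μ := μ) hQ hQs hf
  have e : MI μ f (gam n) (lp 1 Q) = 1 / 2 * (∫ x, f x * ben (Q x) ∂μ) - Dis μ f 0 (Ms 1 Q) := by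
    rw [MI_eq hQ hQs zero_le_one hf h1]
    congr 2
    refine integral_congr_ae (Filter.Eventually.of_forall fun x => ?_)
    simp only [ben, Ms, one_smul, one_mul]
    rw [hs_symm (hQs x)]
  rw [e] at h2
  have h4 := mul_le_mul_of_nonneg_left h3 (by linarith : 0 ≤ C / 2)
  linarith

end Crest.Agent.R201.Ch150
end

-- ▼ part R201/Ch9_150
section

/-!
# R201, LSI half (helper150): posterior matrices `E[A | J]` of a channel; `LevB` from the
unpredictability bound (844), the labelled trace inequality (146) and the labelled LSI (809)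
-/

set_option autoImplicit false
set_option linter.unusedSectionVars false
open MeasureTheory Matrix Set

namespace Crest.Agent.R201.Ch150

open Crest.Agent.R201 Crest.Agent.R201.NB152 Crest.Agent.R201.FA150 Crest.Agent.R201.LL809

section Post

variable {n : ℕ} {μ : Measure (E n)} [IsFiniteMeasure μ] {f : E n → ℝ} {L : Type*}
  [MeasurableSpace L] {l : Measure L} [SFinite l] {p : L → E n → ℝ} {G h : L → ℝ} {A : E n → Mt n}

/-- `E[A | J = j] * pJ j`, entrywise -/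
noncomputable def Rn (μ : Measure (E n)) (f : E n → ℝ) (p : L → E n → ℝ) (A : E n → Mt n)
    (j : L) : Mt n := Matrix.of fun i k => ∫ x, f x * (A x i k * p j x) ∂μ

/-- `E[A | J = j]` -/
noncomputable def Rc (μ : Measure (E n)) (f : E n → ℝ) (p : L → E n → ℝ) (A : E n → Mt n)
    (j : L) : Mt n := (pJ μ f p j)⁻¹ • Rn μ f p A j

theorem Rn_meas (hp : Chan l p G h) (hf : CBp f) (mA : ∀ i k, Measurable fun x => A x i k)
    (i k : Fin n) : Measurable fun j => Rn μ f p A j i k := by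
  have : StronglyMeasurable fun z : L × E n => f z.2 * (A z.2 i k * p z.1 z.2) :=
    ((hf.cont.measurable.comp measurable_snd).mul
      (((mA i k).comp measurable_snd).mul hp.meas)).stronglyMeasurable
  exact this.integral_prod_right.measurable

theorem Rc_meas (hp : Chan l p G h) (hf : CBp f) (mA : ∀ i k, Measurable fun x => A x i k)
    (i k : Fin n) : Measurable fun j => Rc μ f p A j i k := by
  unfold Rc
  simp only [Matrix.smul_apply, smul_eq_mul]
  exact (pJ_meas hp hf).inv.mul (Rn_meas hp hf mA i k)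

theorem Rc_symm (hA : ∀ x, (A x)ᵀ = A x) (j : L) : (Rc μ f p A j)ᵀ = Rc μ f p A j := by
  unfold Rc Rn
  ext i k
  simp only [transpose_apply, Matrix.smul_apply, Matrix.of_apply]
  congr 2
  funext x
  have := congrFun (congrFun (hA x) i) k
  rw [transpose_apply] at this
  rw [this]

theorem int_x (hp : Chan l p G h) (hf : CBp f) {g : E n → ℝ} (mg : Measurable g)
    (hg : ∃ C : ℝ, ∀ x, |g x| ≤ C) (j : L) : Integrable (fun x => f x * (g x * p j x)) μ := by
  obtain ⟨C, hC⟩ := hg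
  obtain ⟨B, hB0, hB⟩ := (hp.cb j).bdd
  refine int_f hf (mg.mul (hp.cb j).cont.measurable) ⟨C * B, fun x => ?_⟩
  rw [abs_mul]
  exact mul_le_mul (hC x) (hB x).1 (abs_nonneg _) ((abs_nonneg _).trans (hC x))

/-- quadratic form of `Rn` -/
theorem Rn_quad (hp : Chan l p G h) (hf : CBp f) (mA : ∀ i k, Measurable fun x => A x i k)
    {b : ℝ} (hb : ∀ x i k, |A x i k| ≤ b) (j : L) (u : Fin n → ℝ) :
    u ⬝ᵥ (Rn μ f p A j *ᵥ u) = ∫ x, f x * ((u ⬝ᵥ (A x *ᵥ u)) * p j x) ∂μ := by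
  have i0 : ∀ i k, Integrable (fun x => f x * (A x i k * p j x)) μ := fun i k =>
    int_x hp hf (mA i k) ⟨b, fun x => hb x i k⟩ j
  simp only [dotProduct, Matrix.mulVec, Rn, Matrix.of_apply]
  have e : ∀ x, f x * ((∑ i, u i * ∑ k, A x i k * u k) * p j x) =
      ∑ i, ∑ k, (u i * u k) * (f x * (A x i k * p j x)) := by
    intro x
    rw [Finset.sum_mul, Finset.mul_sum]
    refine Finset.sum_congr rfl fun i _ => ?_
    rw [Finset.mul_sum, Finset.sum_mul, Finset.mul_sum]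
    exact Finset.sum_congr rfl fun k _ => by ring
  simp only [e]
  rw [integral_finsetSum _ fun i _ => integrable_finsetSum _ fun k _ => (i0 i k).const_mul _]
  refine Finset.sum_congr rfl fun i _ => ?_
  rw [integral_finsetSum _ fun k _ => (i0 i k).const_mul _, Finset.mul_sum]
  refine Finset.sum_congr rfl fun k _ => ?_
  rw [integral_const_mul]
  ring

theorem Rc_nonneg (hp : Chan l p G h) (hf : CBp f) (h1 : ∫ x, f x ∂μ = 1)
    (mA : ∀ i k, Measurable fun x => A x i k) {b : ℝ} (hb : ∀ x i k, |A x i k| ≤ b)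
    (hA0 : ∀ x, LeQ 0 (A x)) (j : L) : LeQ 0 (Rc μ f p A j) := by
  intro u
  simp only [zero_mulVec, dotProduct_zero]
  unfold Rc
  rw [smul_mulVec, dotProduct_smul, smul_eq_mul, Rn_quad hp hf mA hb]
  refine mul_nonneg (inv_nonneg.2 (pJ_bd hp hf h1 j).1.le) (integral_nonneg fun x => ?_)
  have := hA0 x u
  simp only [zero_mulVec, dotProduct_zero] at this
  exact mul_nonneg (hf.pos x).le (mul_nonneg this (hp.p_nonneg j x))

theorem Rc_le (hp : Chan l p G h) (hf : CBp f) (h1 : ∫ x, f x ∂μ = 1)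
    (mA : ∀ i k, Measurable fun x => A x i k) {b : ℝ} (hb : ∀ x i k, |A x i k| ≤ b)
    {c : ℝ} (hA1 : ∀ x, LeQ (A x) (c • (1 : Mt n))) (j : L) :
    LeQ (Rc μ f p A j) (c • (1 : Mt n)) := by
  intro u
  unfold Rc
  have hj := (pJ_bd hp hf h1 j).1
  rw [smul_mulVec, dotProduct_smul, smul_eq_mul, Rn_quad hp hf mA hb, inv_mul_le_iff₀ hj]
  have e : pJ μ f p j * (u ⬝ᵥ ((c • (1 : Mt n)) *ᵥ u)) =
      ∫ x, f x * ((u ⬝ᵥ ((c • (1 : Mt n)) *ᵥ u)) * p j x) ∂μ := by
    unfold pJ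
    rw [← integral_mul_const]
    refine integral_congr_ae (Filter.Eventually.of_forall fun x => ?_)
    simp only
    ring
  rw [e]
  have hq : Measurable fun x => u ⬝ᵥ (A x *ᵥ u) := by
    simp only [dotProduct, Matrix.mulVec]
    exact Finset.measurable_sum _ fun i _ => measurable_const.mul
      (Finset.measurable_sum _ fun k _ => (mA i k).mul measurable_const)
  have hqb : ∃ C : ℝ, ∀ x, |u ⬝ᵥ (A x *ᵥ u)| ≤ C := by
    refine ⟨∑ i, ∑ k, |u i| * (b * |u k|), fun x => ?_⟩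
    simp only [dotProduct, Matrix.mulVec]
    refine (Finset.abs_sum_le_sum_abs _ _).trans (Finset.sum_le_sum fun i _ => ?_)
    rw [abs_mul, ← Finset.mul_sum]
    refine mul_le_mul_of_nonneg_left ?_ (abs_nonneg _)
    refine (Finset.abs_sum_le_sum_abs _ _).trans (Finset.sum_le_sum fun k _ => ?_)
    rw [abs_mul]
    exact mul_le_mul_of_nonneg_right (hb x i k) (abs_nonneg _)
  refine integral_mono (int_x hp hf hq hqb j) (int_x hp hf measurable_const ⟨_, fun _ => le_rfl⟩ j)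
    fun x => ?_
  exact mul_le_mul_of_nonneg_left (mul_le_mul_of_nonneg_right (hA1 x u) (hp.p_nonneg j x))
    (hf.pos x).le

/-- `E tr E[A|J] = E tr A` -/
theorem tr_Rc (hp : Chan l p G h) (hf : CBp f) (h1 : ∫ x, f x ∂μ = 1)
    (mA : ∀ i k, Measurable fun x => A x i k) {b : ℝ} (hb : ∀ x i k, |A x i k| ≤ b) :
    ∫ j, (Rc μ f p A j).trace * pJ μ f p j ∂l = ∫ x, f x * (A x).trace ∂μ := by
  have mt : Measurable fun x => (A x).trace := by
    unfold Matrix.trace
    exact Finset.measurable_sum _ fun i _ => mA i i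
  have bt : ∀ x, |(A x).trace| ≤ n * b := fun x => by
    unfold Matrix.trace
    refine (Finset.abs_sum_le_sum_abs _ _).trans ?_
    refine (Finset.sum_le_sum fun i _ => hb x i i).trans ?_
    simp
  rw [← lab_free (μ := μ) hp hf mt bt]
  refine integral_congr_ae (Filter.Eventually.of_forall fun j => ?_)
  have hj := (pJ_bd hp hf h1 j).1
  simp only
  unfold Rc
  rw [trace_smul, smul_eq_mul]
  have e1 : (Rn μ f p A j).trace = ∫ x, f x * ((A x).trace * p j x) ∂μ := by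
    unfold Matrix.trace Rn
    simp only [diag_apply, Matrix.of_apply]
    rw [← integral_finsetSum _ fun i _ => int_x hp hf (mA i i) ⟨b, fun x => hb x i i⟩ j]
    refine integral_congr_ae (Filter.Eventually.of_forall fun x => ?_)
    simp only
    rw [Finset.sum_mul, Finset.mul_sum]
  rw [e1]
  field_simp

end Post

section Core

variable {n : ℕ} {μ : Measure (E n)} [IsFiniteMeasure μ] {f : E n → ℝ} {Q P : E n → Mt n}

/-- (P1L) for one channel and one field -/
def P1Lp (μ : Measure (E n)) (f : E n → ℝ) (P : E n → Mt n) (e D : ℝ) : Prop :=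
  ∀ (p : E n → E n → ℝ) (G k : E n → ℝ), Chan (gam n) p G k →
    ∀ R : E n → Mt n, (∀ i j, Measurable fun y => R y i j) → (∀ y, (R y)ᵀ = R y) →
      (∀ y, LeQ 0 (R y)) → (∀ y, LeQ (R y) 1) →
      ET μ f (gam n) p P R ≤ e * (D + MI μ f (gam n) p +
        ∫ y, (R y).trace * pJ μ f p y ∂(gam n))

/-- (UNP), 844's Stein form -/
def UNPp (μ : Measure (E n)) (f : E n → ℝ) (Q : E n → Mt n) : Prop :=
  Dis μ f 0 (Ms 1 Q) ≤ ET μ f (gam n) (lp 2 Q) (fun x => Q x * Q x)
    (Rc μ f (lp 2 Q) fun x => Q x * Q x)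

theorem levB_core {C : ℝ} (hC : 0 ≤ C) (H : LSI C μ) (hf : CBp f) (h1 : ∫ x, f x ∂μ = 1)
    (hQ : ∀ i, CB (famM Q i)) (hQs : ∀ x, (Q x)ᵀ = Q x) {a : ℝ} (ha : 1 ≤ a)
    (hQa : ∀ x, LeQ (Q x * Q x) (a ^ 2 • (1 : Mt n)))
    (mP : ∀ i j, Measurable fun x => P x i j)
    (hP : ∀ x, (P x)ᵀ = P x) (hP0 : ∀ x, LeQ 0 (P x)) (hP1 : ∀ x, LeQ (P x) 1)
    {e D δ N : ℝ} (hδ : C / 2 * Fi μ f - Ent μ f ≤ δ) (hN : a ^ 2 ≤ N)
    (hL : P1Lp μ f P e D) (hU : UNPp μ f Q) : LevB (fm μ f) P C D δ e N a Q := by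
  have mf := hf.cont.measurable
  have hf0 : ∀ x, 0 ≤ f x := fun x => (hf.pos x).le
  have ha0 : 0 < a := by linarith
  have ha2 : 0 < a ^ 2 := by positivity
  have hN0 : 0 < N := ha2.trans_le hN
  obtain ⟨G, h, hp⟩ := chan_lp hQ hQs (by norm_num : (0 : ℝ) ≤ 2)
  set A : E n → Mt n := fun x => Q x * Q x with hA
  have mQ : ∀ i j, Measurable fun x => Q x i j := fun i j => (hQ (i, j)).1.continuous.measurable
  have bQ : ∃ B : ℝ, ∀ x i j, |Q x i j| ≤ B := by
    obtain ⟨c, hc⟩ := hs_bd hQ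
    exact ⟨1 + c, fun x => abs_le_of_hs ((le_abs_self _).trans (hc x))⟩
  obtain ⟨B, bQ⟩ := bQ
  have mA : ∀ i j, Measurable fun x => A x i j := fun i j => by
    simp only [hA, Matrix.mul_apply]
    exact Finset.measurable_sum _ fun k _ => (mQ i k).mul (mQ k j)
  have bA : ∀ x i j, |A x i j| ≤ n * (B * B) := fun x i j => by
    simp only [hA, Matrix.mul_apply]
    refine (Finset.abs_sum_le_sum_abs _ _).trans ?_
    refine (Finset.sum_le_sum fun k _ => (?_ : |Q x i k * Q x k j| ≤ B * B)).trans ?_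
    · rw [abs_mul]
      exact mul_le_mul (bQ x i k) (bQ x k j) (abs_nonneg _) ((abs_nonneg _).trans (bQ x i k))
    · simp
  have hAs : ∀ x, (A x)ᵀ = A x := fun x => by
    simp only [hA]
    rw [transpose_mul, hQs]
  have hA0 : ∀ x, LeQ 0 (A x) := fun x => leQ_sq (hQs x)
  set R : E n → Mt n := fun y => (a ^ 2)⁻¹ • Rc μ f (lp 2 Q) A y with hR
  have mR : ∀ i j, Measurable fun y => R y i j := fun i j => by
    simp only [hR, Matrix.smul_apply, smul_eq_mul]
    exact (Rc_meas hp hf mA i j).const_mul _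
  have Rs : ∀ y, (R y)ᵀ = R y := fun y => by
    simp only [hR]
    rw [transpose_smul, Rc_symm hAs]
  have R0 : ∀ y, LeQ 0 (R y) := fun y u => by
    have := Rc_nonneg hp hf h1 mA bA hA0 y u
    simp only [zero_mulVec, dotProduct_zero] at this ⊢
    simp only [hR]
    rw [smul_mulVec, dotProduct_smul, smul_eq_mul]
    exact mul_nonneg (inv_nonneg.2 ha2.le) this
  have R1 : ∀ y, LeQ (R y) 1 := fun y u => by
    have := Rc_le hp hf h1 mA bA hQa y u
    simp only [hR]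
    rw [smul_mulVec, dotProduct_smul, smul_eq_mul, inv_mul_le_iff₀ ha2]
    rw [smul_mulVec, dotProduct_smul, smul_eq_mul] at this
    exact this
  have eU : ET μ f (gam n) (lp 2 Q) A (Rc μ f (lp 2 Q) A) =
      a ^ 2 * ET μ f (gam n) (lp 2 Q) A R := by
    unfold ET
    rw [← integral_const_mul]
    refine integral_congr_ae (Filter.Eventually.of_forall fun y => ?_)
    simp only
    rw [← integral_const_mul]
    refine integral_congr_ae (Filter.Eventually.of_forall fun x => ?_)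
    simp only [hR]
    rw [Matrix.mul_smul, trace_smul, smul_eq_mul]
    field_simp
  have u0 : 0 ≤ ET μ f (gam n) (lp 2 Q) A R := by
    unfold ET
    refine integral_nonneg fun y => integral_nonneg fun x => ?_
    refine mul_nonneg (hf0 x) (mul_nonneg ?_ (hp.p_nonneg y x))
    have e1 : (A x * R y).trace = ((Q x)ᵀ * R y * Q x).trace := by
      simp only [hA]
      rw [hQs, Matrix.mul_assoc, trace_mul_comm]
    rw [e1]
    exact LeQ.trace_nonneg (R0 y) (Q x)
  have T0 : 0 ≤ ∫ x, f x * hs (Q x) ∂μ :=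
    integral_nonneg fun x => mul_nonneg (hf0 x) (NB152.hs_nonneg _)
  refine ⟨Dis μ f 0 (Ms 1 Q), ET μ f (gam n) (lp 2 Q) A R, ET μ f (gam n) (lp 2 Q) P R,
    MI μ f (gam n) (lp 2 Q), ∫ y, (R y).trace * pJ μ f (lp 2 Q) y ∂(gam n), ?_, ?_, ?_, ?_, ?_, ?_⟩
  · rw [int_fm mf hf0, int_fm mf hf0]
    have := first (μ := μ) hC H hQ hQs hf h1
    linarith
  · rw [int_fm mf hf0]
    have h2 := hU
    unfold UNPp at h2
    rw [eU] at h2
    have h3 := mul_le_mul_of_nonneg_right hN u0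
    have h4 : 0 ≤ a ^ 2 * (∫ x, f x * hs (Q x) ∂μ) / N := by positivity
    linarith
  · rw [int_fm mf hf0]
    exact unres hp hf mQ bQ hQs hQa mP hP hP0 hP1 mR Rs R0 R1
  · exact hL _ _ _ hp R mR Rs R0 R1
  · rw [int_fm mf hf0]
    have := MI_le (μ := μ) hQ hQs (by norm_num : (0 : ℝ) ≤ 2) hf h1
    norm_num at this
    exact this
  · rw [int_fm mf hf0]
    have e1 : ∫ y, (R y).trace * pJ μ f (lp 2 Q) y ∂(gam n) =
        (a ^ 2)⁻¹ * ∫ x, f x * hs (Q x) ∂μ := by
      have h2 := tr_Rc (μ := μ) hp hf h1 mA bA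
      have h3 : ∫ x, f x * hs (Q x) ∂μ = ∫ x, f x * (A x).trace ∂μ := by
        refine integral_congr_ae (Filter.Eventually.of_forall fun x => ?_)
        simp only [hA]
        rw [hs_symm (hQs x)]
      rw [h3, ← h2, ← integral_const_mul]
      refine integral_congr_ae (Filter.Eventually.of_forall fun y => ?_)
      simp only [hR]
      rw [trace_smul, smul_eq_mul, mul_assoc]
    rw [e1]
    have h4 : (a ^ 2)⁻¹ ≤ 1 := inv_le_one_of_one_le₀ (by nlinarith)
    calc (a ^ 2)⁻¹ * ∫ x, f x * hs (Q x) ∂μ ≤ 1 * ∫ x, f x * hs (Q x) ∂μ :=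
          mul_le_mul_of_nonneg_right h4 T0
      _ = _ := one_mul _

end Core

end Crest.Agent.R201.Ch150
end

-- ▼ part R201/NS_150
section

/-!
# R201, block NS (helper150): `L74.NS` from the unpredictability bound (844 / 795)
-/

set_option autoImplicit false
set_option linter.unusedSectionVars false
open MeasureTheory Matrix Set

namespace Crest.Agent.R201.Ch150

open Crest.Agent.R201 Crest.Agent.R201.NB152 Crest.Agent.R201.FA150 Crest.Agent.R201.LL809

variable {n : ℕ}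


/-- Fisher information = `nsq` of the score -/
theorem Fi_eq_nsq {μ : Measure (E n)} [IsFiniteMeasure μ] {f : E n → ℝ} (hf : CBp f)
    {w : Fin n → E n → ℝ} (hw : ∀ i x, w i x = pd i f x / f x) (wcb : ∀ i, CB (w i)) :
    Fi μ f = nsq (fm μ f) w := by
  unfold Fi nsq
  have e : ∀ i, ∫ x, w i x ^ 2 ∂(fm μ f) = ∫ x, f x * w i x ^ 2 ∂μ := fun i =>
    int_fm hf.cont.measurable (fun x => (hf.pos x).le) _
  simp only [e]
  have hi : ∀ i, Integrable (fun x => f x * w i x ^ 2) μ := fun i => by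
    obtain ⟨B, hB⟩ := (wcb i).2
    refine int_f hf ((wcb i).1.continuous.measurable.pow_const 2) ⟨B ^ 2, fun x => ?_⟩
    rw [abs_of_nonneg (sq_nonneg _), ← sq_abs]
    exact pow_le_pow_left₀ (abs_nonneg _) (hB x).1 2
  rw [← integral_finsetSum _ fun i _ => hi i]
  refine integral_congr_ae (Filter.Eventually.of_forall fun x => ?_)
  simp only
  rw [Finset.sum_div]
  refine Finset.sum_congr rfl fun i _ => ?_
  rw [hw i x]
  have := (hf.pos x).ne'
  field_simp

/-- the unpredictability bound for all data -/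
def UNP : Prop := ∀ (n : ℕ) (μ : Measure (E n)) [IsProbabilityMeasure μ] (f : E n → ℝ)
  (Q : E n → Mt n), CBp f → ∫ x, f x ∂μ = 1 → (∀ i, CB (famM Q i)) → (∀ x, (Q x)ᵀ = Q x) →
  UNPp μ f Q

theorem ns_of (hU : UNP) : L74.NS := by
  intro n ε S hε Q hQ hQs a ha hQa N hN
  have := S.prob_μ
  have hQ' : ∀ i, CB (famM Q i) := fun i => hQ i.1 i.2
  have hε0 : 0 < ε := S.h_pos.trans_le S.h_le
  have hν : S.ν = fm S.μ S.f := S.ν_eq
  have hFi : Fi S.μ S.f = S.I := by
    unfold L74.State.I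
    rw [hν]
    exact Fi_eq_nsq S.f_cbp S.w_eq S.w_cb
  rw [hν]
  have hI : S.I = nsq S.ν S.w := rfl
  have hδ : (1 + ε) / 2 * Fi S.μ S.f - Ent S.μ S.f ≤ ε * S.I := by
    rw [hFi]
    exact S.S1
  have Vs : ∀ x, (S.V2 x)ᵀ = S.V2 x := fun x => by
    ext i j
    exact S.V2_symm j i x
  refine levB_core (by linarith) S.lsi S.f_cbp S.f_one hQ' hQs ha hQa ?_ ?_ ?_ ?_ hδ hN ?_
    (hU n S.μ S.f Q S.f_cbp S.f_one hQ' hQs)
  · intro i j
    simp only [Matrix.sub_apply, Matrix.smul_apply]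
    exact (continuous_const.sub ((S.V2_cont i j).const_smul S.h)).measurable
  · intro x
    rw [transpose_sub, transpose_one, transpose_smul, Vs]
  · intro x u
    have := S.V2_le x u
    rw [sub_mulVec, dotProduct_sub]
    simp only [zero_mulVec, dotProduct_zero]
    linarith
  · intro x u
    have := S.V2_nonneg x u
    simp only [zero_mulVec, dotProduct_zero] at this
    have h2 := mul_nonneg S.h_pos.le this
    rw [sub_mulVec, dotProduct_sub, smul_mulVec, dotProduct_smul, smul_eq_mul]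
    linarith
  · intro p G k hp R mR Rs R0 R1
    have := S.P1L p G k hp R mR Rs R0 R1
    unfold ET
    refine le_trans (le_of_eq ?_) this
    refine integral_congr_ae (Filter.Eventually.of_forall fun y => ?_)
    refine integral_congr_ae (Filter.Eventually.of_forall fun x => ?_)
    simp only
    rw [trace_mul_comm]

end Crest.Agent.R201.Ch150
end

-- ▼ part R201/UNP_795
section

/-!
# R201, LSI half (helper795): the unpredictability bound `Ch150.UNP` (from 844's Stein shortcut), block NS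
-/

set_option autoImplicit false
set_option linter.unusedSectionVars false
open MeasureTheory Matrix ProbabilityTheory Filter Topology
open scoped ENNReal RealInnerProductSpace

namespace Crest.Agent.R201.UNPB795

open Crest.Agent.R201 Crest.Agent.R201.An Crest.Agent.R201.GC844 Crest.Agent.R201.GS844
  Crest.Agent.R201.LL809 Crest.Agent.R201.Ch150

variable {n : ℕ} {μ : Measure (E n)} {f : E n → ℝ} {Q : E n → Mt n}

theorem sq2 : (√2 : ℝ) ^ 2 = 2 := Real.sq_sqrt (by norm_num)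

theorem wt_lp (hf : CBp f) [IsProbabilityMeasure (μ.withDensity fun x => ENNReal.ofReal (f x))]
    (hQ : ∀ x, (Q x)ᵀ = Q x) (hc : ∀ i j, CB fun x => Q x i j) (y : E n) :
    wt ((μ.withDensity fun x => ENNReal.ofReal (f x)).prod (gm n)) (ze Q) √2 y =
      pJ μ f (lp 2 Q) y := by
  rw [wt_pJ hf hQ hc, sq2]
  rfl

theorem Rm_Rc (hf : CBp f) [IsProbabilityMeasure (μ.withDensity fun x => ENNReal.ofReal (f x))]
    (hQ : ∀ x, (Q x)ᵀ = Q x) (hc : ∀ i j, CB fun x => Q x i j) (y : E n) :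
    Rm (μ.withDensity fun x => ENNReal.ofReal (f x)) Q √2 y =
      Rc μ f (lp 2 Q) (fun x => Q x * Q x) y := by
  obtain ⟨c, hcb⟩ := cb_bdd hc
  ext k l
  have e1 : BB Q k l = fun p : E n × E n => (fun x => (Q x * Q x) k l) p.1 := by
    funext p
    unfold BB
    rw [hQ]
  have mQ : Measurable fun x => (Q x * Q x) k l := by
    simp_rw [Matrix.mul_apply]
    exact Finset.measurable_fun_sum _ fun j _ => (cb_meas (hc k j)).mul (cb_meas (hc j l))
  have bQ : ∀ x, |(Q x * Q x) k l| ≤ n * c ^ 2 := by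
    intro x
    have := BB_le hcb k l (x, (0 : E n))
    rw [e1] at this
    exact this
  unfold Rm Rc
  rw [Matrix.of_apply, Matrix.smul_apply, smul_eq_mul]
  unfold pe
  rw [wt_lp hf hQ hc, e1, Z_pJ hf hQ hc mQ bQ, sq2, div_eq_mul_inv, mul_comm]
  rfl

/-- `∫ f tr(Q² R) p = p_J |R|²` -/
theorem tr_pt {p : E n → E n → ℝ} {G h : E n → ℝ} [IsFiniteMeasure μ] (hp : Chan (gam n) p G h)
    (hf : CBp f) (h1 : ∫ x, f x ∂μ = 1) (hQ : ∀ x, (Q x)ᵀ = Q x)
    (hc : ∀ i j, CB fun x => Q x i j) (y : E n) :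
    ∫ x, f x * ((Q x * Q x * Rc μ f p (fun x => Q x * Q x) y).trace * p y x) ∂μ =
      pJ μ f p y * hs (Rc μ f p (fun x => Q x * Q x) y) := by
  obtain ⟨c, hcb⟩ := cb_bdd hc
  have mQ : ∀ k l, Measurable fun x => (Q x * Q x) k l := by
    intro k l
    simp_rw [Matrix.mul_apply]
    exact Finset.measurable_fun_sum _ fun j _ => (cb_meas (hc k j)).mul (cb_meas (hc j l))
  have bQ : ∀ k l, ∃ C : ℝ, ∀ x, |(Q x * Q x) k l| ≤ C := by
    intro k l
    refine ⟨n * c ^ 2, fun x => ?_⟩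
    have := BB_le hcb k l (x, (0 : E n))
    unfold BB at this
    rw [hQ] at this
    exact this
  have hs' : (Rc μ f p (fun x => Q x * Q x) y)ᵀ = Rc μ f p (fun x => Q x * Q x) y :=
    Rc_symm (fun x => by rw [Matrix.transpose_mul, hQ]) y
  have hJ := (pJ_bd hp hf h1 y).1
  have hRn : ∀ k l, ∫ x, f x * ((Q x * Q x) k l * p y x) ∂μ =
      pJ μ f p y * Rc μ f p (fun x => Q x * Q x) y k l := by
    intro k l
    unfold Rc Rn
    rw [Matrix.smul_apply, Matrix.of_apply, smul_eq_mul, ← mul_assoc, mul_inv_cancel₀ hJ.ne',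
      one_mul]
  set R := Rc μ f p (fun x => Q x * Q x) y with hR
  clear_value R
  have ii : ∀ k l, Integrable (fun x => R l k * (f x * ((Q x * Q x) k l * p y x))) μ := fun k l =>
    (int_x hp hf (mQ k l) (bQ k l) y).const_mul _
  have e : ∀ x, f x * ((Q x * Q x * R).trace * p y x) =
      ∑ k, ∑ l, R l k * (f x * ((Q x * Q x) k l * p y x)) := by
    intro x
    rw [Matrix.trace]
    simp only [Matrix.diag_apply]
    rw [Finset.sum_mul, Finset.mul_sum]
    refine Finset.sum_congr rfl fun k _ => ?_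
    rw [Matrix.mul_apply (M := Q x * Q x), Finset.sum_mul, Finset.mul_sum]
    exact Finset.sum_congr rfl fun l _ => by ring
  simp_rw [e]
  rw [integral_finsetSum _ fun k _ => integrable_finsetSum _ fun l _ => ii k l]
  unfold hs
  rw [Finset.mul_sum]
  refine Finset.sum_congr rfl fun k _ => ?_
  rw [integral_finsetSum _ fun l _ => ii k l, Finset.mul_sum]
  refine Finset.sum_congr rfl fun l _ => ?_
  rw [integral_const_mul, hRn]
  have : R l k = R k l := by
    have := congrFun (congrFun hs' k) l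
    rwa [Matrix.transpose_apply] at this
  rw [this]
  ring

/-- **(UNP)** -/
theorem unp : Ch150.UNP := by
  intro n μ _ f Q hf h1 hQ hQs
  have hc : ∀ i j, CB fun x => Q x i j := fun i j => hQ (i, j)
  have : IsProbabilityMeasure (μ.withDensity fun x => ENNReal.ofReal (f x)) := prob_fm hf h1
  obtain ⟨c, hcb⟩ := cb_bdd hc
  have hm : ∀ k l, Measurable fun x => Q x k l := fun k l => cb_meas (hc k l)
  have h2 := Dis_le (μ := μ) hf hQs hc
  have h3 := stein_main (ν := μ.withDensity fun x => ENNReal.ofReal (f x)) hm hcb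
  have e1 : Dis μ f 0 (Ms 1 Q) = Dis μ f 0 (fun x => 1 + Q x * Q x) := by
    congr 1
    funext x
    unfold Ms
    rw [one_smul]
  obtain ⟨G, h, hp⟩ := gchan (M := Ms 2 Q) (v := 0) (by
    have := MF_N hQs hc √2
    rw [sq2] at this
    exact this) (fun _ => Tw807.cb_const 0)
  have e2 : ET μ f (gam n) (lp 2 Q) (fun x => Q x * Q x) (Rc μ f (lp 2 Q) fun x => Q x * Q x) =
      ∫ y, wt ((μ.withDensity fun x => ENNReal.ofReal (f x)).prod (gm n)) (ze Q) √2 y *
        hs (Rm (μ.withDensity fun x => ENNReal.ofReal (f x)) Q √2 y) ∂(gm n) := by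
    unfold ET
    rw [gam_eq]
    refine integral_congr_ae (Eventually.of_forall fun y => ?_)
    simp only
    rw [wt_lp hf hQs hc, Rm_Rc hf hQs hc]
    exact tr_pt hp hf h1 hQs hc y
  unfold UNPp
  rw [e1, e2]
  linarith

/-- **block NS** -/
theorem ns_795 : L74.NS := ns_of unp

end Crest.Agent.R201.UNPB795
end

-- ▼ part R201/RG1_786
section

/-!
# R201, LSI half (helper786): rigidity channel, matrix part

`M = 1 + A`, `0 ≤ A ≤ 1` symmetric.
-/

set_option autoImplicit false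
set_option linter.unusedSectionVars false
open MeasureTheory Matrix

namespace Crest.Agent.R201.RG786

open Crest.Agent.R201 Crest.Agent.R201.NB152 Crest.Agent.R201.Ch150

variable {n : ℕ}


theorem one_add_spec {U : Mt n} (hU' : U * Uᵀ = 1) (a : Fin n → ℝ) :
    1 + spec U a = spec U (fun i => 1 + a i) := by
  rw [← spec_one hU', spec_add]

/-- spectral form of a symmetric `0 ≤ A` -/
theorem spec0 {A : Mt n} (hA : Aᵀ = A) (h0 : LeQ 0 A) :
    ∃ (U : Mt n) (a : Fin n → ℝ), Uᵀ * U = 1 ∧ U * Uᵀ = 1 ∧ A = spec U a ∧ ∀ i, 0 ≤ a i := by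
  obtain ⟨U, a, hU, hU', e⟩ := exists_spec hA
  have hc : ∀ i, (fun j => U j i) ⬝ᵥ (A *ᵥ fun j => U j i) = a i := by
    intro i
    have e1 : (fun j => U j i) = U *ᵥ Pi.single i 1 := by
      funext j; simp
    rw [e1, e, spec_form]
    have e2 : Uᵀ *ᵥ (U *ᵥ Pi.single i (1 : ℝ)) = Pi.single i 1 := by
      rw [Matrix.mulVec_mulVec, hU, Matrix.one_mulVec]
    rw [e2]
    simp [Pi.single_apply]
  refine ⟨U, a, hU, hU', e, fun i => ?_⟩
  have := h0 fun j => U j i
  rw [hc] at this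
  simpa using this


/-- `tr (M⁻¹ K M⁻¹ K) ≤ |K|²` -/
theorem trace_inv_le {A K : Mt n} (hA : Aᵀ = A) (h0 : LeQ 0 A) (hK : Kᵀ = K) :
    ((1 + A)⁻¹ * K * (1 + A)⁻¹ * K).trace ≤ hs K := by
  obtain ⟨U, a, hU, hU', rfl, ha0⟩ := spec0 hA h0
  rw [one_add_spec hU', inv_spec hU hU' fun i => by have := ha0 i; positivity]
  set b : Fin n → ℝ := fun i => (1 + a i)⁻¹ with hb
  have hb0 : ∀ i, 0 ≤ b i := fun i => inv_nonneg.2 (by have := ha0 i; linarith)
  have hb1 : ∀ i, b i ≤ 1 := fun i => inv_le_one_of_one_le₀ (by have := ha0 i; linarith)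
  set X := Uᵀ * K * U with hX
  have hXs : Xᵀ = X := by
    rw [hX, transpose_mul, transpose_mul, transpose_transpose, hK, Matrix.mul_assoc]
  have e1 : (spec U b * K * spec U b * K).trace = (diagonal b * X * (diagonal b * X)).trace := by
    unfold spec
    have : U * diagonal b * Uᵀ * K * (U * diagonal b * Uᵀ) * K =
        U * (diagonal b * X * (diagonal b * (Uᵀ * K))) := by
      simp only [hX, Matrix.mul_assoc]
    rw [this, trace_mul_comm]
    congr 1
    simp only [hX, Matrix.mul_assoc]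
  have e2 : hs K = hs X := by
    have := hs_conj (U := Uᵀ) (by rw [transpose_transpose]; exact hU') K
    rw [transpose_transpose] at this
    rw [hX, this]
  rw [e1, e2]
  unfold hs
  simp only [Matrix.trace, Matrix.diag_apply, Matrix.mul_apply (M := diagonal b * X),
    Matrix.diagonal_mul]
  refine Finset.sum_le_sum fun i _ => Finset.sum_le_sum fun j _ => ?_
  have e3 : X j i = X i j := congrFun (congrFun hXs i) j
  rw [e3]
  have h2 : b i * b j ≤ 1 := mul_le_one₀ (hb1 i) (hb0 j) (hb1 j)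
  nlinarith [mul_nonneg (sub_nonneg.2 h2) (sq_nonneg (X i j))]

/-- `0 ≤ log det (1 + A) ≤ tr A` -/
theorem logdet_bd {A : Mt n} (hA : Aᵀ = A) (h0 : LeQ 0 A) :
    0 ≤ Real.log (1 + A).det ∧ Real.log (1 + A).det ≤ A.trace := by
  obtain ⟨U, a, hU, hU', rfl, ha0⟩ := spec0 hA h0
  rw [one_add_spec hU', det_spec hU, trace_spec hU,
    Real.log_prod fun i _ => (by have := ha0 i; positivity)]
  constructor
  · exact Finset.sum_nonneg fun i _ => Real.log_nonneg (by have := ha0 i; linarith)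
  · refine Finset.sum_le_sum fun i _ => ?_
    have := Real.log_le_sub_one_of_pos (x := 1 + a i) (by have := ha0 i; linarith)
    linarith

/-- `|(1 - M⁻¹) B|² ≤ tr A` for `B² = M` -/
theorem hs_one_sub_inv {A B : Mt n} (hA : Aᵀ = A) (h0 : LeQ 0 A)
    (hB : Bᵀ = B) (hBB : B * B = 1 + A) : hs ((1 - (1 + A)⁻¹) * B) ≤ A.trace := by
  obtain ⟨U, a, hU, hU', rfl, ha0⟩ := spec0 hA h0
  have hne : ∀ i, 1 + a i ≠ 0 := fun i => by have := ha0 i; positivity
  have e0 : 1 - (1 + spec U a)⁻¹ = spec U (fun i => 1 - (1 + a i)⁻¹) := by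
    rw [one_add_spec hU', inv_spec hU hU' hne, ← spec_one hU', spec_sub]
  rw [hs_eq_trace, transpose_mul, hB]
  have e1 : (1 - (1 + spec U a)⁻¹) * B * (B * (1 - (1 + spec U a)⁻¹)ᵀ) =
      (1 - (1 + spec U a)⁻¹) * (B * B) * (1 - (1 + spec U a)⁻¹)ᵀ := by
    simp only [Matrix.mul_assoc]
  rw [e1, hBB, e0, one_add_spec hU', spec_transpose, spec_mul hU, spec_mul hU, trace_spec hU,
    trace_spec hU]
  refine Finset.sum_le_sum fun i _ => ?_
  have h2 := ha0 i
  have h4 : 0 < 1 + a i := by linarith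
  have e2 : (1 - (1 + a i)⁻¹) * (1 + a i) * (1 - (1 + a i)⁻¹) = a i ^ 2 / (1 + a i) := by
    field_simp
    ring
  rw [e2, div_le_iff₀ h4]
  nlinarith

end Crest.Agent.R201.RG786
end

-- ▼ part R201/RG2_786
section

/-!
# R201, LSI half (helper786): rigidity channel, label averages
-/

set_option autoImplicit false
set_option linter.unusedSectionVars false
set_option linter.unusedVariables false
open MeasureTheory Matrix

namespace Crest.Agent.R201.RG786

open Crest.Agent.R201 Crest.Agent.R201.An Crest.Agent.R201.LL809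

variable {n : ℕ}

section Jensen

variable {μ : Measure (E n)} [IsFiniteMeasure μ] {f : E n → ℝ} {L : Type*} [MeasurableSpace L]
  {l : Measure L} [SFinite l] {p : L → E n → ℝ} {G h : L → ℝ}

theorem int_fbp (hp : Chan l p G h) (hf : CBp f) (j : L) {b : E n → ℝ}
    (mb : Measurable b) {B : ℝ} (hb : ∀ x, |b x| ≤ B) :
    Integrable (fun x => f x * (b x * p j x)) μ := by
  obtain ⟨C, hC0, hC⟩ := hf.bdd
  have h1 := hp.int_right (μ := μ) (u := fun x => f x * b x) (q := p) (hf.cont.measurable.mul mb)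
    (B := C * B) (fun x => by
      rw [abs_mul]; exact mul_le_mul (hC x).1 (hb x) (abs_nonneg _) hC0) hp.meas hp.q1 j
  refine h1.congr (Filter.Eventually.of_forall fun x => ?_)
  simp only
  ring

/-- conditional Jensen: `(∫ f b p_j)² / p_J(j) ≤ ∫ f b² p_j` -/
theorem jensen (hp : Chan l p G h) (hf : CBp f) (h1 : ∫ x, f x ∂μ = 1) (j : L) {b : E n → ℝ}
    (mb : Measurable b) {B : ℝ} (hb : ∀ x, |b x| ≤ B) :
    (∫ x, f x * (b x * p j x) ∂μ) ^ 2 / pJ μ f p j ≤ ∫ x, f x * (b x ^ 2 * p j x) ∂μ := by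
  obtain ⟨hZ, -, -⟩ := pJ_bd hp hf h1 j
  set Z := pJ μ f p j with hZ'
  set c := ∫ x, f x * (b x * p j x) ∂μ with hc
  have i0 : Integrable (fun x => f x * p j x) μ := by
    have := int_fbp (μ := μ) hp hf j (b := fun _ => 1) measurable_const (B := 1) (by simp)
    simpa using this
  have i1 := int_fbp (μ := μ) hp hf j mb hb
  have i2 : Integrable (fun x => f x * (b x ^ 2 * p j x)) μ :=
    int_fbp (μ := μ) hp hf j (b := fun x => b x ^ 2) (mb.pow_const 2) (B := B ^ 2) fun x => by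
      rw [abs_pow]; exact pow_le_pow_left₀ (abs_nonneg _) (hb x) 2
  have key : 0 ≤ ∫ x, f x * ((b x - c / Z) ^ 2 * p j x) ∂μ := integral_nonneg fun x =>
    mul_nonneg (hf.pos x).le (mul_nonneg (sq_nonneg _) (hp.p_nonneg j x))
  have e : ∫ x, f x * ((b x - c / Z) ^ 2 * p j x) ∂μ =
      (∫ x, f x * (b x ^ 2 * p j x) ∂μ) - 2 * (c / Z) * c + (c / Z) ^ 2 * Z := by
    have e1 : ∀ x, f x * ((b x - c / Z) ^ 2 * p j x) = f x * (b x ^ 2 * p j x) -
        2 * (c / Z) * (f x * (b x * p j x)) + (c / Z) ^ 2 * (f x * p j x) := fun x => by ring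
    simp only [e1]
    have i3 : Integrable (fun x => f x * (b x ^ 2 * p j x) -
        2 * (c / Z) * (f x * (b x * p j x))) μ := i2.sub (i1.const_mul _)
    rw [integral_add i3 (i0.const_mul _), integral_sub i2 (i1.const_mul _), integral_const_mul,
      integral_const_mul]
    rfl
  rw [e] at key
  have e2 : (∫ x, f x * (b x ^ 2 * p j x) ∂μ) - 2 * (c / Z) * c + (c / Z) ^ 2 * Z =
      (∫ x, f x * (b x ^ 2 * p j x) ∂μ) - c ^ 2 / Z := by
    field_simp
    ring
  rw [e2] at key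
  linarith

theorem meas_fbp (hp : Chan l p G h) (hf : CBp f) {b : E n → ℝ}
    (mb : Measurable b) {B : ℝ} (hb : ∀ x, |b x| ≤ B) :
    Integrable (fun j => ∫ x, f x * (b x * p j x) ∂μ) l ∧
      ∫ j, ∫ x, f x * (b x * p j x) ∂μ ∂l = ∫ x, f x * b x ∂μ := by
  obtain ⟨C, hC0, hC⟩ := hf.bdd
  obtain ⟨h1, h2⟩ := hp.swap (μ := μ) (u := fun x => f x * b x) (q := p)
    (hf.cont.measurable.mul mb) (B := C * B) (fun x => by
      rw [abs_mul]; exact mul_le_mul (hC x).1 (hb x) (abs_nonneg _) hC0) hp.meas hp.q1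
  simp only [hp.one, mul_one, mul_assoc] at h1 h2
  exact ⟨h1, h2⟩

/-- integrability of the label average -/
theorem int_avg {ι : Type*} [Fintype ι] (hp : Chan l p G h) (hf : CBp f) (h1 : ∫ x, f x ∂μ = 1)
    {b : ι → E n → ℝ} (mb : ∀ i, Measurable (b i)) {B : ℝ} (hb : ∀ i x, |b i x| ≤ B) :
    Integrable (fun j => (∑ i, (∫ x, f x * (b i x * p j x) ∂μ) ^ 2) / pJ μ f p j) l := by
  have m1 : ∀ i, AEMeasurable (fun j => ∫ x, f x * (b i x * p j x) ∂μ) l := fun i =>
    (meas_fbp hp hf (mb i) (hb i)).1.aestronglyMeasurable.aemeasurable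
  have m2 : AEMeasurable (fun j => (∑ i, (∫ x, f x * (b i x * p j x) ∂μ) ^ 2) / pJ μ f p j) l := by
    refine AEMeasurable.div ?_ (pJ_meas hp hf).aemeasurable
    exact Finset.aemeasurable_fun_sum _ fun i _ => (m1 i).pow_const 2
  have i1 : Integrable (fun j => ∑ i, ∫ x, f x * (b i x ^ 2 * p j x) ∂μ) l :=
    integrable_finsetSum _ fun i _ => (meas_fbp hp hf (b := fun x => b i x ^ 2)
      ((mb i).pow_const 2) (B := B ^ 2) fun x => by
        rw [abs_pow]; exact pow_le_pow_left₀ (abs_nonneg _) (hb i x) 2).1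
  refine i1.mono' m2.aestronglyMeasurable (Filter.Eventually.of_forall fun j => ?_)
  have hZ := (pJ_bd hp hf h1 j).1
  rw [Real.norm_eq_abs, abs_of_nonneg (div_nonneg (Finset.sum_nonneg fun i _ => sq_nonneg _) hZ.le),
    Finset.sum_div]
  exact Finset.sum_le_sum fun i _ => jensen hp hf h1 j (mb i) (hb i)

end Jensen

section Gauss

variable {M : E n → Mt n} {v : E n → Fin n → ℝ}

/-- `b_l(y, x) = ((1 - M⁻¹)(y - v))_l` -/
noncomputable def bl (v : E n → Fin n → ℝ) (M : E n → Mt n) (y : E n) (l : Fin n) (x : E n) : ℝ :=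
  ((1 - (M x)⁻¹) *ᵥ (y.ofLp - v x)) l

theorem bl_eq (v : E n → Fin n → ℝ) (M : E n → Mt n) (y : E n) (l : Fin n) (x : E n) :
    y l - ((M x)⁻¹ *ᵥ (y.ofLp - v x)) l = v x l + bl v M y l x := by
  unfold bl
  rw [Matrix.sub_mulVec, Matrix.one_mulVec]
  simp only [Pi.sub_apply]
  ring

theorem PG_bl (hM : MF M) (hv : ∀ i, CB fun x => v x i) (l : Fin n) :
    PG 1 (fun y x => bl v M y l x) := by
  have h1 : PG 1 (fun (y x : E n) => ∑ j, (1 - (M x)⁻¹) l j * (y j - v x j)) := by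
    refine PG.sum _ fun j _ => ?_
    have h2 : CB fun x => (1 - (M x)⁻¹) l j := by
      simp only [Matrix.sub_apply]
      exact Tw807.cb_sub (Tw807.cb_const _) (hM.cb_inv l j)
    have := (PG.cst h2).mul (PG_D hv j)
    rwa [zero_add] at this
  exact h1

/-- second moment of `b` under the Gaussian law of the label -/
theorem bl_sq (hM : MF M) (v : E n → Fin n → ℝ) (x : E n) {B : Mt n} (hBs : Bᵀ = B)
    (hBB : B * B = M x) (hB : 0 < B.det) :
    Integrable (fun y => (∑ l, bl v M y l x ^ 2) * gd (v x) (M x) y) (gam n) ∧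
    ∫ y, (∑ l, bl v M y l x ^ 2) * gd (v x) (M x) y ∂(gam n) = hs ((1 - (M x)⁻¹) * B) := by
  obtain ⟨h1, h2⟩ := gd_cov (v x) hBs hB fun y => ∑ l, bl v M y l x ^ 2
  rw [hBB] at h1 h2
  have e : ∀ g : E n, ∑ l, bl v M (am (v x) B g) l x ^ 2 =
      ∑ l, (∑ i, ((1 - (M x)⁻¹) * B) l i * g i) * ∑ j, ((1 - (M x)⁻¹) * B) l j * g j := by
    intro g
    refine Finset.sum_congr rfl fun l _ => ?_
    unfold bl
    rw [am_ofLp, add_sub_cancel_left, Matrix.mulVec_mulVec, sq]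
    rfl
  have hρ : Ex (gk 1 : E n → ℝ) := ex_gk one_pos
  have hE : ∀ l, EG fun g : E n => (∑ i, ((1 - (M x)⁻¹) * B) l i * g i) *
      ∑ j, ((1 - (M x)⁻¹) * B) l j * g j := fun l => (EGl _).mul (EGl _)
  constructor
  · rw [h1]
    simp only [e]
    unfold gam
    rw [integrable_nm_iff hρ]
    exact hρ.int_mul (EG.sum _ fun l _ => hE l)
  · rw [h2]
    simp only [e]
    rw [int_gam, Em_sum _ hρ fun l _ => hE l]
    unfold hs
    refine Finset.sum_congr rfl fun l _ => ?_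
    rw [mll]
    simp only [dotProduct, sq]

end Gauss

end Crest.Agent.R201.RG786
end

-- ▼ part R201/RG3_786
section

/-!
# R201, LSI half (helper786): rigidity channel, law part and the inequality
-/

set_option autoImplicit false
set_option linter.unusedSectionVars false
set_option linter.unusedVariables false
open MeasureTheory Matrix

namespace Crest.Agent.R201.RG786

open Crest.Agent.R201 Crest.Agent.R201.An Crest.Agent.R201.LL809

variable {n : ℕ}

/-! ### bounded continuous functions -/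

/-- bounded continuous -/
def BC (g : E n → ℝ) : Prop := Continuous g ∧ ∃ B : ℝ, ∀ x, |g x| ≤ B

theorem BC.of_cb {g : E n → ℝ} (h : CB g) : BC g := by
  obtain ⟨h1, B, hB⟩ := h
  exact ⟨h1.continuous, B, fun x => (hB x).1⟩

theorem BC.of_pd {g : E n → ℝ} (h : CB g) (k : Fin n) : BC (pd k g) := by
  obtain ⟨h1, B, hB⟩ := id h
  exact ⟨Tw807.pd_cont h1 k, B, fun x => (hB x).2 k⟩

theorem BC.const (c : ℝ) : BC (fun _ : E n => c) := ⟨continuous_const, |c|, fun _ => le_rfl⟩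

theorem BC.add {g h : E n → ℝ} (hg : BC g) (hh : BC h) : BC fun x => g x + h x := by
  obtain ⟨c1, B, hB⟩ := hg
  obtain ⟨c2, C, hC⟩ := hh
  exact ⟨c1.add c2, B + C, fun x => (abs_add_le _ _).trans (add_le_add (hB x) (hC x))⟩

theorem BC.mul {g h : E n → ℝ} (hg : BC g) (hh : BC h) : BC fun x => g x * h x := by
  obtain ⟨c1, B, hB⟩ := hg
  obtain ⟨c2, C, hC⟩ := hh
  refine ⟨c1.mul c2, B * C, fun x => ?_⟩
  rw [abs_mul]
  exact mul_le_mul (hB x) (hC x) (abs_nonneg _) ((abs_nonneg _).trans (hB x))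

theorem BC.smul {g : E n → ℝ} (c : ℝ) (hg : BC g) : BC fun x => c * g x := (BC.const c).mul hg

theorem BC.sub {g h : E n → ℝ} (hg : BC g) (hh : BC h) : BC fun x => g x - h x := by
  have := hg.add (hh.smul (-1))
  simpa [sub_eq_add_neg] using this

theorem BC.sum {ι : Type*} (s : Finset ι) {g : ι → E n → ℝ} (h : ∀ i ∈ s, BC (g i)) :
    BC fun x => ∑ i ∈ s, g i x := by
  classical
  induction s using Finset.induction_on with
  | empty => simpa using BC.const (n := n) 0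
  | insert a s ha ih =>
    simp only [Finset.sum_insert ha]
    exact (h a (Finset.mem_insert_self a s)).add (ih fun i hi => h i (Finset.mem_insert_of_mem hi))

theorem BC.int {μ : Measure (E n)} [IsFiniteMeasure μ] {g : E n → ℝ} (h : BC g) :
    Integrable g μ := by
  obtain ⟨c, B, hB⟩ := h
  exact (integrable_const B).mono' c.aestronglyMeasurable (Filter.Eventually.of_forall hB)

/-! ### the law part -/

section Law

variable {μ : Measure (E n)} [IsProbabilityMeasure μ] {f : E n → ℝ} {M A : E n → Mt n}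
  {v : E n → Fin n → ℝ}

/-- Gaussian LSI for the law of the label (statement) -/
def DisB (μ : Measure (E n)) (f : E n → ℝ) (v : E n → Fin n → ℝ) (M : E n → Mt n) : Prop :=
  Dis μ f v M ≤ 1 / 2 * ∫ y, (∑ l, (∫ x, f x * ((y l - ((M x)⁻¹ *ᵥ (y.ofLp - v x)) l) *
    gp v M y x) ∂μ) ^ 2) / pJ μ f (gp v M) y ∂(gam n)

theorem MF_of (hA : ∀ i j, CB fun x => A x i j) (hs : ∀ x, (A x)ᵀ = A x)
    (h0 : ∀ x, LeQ 0 (A x)) : MF (fun x => 1 + A x) where
  cb i j := Tw807.cb_add (Tw807.cb_const _) (hA i j)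
  symm x := by rw [transpose_add, transpose_one, hs]
  ge := ⟨1, one_pos, fun x u => by
    have := h0 x u
    rw [Matrix.add_mulVec, dotProduct_add, one_smul]
    simp only [Matrix.zero_mulVec, dotProduct_zero] at this
    linarith⟩

theorem prod_int (hM : MF M) (hv : ∀ i, CB fun x => v x i) (hf : CBp f)
    (hA : ∀ i j, CB fun x => A x i j) (hAs : ∀ x, (A x)ᵀ = A x) (h0 : ∀ x, LeQ 0 (A x))
    (hMA : ∀ x, M x = 1 + A x) :
    Integrable (fun z : E n × E n => f z.2 * ((∑ l, bl v M z.1 l z.2 ^ 2) * gp v M z.1 z.2))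
      ((gam n).prod μ) ∧
    ∫ y, ∫ x, f x * ((∑ l, bl v M y l x ^ 2) * gp v M y x) ∂μ ∂(gam n) ≤
      ∫ x, f x * (A x).trace ∂μ := by
  obtain ⟨G, h, hp⟩ := gchan hM hv
  have key : ∀ x, Integrable (fun y => f x * ((∑ l, bl v M y l x ^ 2) * gp v M y x)) (gam n) ∧
      ∫ y, f x * ((∑ l, bl v M y l x ^ 2) * gp v M y x) ∂(gam n) ≤ f x * (A x).trace := by
    intro x
    obtain ⟨B, hBs, hBB, hB⟩ := hM.root x
    obtain ⟨h1, h2⟩ := bl_sq hM v x hBs hBB hB
    refine ⟨h1.const_mul (f x), ?_⟩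
    rw [integral_const_mul]
    refine mul_le_mul_of_nonneg_left ?_ (hf.pos x).le
    have h3 := hs_one_sub_inv (hAs x) (h0 x) hBs (by rw [hBB, hMA])
    rw [← hMA] at h3
    exact h2.le.trans h3
  have ms : StronglyMeasurable (fun z : E n × E n => f z.2 * ((∑ l, bl v M z.1 l z.2 ^ 2) *
      gp v M z.1 z.2)) := by
    refine (((hf.cont.measurable.comp measurable_snd)).mul ((Finset.measurable_fun_sum _ fun l _ =>
      (PG_bl hM hv l).meas.pow_const 2).mul hp.meas)).stronglyMeasurable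
  have nn : ∀ y x, 0 ≤ f x * ((∑ l, bl v M y l x ^ 2) * gp v M y x) := fun y x =>
    mul_nonneg (hf.pos x).le (mul_nonneg (Finset.sum_nonneg fun l _ => sq_nonneg _)
      (Real.exp_pos _).le)
  have hT : Integrable (fun x => f x * (A x).trace) μ := by
    refine BC.int ((BC.of_cb hf.1).mul ?_)
    exact BC.sum _ fun i _ => BC.of_cb (hA i i)
  have hI : Integrable (fun z : E n × E n => f z.2 * ((∑ l, bl v M z.1 l z.2 ^ 2) *
      gp v M z.1 z.2)) ((gam n).prod μ) := by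
    rw [integrable_prod_iff' ms.aestronglyMeasurable]
    refine ⟨Filter.Eventually.of_forall fun x => (key x).1, ?_⟩
    refine hT.mono' ?_ (Filter.Eventually.of_forall fun x => ?_)
    · exact (StronglyMeasurable.integral_prod_left' ms.norm).aestronglyMeasurable
    · rw [Real.norm_eq_abs, abs_of_nonneg (integral_nonneg fun y => norm_nonneg _)]
      refine le_trans (le_of_eq ?_) (key x).2
      refine integral_congr_ae (Filter.Eventually.of_forall fun y => ?_)
      simp only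
      rw [Real.norm_eq_abs, abs_of_nonneg (nn y x)]
  refine ⟨hI, ?_⟩
  rw [integral_integral_swap (f := fun y x => f x * ((∑ l, bl v M y l x ^ 2) * gp v M y x)) hI]
  exact integral_mono hI.integral_prod_right hT fun x => (key x).2

/-- pointwise bound of the score of the label law, and integrability of the bound -/
theorem pt_bd (hM : MF M) (hv : ∀ i, CB fun x => v x i) (hf : CBp f) (h1 : ∫ x, f x ∂μ = 1)
    (hA : ∀ i j, CB fun x => A x i j) (hAs : ∀ x, (A x)ᵀ = A x) (h0 : ∀ x, LeQ 0 (A x))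
    (hMA : ∀ x, M x = 1 + A x) :
    (∀ y, (∑ l, (∫ x, f x * ((y l - ((M x)⁻¹ *ᵥ (y.ofLp - v x)) l) * gp v M y x) ∂μ) ^ 2) /
      pJ μ f (gp v M) y ≤ 2 * ((∑ l, (∫ x, f x * (v x l * gp v M y x) ∂μ) ^ 2) /
        pJ μ f (gp v M) y) + 2 * ∫ x, f x * ((∑ l, bl v M y l x ^ 2) * gp v M y x) ∂μ) ∧
    Integrable (fun y => (∑ l, (∫ x, f x * (v x l * gp v M y x) ∂μ) ^ 2) /
        pJ μ f (gp v M) y) (gam n) := by
  obtain ⟨G, h, hp⟩ := gchan hM hv
  have hvb : ∃ B : ℝ, ∀ l x, |v x l| ≤ B := by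
    have : ∀ i, ∃ B : ℝ, ∀ x, |v x i| ≤ B := fun i => (BC.of_cb (hv i)).2
    choose B hB using this
    exact ⟨∑ i, |B i|, fun l x => (hB l x).trans ((le_abs_self _).trans
      (Finset.single_le_sum (f := fun i => |B i|) (fun i _ => abs_nonneg _) (Finset.mem_univ l)))⟩
  obtain ⟨Bv, hBv⟩ := hvb
  have mv : ∀ l, Measurable fun x => v x l := fun l => (hv l).1.continuous.measurable
  have iv := int_avg (μ := μ) hp hf h1 (b := fun l x => v x l) mv hBv
  refine ⟨?_, iv⟩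
  have hbb : ∀ y, ∃ B : ℝ, ∀ l x, |bl v M y l x| ≤ B := by
    intro y
    have : ∀ l, ∃ B : ℝ, ∀ x, |bl v M y l x| ≤ B := fun l => (BC.of_cb ((PG_bl hM hv l).cb y)).2
    choose B hB using this
    exact ⟨∑ i, |B i|, fun l x => (hB l x).trans ((le_abs_self _).trans
      (Finset.single_le_sum (f := fun i => |B i|) (fun i _ => abs_nonneg _) (Finset.mem_univ l)))⟩
  have mb : ∀ y l, Measurable (bl v M y l) := fun y l => ((PG_bl hM hv l).cb y).1.continuous.measurable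
  intro y
  obtain ⟨Bb, hBb⟩ := hbb y
  have hZ := (pJ_bd hp hf h1 y).1
  have e1 : ∀ l, ∫ x, f x * ((y l - ((M x)⁻¹ *ᵥ (y.ofLp - v x)) l) * gp v M y x) ∂μ =
      (∫ x, f x * (v x l * gp v M y x) ∂μ) + ∫ x, f x * (bl v M y l x * gp v M y x) ∂μ := by
    intro l
    rw [← integral_add (int_fbp hp hf y (mv l) (hBv l)) (int_fbp hp hf y (mb y l) (hBb l))]
    refine integral_congr_ae (Filter.Eventually.of_forall fun x => ?_)
    simp only
    rw [bl_eq]
    ring
  have e2 : ∑ l, ∫ x, f x * (bl v M y l x ^ 2 * gp v M y x) ∂μ =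
      ∫ x, f x * ((∑ l, bl v M y l x ^ 2) * gp v M y x) ∂μ := by
    rw [← integral_finsetSum _ fun l _ => int_fbp hp hf y (b := fun x => bl v M y l x ^ 2)
      ((mb y l).pow_const 2) (B := Bb ^ 2) fun x => by
        rw [abs_pow]; exact pow_le_pow_left₀ (abs_nonneg _) (hBb l x) 2]
    refine integral_congr_ae (Filter.Eventually.of_forall fun x => ?_)
    simp only
    rw [Finset.sum_mul, Finset.mul_sum]
  simp only [e1]
  rw [← e2, Finset.sum_div, Finset.sum_div, Finset.mul_sum, Finset.mul_sum,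
    ← Finset.sum_add_distrib]
  refine Finset.sum_le_sum fun l _ => ?_
  have h3 := jensen hp hf h1 y (mb y l) (hBb l)
  set a := ∫ x, f x * (v x l * gp v M y x) ∂μ
  set c := ∫ x, f x * (bl v M y l x * gp v M y x) ∂μ
  have h4 : (a + c) ^ 2 / pJ μ f (gp v M) y ≤ (2 * a ^ 2 + 2 * c ^ 2) / pJ μ f (gp v M) y :=
    div_le_div_of_nonneg_right (by nlinarith [sq_nonneg (a - c)]) hZ.le
  have h5 : (2 * a ^ 2 + 2 * c ^ 2) / pJ μ f (gp v M) y =
      2 * (a ^ 2 / pJ μ f (gp v M) y) + 2 * (c ^ 2 / pJ μ f (gp v M) y) := by ring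
  linarith

/-- **law part**: `D(p_J|γ) ≤ E|E[v|J]|² + E tr A` -/
theorem law_le (hM : MF M) (hv : ∀ i, CB fun x => v x i) (hf : CBp f) (h1 : ∫ x, f x ∂μ = 1)
    (hA : ∀ i j, CB fun x => A x i j) (hAs : ∀ x, (A x)ᵀ = A x) (h0 : ∀ x, LeQ 0 (A x))
    (hMA : ∀ x, M x = 1 + A x) (hD : DisB μ f v M) :
    Dis μ f v M ≤ (∫ y, (∑ l, (∫ x, f x * (v x l * gp v M y x) ∂μ) ^ 2) /
      pJ μ f (gp v M) y ∂(gam n)) + ∫ x, f x * (A x).trace ∂μ := by
  obtain ⟨G, h, hp⟩ := gchan hM hv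
  obtain ⟨hI, hle⟩ := prod_int (μ := μ) hM hv hf hA hAs h0 hMA
  obtain ⟨pt, iv⟩ := pt_bd (μ := μ) hM hv hf h1 hA hAs h0 hMA
  have i2 : Integrable (fun y => 2 * ((∑ l, (∫ x, f x * (v x l * gp v M y x) ∂μ) ^ 2) /
        pJ μ f (gp v M) y) + 2 * ∫ x, f x * ((∑ l, bl v M y l x ^ 2) * gp v M y x) ∂μ) (gam n) :=
    (iv.const_mul 2).add (hI.integral_prod_left.const_mul 2)
  have h6 := integral_mono_of_nonneg (μ := gam n) (f := fun y =>
    (∑ l, (∫ x, f x * ((y l - ((M x)⁻¹ *ᵥ (y.ofLp - v x)) l) * gp v M y x) ∂μ) ^ 2) /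
      pJ μ f (gp v M) y) (Filter.Eventually.of_forall fun y => div_nonneg
        (Finset.sum_nonneg fun i _ => sq_nonneg _) (pJ_bd hp hf h1 y).1.le) i2
    (Filter.Eventually.of_forall pt)
  rw [integral_add (iv.const_mul 2) (hI.integral_prod_left.const_mul 2), integral_const_mul,
    integral_const_mul] at h6
  unfold DisB at hD
  linarith

end Law

end Crest.Agent.R201.RG786
end

-- ▼ part R201/RG4_786
section

/-!
# R201, LSI half (helper786): rigidity channel, the inequality (modulo the law part)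
-/

set_option autoImplicit false
set_option linter.unusedSectionVars false
set_option linter.unusedVariables false
open MeasureTheory Matrix

namespace Crest.Agent.R201.RG786

open Crest.Agent.R201 Crest.Agent.R201.An Crest.Agent.R201.LL809

variable {n : ℕ}

section Rig

variable {μ : Measure (E n)} [IsProbabilityMeasure μ] {f : E n → ℝ} {A : E n → Mt n}
  {w : Fin n → E n → ℝ} {κ K : ℝ}

/-- the mean field of the label -/
noncomputable def vk (κ : ℝ) (w : Fin n → E n → ℝ) (x : E n) (i : Fin n) : ℝ := (√κ)⁻¹ * w i x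

theorem vk_cb (hw : ∀ i, CB (w i)) (κ : ℝ) (i : Fin n) : CB fun x => vk κ w x i :=
  Tw807.cb_const_mul _ (hw i)

theorem vk_dot (hκ : 0 < κ) (x : E n) : vk κ w x ⬝ᵥ vk κ w x = κ⁻¹ * ∑ i, w i x ^ 2 := by
  unfold vk
  rw [dotProduct, Finset.mul_sum]
  refine Finset.sum_congr rfl fun i _ => ?_
  have : (√κ)⁻¹ * (√κ)⁻¹ = κ⁻¹ := by rw [← mul_inv, Real.mul_self_sqrt hκ.le]
  calc (√κ)⁻¹ * w i x * ((√κ)⁻¹ * w i x) = ((√κ)⁻¹ * (√κ)⁻¹) * w i x ^ 2 := by ring
    _ = _ := by rw [this]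

theorem pdv_vk (hw : ∀ i, CB (w i)) (κ : ℝ) (k : Fin n) (x : E n) :
    pdv k (vk κ w) x = (√κ)⁻¹ • fun i => pd k (w i) x := by
  funext i
  simp only [pdv, vk, Pi.smul_apply, smul_eq_mul]
  exact Tw807.pd_const_mul _ k (Tw807.cb_diff (hw i) x)

theorem pdM_one_add (hA : ∀ i j, CB fun x => A x i j) (k : Fin n) (x : E n) :
    pdM k (fun x => 1 + A x) x = pdM k A x := by
  ext i j
  simp only [pdM, Matrix.of_apply, Matrix.add_apply]
  rw [Tw807.pd_add k (differentiableAt_const _) (Tw807.cb_diff (hA i j) x), Tw807.pd_const, zero_add]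

theorem Dis_nonneg {v : E n → Fin n → ℝ} {M : E n → Mt n} (hM : MF M)
    (hv : ∀ i, CB fun x => v x i) (hf : CBp f) (h1 : ∫ x, f x ∂μ = 1) : 0 ≤ Dis μ f v M := by
  obtain ⟨G, h, hp⟩ := gchan hM hv
  have e1 : Integrable (pJ μ f (gp v M)) (gam n) ∧ ∫ y, pJ μ f (gp v M) y ∂(gam n) = 1 := by
    obtain ⟨a1, a2⟩ := meas_fbp (μ := μ) hp hf (b := fun _ => 1) measurable_const (B := 1) (by simp)
    simp only [one_mul, mul_one, h1] at a1 a2
    exact ⟨a1, a2⟩
  have e2 := pJlog_int (μ := μ) hp hf h1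
  have e3 : ∫ y, (pJ μ f (gp v M) y - 1) ∂(gam n) = 0 := by
    rw [integral_sub e1.1 (integrable_const _), e1.2]
    simp
  unfold Dis
  rw [← e3]
  refine integral_mono (e1.1.sub (integrable_const _)) e2 fun y => ?_
  have h0 := (pJ_bd hp hf h1 y).1
  simp only
  set z := pJ μ f (gp v M) y
  have h4 := Real.one_sub_inv_le_log_of_pos h0
  have h5 := mul_le_mul_of_nonneg_left h4 h0.le
  have h6 : z * (1 - z⁻¹) = z - 1 := by
    rw [mul_sub, mul_one, mul_inv_cancel₀ h0.ne']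
  linarith

theorem rig (hL : LSI K μ) (hK : 0 ≤ K) (hf : CBp f) (h1 : ∫ x, f x ∂μ = 1)
    (hw : ∀ i, CB (w i)) (hA : ∀ i j, CB fun x => A x i j) (hAs : ∀ x, (A x)ᵀ = A x)
    (h0 : ∀ x, LeQ 0 (A x)) (hκ : 0 < κ) (hD : DisB μ f (vk κ w) (fun x => 1 + A x)) :
    ∫ x, f x * ∑ i, w i x ^ 2 ∂μ ≤
      K * (∫ x, f x * ∑ k, (fun i => pd k (w i) x) ⬝ᵥ ((1 + A x)⁻¹ *ᵥ fun i => pd k (w i) x) ∂μ) +
      K * κ / 2 * (∫ x, f x * ∑ k, hs (pdM k A x) ∂μ) + 2 * κ * (K / 2 * Fi μ f - Ent μ f) +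
      2 * (∫ y, (∑ l, (∫ x, f x * (w l x * gp (vk κ w) (fun x => 1 + A x) y x) ∂μ) ^ 2) /
        pJ μ f (gp (vk κ w) (fun x => 1 + A x)) y ∂(gam n)) +
      2 * κ * ∫ x, f x * (A x).trace ∂μ ∧
    MI μ f (gam n) (gp (vk κ w) (fun x => 1 + A x)) ≤
      (∫ x, f x * ∑ i, w i x ^ 2 ∂μ) / (2 * κ) + 1 / 2 * ∫ x, f x * (A x).trace ∂μ := by
  have hM := MF_of hA hAs h0
  have hv := vk_cb hw κ
  obtain ⟨G, h, hp⟩ := gchan hM hv
  have hlaw := law_le hM hv hf h1 hA hAs h0 (fun _ => rfl) hD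
  have hlab := lab hL hf h1 hp
  rw [LF_gp hM hv hf, MI_gp hM hv hf h1] at hlab
  have hDis := Dis_nonneg (μ := μ) hM hv hf h1
  have hMI := MI_gp (μ := μ) hM hv hf h1
  set D := Dis μ f (vk κ w) (fun x => 1 + A x) with hDd
  have bf := BC.of_cb hf.1
  have bA : BC fun x => (A x).trace := BC.sum _ fun i _ => BC.of_cb (hA i i)
  have bw : BC fun x => ∑ i, w i x ^ 2 := BC.sum _ fun i _ => by
    have := (BC.of_cb (hw i)).mul (BC.of_cb (hw i))
    simpa [sq] using this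
  have bl : BC fun x => Real.log (1 + A x).det := BC.of_cb (cbp_log hM.det_cbp)
  have bd : BC fun x => ∑ k, (fun i => pd k (w i) x) ⬝ᵥ ((1 + A x)⁻¹ *ᵥ fun i => pd k (w i) x) := by
    refine BC.sum _ fun k _ => ?_
    simp only [dotProduct, Matrix.mulVec]
    exact BC.sum _ fun i _ => (BC.of_pd (hw i) k).mul
      (BC.sum _ fun j _ => (BC.of_cb (hM.cb_inv i j)).mul (BC.of_pd (hw j) k))
  have bh : BC fun x => ∑ k, hs (pdM k A x) := by
    refine BC.sum _ fun k _ => ?_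
    unfold hs
    refine BC.sum _ fun i _ => BC.sum _ fun j _ => ?_
    have := (BC.of_pd (hA i j) k).mul (BC.of_pd (hA i j) k)
    simpa [sq, pdM] using this
  -- the law part in terms of `w`
  have e1 : ∫ y, (∑ l, (∫ x, f x * (vk κ w x l * gp (vk κ w) (fun x => 1 + A x) y x) ∂μ) ^ 2) /
        pJ μ f (gp (vk κ w) (fun x => 1 + A x)) y ∂(gam n) =
      κ⁻¹ * ∫ y, (∑ l, (∫ x, f x * (w l x * gp (vk κ w) (fun x => 1 + A x) y x) ∂μ) ^ 2) /
        pJ μ f (gp (vk κ w) (fun x => 1 + A x)) y ∂(gam n) := by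
    rw [← integral_const_mul]
    refine integral_congr_ae (Filter.Eventually.of_forall fun y => ?_)
    simp only
    rw [← mul_div_assoc, Finset.mul_sum]
    congr 1
    refine Finset.sum_congr rfl fun l _ => ?_
    have e2 : ∫ x, f x * (vk κ w x l * gp (vk κ w) (fun x => 1 + A x) y x) ∂μ =
        (√κ)⁻¹ * ∫ x, f x * (w l x * gp (vk κ w) (fun x => 1 + A x) y x) ∂μ := by
      rw [← integral_const_mul]
      refine integral_congr_ae (Filter.Eventually.of_forall fun x => ?_)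
      simp only [vk]
      ring
    rw [e2, mul_pow, inv_pow, Real.sq_sqrt hκ.le]
  rw [e1] at hlaw
  set T := ∫ y, (∑ l, (∫ x, f x * (w l x * gp (vk κ w) (fun x => 1 + A x) y x) ∂μ) ^ 2) /
        pJ μ f (gp (vk κ w) (fun x => 1 + A x)) y ∂(gam n) with hT
  -- mutual information
  have e3 : ∫ x, f x * (vk κ w x ⬝ᵥ vk κ w x + (1 + A x).trace - n - Real.log (1 + A x).det) ∂μ =
      κ⁻¹ * (∫ x, f x * ∑ i, w i x ^ 2 ∂μ) + (∫ x, f x * (A x).trace ∂μ) -
        ∫ x, f x * Real.log (1 + A x).det ∂μ := by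
    have i1 := ((bf.mul bw).smul κ⁻¹).int (μ := μ)
    have i2 := (bf.mul bA).int (μ := μ)
    have i3 := (bf.mul bl).int (μ := μ)
    have i12 : Integrable (fun x => κ⁻¹ * (f x * ∑ i, w i x ^ 2) + f x * (A x).trace) μ := i1.add i2
    rw [← integral_const_mul, ← integral_add i1 i2, ← integral_sub i12 i3]
    refine integral_congr_ae (Filter.Eventually.of_forall fun x => ?_)
    simp only
    rw [vk_dot hκ, Matrix.trace_add, Matrix.trace_one, Fintype.card_fin]
    ring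
  have i4 : 0 ≤ ∫ x, f x * Real.log (1 + A x).det ∂μ := integral_nonneg fun x =>
    mul_nonneg (hf.pos x).le (logdet_bd (hAs x) (h0 x)).1
  have i5 : ∫ x, f x * Real.log (1 + A x).det ∂μ ≤ ∫ x, f x * (A x).trace ∂μ :=
    integral_mono (bf.mul bl).int (bf.mul bA).int fun x =>
      mul_le_mul_of_nonneg_left (logdet_bd (hAs x) (h0 x)).2 (hf.pos x).le
  -- Fisher information
  have e4 : ∫ x, f x * ∑ k, (pdv k (vk κ w) x ⬝ᵥ ((1 + A x)⁻¹ *ᵥ pdv k (vk κ w) x) +
      (1 / 2) * ((1 + A x)⁻¹ * pdM k (fun x => 1 + A x) x * (1 + A x)⁻¹ *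
        pdM k (fun x => 1 + A x) x).trace) ∂μ ≤
      κ⁻¹ * (∫ x, f x * ∑ k, (fun i => pd k (w i) x) ⬝ᵥ
        ((1 + A x)⁻¹ *ᵥ fun i => pd k (w i) x) ∂μ) +
      1 / 2 * (∫ x, f x * ∑ k, hs (pdM k A x) ∂μ) := by
    have i1 := ((bf.mul bd).smul κ⁻¹).int (μ := μ)
    have i2 := ((bf.mul bh).smul (1 / 2)).int (μ := μ)
    rw [← integral_const_mul, ← integral_const_mul, ← integral_add i1 i2]
    refine integral_mono_of_nonneg (Filter.Eventually.of_forall fun x => ?_) (i1.add i2)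
      (Filter.Eventually.of_forall fun x => ?_)
    · refine mul_nonneg (hf.pos x).le (Finset.sum_nonneg fun k _ => ?_)
      rw [← (gp_moments hM hv x).2.2.1 k]
      exact integral_nonneg fun y => mul_nonneg (sq_nonneg _) (Real.exp_pos _).le
    · have e5 : ∑ k, (pdv k (vk κ w) x ⬝ᵥ ((1 + A x)⁻¹ *ᵥ pdv k (vk κ w) x) +
          (1 / 2) * ((1 + A x)⁻¹ * pdM k (fun x => 1 + A x) x * (1 + A x)⁻¹ *
            pdM k (fun x => 1 + A x) x).trace) ≤
          κ⁻¹ * (∑ k, (fun i => pd k (w i) x) ⬝ᵥ ((1 + A x)⁻¹ *ᵥ fun i => pd k (w i) x)) +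
          1 / 2 * ∑ k, hs (pdM k A x) := by
        rw [Finset.mul_sum, Finset.mul_sum, ← Finset.sum_add_distrib]
        refine Finset.sum_le_sum fun k _ => ?_
        have e6 := trace_inv_le (hAs x) (h0 x) (K := pdM k A x) (by
          rw [← pdM_one_add hA]; exact pdM_symm hM k x)
        rw [pdM_one_add hA, pdv_vk hw, Matrix.mulVec_smul, smul_dotProduct, dotProduct_smul,
          smul_eq_mul, smul_eq_mul, ← mul_assoc]
        have e7 : (√κ)⁻¹ * (√κ)⁻¹ = κ⁻¹ := by rw [← mul_inv, Real.mul_self_sqrt hκ.le]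
        rw [e7]
        linarith
      have e8 := mul_le_mul_of_nonneg_left e5 (hf.pos x).le
      refine e8.trans (le_of_eq ?_)
      simp only
      ring
  rw [e3] at hlab hMI
  set W := ∫ x, f x * ∑ i, w i x ^ 2 ∂μ with hW
  set TA := ∫ x, f x * (A x).trace ∂μ with hTA
  set LG := ∫ x, f x * Real.log (1 + A x).det ∂μ with hLG
  set F1 := ∫ x, f x * ∑ k, (fun i => pd k (w i) x) ⬝ᵥ
        ((1 + A x)⁻¹ *ᵥ fun i => pd k (w i) x) ∂μ with hF1
  set F2 := ∫ x, f x * ∑ k, hs (pdM k A x) ∂μ with hF2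
  constructor
  · have h3 := mul_le_mul_of_nonneg_left e4 (by positivity : 0 ≤ K / 2)
    have h4 : 1 / 2 * (κ⁻¹ * W + TA - LG) - D ≤
        K / 2 * (κ⁻¹ * F1 + 1 / 2 * F2) + (K / 2 * Fi μ f - Ent μ f) := by linarith
    have h5 := mul_le_mul_of_nonneg_left h4 (by positivity : 0 ≤ 2 * κ)
    have h6 := mul_le_mul_of_nonneg_left hlaw (by positivity : 0 ≤ 2 * κ)
    have h7 : 2 * κ * (1 / 2 * (κ⁻¹ * W + TA - LG) - D) = W + κ * (TA - LG) - 2 * κ * D := by
      field_simp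
      ring
    have h8 : 2 * κ * (K / 2 * (κ⁻¹ * F1 + 1 / 2 * F2) + (K / 2 * Fi μ f - Ent μ f)) =
        K * F1 + K * κ / 2 * F2 + 2 * κ * (K / 2 * Fi μ f - Ent μ f) := by
      field_simp
    have h9 : 2 * κ * (κ⁻¹ * T + TA) = 2 * T + 2 * κ * TA := by
      field_simp
    have h10 : 0 ≤ κ * (TA - LG) := mul_nonneg hκ.le (by linarith)
    rw [h7, h8] at h5
    rw [h9] at h6
    linarith
  · have h3 : W / (2 * κ) = 1 / 2 * (κ⁻¹ * W) := by field_simp
    rw [h3]
    linarith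

end Rig

end Crest.Agent.R201.RG786
end

-- ▼ part R201/RG5_786
section

/-!
# R201, LSI half (helper786): the law of a Gaussian label, Gaussian LSI
`D(p_J | γ) ≤ 1/2 ∫ |E[y - M⁻¹(y - v) | J = y]|² p_J dγ`.
-/

set_option autoImplicit false
set_option linter.unusedSectionVars false
set_option linter.unusedVariables false
open MeasureTheory Matrix

namespace Crest.Agent.R201.RG786

open Crest.Agent.R201 Crest.Agent.R201.An Crest.Agent.R201.LL809

variable {n : ℕ}

/-- score of the label in the variable `y` -/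
noncomputable def sy (v : Fin n → ℝ) (M : Mt n) (y : E n) (l : Fin n) : ℝ :=
  y l - (M⁻¹ *ᵥ (y.ofLp - v)) l

/-- derivative of the log-density in the label -/
theorem gl_fd (v : Fin n → ℝ) {M : Mt n} (hN : (M⁻¹)ᵀ = M⁻¹) (y : E n) :
    HasFDerivAt (fun y : E n => gl v M y)
      (∑ l, sy v M y l • (EuclideanSpace.proj l : E n →L[ℝ] ℝ)) y := by
  set N := M⁻¹ with hNd
  have hc : ∀ i, HasFDerivAt (fun y : E n => y i) (EuclideanSpace.proj i : E n →L[ℝ] ℝ) y := fun i =>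
    (EuclideanSpace.proj i : E n →L[ℝ] ℝ).hasFDerivAt
  have hd : ∀ i, HasFDerivAt (fun y : E n => y i - v i) (EuclideanSpace.proj i : E n →L[ℝ] ℝ) y :=
    fun i => (hc i).sub_const _
  have h1 : ∀ i, HasFDerivAt (fun y : E n => ∑ j, N i j * (y j - v j))
      (∑ j, N i j • (EuclideanSpace.proj j : E n →L[ℝ] ℝ)) y := fun i =>
    HasFDerivAt.fun_sum fun j _ => (hd j).const_mul (N i j)
  have h2 : HasFDerivAt (fun y : E n => ∑ i, (y i - v i) * ∑ j, N i j * (y j - v j))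
      (∑ i, ((y i - v i) • (∑ j, N i j • (EuclideanSpace.proj j : E n →L[ℝ] ℝ)) +
        (∑ j, N i j * (y j - v j)) • (EuclideanSpace.proj i : E n →L[ℝ] ℝ))) y :=
    HasFDerivAt.fun_sum fun i _ => (hd i).mul (h1 i)
  have h3 : HasFDerivAt (fun y : E n => ∑ i, y i * y i)
      (∑ i, (y i • (EuclideanSpace.proj i : E n →L[ℝ] ℝ) +
        y i • (EuclideanSpace.proj i : E n →L[ℝ] ℝ))) y :=
    HasFDerivAt.fun_sum fun i _ => (hc i).mul (hc i)
  have h4 := ((h2.const_mul (-(1 / 2))).add (h3.const_mul (1 / 2))).sub_const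
    ((1 / 2) * Real.log M.det)
  refine (h4.congr_fderiv ?_)
  ext z
  have e0 : ∀ i, (EuclideanSpace.proj i : E n →L[ℝ] ℝ) z = z i := fun _ => rfl
  simp only [FunLike.coe_add, FunLike.coe_smul, Pi.add_apply, Pi.smul_apply, smul_eq_mul,
    FunLike.coe_sum, Finset.sum_apply, e0, sy]
  have e1 : ∑ i, ((y i - v i) * ∑ j, N i j * z j) = ∑ i, (∑ j, N i j * (y j - v j)) * z i := by
    simp only [Finset.mul_sum, Finset.sum_mul]
    rw [Finset.sum_comm]
    refine Finset.sum_congr rfl fun i _ => Finset.sum_congr rfl fun j _ => ?_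
    have : N j i = N i j := congrFun (congrFun hN i) j
    rw [this]
    ring
  have e2 : ∀ l, (M⁻¹ *ᵥ (y.ofLp - v)) l = ∑ j, N l j * (y j - v j) := fun l => rfl
  have e3 : ∑ l, (y l - ∑ j, N l j * (y j - v j)) * z l =
      ∑ l, y l * z l - ∑ l, (∑ j, N l j * (y j - v j)) * z l := by
    rw [← Finset.sum_sub_distrib]
    exact Finset.sum_congr rfl fun l _ => by ring
  simp only [e2]
  rw [Finset.sum_add_distrib, e1, Finset.sum_add_distrib, e3]
  ring

section LawG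

variable {μ : Measure (E n)} [IsProbabilityMeasure μ] {f : E n → ℝ} {M : E n → Mt n}
  {v : E n → Fin n → ℝ}

theorem gd_fd (hM : MF M) (x y : E n) :
    HasFDerivAt (fun y : E n => gd (v x) (M x) y)
      (∑ l, (sy (v x) (M x) y l * gd (v x) (M x) y) • (EuclideanSpace.proj l : E n →L[ℝ] ℝ)) y := by
  have h := (gl_fd (v x) (hM.symm_inv x) y).exp
  refine h.congr_fderiv ?_
  rw [Finset.smul_sum]
  refine Finset.sum_congr rfl fun l _ => ?_
  rw [smul_smul, mul_comm]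
  rfl

theorem PG_sy (hM : MF M) (hv : ∀ i, CB fun x => v x i) (l : Fin n) :
    PG 1 (fun y x => sy (v x) (M x) y l) := by
  have h := ((PG.cst (hv l)).mono zero_le_one).add (PG_bl hM hv l)
  have e : (fun y x => v x l + bl v M y l x) = fun y x => sy (v x) (M x) y l := by
    funext y x
    rw [← bl_eq]
    rfl
  rwa [e] at h

/-- local bound of the density and its score -/
theorem loc_bd (hM : MF M) (hv : ∀ i, CB fun x => v x i) (hf : CBp f) (R : ℝ) :
    ∃ Φ : ℝ, 0 ≤ Φ ∧ ∀ y : E n, ‖y‖ ≤ R → ∀ x, |f x * gd (v x) (M x) y| ≤ Φ ∧ ∀ l,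
      |f x * (sy (v x) (M x) y l * gd (v x) (M x) y)| ≤ Φ := by
  obtain ⟨B, hB0, hB⟩ := hf.bdd
  obtain ⟨C, hC, hc⟩ := (PG_gl hM hv).bd
  have hs : ∀ l, ∃ D : ℝ, 0 ≤ D ∧ ∀ y x, |sy (v x) (M x) y l| ≤ D * (1 + ‖y‖) := fun l => by
    obtain ⟨D, hD, hd⟩ := (PG_sy hM hv l).bd
    exact ⟨D, hD, fun y x => by simpa using (hd y x).1⟩
  choose D hD hd using hs
  set S := ∑ l, D l with hS
  have hS0 : 0 ≤ S := Finset.sum_nonneg fun l _ => hD l
  have hDS : ∀ l, D l ≤ S := fun l => Finset.single_le_sum (f := D) (fun i _ => hD i)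
    (Finset.mem_univ l)
  refine ⟨B * ((1 + S * (1 + |R|)) * Real.exp (C * (1 + |R|) ^ 2)), by positivity,
    fun y hy x => ?_⟩
  have hyR : 1 + ‖y‖ ≤ 1 + |R| := by have := le_abs_self R; linarith
  have h0 : 0 ≤ 1 + ‖y‖ := by positivity
  have g1 : gd (v x) (M x) y ≤ Real.exp (C * (1 + |R|) ^ 2) := by
    unfold gd
    refine Real.exp_le_exp.2 ((le_abs_self _).trans ((hc y x).1.trans ?_))
    exact mul_le_mul_of_nonneg_left (pow_le_pow_left₀ h0 hyR 2) hC
  have g0 : 0 ≤ gd (v x) (M x) y := (Real.exp_pos _).le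
  have s1 : 1 ≤ 1 + S * (1 + |R|) := by
    have : 0 ≤ S * (1 + |R|) := by positivity
    linarith
  constructor
  · rw [abs_mul, abs_of_nonneg g0]
    refine mul_le_mul (hB x).1 ?_ g0 hB0
    calc gd (v x) (M x) y ≤ 1 * Real.exp (C * (1 + |R|) ^ 2) := by rw [one_mul]; exact g1
      _ ≤ _ := mul_le_mul_of_nonneg_right s1 (Real.exp_pos _).le
  · intro l
    rw [abs_mul, abs_mul, abs_of_nonneg g0]
    refine mul_le_mul (hB x).1 ?_ (mul_nonneg (abs_nonneg _) g0) hB0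
    refine mul_le_mul ?_ g1 g0 (by positivity)
    calc |sy (v x) (M x) y l| ≤ D l * (1 + ‖y‖) := hd l y x
      _ ≤ S * (1 + |R|) := mul_le_mul (hDS l) hyR h0 hS0
      _ ≤ _ := by linarith

theorem meas_x (hM : MF M) (hv : ∀ i, CB fun x => v x i) (hf : CBp f) (y : E n) :
    Continuous (fun x => f x * gd (v x) (M x) y) ∧
    ∀ l, Continuous (fun x => f x * (sy (v x) (M x) y l * gd (v x) (M x) y)) := by
  have h1 : Continuous fun x => gd (v x) (M x) y :=
    Real.continuous_exp.comp ((PG_gl hM hv).cb y).1.continuous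
  exact ⟨hf.cont.mul h1, fun l => hf.cont.mul (((PG_sy hM hv l).cb y).1.continuous.mul h1)⟩

/-- the score integrals -/
noncomputable def sI (μ : Measure (E n)) (f : E n → ℝ) (v : E n → Fin n → ℝ) (M : E n → Mt n)
    (l : Fin n) (y : E n) : ℝ := ∫ x, f x * (sy (v x) (M x) y l * gd (v x) (M x) y) ∂μ

theorem sI_cont (hM : MF M) (hv : ∀ i, CB fun x => v x i) (hf : CBp f) (l : Fin n) :
    Continuous (sI μ f v M l) := by
  rw [continuous_iff_continuousAt]
  intro y₀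
  obtain ⟨Φ, hΦ, hb⟩ := loc_bd hM hv hf (‖y₀‖ + 1)
  unfold sI
  refine continuousAt_of_dominated (bound := fun _ => Φ)
    (Filter.Eventually.of_forall fun y => ((meas_x hM hv hf y).2 l).aestronglyMeasurable) ?_
    (integrable_const _) (Filter.Eventually.of_forall fun x => ?_)
  · filter_upwards [Metric.ball_mem_nhds y₀ one_pos] with y hy
    refine Filter.Eventually.of_forall fun x => ?_
    have : ‖y‖ ≤ ‖y₀‖ + 1 := by
      have h1 := norm_sub_norm_le y y₀
      rw [Metric.mem_ball, dist_eq_norm] at hy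
      linarith
    exact (hb y this x).2 l
  · have h1 : Continuous fun y : E n => sy (v x) (M x) y l := by
      unfold sy
      refine Continuous.sub (by fun_prop) ?_
      have : Continuous fun y : E n => (M x)⁻¹ *ᵥ (y.ofLp - v x) :=
        Continuous.matrix_mulVec continuous_const
          ((PiLp.continuous_ofLp 2 _).sub continuous_const)
      exact (continuous_apply l).comp this
    have h2 : Continuous fun y : E n => gd (v x) (M x) y :=
      continuous_iff_continuousAt.2 fun y => (gd_fd hM x y).continuousAt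
    exact ((continuous_const.mul (h1.mul h2))).continuousAt

theorem pJ_fd (hM : MF M) (hv : ∀ i, CB fun x => v x i) (hf : CBp f) (y₀ : E n) :
    HasFDerivAt (pJ μ f (gp v M)) (∑ l, sI μ f v M l y₀ • (EuclideanSpace.proj l : E n →L[ℝ] ℝ))
      y₀ := by
  obtain ⟨Φ, hΦ, hb⟩ := loc_bd hM hv hf (‖y₀‖ + 1)
  set F' : E n → E n → (E n →L[ℝ] ℝ) := fun y x =>
    ∑ l, (f x * (sy (v x) (M x) y l * gd (v x) (M x) y)) • (EuclideanSpace.proj l : E n →L[ℝ] ℝ)
    with hF'
  have hint : ∀ y l, Integrable (fun x => f x * (sy (v x) (M x) y l * gd (v x) (M x) y)) μ := by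
    intro y l
    obtain ⟨Ψ, hΨ, hb'⟩ := loc_bd hM hv hf ‖y‖
    exact (integrable_const Ψ).mono' ((meas_x hM hv hf y).2 l).aestronglyMeasurable
      (Filter.Eventually.of_forall fun x => (hb' y le_rfl x).2 l)
  have key := hasFDerivAt_integral_of_dominated_of_fderiv_le (μ := μ) (s := Metric.ball y₀ 1)
    (F := fun y x => f x * gd (v x) (M x) y) (F' := F') (x₀ := y₀)
    (bound := fun _ => ∑ l : Fin n, Φ * ‖(EuclideanSpace.proj l : E n →L[ℝ] ℝ)‖)
    (Metric.ball_mem_nhds y₀ one_pos)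
    (Filter.Eventually.of_forall fun y => (meas_x hM hv hf y).1.aestronglyMeasurable)
    ?_ ?_ ?_ (integrable_const _) ?_
  · have e : ∫ x, F' y₀ x ∂μ = ∑ l, sI μ f v M l y₀ • (EuclideanSpace.proj l : E n →L[ℝ] ℝ) := by
      rw [hF']
      simp only
      rw [integral_finsetSum _ fun l _ => (hint y₀ l).smul_const _]
      refine Finset.sum_congr rfl fun l _ => ?_
      rw [integral_smul_const]
      rfl
    rw [← e]
    exact key
  · obtain ⟨Ψ, hΨ, hb'⟩ := loc_bd hM hv hf ‖y₀‖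
    exact (integrable_const Ψ).mono' (meas_x hM hv hf y₀).1.aestronglyMeasurable
      (Filter.Eventually.of_forall fun x => (hb' y₀ le_rfl x).1)
  · refine Continuous.aestronglyMeasurable ?_
    exact continuous_finsetSum _ fun l _ => ((meas_x hM hv hf y₀).2 l).smul continuous_const
  · refine Filter.Eventually.of_forall fun x y hy => ?_
    have hyR : ‖y‖ ≤ ‖y₀‖ + 1 := by
      have h1 := norm_sub_norm_le y y₀
      rw [Metric.mem_ball, dist_eq_norm] at hy
      linarith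
    refine (norm_sum_le _ _).trans (Finset.sum_le_sum fun l _ => ?_)
    rw [norm_smul, Real.norm_eq_abs]
    exact mul_le_mul_of_nonneg_right ((hb y hyR x).2 l) (norm_nonneg _)
  · refine Filter.Eventually.of_forall fun x y hy => ?_
    have h := (gd_fd (v := v) hM x y).const_mul (f x)
    refine h.congr_fderiv ?_
    rw [hF', Finset.smul_sum]
    refine Finset.sum_congr rfl fun l _ => ?_
    rw [smul_smul]

theorem pJ_c1 (hM : MF M) (hv : ∀ i, CB fun x => v x i) (hf : CBp f) :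
    ContDiff ℝ 1 (pJ μ f (gp v M)) :=
  contDiff_one_iff_hasFDerivAt.2 ⟨_, continuous_finsetSum _ fun l _ =>
    (sI_cont (μ := μ) hM hv hf l).smul continuous_const, pJ_fd hM hv hf⟩

theorem pd_pJ (hM : MF M) (hv : ∀ i, CB fun x => v x i) (hf : CBp f) (l : Fin n) (y : E n) :
    pd l (pJ μ f (gp v M)) y = sI μ f v M l y := by
  unfold pd
  rw [(pJ_fd hM hv hf y).fderiv]
  have e0 : ∀ i, (EuclideanSpace.proj i : E n →L[ℝ] ℝ) (EuclideanSpace.single l (1 : ℝ)) =
      if i = l then 1 else 0 := fun i => by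
    change (EuclideanSpace.single l (1 : ℝ)) i = _
    simp
  simp only [FunLike.coe_sum, Finset.sum_apply, FunLike.coe_smul, Pi.smul_apply, smul_eq_mul, e0]
  simp

/-- **the law part** -/
theorem disB {A : E n → Mt n} (hM : MF M) (hv : ∀ i, CB fun x => v x i) (hf : CBp f)
    (h1 : ∫ x, f x ∂μ = 1) (hA : ∀ i j, CB fun x => A x i j) (hAs : ∀ x, (A x)ᵀ = A x)
    (h0 : ∀ x, LeQ 0 (A x)) (hMA : ∀ x, M x = 1 + A x) : DisB μ f v M := by
  obtain ⟨G, h, hp⟩ := gchan hM hv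
  obtain ⟨hI, hle⟩ := prod_int (μ := μ) hM hv hf hA hAs h0 hMA
  obtain ⟨pt, iv⟩ := pt_bd (μ := μ) hM hv hf h1 hA hAs h0 hMA
  have e : ∀ y, ‖fderiv ℝ (pJ μ f (gp v M)) y‖ ^ 2 / pJ μ f (gp v M) y =
      (∑ l, (∫ x, f x * ((y l - ((M x)⁻¹ *ᵥ (y.ofLp - v x)) l) * gp v M y x) ∂μ) ^ 2) /
        pJ μ f (gp v M) y := by
    intro y
    rw [norm_fderiv_sq]
    simp only [pd_pJ hM hv hf]
    rfl
  have hc := pJ_c1 (μ := μ) hM hv hf
  have i1 : Integrable (pJ μ f (gp v M)) (gam n) ∧ ∫ y, pJ μ f (gp v M) y ∂(gam n) = 1 := by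
    obtain ⟨a1, a2⟩ := meas_fbp (μ := μ) hp hf (b := fun _ => 1) measurable_const (B := 1) (by simp)
    simp only [one_mul, mul_one, h1] at a1 a2
    exact ⟨a1, a2⟩
  have i2 : Integrable (fun y => ‖fderiv ℝ (pJ μ f (gp v M)) y‖ ^ 2 / pJ μ f (gp v M) y)
      (gam n) := by
    refine ((iv.const_mul 2).add (hI.integral_prod_left.const_mul 2)).mono' ?_
      (Filter.Eventually.of_forall fun y => ?_)
    · refine (Continuous.div ?_ hc.continuous fun y => ?_).aestronglyMeasurable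
      · exact ((hc.continuous_fderiv one_ne_zero).norm).pow 2
      · exact (pJ_bd hp hf h1 y).1.ne'
    · rw [Real.norm_eq_abs, abs_of_nonneg (div_nonneg (sq_nonneg _) (pJ_bd hp hf h1 y).1.le), e]
      exact pt y
  have key := NSL674.gauss_lsi (f := pJ μ f (gp v M)) hc (fun y => (pJ_bd hp hf h1 y).1)
    (by rw [← gam_eq]; exact i1.1) (by rw [← gam_eq]; exact i2)
  rw [← gam_eq, i1.2, Real.log_one, mul_zero, sub_zero] at key
  have k2 := key.2
  simp only [e] at k2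
  exact k2

end LawG

end Crest.Agent.R201.RG786
end

-- ▼ part R201/RG_786

/-!
# R201 (S0308): block RG of `LDefs_74` (helper786)
-/

set_option autoImplicit false
open MeasureTheory Matrix

namespace Crest.Agent.R201.RG786

open Crest.Agent.R201 Crest.Agent.R201.An Crest.Agent.R201.LL809

variable {n : ℕ}

/-- the rigidity inequality, all hypotheses discharged -/
theorem rig' {μ : Measure (E n)} [IsProbabilityMeasure μ] {f : E n → ℝ} {A : E n → Mt n}
    {w : Fin n → E n → ℝ} {κ K : ℝ} (hL : LSI K μ) (hK : 0 ≤ K) (hf : CBp f)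
    (h1 : ∫ x, f x ∂μ = 1) (hw : ∀ i, CB (w i)) (hA : ∀ i j, CB fun x => A x i j)
    (hAs : ∀ x, (A x)ᵀ = A x) (h0 : ∀ x, LeQ 0 (A x)) (hκ : 0 < κ) :
    ∫ x, f x * ∑ i, w i x ^ 2 ∂μ ≤
      K * (∫ x, f x * ∑ k, (fun i => pd k (w i) x) ⬝ᵥ ((1 + A x)⁻¹ *ᵥ fun i => pd k (w i) x) ∂μ) +
      K * κ / 2 * (∫ x, f x * ∑ k, hs (pdM k A x) ∂μ) + 2 * κ * (K / 2 * Fi μ f - Ent μ f) +
      2 * (∫ y, (∑ l, (∫ x, f x * (w l x * gp (vk κ w) (fun x => 1 + A x) y x) ∂μ) ^ 2) /
        pJ μ f (gp (vk κ w) (fun x => 1 + A x)) y ∂(gam n)) +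
      2 * κ * ∫ x, f x * (A x).trace ∂μ ∧
    MI μ f (gam n) (gp (vk κ w) (fun x => 1 + A x)) ≤
      (∫ x, f x * ∑ i, w i x ^ 2 ∂μ) / (2 * κ) + 1 / 2 * ∫ x, f x * (A x).trace ∂μ :=
  rig hL hK hf h1 hw hA hAs h0 hκ
    (disB (MF_of hA hAs h0) (vk_cb hw κ) hf h1 hA hAs h0 fun _ => rfl)

/-- **block RG** -/
theorem rg_786 : L74.RG := by
  intro n ε S hε A κ hκ hA hAc hAs h0
  have := S.prob_μ
  have hε0 : 0 < ε := S.h_pos.trans_le S.h_le
  have hAcb : ∀ i j, CB fun x => A x i j := fun i j => Tw807.cb_c1 (hA i j) (hAc i j)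
  have hf := S.f_cbp
  have mf := hf.cont.measurable
  have hnn : ∀ x, 0 ≤ S.f x := fun x => (hf.pos x).le
  have hν : ∀ g : E n → ℝ, ∫ x, g x ∂S.ν = ∫ x, S.f x * g x ∂S.μ := fun g => by
    rw [S.ν_eq]
    exact Ch150.int_fm mf hnn g
  obtain ⟨h1, h2⟩ := rig' (A := A) S.lsi (by linarith) hf S.f_one S.w_cb hAcb hAs h0 hκ
  obtain ⟨G, k, hp⟩ := gchan (MF_of hAcb hAs h0) (vk_cb S.w_cb κ)
  have h3 := S.S3 _ G k hp
  have eI : nsq S.ν S.w = ∫ x, S.f x * ∑ i, S.w i x ^ 2 ∂S.μ := by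
    unfold nsq
    simp only [hν]
    rw [← integral_finsetSum]
    · refine integral_congr_ae (Filter.Eventually.of_forall fun x => ?_)
      simp only
      rw [Finset.mul_sum]
    · intro i _
      have := ((BC.of_cb hf.1).mul ((BC.of_cb (S.w_cb i)).mul (BC.of_cb (S.w_cb i)))).int (μ := S.μ)
      simpa [sq] using this
  have eF : Fi S.μ S.f = nsq S.ν S.w := by
    rw [eI]
    unfold Fi
    refine integral_congr_ae (Filter.Eventually.of_forall fun x => ?_)
    simp only [S.w_eq]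
    rw [Finset.sum_div, Finset.mul_sum]
    refine Finset.sum_congr rfl fun i _ => ?_
    have := (hf.pos x).ne'
    field_simp
  have h4 := S.S1
  rw [eF] at h1
  have eD : S.I = nsq S.ν S.w := rfl
  rw [eD]
  simp only [hν, eI] at h1 h2 h3 h4 ⊢
  set W := ∫ x, S.f x * ∑ i, S.w i x ^ 2 ∂S.μ with hW
  set TA := ∫ x, S.f x * (A x).trace ∂S.μ with hTA
  set I' := MI S.μ S.f (gam n) (gp (vk κ S.w) fun x => 1 + A x) with hI'
  have h5 : ε * (W + I') ≤ ε * (W + (W / (2 * κ) + 1 / 2 * TA)) :=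
    mul_le_mul_of_nonneg_left (by linarith) hε0.le
  have h6 : 2 * κ * ((1 + ε) / 2 * W - Ent S.μ S.f) ≤ 2 * κ * (ε * W) :=
    mul_le_mul_of_nonneg_left h4 (by positivity)
  have e7 : ∫ x, S.f x * ∑ k, hs (pdM k (fun x => A x) x) ∂S.μ =
    ∫ x, S.f x * ∑ k, hs (pdM k A x) ∂S.μ := rfl
  linarith

end Crest.Agent.R201.RG786
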