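import Crest.Agent.R201.Noi2_402

-- ▼ part R201/St1_352
section

/-!
# R201 St1: LSI for Lipschitz exponents, posterior gradient, linear DV  (helper352)

Doc 2103, block (M), preparation.
-/

set_option autoImplicit false
open MeasureTheory Matrix Filter Topology
open scoped ContDiff RealInnerProductSpace NNReal

namespace Crest.Agent.R201.St352

open Crest.Agent.R201 Crest.Agent.R144.Fi865 Crest.Agent.R201.An Crest.Agent.R201.DVQ402

variable {n : ℕ} {w ρ F G g : E n → ℝ} {s c R K κ : ℝ}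

/-- `C¹` function with bounded gradient -/
structure LC (g : E n → ℝ) : Prop where
  C1 : ContDiff ℝ 1 g
  bd : ∃ B : ℝ, 0 ≤ B ∧ ∀ k x, |pd k g x| ≤ B

lemma LC.of_cb {g : E n → ℝ} (h : CB g) : LC g := ⟨h.1, by
  obtain ⟨B, hB⟩ := h.2
  exact ⟨B, (abs_nonneg _).trans (hB 0).1, fun k x => (hB x).2 k⟩⟩

lemma LC.diff (h : LC g) : Differentiable ℝ g := h.C1.differentiable (by simp)

lemma LC.cont (h : LC g) : Continuous g := h.C1.continuous

lemma LC.pd_cont (h : LC g) (k : Fin n) : Continuous (pd k g) := by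
  unfold pd
  exact (h.C1.continuous_fderiv (by simp)).clm_apply continuous_const

lemma LC.lip (h : LC g) : ∃ L : ℝ, 0 ≤ L ∧ ∀ x, |g x| ≤ |g 0| + L * ‖x‖ := by
  obtain ⟨B, hB0, hB⟩ := h.bd
  set L := √(∑ _k : Fin n, B ^ 2) with hL
  have hn : ∀ x, ‖fderiv ℝ g x‖ ≤ L := by
    intro x
    rw [hL]
    apply Real.le_sqrt_of_sq_le
    rw [norm_fderiv_sq]
    refine Finset.sum_le_sum fun k _ => ?_
    rw [← sq_abs]
    exact pow_le_pow_left₀ (abs_nonneg _) (hB k x) 2
  refine ⟨L, Real.sqrt_nonneg _, fun x => ?_⟩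
  have h1 := Convex.norm_image_sub_le_of_norm_fderiv_le (𝕜 := ℝ) (f := g) (s := Set.univ) (C := L)
    (fun y _ => h.diff y) (fun y _ => hn y) convex_univ (Set.mem_univ 0) (Set.mem_univ x)
  rw [sub_zero, Real.norm_eq_abs] at h1
  have h2 : |g x| ≤ |g 0| + |g x - g 0| := by
    have := abs_add_le (g 0) (g x - g 0)
    simpa using this
  linarith

lemma LC.eg (h : LC g) : EG g := by
  obtain ⟨L, hL, hb⟩ := h.lip
  refine ⟨h.cont.measurable, |g 0| + L, 1, by positivity, zero_le_one, fun x => ?_⟩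
  have h1 := le_exp_norm x
  have h2 : 1 ≤ Real.exp (1 * ‖x‖) := Real.one_le_exp (by positivity)
  have h3 := mul_le_mul_of_nonneg_left h1 hL
  have h4 := mul_le_mul_of_nonneg_left h2 (abs_nonneg (g 0))
  nlinarith [hb x]

lemma LC.eg_exp_abs (h : LC g) : EG fun x => Real.exp |g x| := by
  obtain ⟨L, hL, hb⟩ := h.lip
  refine ⟨(h.cont.abs.rexp).measurable, Real.exp |g 0|, L, (Real.exp_pos _).le, hL, fun x => ?_⟩
  rw [abs_of_pos (Real.exp_pos _), ← Real.exp_add]
  exact Real.exp_le_exp.2 (hb x)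

lemma LC.eg_exp (h : LC g) : EG fun x => Real.exp (g x) := by
  obtain ⟨L, hL, hb⟩ := h.lip
  refine ⟨h.cont.rexp.measurable, Real.exp |g 0|, L, (Real.exp_pos _).le, hL, fun x => ?_⟩
  rw [abs_of_pos (Real.exp_pos _), ← Real.exp_add]
  exact Real.exp_le_exp.2 ((le_abs_self _).trans (hb x))

lemma LC.eg_pd (h : LC g) (k : Fin n) : EG (pd k g) := by
  obtain ⟨B, _, hB⟩ := h.bd
  exact EG.of_bdd (h.pd_cont k).measurable (hB k)

lemma EG.sq (hF : EG F) : EG fun x => F x ^ 2 := by simpa [_root_.sq] using hF.mul hF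

/-- strict positivity of a mean -/
lemma Em_pos (hρ : Ex ρ) (hE : EG F) (hpos : ∀ x, 0 < F x) : 0 < Em ρ F := by
  unfold Em
  refine div_pos ?_ hρ.pos
  have h1 : 0 ≤ fun x => F x * ρ x := fun x => mul_nonneg (hpos x).le (hρ.nonneg x)
  rw [integral_pos_iff_support_of_nonneg h1 (hρ.int_mul hE)]
  have h2 : (Function.support fun x => F x * ρ x) = Function.support ρ := by
    ext x
    simp [(hpos x).ne']
  rw [h2]
  have h3 := hρ.pos
  rwa [integral_pos_iff_support_of_nonneg hρ.nonneg hρ.integrable] at h3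

/-! ### truncation -/

/-- `N arctan (g/N)` -/
noncomputable def trc (N : ℝ) (g : E n → ℝ) (x : E n) : ℝ := N * Real.arctan (g x / N)

lemma arctan_abs_le (u : ℝ) : |Real.arctan u| ≤ |u| := by
  have h := Convex.norm_image_sub_le_of_norm_deriv_le (f := Real.arctan) (s := Set.univ) (C := 1)
    (fun x _ => Real.differentiableAt_arctan x) (fun x _ => by
      rw [Real.deriv_arctan, Real.norm_eq_abs, abs_of_pos (by positivity)]
      rw [div_le_one (by positivity)]
      nlinarith [sq_nonneg x]) convex_univ (Set.mem_univ 0) (Set.mem_univ u)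
  simpa using h

lemma trc_abs {N : ℝ} (hN : 0 < N) (g : E n → ℝ) (x : E n) : |trc N g x| ≤ |g x| := by
  unfold trc
  rw [abs_mul, abs_of_pos hN]
  calc N * |Real.arctan (g x / N)| ≤ N * |g x / N| :=
        mul_le_mul_of_nonneg_left (arctan_abs_le _) hN.le
    _ = |g x| := by rw [abs_div, abs_of_pos hN]; field_simp

lemma trc_pd {N : ℝ} (hN : 0 < N) (h : LC g) (k : Fin n) (x : E n) :
    pd k (trc N g) x = pd k g x / (1 + (g x / N) ^ 2) := by
  unfold pd
  have d1 : HasFDerivAt (fun x => g x / N) (N⁻¹ • fderiv ℝ g x) x := by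
    have := (h.diff x).hasFDerivAt.const_mul N⁻¹
    refine this.congr_of_eventuallyEq (Eventually.of_forall fun y => ?_)
    simp only
    rw [div_eq_inv_mul]
  have d2 := (d1.arctan).const_mul N
  have e : trc N g = fun x => N * Real.arctan (g x / N) := rfl
  rw [e, d2.fderiv]
  simp only [_root_.smul_apply, smul_eq_mul]
  field_simp

lemma trc_pd_le {N : ℝ} (hN : 0 < N) (h : LC g) (k : Fin n) (x : E n) :
    |pd k (trc N g) x| ≤ |pd k g x| := by
  rw [trc_pd hN h, abs_div, abs_of_pos (by positivity : (0 : ℝ) < 1 + (g x / N) ^ 2)]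
  exact div_le_self (abs_nonneg _) (by nlinarith [sq_nonneg (g x / N)])

lemma trc_cb {N : ℝ} (hN : 0 < N) (h : LC g) : CB (trc N g) := by
  obtain ⟨B, hB0, hB⟩ := h.bd
  refine ⟨?_, N * (Real.pi / 2) + B, fun x => ⟨?_, fun k => ?_⟩⟩
  · unfold trc
    exact contDiff_const.mul (Real.contDiff_arctan.comp (h.C1.div_const N))
  · unfold trc
    rw [abs_mul, abs_of_pos hN]
    have h1 : |Real.arctan (g x / N)| ≤ Real.pi / 2 :=
      abs_le.2 ⟨(Real.neg_pi_div_two_lt_arctan _).le, (Real.arctan_lt_pi_div_two _).le⟩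
    have h2 := mul_le_mul_of_nonneg_left h1 hN.le
    linarith
  · have h1 := (trc_pd_le hN h k x).trans (hB k x)
    have : 0 ≤ N * (Real.pi / 2) := by positivity
    linarith

lemma tendsto_trc (g : E n → ℝ) (x : E n) :
    Tendsto (fun m : ℕ => trc ((m : ℝ) + 1) g x) atTop (𝓝 (g x)) := by
  have hN : Tendsto (fun m : ℕ => ((m : ℝ) + 1)) atTop atTop :=
    tendsto_atTop_add_const_right _ _ tendsto_natCast_atTop_atTop
  by_cases h0 : g x = 0
  · have : (fun m : ℕ => trc ((m : ℝ) + 1) g x) = fun _ => g x := by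
      funext m; unfold trc; rw [h0]; simp
    rw [this]; exact tendsto_const_nhds
  · have h1 : Tendsto (fun m : ℕ => g x / ((m : ℝ) + 1)) atTop (𝓝[≠] 0) := by
      rw [tendsto_nhdsWithin_iff]
      refine ⟨tendsto_const_nhds.div_atTop hN, Eventually.of_forall fun m => ?_⟩
      have : (0 : ℝ) < (m : ℝ) + 1 := by positivity
      exact div_ne_zero h0 this.ne'
    have h2 : Tendsto (slope Real.arctan 0) (𝓝[≠] 0) (𝓝 (1 / (1 + (0 : ℝ) ^ 2))) :=
      hasDerivAt_iff_tendsto_slope.1 (Real.hasDerivAt_arctan 0)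
    have h3 := (h2.comp h1).const_mul (g x)
    have e1 : g x * (1 / (1 + (0 : ℝ) ^ 2)) = g x := by norm_num
    rw [e1] at h3
    refine h3.congr fun m => ?_
    have hm : (0 : ℝ) < (m : ℝ) + 1 := by positivity
    simp only [Function.comp, slope_def_field, Real.arctan_zero, sub_zero]
    unfold trc
    field_simp

/-- dominated convergence for `Em` -/
lemma tendsto_Em (hρ : Ex ρ) {Fm : ℕ → E n → ℝ} (hm : ∀ m, Measurable (Fm m)) (hG : EG G)
    (hb : ∀ m x, |Fm m x| ≤ G x) (hl : ∀ x, Tendsto (fun m => Fm m x) atTop (𝓝 (F x))) :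
    Tendsto (fun m => Em ρ (Fm m)) atTop (𝓝 (Em ρ F)) := by
  unfold Em
  refine Tendsto.div_const ?_ _
  refine tendsto_integral_of_dominated_convergence (fun x => G x * ρ x)
    (fun m => ((hm m).mul hρ.meas).aestronglyMeasurable) (hρ.int_mul hG) (fun m => ?_) ?_
  · refine ae_of_all _ fun x => ?_
    rw [norm_mul, Real.norm_eq_abs, Real.norm_of_nonneg (hρ.nonneg x)]
    exact mul_le_mul_of_nonneg_right (hb m x) (hρ.nonneg x)
  · exact ae_of_all _ fun x => (hl x).mul_const _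

/-- LSI holds for exponents of class `LC` -/
theorem LS_lc (hρ : Ex ρ) (hLS : LSn77.LS ρ K) (h : LC g) :
    Em ρ (fun x => g x * Real.exp (g x)) - Em ρ (fun x => Real.exp (g x)) *
      Real.log (Em ρ fun x => Real.exp (g x)) ≤
    K / 2 * Em ρ (fun x => (∑ k, pd k g x ^ 2) * Real.exp (g x)) := by
  set N : ℕ → ℝ := fun m => (m : ℝ) + 1 with hN
  have hNp : ∀ m, 0 < N m := fun m => by simp only [hN]; positivity
  have hNt : Tendsto N atTop atTop :=
    tendsto_atTop_add_const_right _ _ tendsto_natCast_atTop_atTop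
  have hcb := fun m => trc_cb (hNp m) h
  have hl := fun x => tendsto_trc g x
  have hex : ∀ m x, Real.exp (trc (N m) g x) ≤ Real.exp |g x| := fun m x =>
    Real.exp_le_exp.2 ((le_abs_self _).trans (trc_abs (hNp m) g x))
  have hpdl : ∀ k x, Tendsto (fun m => pd k (trc (N m) g) x) atTop (𝓝 (pd k g x)) := by
    intro k x
    simp only [trc_pd (hNp _) h]
    have h1 : Tendsto (fun m => g x / N m) atTop (𝓝 0) := tendsto_const_nhds.div_atTop hNt
    have h2 := ((h1.pow 2).const_add 1)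
    have h3 : Tendsto (fun m => pd k g x / (1 + (g x / N m) ^ 2)) atTop
        (𝓝 (pd k g x / (1 + (0 : ℝ) ^ 2))) :=
      (tendsto_const_nhds (x := pd k g x)).div h2 (by norm_num)
    simpa using h3
  have c1 : ∀ m, Continuous (trc (N m) g) := fun m => (hcb m).1.continuous
  have L1 : Tendsto (fun m => Em ρ (fun x => trc (N m) g x * Real.exp (trc (N m) g x))) atTop
      (𝓝 (Em ρ fun x => g x * Real.exp (g x))) := by
    refine tendsto_Em hρ (fun m => ((c1 m).mul (c1 m).rexp).measurable)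
      (G := fun x => |g x| * Real.exp |g x|) ?_ (fun m x => ?_) fun x => ?_
    · have : EG fun x => |g x| := by
        obtain ⟨hm, C, a, hC, ha, hb⟩ := h.eg
        exact ⟨h.cont.abs.measurable, C, a, hC, ha, fun x => by rw [abs_abs]; exact hb x⟩
      exact this.mul h.eg_exp_abs
    · rw [abs_mul, abs_of_pos (Real.exp_pos _)]
      exact mul_le_mul (trc_abs (hNp m) g x) (hex m x) (Real.exp_pos _).le (abs_nonneg _)
    · exact (hl x).mul ((Real.continuous_exp.tendsto _).comp (hl x))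
  have L2 : Tendsto (fun m => Em ρ (fun x => Real.exp (trc (N m) g x))) atTop
      (𝓝 (Em ρ fun x => Real.exp (g x))) := by
    refine tendsto_Em hρ (fun m => (c1 m).rexp.measurable) h.eg_exp_abs (fun m x => ?_) fun x => ?_
    · rw [abs_of_pos (Real.exp_pos _)]; exact hex m x
    · exact (Real.continuous_exp.tendsto _).comp (hl x)
  have L3 : Tendsto (fun m => Em ρ (fun x => (∑ k, pd k (trc (N m) g) x ^ 2) *
      Real.exp (trc (N m) g x))) atTop (𝓝 (Em ρ fun x => (∑ k, pd k g x ^ 2) * Real.exp (g x))) := by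
    refine tendsto_Em hρ (fun m => ?_)
      (G := fun x => (∑ k, pd k g x ^ 2) * Real.exp |g x|) ?_ (fun m x => ?_) fun x => ?_
    · exact ((continuous_finsetSum _ fun k _ =>
        ((LC.of_cb (hcb m)).pd_cont k).pow 2).mul (c1 m).rexp).measurable
    · exact (EG.sum _ fun k _ => EG.sq (h.eg_pd k)).mul h.eg_exp_abs
    · have h0 : 0 ≤ ∑ k, pd k (trc (N m) g) x ^ 2 := Finset.sum_nonneg fun k _ => sq_nonneg _
      rw [abs_mul, abs_of_pos (Real.exp_pos _), abs_of_nonneg h0]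
      refine mul_le_mul (Finset.sum_le_sum fun k _ => ?_) (hex m x) (Real.exp_pos _).le
        (Finset.sum_nonneg fun k _ => sq_nonneg _)
      rw [← sq_abs, ← sq_abs (pd k g x)]
      exact pow_le_pow_left₀ (abs_nonneg _) (trc_pd_le (hNp m) h k x) 2
    · exact (tendsto_finsetSum _ fun k _ => (hpdl k x).pow 2).mul
        ((Real.continuous_exp.tendsto _).comp (hl x))
  have hNpos : 0 < Em ρ fun x => Real.exp (g x) := Em_pos hρ h.eg_exp fun x => Real.exp_pos _
  have L4 := L1.sub (L2.mul (((Real.continuousAt_log hNpos.ne').tendsto).comp L2))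
  have L5 := L3.const_mul (K / 2)
  exact le_of_tendsto_of_tendsto L4 L5 (Eventually.of_forall fun m => hLS _ (hcb m))

end Crest.Agent.R201.St352
end

-- ▼ part R201/St2_352
section

/-!
# R201 St2: two-sided first-order bounds of the potential, co-coercivity of `r = E[X|·]`,
linear Donsker–Varadhan for `r`, translation of densities  (helper352)

Doc 2103, block (M).
-/

set_option autoImplicit false
open MeasureTheory Matrix Filter Topology
open scoped ContDiff RealInnerProductSpace NNReal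

namespace Crest.Agent.R201.St352

open Crest.Agent.R201 Crest.Agent.R144.Fi865 Crest.Agent.R201.An Crest.Agent.R201.DVQ402
open Crest.Agent.R201.Noi402 (EG_exp_inner Lp_exp_inner Vp_conv)

variable {n : ℕ} {w ρ F G g : E n → ℝ} {s c R K κ : ℝ}

/-- posterior mean as a vector -/
noncomputable def rv (w : E n → ℝ) (s : ℝ) (y : E n) : E n :=
  WithLp.toLp 2 fun k => pE w s (fun x => x k) y

lemma rv_apply (w : E n → ℝ) (s : ℝ) (y : E n) (k : Fin n) :
    rv w s y k = pE w s (fun x => x k) y := rfl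

lemma inner_sum (u v : E n) : ⟪u, v⟫ = ∑ k, u k * v k := by
  rw [PiLp.inner_apply]
  exact Finset.sum_congr rfl fun k _ => by simp [mul_comm]

lemma EG_inner (t : E n) : EG fun x : E n => ⟪t, x⟫ := by
  have e : (fun x : E n => ⟪t, x⟫) = fun x => ∑ k, t k * x k := funext fun x => inner_sum t x
  rw [e]
  exact EG.sum _ fun k _ => (EG.coord k).smul _

lemma pE_inner (hw : Ex w) (hs : 0 < s) (t y : E n) :
    pE w s (fun x => ⟪t, x⟫) y = ⟪t, rv w s y⟫ := by
  have e : (fun x : E n => ⟪t, x⟫) = fun x => ∑ k, t k * x k := funext fun x => inner_sum t x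
  rw [e, pE_sum _ hw hs fun k _ => (EG.coord k).smul _, inner_sum]
  exact Finset.sum_congr rfl fun k _ => by rw [pE_smul]; rfl

/-- Jensen for the posterior -/
lemma pE_exp_ge (hw : Ex w) (hs : 0 < s) (t y : E n) :
    Real.exp ⟪t, rv w s y⟫ ≤ pE w s (fun x => Real.exp ⟪t, x⟫) y := by
  set b := ⟪t, rv w s y⟫ with hb
  have h1 : ∀ x : E n, Real.exp b * (1 - b) + Real.exp b * ⟪t, x⟫ ≤ Real.exp ⟪t, x⟫ := by
    intro x
    have h2 := Real.add_one_le_exp (⟪t, x⟫ - b)
    rw [Real.exp_sub, le_div_iff₀ (Real.exp_pos _)] at h2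
    nlinarith
  have h3 := pE_mono hw hs ((EG.const (Real.exp b * (1 - b))).add ((EG_inner t).smul (Real.exp b)))
    (EG_exp_inner t) h1 y
  rw [pE_add hw hs (EG.const _) ((EG_inner t).smul _), pE_const hw hs, pE_smul, pE_inner hw hs,
    ← hb] at h3
  linarith

lemma sum_Vg (hs : 0 < s) (v y : E n) :
    ∑ k, v k * Vg w s k y = (⟪v, y⟫ - ⟪v, rv w s y⟫) / s := by
  rw [inner_sum, inner_sum, ← Finset.sum_sub_distrib, Finset.sum_div]
  refine Finset.sum_congr rfl fun k _ => ?_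
  rw [rv_apply]
  unfold Vg
  ring

/-- second-order upper bound of the potential -/
theorem Vp_upper (hw : Ex w) (hs : 0 < s) (y v : E n) :
    Vp w s (y + v) ≤ Vp w s y + ∑ k, v k * Vg w s k y + ‖v‖ ^ 2 / (2 * s) := by
  set t : E n := s⁻¹ • v with ht
  have ev : s • t = v := by rw [ht, smul_smul, mul_inv_cancel₀ hs.ne', one_smul]
  have p1 := Lp_one_pos hw hs y
  have h1 := pE_exp_ge hw hs t y
  unfold pE at h1
  rw [Lp_exp_inner hs, ev, le_div_iff₀ p1] at h1
  have e1 : Lp w s (fun _ => 1) (y + v) = Real.exp (-Vp w s (y + v)) := (exp_neg_Vp hw hs _).symm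
  have e2 : Lp w s (fun _ => 1) y = Real.exp (-Vp w s y) := (exp_neg_Vp hw hs _).symm
  rw [e1, e2, ← Real.exp_add, ← Real.exp_add, Real.exp_le_exp] at h1
  have e3 : ‖t‖ ^ 2 = ‖v‖ ^ 2 / s ^ 2 := by
    rw [ht, norm_smul, Real.norm_of_nonneg (inv_nonneg.2 hs.le)]
    field_simp
  have e4 : ⟪t, y⟫ = ⟪v, y⟫ / s := by rw [ht, real_inner_smul_left]; ring
  have e5 : ⟪t, rv w s y⟫ = ⟪v, rv w s y⟫ / s := by rw [ht, real_inner_smul_left]; ring
  rw [e3, e4, e5] at h1
  rw [sum_Vg hs]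
  have e6 : s * (‖v‖ ^ 2 / s ^ 2) / 2 = ‖v‖ ^ 2 / (2 * s) := by field_simp
  rw [e6] at h1
  have e7 : (⟪v, y⟫ - ⟪v, rv w s y⟫) / s = ⟪v, y⟫ / s - ⟪v, rv w s y⟫ / s := sub_div _ _ _
  rw [e7]
  linarith

/-- co-coercivity of the posterior mean -/
theorem rv_coco (hw : Ex w) (hc : 0 ≤ c) (h : SLC c w) (hs : 0 < s) (y z : E n) :
    ‖rv w s y - rv w s z‖ ^ 2 ≤ ⟪rv w s y - rv w s z, y - z⟫ := by
  have key : ∀ y z : E n, Vp w s y - Vp w s z + ⟪rv w s z, y - z⟫ / s - (‖y‖ ^ 2 - ‖z‖ ^ 2) / (2 * s) ≤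
      -(‖rv w s y - rv w s z‖ ^ 2 / (2 * s)) := by
    intro y z
    set d := rv w s y - rv w s z with hd
    -- convexity at y in direction -d, upper bound at z in direction y - d - z
    have h1 := Vp_conv hw hc h hs y (-d)
    have h2 := Vp_upper hw hs z (y - d - z)
    rw [sum_Vg hs] at h1 h2
    have e0 : z + (y - d - z) = y + -d := by abel
    rw [e0] at h2
    have h3 := h1.trans h2
    -- expand
    have e1 : ‖y - d - z‖ ^ 2 = ‖y‖ ^ 2 + ‖d‖ ^ 2 + ‖z‖ ^ 2 - 2 * ⟪y, d⟫ - 2 * ⟪y, z⟫ + 2 * ⟪d, z⟫ := by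
      rw [norm_sub_sq_real, norm_sub_sq_real, inner_sub_left]
      ring
    have e2 : ⟪y - d - z, z⟫ = ⟪y, z⟫ - ⟪d, z⟫ - ‖z‖ ^ 2 := by
      rw [inner_sub_left, inner_sub_left, real_inner_self_eq_norm_sq]
    have e3 : ⟪-d, y⟫ = -⟪y, d⟫ := by rw [inner_neg_left, real_inner_comm]
    have e4 : ⟪-d, rv w s y⟫ = -(⟪d, rv w s z⟫ + ‖d‖ ^ 2) := by
      rw [inner_neg_left]
      have : rv w s y = rv w s z + d := by rw [hd]; abel
      rw [this, inner_add_right, real_inner_self_eq_norm_sq]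
    have e5 : ⟪y - d - z, rv w s z⟫ = ⟪rv w s z, y - z⟫ - ⟪d, rv w s z⟫ := by
      rw [show y - d - z = (y - z) - d by abel, inner_sub_left, real_inner_comm]
    rw [e1, e2, e3, e4, e5] at h3
    have hs' : s ≠ 0 := hs.ne'
    have e6 : ∀ a b : ℝ, a / s = 2 * a / (2 * s) := fun a _ => by field_simp
    have h4 : (Vp w s y - Vp w s z) * (2 * s) + 2 * ⟪rv w s z, y - z⟫ - (‖y‖ ^ 2 - ‖z‖ ^ 2) ≤
        -‖d‖ ^ 2 := by
      have h5 := mul_le_mul_of_nonneg_right h3 (by positivity : 0 ≤ 2 * s)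
      have a1 : (Vp w s y + (-⟪y, d⟫ - -(⟪d, rv w s z⟫ + ‖d‖ ^ 2)) / s) * (2 * s) =
          Vp w s y * (2 * s) + 2 * (-⟪y, d⟫ + (⟪d, rv w s z⟫ + ‖d‖ ^ 2)) := by
        field_simp
        ring
      have a2 : (Vp w s z + (⟪y, z⟫ - ⟪d, z⟫ - ‖z‖ ^ 2 - (⟪rv w s z, y - z⟫ - ⟪d, rv w s z⟫)) / s +
          (‖y‖ ^ 2 + ‖d‖ ^ 2 + ‖z‖ ^ 2 - 2 * ⟪y, d⟫ - 2 * ⟪y, z⟫ + 2 * ⟪d, z⟫) / (2 * s)) * (2 * s) =
          Vp w s z * (2 * s) + 2 * (⟪y, z⟫ - ⟪d, z⟫ - ‖z‖ ^ 2 - (⟪rv w s z, y - z⟫ - ⟪d, rv w s z⟫)) +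
          (‖y‖ ^ 2 + ‖d‖ ^ 2 + ‖z‖ ^ 2 - 2 * ⟪y, d⟫ - 2 * ⟪y, z⟫ + 2 * ⟪d, z⟫) := by
        field_simp
      rw [a1, a2] at h5
      linarith
    have h6 : Vp w s y - Vp w s z + ⟪rv w s z, y - z⟫ / s - (‖y‖ ^ 2 - ‖z‖ ^ 2) / (2 * s) =
        ((Vp w s y - Vp w s z) * (2 * s) + 2 * ⟪rv w s z, y - z⟫ - (‖y‖ ^ 2 - ‖z‖ ^ 2)) / (2 * s) := by
      field_simp
    rw [h6, ← neg_div]
    exact div_le_div_of_nonneg_right h4 (by positivity)
  have k1 := key y z
  have k2 := key z y
  have e1 : ‖rv w s z - rv w s y‖ = ‖rv w s y - rv w s z‖ := norm_sub_rev _ _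
  have e2 : ⟪rv w s y, z - y⟫ = -⟪rv w s y, y - z⟫ := by
    rw [← neg_sub y z, inner_neg_right]
  rw [e1, e2] at k2
  have e3 : (‖z‖ ^ 2 - ‖y‖ ^ 2) / (2 * s) = -((‖y‖ ^ 2 - ‖z‖ ^ 2) / (2 * s)) := by ring
  rw [e3] at k2
  rw [inner_sub_left]
  have k3 : ‖rv w s y - rv w s z‖ ^ 2 / (2 * s) * 2 ≤
      (⟪rv w s y, y - z⟫ - ⟪rv w s z, y - z⟫) / s := by
    have : (⟪rv w s y, y - z⟫ - ⟪rv w s z, y - z⟫) / s =
      ⟪rv w s y, y - z⟫ / s - ⟪rv w s z, y - z⟫ / s := sub_div _ _ _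
    rw [this]
    have e4 : -⟪rv w s y, y - z⟫ / s = -(⟪rv w s y, y - z⟫ / s) := neg_div _ _
    rw [e4] at k2
    linarith
  have e5 : ‖rv w s y - rv w s z‖ ^ 2 / (2 * s) * 2 = ‖rv w s y - rv w s z‖ ^ 2 / s := by
    field_simp
  rw [e5, div_le_div_iff_of_pos_right hs] at k3
  exact k3

end Crest.Agent.R201.St352
end

-- ▼ part R201/St3_352
section

/-!
# R201 St3: linear DV for `r`, translation of densities, **mean-score lemma** (M) of doc 2103
(helper352)
-/

set_option autoImplicit false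
open MeasureTheory Matrix Filter Topology
open scoped ContDiff RealInnerProductSpace NNReal

namespace Crest.Agent.R201.St352

open Crest.Agent.R201 Crest.Agent.R144.Fi865 Crest.Agent.R201.An Crest.Agent.R201.DVQ402
open Crest.Agent.R201.Noi402 (EG_exp_inner Lp_exp_inner Vp_conv)

variable {n : ℕ} {w ρ F G g g₁ g₂ : E n → ℝ} {s c R K κ : ℝ}

/-! ### class `LC` -/

lemma LC.add (h₁ : LC g₁) (h₂ : LC g₂) : LC fun x => g₁ x + g₂ x := by
  obtain ⟨B₁, b₁, hB₁⟩ := h₁.bd
  obtain ⟨B₂, b₂, hB₂⟩ := h₂.bd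
  refine ⟨h₁.C1.add h₂.C1, B₁ + B₂, by positivity, fun k x => ?_⟩
  have e : pd k (fun x => g₁ x + g₂ x) x = pd k g₁ x + pd k g₂ x := by
    unfold pd
    rw [fderiv_fun_add (h₁.diff x) (h₂.diff x)]
    rfl
  rw [e]
  exact (abs_add_le _ _).trans (add_le_add (hB₁ k x) (hB₂ k x))

lemma pd_shift (k : Fin n) (g : E n → ℝ) (a x : E n) :
    pd k (fun y => g (y + a)) x = pd k g (x + a) := by
  unfold pd
  rw [fderiv_comp_add_right]

lemma LC.shift (h : LC g) (a : E n) : LC fun x => g (x + a) := by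
  obtain ⟨B, b, hB⟩ := h.bd
  refine ⟨h.C1.comp (contDiff_id.add contDiff_const), B, b, fun k x => ?_⟩
  rw [pd_shift]
  exact hB k _

lemma rv_coord_le (hw : Wt c R w) (hs : 0 < s) (k : Fin n) (y : E n) : |rv w s y k| ≤ R := by
  rw [rv_apply]
  refine pE_bdd hw hs (EG.coord k) (fun x hx => ?_) y
  refine le_trans ?_ hx
  have := PiLp.norm_apply_le x k
  rwa [Real.norm_eq_abs] at this

lemma R_nonneg (hw : Wt c R w) : 0 ≤ R := by
  by_contra h
  push Not at h
  have h1 : ∀ x, w x = 0 := fun x => by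
    by_contra h2
    have := hw.supp x h2
    linarith [norm_nonneg x]
  have h2 := hw.pos
  simp [h1] at h2

lemma Vg_eq (w : E n → ℝ) (s : ℝ) (k : Fin n) (y : E n) :
    Vg w s k y = (y k - rv w s y k) / s := rfl

/-- increments of the potential are Lipschitz -/
lemma lc_dV (hw : Wt c R w) (hs : 0 < s) (a : E n) :
    LC (fun y => Vp w s (y + a) - Vp w s y) ∧ ∀ k y,
      pd k (fun y => Vp w s (y + a) - Vp w s y) y = Vg w s k (y + a) - Vg w s k y := by
  have hV := Vp_contDiff hw.ex hs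
  have hVd : Differentiable ℝ (Vp w s) := hV.differentiable (by simp)
  have hVs : Differentiable ℝ fun y => Vp w s (y + a) :=
    hVd.comp (differentiable_id.add (differentiable_const a))
  have e : ∀ k y, pd k (fun y => Vp w s (y + a) - Vp w s y) y =
      Vg w s k (y + a) - Vg w s k y := by
    intro k y
    have e1 : pd k (fun y => Vp w s (y + a) - Vp w s y) y =
        pd k (fun y => Vp w s (y + a)) y - pd k (Vp w s) y := by
      unfold pd
      rw [fderiv_fun_sub (hVs y) (hVd y)]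
      rfl
    rw [e1, pd_shift, pd_Vp hw.ex hs, pd_Vp hw.ex hs]
  refine ⟨⟨?_, (‖a‖ + 2 * R) / s, ?_, fun k y => ?_⟩, e⟩
  · exact ((hV.comp (contDiff_id.add contDiff_const)).sub hV).of_le (by exact_mod_cast le_top)
  · have := R_nonneg hw
    positivity
  · rw [e, Vg_eq, Vg_eq, ← sub_div, abs_div, abs_of_pos hs]
    refine div_le_div_of_nonneg_right ?_ hs.le
    have e2 : (y + a) k - rv w s (y + a) k - (y k - rv w s y k) =
        a k - rv w s (y + a) k + rv w s y k := by
      simp only [PiLp.add_apply]; ring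
    rw [e2]
    have h1 := rv_coord_le hw hs k (y + a)
    have h2 := rv_coord_le hw hs k y
    have h3 : |a k| ≤ ‖a‖ := by
      have := PiLp.norm_apply_le a k
      rwa [Real.norm_eq_abs] at this
    rw [abs_le] at h1 h2 h3 ⊢
    constructor <;> linarith

/-! ### exponential moments of `r(Y)` and the linear DV inequality -/

lemma EG_rv_inner (hw : Wt c R w) (hs : 0 < s) (t : E n) :
    EG (fun y => ⟪t, rv w s y⟫) ∧ ∃ B : ℝ, ∀ y, |⟪t, rv w s y⟫| ≤ B := by
  have e : (fun y => ⟪t, rv w s y⟫) = fun y => ∑ k, t k * rv w s y k :=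
    funext fun y => inner_sum t _
  constructor
  · rw [e]
    exact EG.sum _ fun k _ => (EG.pE hw hs (EG.coord k)).smul _
  · refine ⟨∑ k, |t k| * R, fun y => ?_⟩
    rw [inner_sum]
    refine (Finset.abs_sum_le_sum_abs _ _).trans (Finset.sum_le_sum fun k _ => ?_)
    rw [abs_mul]
    exact mul_le_mul_of_nonneg_left (rv_coord_le hw hs k y) (abs_nonneg _)

lemma EG_exp_rv (hw : Wt c R w) (hs : 0 < s) (t : E n) :
    EG fun y => Real.exp ⟪t, rv w s y⟫ := by
  obtain ⟨h1, B, hB⟩ := EG_rv_inner hw hs t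
  refine EG.of_bdd (Real.measurable_exp.comp h1.1) (C := Real.exp B) fun y => ?_
  rw [abs_of_pos (Real.exp_pos _)]
  exact Real.exp_le_exp.2 ((le_abs_self _).trans (hB y))

theorem Em_exp_rv (hw : Wt c R w) (hs : 0 < s) (hSG : SG κ (nm w)) (t : E n) :
    Em (Lp w s fun _ => 1) (fun y => Real.exp ⟪t, rv w s y⟫) ≤ Real.exp (κ * ‖t‖ ^ 2) := by
  have hρ := hw.ex.noisy hs
  refine (Em_mono hρ (EG_exp_rv hw hs t) (EG.pE hw hs (EG_exp_inner t))
    fun y => pE_exp_ge hw.ex hs t y).trans ?_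
  rw [Em_pE hw.ex hs (EG_exp_inner t), ← int_nm hw.ex]
  exact (hSG t).2

/-- linear Donsker–Varadhan for `r(Y)` -/
theorem dv_rv (hw : Wt c R w) (hs : 0 < s) (hSG : SG κ (nm w)) (h : LC g) (t : E n) :
    Em (Lp w s fun _ => 1) (fun y => ⟪t, rv w s y⟫ * Real.exp (g y)) ≤
      Em (Lp w s fun _ => 1) (fun y => g y * Real.exp (g y)) -
        Em (Lp w s fun _ => 1) (fun y => Real.exp (g y)) *
          Real.log (Em (Lp w s fun _ => 1) fun y => Real.exp (g y)) +
        κ * ‖t‖ ^ 2 * Em (Lp w s fun _ => 1) (fun y => Real.exp (g y)) := by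
  have hρ := hw.ex.noisy hs
  set p := Lp w s fun _ => 1 with hp
  set N := Em p fun y => Real.exp (g y) with hN
  have hNpos : 0 < N := Em_pos hρ h.eg_exp fun x => Real.exp_pos _
  have hi := (EG_rv_inner hw hs t).1
  have young' : ∀ y, (⟪t, rv w s y⟫ + (Real.log N - κ * ‖t‖ ^ 2)) * Real.exp (g y) ≤
      (g y * Real.exp (g y) - Real.exp (g y)) +
        (Real.exp (-(κ * ‖t‖ ^ 2)) * N) * Real.exp ⟪t, rv w s y⟫ := by
    intro y
    refine (young (⟪t, rv w s y⟫ + (Real.log N - κ * ‖t‖ ^ 2)) (Real.exp_pos (g y)).le).trans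
      (le_of_eq ?_)
    rw [Real.log_exp, Real.exp_add, Real.exp_sub, Real.exp_log hNpos, Real.exp_neg]
    ring
  have key := Em_mono hρ ((hi.add (EG.const _)).mul h.eg_exp)
    (((h.eg.mul h.eg_exp).sub h.eg_exp).add ((EG_exp_rv hw hs t).smul _)) young'
  have e1 : (fun y => (⟪t, rv w s y⟫ + (Real.log N - κ * ‖t‖ ^ 2)) * Real.exp (g y)) =
      fun y => ⟪t, rv w s y⟫ * Real.exp (g y) +
        (Real.log N - κ * ‖t‖ ^ 2) * Real.exp (g y) := by
    funext y; ring
  rw [e1, Em_add hρ (hi.mul h.eg_exp) (h.eg_exp.smul _), Em_smul,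
    Em_add hρ ((h.eg.mul h.eg_exp).sub h.eg_exp) ((EG_exp_rv hw hs t).smul _),
    Em_sub hρ (h.eg.mul h.eg_exp) h.eg_exp, Em_smul, ← hN] at key
  have h1 := Em_exp_rv hw hs hSG t
  have h2 : Real.exp (-(κ * ‖t‖ ^ 2)) * N * Em p (fun y => Real.exp ⟪t, rv w s y⟫) ≤ N := by
    calc Real.exp (-(κ * ‖t‖ ^ 2)) * N * Em p (fun y => Real.exp ⟪t, rv w s y⟫)
        ≤ Real.exp (-(κ * ‖t‖ ^ 2)) * N * Real.exp (κ * ‖t‖ ^ 2) :=
          mul_le_mul_of_nonneg_left h1 (by positivity)
      _ = N * (Real.exp (-(κ * ‖t‖ ^ 2)) * Real.exp (κ * ‖t‖ ^ 2)) := by ring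
      _ = N := by rw [← Real.exp_add]; simp
  linarith

/-! ### translation of a density -/

/-- exponent of the translate of `e^g p` by `-a` -/
noncomputable def trl (w : E n → ℝ) (s : ℝ) (a : E n) (g : E n → ℝ) (y : E n) : ℝ :=
  g (y + a) + -(Vp w s (y + a) - Vp w s y)

lemma LC.neg (h : LC g) : LC fun x => -g x := by
  obtain ⟨B, b, hB⟩ := h.bd
  refine ⟨h.C1.neg, B, b, fun k x => ?_⟩
  have e : pd k (fun x => -g x) x = -pd k g x := by
    unfold pd
    rw [fderiv_fun_neg]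
    rfl
  rw [e, abs_neg]
  exact hB k x

lemma lc_trl (hw : Wt c R w) (hs : 0 < s) (a : E n) (h : LC g) : LC (trl w s a g) :=
  (h.shift a).add (lc_dV hw hs a).1.neg

lemma pd_trl (hw : Wt c R w) (hs : 0 < s) (a : E n) (h : LC g) (k : Fin n) (y : E n) :
    pd k (trl w s a g) y = pd k g (y + a) - (Vg w s k (y + a) - Vg w s k y) := by
  have h1 := (h.shift a).diff y
  have h2 := (lc_dV hw hs a).1.diff y
  have e : pd k (trl w s a g) y = pd k (fun y => g (y + a)) y -
      pd k (fun y => Vp w s (y + a) - Vp w s y) y := by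
    unfold pd
    have h3 : DifferentiableAt ℝ (fun y => -(Vp w s (y + a) - Vp w s y)) y := h2.neg
    have : trl w s a g = fun y => g (y + a) + -(Vp w s (y + a) - Vp w s y) := rfl
    rw [this, fderiv_fun_add h1 h3, fderiv_fun_neg, ← sub_eq_add_neg]
    rfl
  rw [e, pd_shift, (lc_dV hw hs a).2]

lemma Em_trl (hw : Wt c R w) (hs : 0 < s) (a : E n) (g Φ : E n → ℝ) :
    Em (Lp w s fun _ => 1) (fun y => Φ y * Real.exp (trl w s a g y)) =
      Em (Lp w s fun _ => 1) (fun y => Φ (y - a) * Real.exp (g y)) := by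
  unfold Em
  congr 1
  have h1 := integral_add_right_eq_self (μ := (volume : Measure (E n)))
    (fun y => Φ (y - a) * Real.exp (g y) * Lp w s (fun _ => 1) y) a
  rw [← h1]
  refine integral_congr_ae (ae_of_all _ fun y => ?_)
  simp only [add_sub_cancel_right]
  rw [mul_assoc, mul_assoc]
  congr 1
  rw [← exp_neg_Vp hw.ex hs, ← exp_neg_Vp hw.ex hs, ← Real.exp_add, ← Real.exp_add]
  unfold trl
  congr 1
  ring

/-! ### the mean-score lemma -/

/-- entropy functional `Em ρ (g e^g) - N log N` -/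
noncomputable def AA (ρ g : E n → ℝ) : ℝ :=
  Em ρ (fun x => g x * Real.exp (g x)) - Em ρ (fun x => Real.exp (g x)) *
    Real.log (Em ρ fun x => Real.exp (g x))

/-- Fisher functional -/
noncomputable def FF (ρ g : E n → ℝ) : ℝ :=
  Em ρ (fun x => (∑ k, pd k g x ^ 2) * Real.exp (g x))

/-- mean score (unnormalised) -/
noncomputable def MM (ρ g : E n → ℝ) (k : Fin n) : ℝ :=
  Em ρ (fun x => pd k g x * Real.exp (g x))

/-- mass -/
noncomputable def NZ (ρ g : E n → ℝ) : ℝ := Em ρ fun x => Real.exp (g x)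

lemma NZ_pos (hρ : Ex ρ) (h : LC g) : 0 < NZ ρ g := Em_pos hρ h.eg_exp fun x => Real.exp_pos _

lemma AA_nonneg (hw : Wt c R w) (hs : 0 < s) (hSG : SG κ (nm w)) (h : LC g) :
    0 ≤ AA (Lp w s fun _ => 1) g := by
  have h1 := dv_rv hw hs hSG h 0
  simp only [inner_zero_left, zero_mul, norm_zero] at h1
  have h2 : Em (Lp w s fun _ => 1) (fun _ => (0 : ℝ)) = 0 := Em_const (hw.ex.noisy hs) 0
  rw [h2] at h1
  unfold AA
  simpa using h1

lemma lc_exp_diff (h : LC g) : Differentiable ℝ fun x => Real.exp (g x) :=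
  fun x => (h.diff x).exp

lemma pd_exp (h : LC g) (k : Fin n) (x : E n) :
    pd k (fun x => Real.exp (g x)) x = pd k g x * Real.exp (g x) := by
  unfold pd
  rw [((h.diff x).hasFDerivAt.exp).fderiv]
  simp [mul_comm]

/-- ibp : `E_q V' = E_q w` -/
lemma Em_Vg (hw : Wt c R w) (hs : 0 < s) (h : LC g) (k : Fin n) :
    Em (Lp w s fun _ => 1) (fun y => Vg w s k y * Real.exp (g y)) = MM (Lp w s fun _ => 1) g k := by
  have e : pd k (fun x => Real.exp (g x)) = fun x => pd k g x * Real.exp (g x) :=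
    funext fun x => pd_exp h k x
  rw [ibp_EG hw hs k (lc_exp_diff h) h.eg_exp (by rw [e]; exact (h.eg_pd k).mul h.eg_exp), e]
  rfl

/-- final arithmetic of the mean-score lemma -/
lemma ms_arith {A Fi X T Bq e κ s K : ℝ} (hA : 0 ≤ A) (hX : 0 ≤ X) (hs : 0 < s)
    (hs1 : s ≤ 1 / 16) (he : 0 < e) (he1 : e ≤ 1 / 8) (hκ : κ ≤ e ^ 3 * s ^ 2 / 128)
    (hK : 1 ≤ K) (hK2 : K ≤ 2) (hT1 : -(s * X) ≤ T)
    (hT2 : T ≤ 0) (hls : A + T ≤ K / 2 * ((1 + e) * (Fi - X) + (1 + 1 / e) * Bq))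
    (hB : Bq ≤ e ^ 2 / 4 * (2 * A + T) + 8 * κ * X / (s ^ 2 * e ^ 2))
    (hls' : A ≤ K / 2 * Fi) :
    K * X ≤ 3 * (K / 2 * Fi - A) + 3 * (2 * e) * A := by
  set D := K / 2 * Fi - A with hD
  have hD0 : 0 ≤ D := by linarith
  -- bound of the B term
  have h1 : 8 * κ * X / (s ^ 2 * e ^ 2) ≤ e / 16 * X := by
    rw [div_le_iff₀ (by positivity)]
    have : 8 * κ * X ≤ 8 * (e ^ 3 * s ^ 2 / 128) * X := by gcongr
    nlinarith [this]
  have h2 : Bq ≤ e ^ 2 / 2 * A + e / 16 * X := by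
    have : e ^ 2 / 4 * (2 * A + T) ≤ e ^ 2 / 4 * (2 * A) :=
      mul_le_mul_of_nonneg_left (by linarith) (by positivity)
    linarith
  have h3 : (1 + 1 / e) ≤ 9 / 8 / e := by
    rw [le_div_iff₀ he, add_mul, one_mul, one_div, inv_mul_cancel₀ he.ne']
    linarith
  have hR : 0 ≤ e ^ 2 / 2 * A + e / 16 * X := by positivity
  have h4 : (1 + 1 / e) * Bq ≤ 9 / 8 / e * (e ^ 2 / 2 * A + e / 16 * X) := by
    have h5 : (1 + 1 / e) * Bq ≤ (1 + 1 / e) * (e ^ 2 / 2 * A + e / 16 * X) :=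
      mul_le_mul_of_nonneg_left h2 (by positivity)
    exact h5.trans (mul_le_mul_of_nonneg_right h3 hR)
  have h5 : 9 / 8 / e * (e ^ 2 / 2 * A + e / 16 * X) = 9 / 16 * e * A + 9 / 128 * X := by
    field_simp
    ring
  rw [h5] at h4
  have h6 : A + T ≤ K / 2 * ((1 + e) * (Fi - X) + (9 / 16 * e * A + 9 / 128 * X)) :=
    hls.trans (mul_le_mul_of_nonneg_left (by linarith) (by linarith))
  have h7 : K / 2 * ((1 + e) * (Fi - X) + (9 / 16 * e * A + 9 / 128 * X)) =
      (1 + e) * (D + A) - K / 2 * (1 + e) * X + K / 2 * (9 / 16 * e * A) + K / 2 * (9 / 128 * X) := by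
    rw [hD]; ring
  rw [h7] at h6
  have h8 : K / 2 * (9 / 16 * e * A) ≤ 9 / 16 * e * A := by
    have : 0 ≤ 9 / 16 * e * A := by positivity
    nlinarith
  have h9 : s * X ≤ K / 16 * X := mul_le_mul_of_nonneg_right (by linarith) hX
  have h10 : 0 ≤ K * e * X := by positivity
  have h11 : 0 ≤ K * X := by positivity
  have h12 : 0 ≤ e * A := by positivity
  have h13 : 0 ≤ e * D := by positivity
  have h14 : e * D ≤ 1 / 8 * D := mul_le_mul_of_nonneg_right he1 hD0
  nlinarith

end Crest.Agent.R201.St352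
end

-- ▼ part R201/St4_352
section

/-!
# R201 St4: **mean-score lemma** (M) of doc 2103 (helper352)
-/

set_option autoImplicit false
open MeasureTheory Matrix Filter Topology
open scoped ContDiff RealInnerProductSpace NNReal

namespace Crest.Agent.R201.St352

open Crest.Agent.R201 Crest.Agent.R144.Fi865 Crest.Agent.R201.An Crest.Agent.R201.DVQ402
open Crest.Agent.R201.Noi402 (EG_exp_inner Lp_exp_inner Vp_conv)

variable {n : ℕ} {w ρ F G g g₁ g₂ : E n → ℝ} {s c R K κ e : ℝ}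

lemma EG_rv_shift (hw : Wt c R w) (hs : 0 < s) (a : E n) (k : Fin n) :
    EG fun y => rv w s (y + a) k := by
  refine EG.of_bdd ?_ fun y => rv_coord_le hw hs k (y + a)
  exact ((contDiff_pE hw.ex hs (EG.coord k)).continuous.comp
    (continuous_id.add continuous_const)).measurable

/-- **mean-score lemma** -/
theorem mean_score (hw : Wt c R w) (hc : 0 ≤ c) (hs : 0 < s) (hs1 : s ≤ 1 / 16)
    (he : 0 < e) (he1 : e ≤ 1 / 8) (hκ : κ ≤ e ^ 3 * s ^ 2 / 128) (hSG : SG κ (nm w))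
    (hK : 1 ≤ K) (hK2 : K ≤ 2) (hLS : LSn77.LS (Lp w s fun _ => 1) K) (h : LC g) :
    K * ((∑ k, MM (Lp w s fun _ => 1) g k ^ 2) / NZ (Lp w s fun _ => 1) g) ≤
      3 * (K / 2 * FF (Lp w s fun _ => 1) g - AA (Lp w s fun _ => 1) g) +
        3 * (2 * e) * AA (Lp w s fun _ => 1) g := by
  have hρ := hw.ex.noisy hs
  set p : E n → ℝ := Lp w s fun _ => 1 with hp
  set N := NZ p g with hN
  have hNpos : 0 < N := NZ_pos hρ h
  set M := MM p g with hM
  set m : E n := WithLp.toLp 2 fun k => M k / N with hm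
  have mk : ∀ k, m k = M k / N := fun k => rfl
  set a : E n := s • m with ha
  have ak : ∀ k, a k = s * m k := fun k => by rw [ha]; rfl
  set X := (∑ k, M k ^ 2) / N with hX
  have hX0 : 0 ≤ X := div_nonneg (Finset.sum_nonneg fun k _ => sq_nonneg _) hNpos.le
  have X1 : ∑ k, m k * M k = X := by
    rw [hX, Finset.sum_div]
    exact Finset.sum_congr rfl fun k _ => by rw [mk]; ring
  have X2 : (∑ k, m k ^ 2) * N = X := by
    rw [hX, Finset.sum_div, Finset.sum_mul]
    exact Finset.sum_congr rfl fun k _ => by rw [mk]; field_simp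
  have nm2 : ‖m‖ ^ 2 = ∑ k, m k ^ 2 := by
    rw [EuclideanSpace.norm_sq_eq]
    exact Finset.sum_congr rfl fun k _ => by rw [Real.norm_eq_abs, sq_abs]
  have na2 : ‖a‖ ^ 2 = s ^ 2 * ∑ k, m k ^ 2 := by
    rw [ha, norm_smul, Real.norm_of_nonneg hs.le, mul_pow, nm2]
  -- the increment of the potential
  set L : E n → ℝ := fun y => Vp w s (y + -a) - Vp w s y with hL
  obtain ⟨hLlc, -⟩ := lc_dV hw hs (-a)
  set T := Em p (fun y => L y * Real.exp (g y)) with hT
  have hA0 : 0 ≤ AA p g := AA_nonneg hw hs hSG h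
  -- the translate
  have g'lc := lc_trl hw hs a h
  have g'N : NZ p (trl w s a g) = N := by
    have := Em_trl hw hs a g (fun _ => 1)
    simp only [one_mul] at this
    exact this
  have g'A : AA p (trl w s a g) = AA p g + T := by
    have h1 := Em_trl hw hs a g (trl w s a g)
    have h2 : (fun y => trl w s a g (y - a) * Real.exp (g y)) =
        fun y => g y * Real.exp (g y) + L y * Real.exp (g y) := by
      funext y
      unfold trl
      rw [sub_add_cancel, hL]
      simp only [← sub_eq_add_neg]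
      ring
    rw [h2, Em_add hρ (h.eg.mul h.eg_exp) (hLlc.eg.mul h.eg_exp)] at h1
    unfold AA
    have h3 : (Em p fun x => Real.exp (trl w s a g x)) = Em p fun x => Real.exp (g x) := g'N
    rw [h1, h3]
    ring
  set b : Fin n → E n → ℝ := fun k y => (rv w s y k - rv w s (y + -a) k) / s with hb
  have bE : ∀ k, EG (b k) := fun k => by
    have e0 : b k = fun y => s⁻¹ * (rv w s y k - rv w s (y + -a) k) := by
      funext y; simp only [hb]; ring
    rw [e0]
    have e1 : EG fun y => rv w s y k := EG.pE hw hs (EG.coord k)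
    exact (e1.sub (EG_rv_shift hw hs (-a) k)).smul _
  have g'F : FF p (trl w s a g) = Em p (fun y => (∑ k, (pd k g y - m k + b k y) ^ 2) *
      Real.exp (g y)) := by
    have h1 := Em_trl hw hs a g (fun y => ∑ k, pd k (trl w s a g) y ^ 2)
    have h2 : (fun y => (∑ k, pd k (trl w s a g) (y - a) ^ 2) * Real.exp (g y)) =
        fun y => (∑ k, (pd k g y - m k + b k y) ^ 2) * Real.exp (g y) := by
      funext y
      congr 1
      refine Finset.sum_congr rfl fun k _ => ?_
      congr 1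
      rw [pd_trl hw hs a h, sub_add_cancel, Vg_eq, Vg_eq]
      simp only [hb, ← sub_eq_add_neg, PiLp.sub_apply]
      rw [ak]
      field_simp
      ring
    rw [h2] at h1
    exact h1
  -- expansion of the Fisher term
  set Bq := Em p (fun y => (∑ k, b k y ^ 2) * Real.exp (g y)) with hBq
  have eE : ∀ k, EG fun y => pd k g y - m k := fun k => (h.eg_pd k).sub (EG.const _)
  have F1 : Em p (fun y => (∑ k, (pd k g y - m k) ^ 2) * Real.exp (g y)) = FF p g - X := by
    have e1 : (fun y => (∑ k, (pd k g y - m k) ^ 2) * Real.exp (g y)) =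
        fun y => ((∑ k, pd k g y ^ 2) * Real.exp (g y) -
          ∑ k, (2 * m k) * (pd k g y * Real.exp (g y))) + (∑ k, m k ^ 2) * Real.exp (g y) := by
      funext y
      have : ∑ k, (pd k g y - m k) ^ 2 = (∑ k, pd k g y ^ 2) - (∑ k, (2 * m k) * pd k g y) +
          ∑ k, m k ^ 2 := by
        rw [← Finset.sum_sub_distrib, ← Finset.sum_add_distrib]
        exact Finset.sum_congr rfl fun k _ => by ring
      rw [this, add_mul, sub_mul, Finset.sum_mul (s := Finset.univ) (f := fun k => 2 * m k * pd k g y)]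
      simp only [mul_assoc]
    have i1 : EG fun y => (∑ k, pd k g y ^ 2) * Real.exp (g y) :=
      (EG.sum _ fun k _ => EG.sq (h.eg_pd k)).mul h.eg_exp
    have i2 : ∀ k, EG fun y => pd k g y * Real.exp (g y) := fun k => (h.eg_pd k).mul h.eg_exp
    rw [e1, Em_add hρ (i1.sub (EG.sum _ fun k _ => (i2 k).smul _)) (h.eg_exp.smul _),
      Em_sub hρ i1 (EG.sum _ fun k _ => (i2 k).smul _), Em_sum _ hρ fun k _ => (i2 k).smul _,
      Em_smul]
    simp only [Em_smul]
    have e2 : ∑ k, 2 * m k * Em p (fun x => pd k g x * Real.exp (g x)) = 2 * X := by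
      rw [← X1, Finset.mul_sum]
      exact Finset.sum_congr rfl fun k _ => by rw [hM]; unfold MM; ring
    have e3 : (∑ k, m k ^ 2) * Em p (fun x => Real.exp (g x)) = X := X2
    rw [e2, e3]
    unfold FF
    ring
  have bE2 : EG fun y => (∑ k, b k y ^ 2) * Real.exp (g y) :=
    (EG.sum _ fun k _ => EG.sq (bE k)).mul h.eg_exp
  have eE2 : EG fun y => (∑ k, (pd k g y - m k) ^ 2) * Real.exp (g y) :=
    (EG.sum _ fun k _ => EG.sq (eE k)).mul h.eg_exp
  have F2 : FF p (trl w s a g) ≤ (1 + e) * (FF p g - X) + (1 + 1 / e) * Bq := by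
    rw [g'F, ← F1, hBq, ← Em_smul, ← Em_smul, ← Em_add hρ (eE2.smul _) (bE2.smul _)]
    refine Em_mono hρ ((EG.sum _ fun k _ => EG.sq ((eE k).add (bE k))).mul h.eg_exp)
      ((eE2.smul _).add (bE2.smul _)) fun y => ?_
    have h1 : ∑ k, (pd k g y - m k + b k y) ^ 2 ≤
        (1 + e) * (∑ k, (pd k g y - m k) ^ 2) + (1 + 1 / e) * ∑ k, b k y ^ 2 := by
      rw [Finset.mul_sum, Finset.mul_sum, ← Finset.sum_add_distrib]
      refine Finset.sum_le_sum fun k _ => ?_
      set x := pd k g y - m k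
      set z := b k y
      have h2 : 0 ≤ (e * x - z) ^ 2 / e := by positivity
      have h3 : (e * x - z) ^ 2 / e = e * x ^ 2 - 2 * x * z + 1 / e * z ^ 2 := by
        field_simp
        ring
      rw [h3] at h2
      nlinarith
    calc (∑ k, (pd k g y - m k + b k y) ^ 2) * Real.exp (g y)
        ≤ ((1 + e) * (∑ k, (pd k g y - m k) ^ 2) + (1 + 1 / e) * ∑ k, b k y ^ 2) *
          Real.exp (g y) := mul_le_mul_of_nonneg_right h1 (Real.exp_pos _).le
      _ = _ := by ring
  -- the two-sided bound of T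
  have sumM : Em p (fun y => (∑ k, (-a) k * Vg w s k y) * Real.exp (g y)) = -(s * X) := by
    have e1 : (fun y => (∑ k, (-a) k * Vg w s k y) * Real.exp (g y)) =
        fun y => ∑ k, (-a) k * (Vg w s k y * Real.exp (g y)) := by
      funext y
      rw [Finset.sum_mul]
      exact Finset.sum_congr rfl fun k _ => by ring
    rw [e1, Em_sum _ hρ fun k _ => ((EG.Vg hw hs k).mul h.eg_exp).smul _]
    have hVg : ∀ k, Em p (fun y => Vg w s k y * Real.exp (g y)) = M k := fun k =>
      Em_Vg hw hs h k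
    simp only [Em_smul, hVg]
    rw [← X1, Finset.mul_sum, ← Finset.sum_neg_distrib]
    refine Finset.sum_congr rfl fun k _ => ?_
    rw [PiLp.neg_apply, ak]
    ring
  have VE : EG fun y => ∑ k, (-a) k * Vg w s k y :=
    EG.sum _ fun k _ => (EG.Vg hw hs k).smul _
  have hT1 : -(s * X) ≤ T := by
    rw [← sumM]
    refine Em_mono hρ (VE.mul h.eg_exp) (hLlc.eg.mul h.eg_exp) fun y => ?_
    refine mul_le_mul_of_nonneg_right ?_ (Real.exp_pos _).le
    have := Vp_conv hw.ex hc hw.slc hs y (-a)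
    simp only [hL]
    linarith
  have hT2 : T ≤ 0 := by
    have h1 : T ≤ -(s * X) + ‖a‖ ^ 2 / (2 * s) * N := by
      rw [← sumM, hN]
      unfold NZ
      rw [← Em_smul, ← Em_add hρ (VE.mul h.eg_exp) (h.eg_exp.smul _)]
      refine Em_mono hρ (hLlc.eg.mul h.eg_exp) ((VE.mul h.eg_exp).add (h.eg_exp.smul _))
        fun y => ?_
      have h2 := Vp_upper hw.ex hs y (-a)
      rw [norm_neg] at h2
      have h3 : L y ≤ ∑ k, (-a) k * Vg w s k y + ‖a‖ ^ 2 / (2 * s) := by
        simp only [hL]; linarith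
      calc L y * Real.exp (g y) ≤ (∑ k, (-a) k * Vg w s k y + ‖a‖ ^ 2 / (2 * s)) *
            Real.exp (g y) := mul_le_mul_of_nonneg_right h3 (Real.exp_pos _).le
        _ = _ := by ring
    have h2 : ‖a‖ ^ 2 / (2 * s) * N = s / 2 * X := by
      rw [na2, ← X2]
      field_simp
    rw [h2] at h1
    have : 0 ≤ s * X := by positivity
    linarith
  -- LSI for the translate and for g
  have hls : AA p g + T ≤ K / 2 * ((1 + e) * (FF p g - X) + (1 + 1 / e) * Bq) := by
    have h1 := LS_lc hρ hLS g'lc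
    have h2 : AA p (trl w s a g) ≤ K / 2 * FF p (trl w s a g) := h1
    rw [g'A] at h2
    exact h2.trans (mul_le_mul_of_nonneg_left F2 (by linarith))
  have hls' : AA p g ≤ K / 2 * FF p g := LS_lc hρ hLS h
  -- the B term
  have hB : Bq ≤ e ^ 2 / 4 * (2 * AA p g + T) + 8 * κ * X / (s ^ 2 * e ^ 2) := by
    set l : ℝ := 4 / (s * e ^ 2) with hl
    have hlp : 0 < l := by positivity
    have d1 := dv_rv hw hs hSG h (l • m)
    have d2 := dv_rv hw hs hSG g'lc (-(l • m))
    have e1 : (fun y => ⟪l • m, rv w s y⟫ * Real.exp (g y)) =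
        fun y => l * (⟪m, rv w s y⟫ * Real.exp (g y)) := by
      funext y; rw [real_inner_smul_left]; ring
    have e2 : (fun y => ⟪-(l • m), rv w s y⟫ * Real.exp (trl w s a g y)) =
        fun y => (-l) * (⟪m, rv w s y⟫ * Real.exp (trl w s a g y)) := by
      funext y; rw [inner_neg_left, real_inner_smul_left]; ring
    rw [e1, Em_smul] at d1
    rw [e2, Em_smul, Em_trl hw hs a g (fun y => ⟪m, rv w s y⟫)] at d2
    have n1 : ‖l • m‖ ^ 2 = l ^ 2 * ∑ k, m k ^ 2 := by
      rw [norm_smul, Real.norm_of_nonneg hlp.le, mul_pow, nm2]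
    rw [n1] at d1
    rw [norm_neg, n1] at d2
    have d1' : l * Em p (fun y => ⟪m, rv w s y⟫ * Real.exp (g y)) ≤
        AA p g + κ * l ^ 2 * X := by
      rw [← X2]
      refine d1.trans (le_of_eq ?_)
      unfold AA
      rw [hN]
      unfold NZ
      ring
    have d2' : -l * Em p (fun y => ⟪m, rv w s (y - a)⟫ * Real.exp (g y)) ≤
        AA p g + T + κ * l ^ 2 * X := by
      rw [← X2, ← g'A, ← g'N]
      refine d2.trans (le_of_eq ?_)
      unfold AA NZ
      ring
    have h1 : Bq ≤ s⁻¹ * (Em p (fun y => ⟪m, rv w s y⟫ * Real.exp (g y)) -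
        Em p (fun y => ⟪m, rv w s (y - a)⟫ * Real.exp (g y))) := by
      have i1 : EG fun y => ⟪m, rv w s y⟫ * Real.exp (g y) :=
        (EG_rv_inner hw hs m).1.mul h.eg_exp
      have i2 : EG fun y => ⟪m, rv w s (y - a)⟫ * Real.exp (g y) := by
        have : (fun y => ⟪m, rv w s (y - a)⟫ * Real.exp (g y)) =
            fun y => (∑ k, m k * rv w s (y + -a) k) * Real.exp (g y) := by
          funext y; rw [inner_sum]; simp only [← sub_eq_add_neg]
        rw [this]
        exact (EG.sum _ fun k _ => (EG_rv_shift hw hs (-a) k).smul _).mul h.eg_exp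
      rw [← Em_sub hρ i1 i2, ← Em_smul, hBq]
      refine Em_mono hρ bE2 ((i1.sub i2).smul _) fun y => ?_
      have h2 := rv_coco hw.ex hc hw.slc hs y (y + -a)
      have h3 : y - (y + -a) = a := by abel
      rw [h3] at h2
      have h4 : ∑ k, b k y ^ 2 = ‖rv w s y - rv w s (y + -a)‖ ^ 2 / s ^ 2 := by
        rw [EuclideanSpace.norm_sq_eq, Finset.sum_div]
        refine Finset.sum_congr rfl fun k _ => ?_
        rw [Real.norm_eq_abs, sq_abs, PiLp.sub_apply]
        simp only [hb]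
        rw [div_pow]
      have h5 : ⟪rv w s y - rv w s (y + -a), a⟫ = s * (⟪m, rv w s y⟫ - ⟪m, rv w s (y - a)⟫) := by
        rw [ha, real_inner_smul_right, inner_sub_left, real_inner_comm m, real_inner_comm m,
          ← sub_eq_add_neg]
      rw [h5] at h2
      have h6 : ∑ k, b k y ^ 2 ≤ s⁻¹ * (⟪m, rv w s y⟫ - ⟪m, rv w s (y - a)⟫) := by
        rw [h4, div_le_iff₀ (by positivity)]
        refine h2.trans (le_of_eq ?_)
        field_simp
      calc (∑ k, b k y ^ 2) * Real.exp (g y)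
          ≤ s⁻¹ * (⟪m, rv w s y⟫ - ⟪m, rv w s (y - a)⟫) * Real.exp (g y) :=
            mul_le_mul_of_nonneg_right h6 (Real.exp_pos _).le
        _ = _ := by ring
    set Q1 := Em p (fun y => ⟪m, rv w s y⟫ * Real.exp (g y))
    set Q2 := Em p (fun y => ⟪m, rv w s (y - a)⟫ * Real.exp (g y))
    have h2 : Q1 - Q2 ≤ l⁻¹ * (2 * AA p g + T + 2 * κ * l ^ 2 * X) := by
      have h3 : l * (Q1 - Q2) ≤ 2 * AA p g + T + 2 * κ * l ^ 2 * X := by linarith
      calc Q1 - Q2 = l⁻¹ * (l * (Q1 - Q2)) := by rw [← mul_assoc, inv_mul_cancel₀ hlp.ne', one_mul]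
        _ ≤ _ := mul_le_mul_of_nonneg_left h3 (inv_nonneg.2 hlp.le)
    refine h1.trans ((mul_le_mul_of_nonneg_left h2 (inv_nonneg.2 hs.le)).trans (le_of_eq ?_))
    rw [hl]
    field_simp
    ring
  exact ms_arith hA0 hX0 hs hs1 he he1 hκ hK hK2 hT1 hT2 hls hB hls'

end Crest.Agent.R201.St352
end

-- ▼ part R201/St5_352
section

/-!
# R201 St5: averages `z ↦ E_ρ F(· + z)` and the swap of the two averages (helper352)
-/

set_option autoImplicit false
open MeasureTheory Matrix Filter Topology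
open scoped ContDiff RealInnerProductSpace NNReal

namespace Crest.Agent.R201.St352

open Crest.Agent.R201 Crest.Agent.R144.Fi865 Crest.Agent.R201.An Crest.Agent.R201.DVQ402

variable {n : ℕ} {w ρ F G f g : E n → ℝ} {s t c R K κ e : ℝ}

/-- `z ↦ E_ρ F(· + z)` -/
noncomputable def Sh (ρ F : E n → ℝ) (z : E n) : ℝ := Em ρ fun y => F (y + z)

lemma eg_shift {B : ℝ} (hF : Continuous F) (hB : ∀ x, |F x| ≤ B) (z : E n) :
    EG fun y => F (y + z) :=
  EG.of_bdd (hF.comp (continuous_id.add continuous_const)).measurable fun x => hB _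

lemma Sh_bdd (hρ : Ex ρ) {B : ℝ} (hF : Continuous F) (hB : ∀ x, |F x| ≤ B) (z : E n) :
    |Sh ρ F z| ≤ B := by
  have hE := eg_shift hF hB z
  unfold Sh
  rw [abs_le]
  constructor
  · have := Em_mono hρ (EG.const (-B)) hE fun x => (abs_le.1 (hB _)).1
    rwa [Em_const hρ] at this
  · have := Em_mono hρ hE (EG.const B) fun x => (abs_le.1 (hB _)).2
    rwa [Em_const hρ] at this

lemma Sh_cont (hρ : Ex ρ) {B : ℝ} (hF : Continuous F) (hB : ∀ x, |F x| ≤ B) :
    Continuous (Sh ρ F) := by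
  unfold Sh Em
  refine Continuous.div_const ?_ _
  refine continuous_of_dominated (bound := fun y => B * ρ y) ?_ ?_ (hρ.integrable.const_mul B) ?_
  · exact fun x => ((hF.comp (continuous_id.add continuous_const)).measurable.mul
      hρ.meas).aestronglyMeasurable
  · intro x
    refine ae_of_all _ fun y => ?_
    rw [norm_mul, Real.norm_eq_abs, Real.norm_of_nonneg (hρ.nonneg y)]
    exact mul_le_mul_of_nonneg_right (hB _) (hρ.nonneg y)
  · refine ae_of_all _ fun y => ?_
    exact (hF.comp (continuous_const.add continuous_id)).mul continuous_const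

lemma Sh_eg (hρ : Ex ρ) {B : ℝ} (hF : Continuous F) (hB : ∀ x, |F x| ≤ B) : EG (Sh ρ F) :=
  EG.of_bdd (Sh_cont hρ hF hB).measurable (Sh_bdd hρ hF hB)

theorem Sh_CB (hρ : Ex ρ) (hf : CB f) :
    CB (Sh ρ f) ∧ ∀ k, pd k (Sh ρ f) = Sh ρ (pd k f) := by
  have hfE := CB.eg hf
  have lc := LC.of_cb hf
  obtain ⟨h1, B, hB⟩ := hf
  have hd : Differentiable ℝ f := h1.differentiable (by simp)
  have hcd : Continuous (fderiv ℝ f) := h1.continuous_fderiv (by simp)
  set M := √(∑ _k : Fin n, B ^ 2) with hM0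
  have hM : ∀ x, ‖fderiv ℝ f x‖ ≤ M := by
    intro x
    rw [hM0]
    apply Real.le_sqrt_of_sq_le
    rw [norm_fderiv_sq]
    refine Finset.sum_le_sum fun k _ => ?_
    rw [← sq_abs]
    exact pow_le_pow_left₀ (abs_nonneg _) ((hB x).2 k) 2
  have ig := hρ.integrable
  set J : E n → E n →L[ℝ] ℝ := fun x => ∫ z, ρ z • fderiv ℝ f (z + x) with hJ
  have mJ : ∀ x, AEStronglyMeasurable (fun z => ρ z • fderiv ℝ f (z + x)) volume := fun x =>
    hρ.meas.aestronglyMeasurable.smul
      (hcd.comp (continuous_id.add continuous_const)).aestronglyMeasurable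
  have bJ : ∀ x z, ‖ρ z • fderiv ℝ f (z + x)‖ ≤ ρ z * M := fun x z => by
    rw [norm_smul, Real.norm_of_nonneg (hρ.nonneg z)]
    exact mul_le_mul_of_nonneg_left (hM _) (hρ.nonneg z)
  have d1 : ∀ x, HasFDerivAt (fun x => ∫ z, f (z + x) * ρ z) (J x) x := by
    intro x
    refine hasFDerivAt_integral_of_dominated_of_fderiv_le (F := fun x z => f (z + x) * ρ z)
      (F' := fun x z => ρ z • fderiv ℝ f (z + x)) (bound := fun z => ρ z * M)
      (s := Set.univ) Filter.univ_mem ?_ ?_ ?_ ?_ ?_ ?_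
    · exact Eventually.of_forall fun x => ((h1.continuous.comp
        (continuous_id.add continuous_const)).measurable.mul hρ.meas).aestronglyMeasurable
    · exact hρ.int_mul (EG.of_bdd (h1.continuous.comp
        (continuous_id.add continuous_const)).measurable fun z => (hB (z + x)).1)
    · exact mJ x
    · exact ae_of_all _ fun z x _ => bJ x z
    · exact ig.mul_const M
    · refine ae_of_all _ fun z x _ => ?_
      have h2 : HasFDerivAt (fun x => f (z + x)) (fderiv ℝ f (z + x)) x := by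
        have h3 : HasFDerivAt (fun x : E n => z + x) (ContinuousLinearMap.id ℝ (E n)) x :=
          (hasFDerivAt_id x).const_add z
        have h4 := (hd (z + x)).hasFDerivAt.comp x h3
        rw [ContinuousLinearMap.comp_id] at h4
        exact h4
      exact h2.mul_const (ρ z)
  have e0 : Sh ρ f = fun x => (∫ z, f (z + x) * ρ z) / ∫ z : E n, ρ z := rfl
  have d2 : ∀ x, HasFDerivAt (Sh ρ f) ((∫ z : E n, ρ z)⁻¹ • J x) x := by
    intro x
    rw [e0]
    have := (d1 x).const_smul ((∫ z : E n, ρ z)⁻¹)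
    refine this.congr_of_eventuallyEq (Eventually.of_forall fun y => ?_)
    simp only [Pi.smul_apply, smul_eq_mul]
    rw [div_eq_inv_mul]
  have cJ : Continuous J := by
    refine continuous_of_dominated (bound := fun z => ρ z * M) mJ
      (fun x => ae_of_all _ fun z => bJ x z) (ig.mul_const M) ?_
    refine ae_of_all _ fun z => ?_
    have h3 : Continuous fun x : E n => fderiv ℝ f (z + x) :=
      hcd.comp (continuous_const.add continuous_id)
    exact h3.fun_const_smul (ρ z)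
  have epd : ∀ k, pd k (Sh ρ f) = Sh ρ (pd k f) := by
    intro k
    funext x
    unfold pd
    rw [(d2 x).fderiv]
    simp only [_root_.smul_apply, smul_eq_mul]
    unfold Sh Em
    rw [div_eq_inv_mul]
    congr 1
    have hint : Integrable fun z => ρ z • fderiv ℝ f (z + x) :=
      (ig.mul_const M).mono' (mJ x) (ae_of_all _ fun z => bJ x z)
    simp only [hJ]
    rw [ContinuousLinearMap.integral_apply hint]
    refine integral_congr_ae (ae_of_all _ fun z => ?_)
    simp only [_root_.smul_apply, smul_eq_mul]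
    ring
  have hpc : ∀ k, Continuous (pd k f) := fun k => lc.pd_cont k
  refine ⟨⟨?_, B, fun x => ⟨Sh_bdd hρ h1.continuous (fun x => (hB x).1) x, fun k => ?_⟩⟩, epd⟩
  · rw [contDiff_one_iff_fderiv]
    refine ⟨fun x => (d2 x).differentiableAt, ?_⟩
    have : fderiv ℝ (Sh ρ f) = fun x => (∫ z : E n, ρ z)⁻¹ • J x :=
      funext fun x => (d2 x).fderiv
    rw [this]
    exact cJ.fun_const_smul _
  · rw [epd k]
    exact Sh_bdd hρ (hpc k) (fun x => (hB x).2 k) x

/-- swap of the two averages -/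
theorem swap (hw : Ex w) (ht : 0 < t) {B : ℝ} (hF : Continuous F) (hB : ∀ x, |F x| ≤ B) :
    Em w (NN t F) = NN t (Sh w F) 0 := by
  have i0 : Integrable (Function.uncurry fun (x z : E n) => F (x + z) * (w x * gk t z))
      (volume.prod volume) := by
    have i1 : Integrable (fun q : E n × E n => w q.1 * gk t q.2) (volume.prod volume) :=
      hw.integrable.mul_prod (int_gk ht)
    have i2 := i1.bdd_mul (c := B) (f := fun q : E n × E n => F (q.1 + q.2))
      (hF.comp (continuous_fst.add continuous_snd)).aestronglyMeasurable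
      (ae_of_all _ fun q => by rw [Real.norm_eq_abs]; exact hB _)
    exact i2
  have e1 := integral_integral_swap i0
  unfold Em NN Sh Em
  simp only [sub_zero]
  have a1 : ∀ x, (∫ y, F y * gk t (y - x)) / (∫ z : E n, gk t z) * w x =
      (∫ z : E n, gk t z)⁻¹ * ∫ z, F (x + z) * (w x * gk t z) := by
    intro x
    have h1 := NN_shift t F x
    unfold NN at h1
    rw [h1, div_mul_eq_mul_div, div_eq_inv_mul, ← integral_mul_const]
    congr 1
    exact integral_congr_ae (ae_of_all _ fun z => by simp only; ring)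
  have a2 : ∀ z, (∫ y, F (y + z) * w y) / (∫ z, w z) * gk t z =
      (∫ z, w z)⁻¹ * ∫ x, F (x + z) * (w x * gk t z) := by
    intro z
    rw [div_mul_eq_mul_div, div_eq_inv_mul, ← integral_mul_const]
    congr 1
    exact integral_congr_ae (ae_of_all _ fun z => by simp only; ring)
  simp only [a1, a2]
  rw [integral_const_mul, integral_const_mul, e1]
  ring

end Crest.Agent.R201.St352
end

-- ▼ part R201/St6_352

/-!
# R201 St6: **stationarity lemma** (S) of doc 2103 (helper352)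
-/

set_option autoImplicit false
open MeasureTheory Matrix Filter Topology
open scoped ContDiff RealInnerProductSpace NNReal

namespace Crest.Agent.R201.St352

open Crest.Agent.R201 Crest.Agent.R144.Fi865 Crest.Agent.R201.An Crest.Agent.R201.DVQ402

variable {n : ℕ} {w ρ F G f g : E n → ℝ} {s t c R K κ e : ℝ}

lemma cb_shift (h : CB g) (z : E n) : CB fun y => g (y + z) := by
  obtain ⟨h1, B, hB⟩ := h
  refine ⟨h1.comp (contDiff_id.add contDiff_const), B, fun x => ⟨(hB _).1, fun k => ?_⟩⟩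
  rw [pd_shift]
  exact (hB _).2 k

/-- **the abstract step**: `ρ` any weight with LSI(K) such that every shifted density obeys the
mean-score bound -/
theorem step (hρ : Ex ρ) (ht : 0 < t) (ht1 : t ≤ 1 / 2) (he : 0 < e) (he1 : e ≤ 1 / 8)
    (hK : 1 ≤ K) (hLS : LSn77.LS ρ K) (hA0 : ∀ g : E n → ℝ, CB g → 0 ≤ AA ρ g)
    (hMS : ∀ g : E n → ℝ, CB g → K * ((∑ k, MM ρ g k ^ 2) / NZ ρ g) ≤
      3 * (K / 2 * FF ρ g - AA ρ g) + 3 * (2 * e) * AA ρ g) (hg : CB g) :
    AA (Lp ρ t fun _ => 1) g ≤ K / (1 - 2 * e) / 2 * FF (Lp ρ t fun _ => 1) g := by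
  have lc := LC.of_cb hg
  obtain ⟨hf, hfpd⟩ := LSn77.CB.exp hg
  set f : E n → ℝ := fun x => Real.exp (g x) with hfd
  obtain ⟨B, hB⟩ := hg.2
  have hB0 : 0 ≤ B := (abs_nonneg _).trans (hB 0).1
  have lo : ∀ x, Real.exp (-B) ≤ f x := fun x => Real.exp_le_exp.2 (abs_le.1 (hB x).1).1
  have hi : ∀ x, f x ≤ Real.exp B := fun x => Real.exp_le_exp.2 (abs_le.1 (hB x).1).2
  have fb : ∀ x, |f x| ≤ Real.exp B := fun x => by rw [abs_of_pos (Real.exp_pos _)]; exact hi x
  have cf : Continuous f := hf.1.continuous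
  have cg : Continuous g := hg.1.continuous
  -- Φ
  obtain ⟨hΦ, hΦpd⟩ := Sh_CB hρ hf
  set Φ := Sh ρ f with hΦd
  have Φeg : ∀ z, EG fun y => f (y + z) := fun z => eg_shift cf fb z
  have Φlo : ∀ z, Real.exp (-B) ≤ Φ z := fun z => by
    have := Em_mono hρ (EG.const (Real.exp (-B))) (Φeg z) fun x => lo _
    rwa [Em_const hρ] at this
  have Φhi : ∀ z, Φ z ≤ Real.exp B := fun z => by
    have := Em_mono hρ (Φeg z) (EG.const (Real.exp B)) fun x => hi _
    rwa [Em_const hρ] at this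
  have Φpos : ∀ z, 0 < Φ z := fun z => (Real.exp_pos _).trans_le (Φlo z)
  -- log Φ
  set gh : E n → ℝ := fun z => Real.log (Φ z) with hgh
  have ghpd : ∀ k z, pd k gh z = pd k Φ z / Φ z := by
    intro k z
    unfold pd
    have d := (hΦ.1.differentiable (by simp) z).hasFDerivAt.log (Φpos z).ne'
    rw [hgh, d.fderiv]
    simp only [_root_.smul_apply, smul_eq_mul]
    ring
  have ghexp : ∀ z, Real.exp (gh z) = Φ z := fun z => Real.exp_log (Φpos z)
  obtain ⟨B', hB'⟩ := hΦ.2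
  have hB'0 : 0 ≤ B' := (abs_nonneg _).trans (hB' 0).1
  have ghb : ∀ z, |gh z| ≤ B := fun z => by
    rw [abs_le]
    constructor
    · rw [hgh]
      simp only
      rw [Real.le_log_iff_exp_le (Φpos z)]
      exact Φlo z
    · rw [hgh]
      simp only
      rw [Real.log_le_iff_le_exp (Φpos z)]
      exact Φhi z
  have ghCB : CB gh := by
    refine ⟨hΦ.1.log fun z => (Φpos z).ne', B + B' / Real.exp (-B), fun z => ⟨?_, fun k => ?_⟩⟩
    · have h2 : 0 ≤ B' / Real.exp (-B) := by positivity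
      have := ghb z
      linarith
    · rw [ghpd, abs_div, abs_of_pos (Φpos z)]
      have h1 := (hB' z).2 k
      have h2 : |pd k Φ z| / Φ z ≤ B' / Real.exp (-B) :=
        div_le_div₀ hB'0 h1 (Real.exp_pos _) (Φlo z)
      linarith
  -- the three slice functionals as averages
  have cgf : Continuous fun x => g x * f x := cg.mul cf
  have bgf : ∀ x, |g x * f x| ≤ B * Real.exp B := fun x => by
    rw [abs_mul]
    exact mul_le_mul (hB x).1 (fb x) (abs_nonneg _) hB0
  have cpd : ∀ k, Continuous (pd k g) := fun k => lc.pd_cont k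
  have cff : Continuous fun x => (∑ k, pd k g x ^ 2) * f x :=
    (continuous_finsetSum _ fun k _ => (cpd k).pow 2).mul cf
  have bff : ∀ x, |(∑ k, pd k g x ^ 2) * f x| ≤ (∑ _k : Fin n, B ^ 2) * Real.exp B := fun x => by
    rw [abs_mul, abs_of_nonneg (Finset.sum_nonneg fun k _ => sq_nonneg _)]
    refine mul_le_mul (Finset.sum_le_sum fun k _ => ?_) (fb x) (abs_nonneg _)
      (Finset.sum_nonneg fun k _ => sq_nonneg _)
    rw [← sq_abs]
    exact pow_le_pow_left₀ (abs_nonneg _) ((hB x).2 k) 2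
  have sA : ∀ z, AA ρ (fun y => g (y + z)) = Sh ρ (fun x => g x * f x) z - gh z * Φ z := by
    intro z
    unfold AA
    have e1 : (Em ρ fun x => Real.exp (g (x + z))) = Φ z := rfl
    have e2 : Em ρ (fun x => g (x + z) * Real.exp (g (x + z))) = Sh ρ (fun x => g x * f x) z := rfl
    rw [e1, e2, mul_comm]
  have sF : ∀ z, FF ρ (fun y => g (y + z)) = Sh ρ (fun x => (∑ k, pd k g x ^ 2) * f x) z := by
    intro z
    unfold FF
    simp only [pd_shift]
    rfl
  have sM : ∀ z k, MM ρ (fun y => g (y + z)) k = pd k Φ z := by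
    intro z k
    rw [hΦpd k]
    unfold MM
    simp only [pd_shift]
    have : pd k f = fun x => pd k g x * Real.exp (g x) := funext fun x => hfpd k x
    rw [this]
    rfl
  have sX : ∀ z, (∑ k, MM ρ (fun y => g (y + z)) k ^ 2) / NZ ρ (fun y => g (y + z)) =
      (∑ k, pd k gh z ^ 2) * Φ z := by
    intro z
    have e1 : NZ ρ (fun y => g (y + z)) = Φ z := rfl
    have h0 := (Φpos z).ne'
    rw [e1, Finset.sum_div, Finset.sum_mul]
    refine Finset.sum_congr rfl fun k _ => ?_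
    rw [sM, ghpd]
    field_simp
  -- growth
  have E1 := Sh_eg hρ cgf bgf
  have E2 : EG fun z => gh z * Φ z := (CB.eg ghCB).1.mul (CB.eg hΦ).1
  have E3 := Sh_eg hρ cff bff
  have E4 : EG fun z => (∑ k, pd k gh z ^ 2) * Φ z :=
    (EG.sum _ fun k _ => EG.sq ((CB.eg ghCB).2 k)).mul (CB.eg hΦ).1
  have EΦ : EG Φ := (CB.eg hΦ).1
  -- pointwise inequality in z
  have pw : ∀ z, (Sh ρ (fun x => g x * f x) z - gh z * Φ z) + t / 2 * ((∑ k, pd k gh z ^ 2) * Φ z) ≤
      K / 2 * Sh ρ (fun x => (∑ k, pd k g x ^ 2) * f x) z +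
        2 * e * (Sh ρ (fun x => g x * f x) z - gh z * Φ z) := by
    intro z
    have h1 := hMS _ (cb_shift hg z)
    have h2 : AA ρ (fun y => g (y + z)) ≤ K / 2 * FF ρ (fun y => g (y + z)) :=
      hLS _ (cb_shift hg z)
    have h3 := hA0 _ (cb_shift hg z)
    rw [sX, sF, sA] at h1
    rw [sF, sA] at h2
    rw [sA] at h3
    set A := Sh ρ (fun x => g x * f x) z - gh z * Φ z
    set Fz := Sh ρ (fun x => (∑ k, pd k g x ^ 2) * f x) z
    set Xz := (∑ k, pd k gh z ^ 2) * Φ z
    have hX : 0 ≤ Xz := mul_nonneg (Finset.sum_nonneg fun k _ => sq_nonneg _) (Φpos z).le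
    have h4 : Xz ≤ K * Xz := by nlinarith
    have h5 : Xz ≤ 3 * (K / 2 * Fz - A) + 3 * (2 * e) * A := h4.trans h1
    have h6 : 0 ≤ K / 2 * Fz - A := by linarith
    have h7 : 0 ≤ e * A := by positivity
    have h8 : t / 2 * Xz ≤ 1 / 4 * (3 * (K / 2 * Fz - A) + 3 * (2 * e) * A) := by
      have : t / 2 * Xz ≤ 1 / 4 * Xz := mul_le_mul_of_nonneg_right (by linarith) hX
      linarith
    linarith
  -- integrate
  have h1 := NN_mono ht ((E1.sub E2).add (E4.smul (t / 2)))
    ((E3.smul (K / 2)).add ((E1.sub E2).smul (2 * e))) pw 0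
  rw [NN_add ht (E1.sub E2) (E4.smul _), NN_add ht (E3.smul _) ((E1.sub E2).smul _),
    NN_smul, NN_smul, NN_smul, NN_sub ht E1 E2] at h1
  -- Gaussian LSI
  have h2 := LSn77.NN_lsi ht ghCB 0
  simp only [ghexp] at h2
  -- identification
  have i1 : Em (Lp ρ t fun _ => 1) (fun x => g x * Real.exp (g x)) =
      NN t (Sh ρ fun x => g x * f x) 0 := by
    rw [Em_NN hρ ht (lc.eg.mul lc.eg_exp)]
    exact swap hρ ht cgf bgf
  have i2 : Em (Lp ρ t fun _ => 1) (fun x => Real.exp (g x)) = NN t Φ 0 := by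
    rw [Em_NN hρ ht lc.eg_exp]
    exact swap hρ ht cf fb
  have i3 : Em (Lp ρ t fun _ => 1) (fun x => (∑ k, pd k g x ^ 2) * Real.exp (g x)) =
      NN t (Sh ρ fun x => (∑ k, pd k g x ^ 2) * f x) 0 := by
    rw [Em_NN hρ ht ((EG.sum _ fun k _ => EG.sq (lc.eg_pd k)).mul lc.eg_exp)]
    exact swap hρ ht cff bff
  -- Jensen
  have NΦpos : 0 < NN t Φ 0 := by
    have := NN_mono ht (EG.const (Real.exp (-B))) EΦ Φlo 0
    rw [NN_const ht] at this
    exact (Real.exp_pos _).trans_le this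
  have h3 : NN t Φ 0 * Real.log (NN t Φ 0) ≤ NN t (fun z => gh z * Φ z) 0 := by
    set N := NN t Φ 0 with hN
    have hy : ∀ z, (Real.log N + 1) * Φ z ≤ gh z * Φ z + N := fun z => by
      have := young (Real.log N) (Φpos z).le
      rw [Real.exp_log NΦpos] at this
      simp only [hgh]
      linarith
    have h4 := NN_mono ht (EΦ.smul (Real.log N + 1)) (E2.add (EG.const N)) hy 0
    rw [NN_smul, NN_add ht E2 (EG.const N), NN_const ht, ← hN] at h4
    linarith
  unfold AA FF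
  rw [i1, i2, i3]
  set a1 := NN t (Sh ρ fun x => g x * f x) 0
  set a2 := NN t (fun z => gh z * Φ z) 0
  set a3 := NN t (Sh ρ fun x => (∑ k, pd k g x ^ 2) * f x) 0
  set N := NN t Φ 0
  have h5 : (1 - 2 * e) * (a1 - N * Real.log N) ≤ K / 2 * a3 := by
    have h6 : a1 - N * Real.log N ≤ K / 2 * a3 + 2 * e * (a1 - a2) := by linarith
    have h7 : 2 * e * (a1 - a2) ≤ 2 * e * (a1 - N * Real.log N) :=
      mul_le_mul_of_nonneg_left (by linarith) (by positivity)
    linarith
  have h6 : 0 < 1 - 2 * e := by linarith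
  have h7 : K / (1 - 2 * e) / 2 * a3 = (K / 2 * a3) / (1 - 2 * e) := by ring
  rw [h7, le_div_iff₀ h6]
  linarith

/-- **stationarity lemma** -/
theorem stat (hw : Wt c R w) (hc : 0 ≤ c) (hs : 0 < s) (hs1 : s ≤ 1 / 16)
    (he : 0 < e) (he1 : e ≤ 1 / 8) (hκ : κ ≤ e ^ 3 * s ^ 2 / 128) (hSG : SG κ (nm w))
    (hK : 1 ≤ K) (hK2 : K ≤ 2) (hLS : LSn77.LS (Lp w s fun _ => 1) K) (ht : 0 < t)
    (ht1 : t ≤ 1 / 2) : LSn77.LS (Lp w (s + t) fun _ => 1) (K / (1 - 2 * e)) := by
  intro g hg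
  have hρ := hw.ex.noisy hs
  have h := step hρ ht ht1 he he1 hK hLS (fun g hg => AA_nonneg hw hs hSG (LC.of_cb hg))
    (fun g hg => mean_score hw hc hs hs1 he he1 hκ hSG hK hK2 hLS (LC.of_cb hg)) hg
  unfold AA FF at h
  simp only [← Em_noisy hw.ex ht hs] at h
  exact h

end Crest.Agent.R201.St352
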